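import Vale.Agent.P251.S.TelMap
import Mathlib.CategoryTheory.Triangulated.Subcategory
import Mathlib.CategoryTheory.Triangulated.Orthogonal
import Mathlib.CategoryTheory.Triangulated.Adjunction

/-!
# P251, part S1: Bousfield localization

* `acyc K`, `loc K` : the triangulated subcategories of `K`-acyclic and `K`-local objects;
* closure properties of `IsLocal`;
* `locFunctor : (∀ X, Nonempty (BLoc K X)) → LocFunctor K`;
* basic properties of a `LocFunctor`.
-/

set_option linter.unusedSectionVars false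

open CategoryTheory MonoidalCategory Limits Pretriangulated Preadditive

universe v u

namespace Vale.Agent.P251.S

open T

variable {T : Type u} [Category.{v} T] [Preadditive T] [HasZeroObject T] [HasShift T ℤ]
  [∀ n : ℤ, (shiftFunctor T n).Additive] [Pretriangulated T]
  [MonoidalCategory T] [SymmetricCategory T] [TensorTriangulated T]

/-! ### Acyclic objects -/

section acyclic

variable {K : T}

lemma Acyclic.of_iso {W W' : T} (h : Acyclic K W) (e : W ≅ W') : Acyclic K W' :=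
  IsZero.of_iso h (whiskerLeftIso K e.symm)

lemma acyclic_iff_isIso {Δ : Triangle T} (hΔ : Δ ∈ distTriang T) :
    Acyclic K Δ.obj₁ ↔ IsIso (K ◁ Δ.mor₂) :=
  Triangle.isZero₁_iff_isIso₂ _ (dist_whiskerLeft K hΔ)

lemma acyclic₃_iff_isIso₁ {Δ : Triangle T} (hΔ : Δ ∈ distTriang T) :
    Acyclic K Δ.obj₃ ↔ IsIso (K ◁ Δ.mor₁) :=
  Triangle.isZero₃_iff_isIso₁ _ (dist_whiskerLeft K hΔ)

lemma Acyclic.shift {W : T} (h : Acyclic K W) (n : ℤ) : Acyclic K (W⟦n⟧) := by
  have h2 : IsZero ((K ⊗ W)⟦n⟧) := by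
    have h' : IsZero (K ⊗ W) := h
    rw [IsZero.iff_id_eq_zero] at h' ⊢
    rw [← CategoryTheory.Functor.map_id, h', Functor.map_zero]
  exact IsZero.of_iso h2 (((tensorLeft K).commShiftIso n).app W)

lemma Acyclic.ext₂ {Δ : Triangle T} (hΔ : Δ ∈ distTriang T) (h1 : Acyclic K Δ.obj₁)
    (h3 : Acyclic K Δ.obj₃) : Acyclic K Δ.obj₂ :=
  Triangle.isZero₂_of_isZero₁₃ _ (dist_whiskerLeft K hΔ) h1 h3

lemma Acyclic.ext₁ {Δ : Triangle T} (hΔ : Δ ∈ distTriang T) (h2 : Acyclic K Δ.obj₂)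
    (h3 : Acyclic K Δ.obj₃) : Acyclic K Δ.obj₁ :=
  Triangle.isZero₁_of_isZero₂₃ _ (dist_whiskerLeft K hΔ) h2 h3

lemma Acyclic.ext₃ {Δ : Triangle T} (hΔ : Δ ∈ distTriang T) (h1 : Acyclic K Δ.obj₁)
    (h2 : Acyclic K Δ.obj₂) : Acyclic K Δ.obj₃ :=
  Triangle.isZero₃_of_isZero₁₂ _ (dist_whiskerLeft K hΔ) h1 h2

lemma Acyclic.retract {W W' : T} (h : Acyclic K W) (a : W' ⟶ W) (b : W ⟶ W')
    (hab : a ≫ b = 𝟙 _) : Acyclic K W' := by
  rw [Acyclic, IsZero.iff_id_eq_zero]
  have h2 : 𝟙 (K ⊗ W') = (K ◁ a) ≫ 𝟙 _ ≫ (K ◁ b) := by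
    rw [Category.id_comp, ← whiskerLeft_comp, hab, whiskerLeft_id]
  rw [h2, (IsZero.iff_id_eq_zero _).1 h, zero_comp, comp_zero]

lemma Acyclic.tensor_right {W : T} (h : Acyclic K W) (Y : T) : Acyclic K (W ⊗ Y) := by
  have h2 : IsZero ((K ⊗ W) ⊗ Y) := by
    rw [IsZero.iff_id_eq_zero]
    have : 𝟙 ((K ⊗ W) ⊗ Y) = (𝟙 (K ⊗ W)) ▷ Y := by simp
    rw [this, (IsZero.iff_id_eq_zero _).1 h, MonoidalPreadditive.zero_whiskerRight]
  exact IsZero.of_iso h2 (α_ K W Y).symm

lemma Acyclic.tensor_left {W : T} (h : Acyclic K W) (Y : T) : Acyclic K (Y ⊗ W) :=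
  (h.tensor_right Y).of_iso (β_ W Y)

lemma acyclic_of_isZero {W : T} (h : IsZero W) : Acyclic K W := by
  rw [Acyclic, IsZero.iff_id_eq_zero]
  have : 𝟙 (K ⊗ W) = K ◁ (𝟙 W) := by simp
  rw [this, (IsZero.iff_id_eq_zero _).1 h, MonoidalPreadditive.whiskerLeft_zero]

variable (K) in
/-- the `K`-acyclic objects -/
def acyc : ObjectProperty T := fun W => Acyclic K W

instance : (acyc K).IsClosedUnderIsomorphisms := ⟨fun e h => Acyclic.of_iso h e⟩

instance : (acyc K).IsStableUnderShift ℤ where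
  isStableUnderShiftBy n := ⟨fun _ h => Acyclic.shift h n⟩

instance : (acyc K).ContainsZero := ⟨⟨_, isZero_zero T, acyclic_of_isZero (isZero_zero T)⟩⟩

instance : (acyc K).IsTriangulated where
  toIsTriangulatedClosed₂ := .mk' fun _ hΔ h1 h3 => Acyclic.ext₂ hΔ h1 h3

variable (K) in
/-- the `K`-local objects -/
def loc : ObjectProperty T := (acyc K).rightOrthogonal

lemma loc_iff (Y : T) : loc K Y ↔ IsLocal K Y :=
  ⟨fun h _ hW f => h f hW, fun h _ f hW => h hW f⟩

instance : (loc K).IsTriangulated := inferInstanceAs (acyc K).rightOrthogonal.IsTriangulated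

instance : (loc K).IsClosedUnderIsomorphisms :=
  inferInstanceAs (acyc K).rightOrthogonal.IsClosedUnderIsomorphisms

end acyclic

/-! ### Local objects -/

section islocal

variable {K : T}

lemma IsLocal.of_iso {Y Y' : T} (h : IsLocal K Y) (e : Y ≅ Y') : IsLocal K Y' :=
  (loc_iff _).1 ((loc K).prop_of_iso e ((loc_iff _).2 h))

lemma IsLocal.shift {Y : T} (h : IsLocal K Y) (n : ℤ) : IsLocal K (Y⟦n⟧) :=
  (loc_iff _).1 ((loc K).le_shift n _ ((loc_iff _).2 h))

lemma IsLocal.of_shift {Y : T} (n : ℤ) (h : IsLocal K (Y⟦n⟧)) : IsLocal K Y :=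
  (h.shift (-n)).of_iso ((shiftFunctorCompIsoId T n (-n) (by simp)).app Y)

lemma IsLocal.ext₁ {Δ : Triangle T} (hΔ : Δ ∈ distTriang T) (h2 : IsLocal K Δ.obj₂)
    (h3 : IsLocal K Δ.obj₃) : IsLocal K Δ.obj₁ :=
  (loc_iff _).1 ((loc K).ext_of_isTriangulatedClosed₁ _ hΔ ((loc_iff _).2 h2) ((loc_iff _).2 h3))

lemma IsLocal.ext₂ {Δ : Triangle T} (hΔ : Δ ∈ distTriang T) (h1 : IsLocal K Δ.obj₁)
    (h3 : IsLocal K Δ.obj₃) : IsLocal K Δ.obj₂ :=
  (loc_iff _).1 ((loc K).ext_of_isTriangulatedClosed₂ _ hΔ ((loc_iff _).2 h1) ((loc_iff _).2 h3))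

lemma IsLocal.ext₃ {Δ : Triangle T} (hΔ : Δ ∈ distTriang T) (h1 : IsLocal K Δ.obj₁)
    (h2 : IsLocal K Δ.obj₂) : IsLocal K Δ.obj₃ :=
  (loc_iff _).1 ((loc K).ext_of_isTriangulatedClosed₃ _ hΔ ((loc_iff _).2 h1) ((loc_iff _).2 h2))

lemma IsLocal.retract {Y Y' : T} (h : IsLocal K Y) (a : Y' ⟶ Y) (b : Y ⟶ Y')
    (hab : a ≫ b = 𝟙 _) : IsLocal K Y' := by
  intro W hW f
  rw [← Category.comp_id f, ← hab, ← Category.assoc, h hW (f ≫ a), zero_comp]

lemma isLocal_of_isZero {Y : T} (h : IsZero Y) : IsLocal K Y := fun _ _ _ => h.eq_of_tgt _ _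

/-- An object which is both local and acyclic is zero. -/
lemma IsLocal.isZero {Y : T} (h : IsLocal K Y) (h' : Acyclic K Y) : IsZero Y := by
  rw [IsZero.iff_id_eq_zero]
  exact h h' _

lemma IsLocal.prod {I : Type*} {Y : I → T} [HasProduct Y] (h : ∀ i, IsLocal K (Y i)) :
    IsLocal K (∏ᶜ Y) := by
  intro W hW f
  apply Pi.hom_ext
  intro i
  rw [zero_comp]
  exact h i hW _

lemma IsLocal.hol {X : ℕ → T} {f : ∀ n, X (n + 1) ⟶ X n} [HasProduct X] (H : Hol f)
    (h : ∀ n, IsLocal K (X n)) : IsLocal K H.obj :=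
  IsLocal.ext₁ H.dist (IsLocal.prod h) (IsLocal.prod h)

lemma IsLocal.isHol [HasProducts.{0} T] {X : ℕ → T} {f : ∀ n, X (n + 1) ⟶ X n} {Z : T}
    {π : ∀ n, Z ⟶ X n} (H : IsHol f π) (h : ∀ n, IsLocal K (X n)) : IsLocal K Z :=
  IsLocal.hol H.hol h

lemma IsLocal.ihom [MonoidalClosed T] {Y : T} (h : IsLocal K Y) (A : T) :
    IsLocal K ((CategoryTheory.ihom A).obj Y) := by
  intro W hW f
  have h1 : MonoidalClosed.uncurry f = 0 := h (hW.tensor_left A) _
  rw [← MonoidalClosed.curry_uncurry f, h1]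
  have h2 : MonoidalClosed.uncurry (0 : W ⟶ (CategoryTheory.ihom A).obj Y) = 0 :=
    h (hW.tensor_left A) _
  rw [← h2, MonoidalClosed.curry_uncurry]

/-- A `K`-equivalence induces bijections on maps to local objects. -/
lemma IsLocal.precomp_bijective {Y : T} (h : IsLocal K Y) {X X' : T} (f : X ⟶ X')
    (hf : IsIso (K ◁ f)) : Function.Bijective (fun g : X' ⟶ Y => f ≫ g) := by
  obtain ⟨Z, g, d, hΔ⟩ := distinguished_cocone_triangle f
  have hZ : Acyclic K Z := (acyclic₃_iff_isIso₁ hΔ).2 hf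
  constructor
  · intro a b hab
    have hab' : f ≫ (a - b) = 0 := by rw [comp_sub]; exact sub_eq_zero.2 hab
    obtain ⟨c, hc⟩ := Triangle.yoneda_exact₂ _ hΔ (a - b) hab'
    change Z ⟶ Y at c
    replace hc : a - b = g ≫ c := hc
    rw [h hZ c, comp_zero, sub_eq_zero] at hc
    exact hc
  · intro a
    obtain ⟨W, i, e, hΔ'⟩ := distinguished_cocone_triangle₁ f
    have hW : Acyclic K W := (Triangle.isZero₁_iff_isIso₂ _ (dist_whiskerLeft K hΔ')).2 hf
    obtain ⟨b, hb⟩ := Triangle.yoneda_exact₂ _ hΔ' a (h hW _)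
    exact ⟨b, hb.symm⟩

/-- A map between local objects which is a `K`-equivalence is an isomorphism. -/
lemma isIso_of_isLocal {X Y : T} (hX : IsLocal K X) (hY : IsLocal K Y) (f : X ⟶ Y)
    (hf : IsIso (K ◁ f)) : IsIso f := by
  obtain ⟨g, hg⟩ := (hX.precomp_bijective f hf).2 (𝟙 X)
  change f ≫ g = 𝟙 X at hg
  refine ⟨g, hg, ?_⟩
  apply (hY.precomp_bijective f hf).1
  change f ≫ g ≫ f = f ≫ 𝟙 Y
  rw [← Category.assoc, hg, Category.id_comp, Category.comp_id]

end islocal

/-! ### `BLoc` -/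

section bloc

variable {K : T}

namespace BLoc

variable {X : T} (B : BLoc K X)

lemma bijective {Y : T} (hY : IsLocal K Y) :
    Function.Bijective (fun g : B.obj ⟶ Y => B.toLoc ≫ g) :=
  hY.precomp_bijective _ B.isIso

/-- extension of a map to a local object -/
noncomputable def desc {Y : T} (hY : IsLocal K Y) (f : X ⟶ Y) : B.obj ⟶ Y :=
  ((B.bijective hY).2 f).choose

@[reassoc (attr := simp)]
lemma toLoc_desc {Y : T} (hY : IsLocal K Y) (f : X ⟶ Y) : B.toLoc ≫ B.desc hY f = f :=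
  ((B.bijective hY).2 f).choose_spec

lemma hom_ext {Y : T} (hY : IsLocal K Y) {f g : B.obj ⟶ Y}
    (h : B.toLoc ≫ f = B.toLoc ≫ g) : f = g :=
  (B.bijective hY).1 h

/-- uniqueness of localizations -/
noncomputable def iso (B' : BLoc K X) : B.obj ≅ B'.obj where
  hom := B.desc B'.isLocal B'.toLoc
  inv := B'.desc B.isLocal B.toLoc
  hom_inv_id := B.hom_ext B.isLocal (by simp)
  inv_hom_id := B'.hom_ext B'.isLocal (by simp)

@[reassoc (attr := simp)]
lemma toLoc_iso_hom (B' : BLoc K X) : B.toLoc ≫ (B.iso B').hom = B'.toLoc := by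
  simp [iso]

@[reassoc (attr := simp)]
lemma toLoc_iso_inv (B' : BLoc K X) : B'.toLoc ≫ (B.iso B').inv = B.toLoc := by
  simp [iso]

end BLoc

variable (hL : ∀ X : T, Nonempty (BLoc K X))

/-- the local object attached to `X` -/
noncomputable def locObj (X : T) : (loc K).FullSubcategory :=
  ⟨(hL X).some.obj, (loc_iff _).2 (hL X).some.isLocal⟩

/-- the adjunction bijection -/
noncomputable def locEquiv (X : T) (Y : (loc K).FullSubcategory) :
    (locObj hL X ⟶ Y) ≃ (X ⟶ (loc K).ι.obj Y) :=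
  ((loc K).fullyFaithfulι.homEquiv (X := locObj hL X) (Y := Y)).trans
    (Equiv.ofBijective _ ((hL X).some.bijective ((loc_iff _).1 Y.property)))

lemma locEquiv_apply (X : T) (Y : (loc K).FullSubcategory) (f : locObj hL X ⟶ Y) :
    locEquiv hL X Y f = (hL X).some.toLoc ≫ (loc K).ι.map f := rfl

/-- the left adjoint of the inclusion of the local objects -/
noncomputable def locLeft : T ⥤ (loc K).FullSubcategory :=
  Adjunction.leftAdjointOfEquiv (G := (loc K).ι) (F_obj := locObj hL) (locEquiv hL)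
    (by
      intro X Y Y' g h
      rw [locEquiv_apply, locEquiv_apply, Functor.map_comp]
      exact (Category.assoc _ _ _).symm)

/-- the adjunction -/
noncomputable def locAdj : locLeft hL ⊣ (loc K).ι :=
  Adjunction.adjunctionOfEquivLeft (G := (loc K).ι) (F_obj := locObj hL) (locEquiv hL)
    (by
      intro X Y Y' g h
      rw [locEquiv_apply, locEquiv_apply, Functor.map_comp]
      exact (Category.assoc _ _ _).symm)

lemma locAdj_unit_app (X : T) : (locAdj hL).unit.app X = (hL X).some.toLoc := by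
  have h : (locAdj hL).unit.app X = locEquiv hL X (locObj hL X) (𝟙 _) := by
    simp [locAdj, Adjunction.adjunctionOfEquivLeft]
    rfl
  rw [h, locEquiv_apply, CategoryTheory.Functor.map_id]
  exact Category.comp_id _

/-- **Existence of the localization functor** from the existence of localizations. -/
noncomputable def locFunctor [IsTriangulated T] : LocFunctor K :=
  letI : (locLeft hL).CommShift ℤ := (locAdj hL).leftAdjointCommShift ℤ
  haveI : (locAdj hL).CommShift ℤ := (locAdj hL).commShift_of_rightAdjoint ℤ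
  haveI : (locLeft hL).IsTriangulated := (locAdj hL).isTriangulated_leftAdjoint
  haveI h2 : NatTrans.CommShift (locAdj hL).unit ℤ := inferInstance
  { L := locLeft hL ⋙ (loc K).ι
    comm := inferInstance
    tri := inferInstance
    unit := (locAdj hL).unit
    unit_comm := h2
    isIso := fun X => by
      rw [locAdj_unit_app]
      exact (hL X).some.isIso
    isLocal := fun X => (loc_iff _).1 ((locLeft hL).obj X).property }

theorem nonempty_locFunctor [IsTriangulated T] (hL : ∀ X : T, Nonempty (BLoc K X)) :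
    Nonempty (LocFunctor K) := ⟨locFunctor hL⟩

end bloc

end Vale.Agent.P251.S
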