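import Vale.Agent.P251.S.TelMap

/-!
# P251, part S2: telescopes and tensor products, constant sequences
-/

open CategoryTheory MonoidalCategory Limits Pretriangulated

set_option linter.unusedSectionVars false

universe v u

namespace Vale.Agent.P251.S

open T

section tensor

variable {T : Type u} [Category.{v} T] [Preadditive T] [HasZeroObject T] [HasShift T ℤ]
  [∀ n : ℤ, (shiftFunctor T n).Additive] [Pretriangulated T]
  [MonoidalCategory T] [SymmetricCategory T] [TensorTriangulated T] [MonoidalClosed T]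
  [HasCoproducts.{0} T]
  {X : ℕ → T} {f : ∀ n, X n ⟶ X (n + 1)}

/-- `Y ⊗ -` of a telescope -/
noncomputable def Tel.tensL (U : Tel f) (Y : T) : Tel (X := fun n => Y ⊗ X n) (fun n => Y ◁ f n) :=
  U.map (tensorLeft Y)

/-- `- ⊗ Y` of a telescope -/
noncomputable def Tel.tensR (U : Tel f) (Y : T) : Tel (X := fun n => X n ⊗ Y) (fun n => f n ▷ Y) :=
  U.map (tensorRight Y)

@[simp] theorem Tel.tensL_obj (U : Tel f) (Y : T) : (U.tensL Y).obj = Y ⊗ U.obj := rfl

@[simp] theorem Tel.tensL_ι (U : Tel f) (Y : T) (n : ℕ) : (U.tensL Y).ι n = Y ◁ U.ι n := rfl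

@[simp] theorem Tel.tensR_obj (U : Tel f) (Y : T) : (U.tensR Y).obj = U.obj ⊗ Y := rfl

@[simp] theorem Tel.tensR_ι (U : Tel f) (Y : T) (n : ℕ) : (U.tensR Y).ι n = U.ι n ▷ Y := rfl

end tensor

section const

section itr

variable {T : Type u} [Category.{v} T] {X : T}

/-- iterates of an endomorphism -/
def itr (w : X ⟶ X) : ℕ → (X ⟶ X)
  | 0 => 𝟙 X
  | n + 1 => itr w n ≫ w

@[simp] theorem itr_zero (w : X ⟶ X) : itr w 0 = 𝟙 X := rfl

theorem itr_succ (w : X ⟶ X) (n : ℕ) : itr w (n + 1) = itr w n ≫ w := rfl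

theorem itr_succ' (w : X ⟶ X) (n : ℕ) : itr w (n + 1) = w ≫ itr w n := by
  induction n with
  | zero => simp [itr_succ]
  | succ n ih =>
    conv_lhs => rw [itr_succ, ih]
    rw [itr_succ, Category.assoc]

theorem itr_eq_pow (w : End X) (n : ℕ) : itr w n = (w ^ n : End X) := by
  induction n with
  | zero => rfl
  | succ n ih =>
    rw [itr_succ, ih, pow_succ']
    rfl

theorem itr_comp_itr (w z : X ⟶ X) (h : w ≫ z = 𝟙 X) (n : ℕ) : itr w n ≫ itr z n = 𝟙 X := by
  induction n with
  | zero => simp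
  | succ n ih =>
    rw [itr_succ, itr_succ', Category.assoc, reassoc_of% h, ih]

end itr

variable {T : Type u} [Category.{v} T] [Preadditive T] [HasZeroObject T] [HasShift T ℤ]
  [∀ n : ℤ, (shiftFunctor T n).Additive] [Pretriangulated T] [HasCoproducts.{0} T]
  {X : T} {w : X ⟶ X}

theorem trT_const (w : X ⟶ X) (n k : ℕ) :
    trT (X := fun _ => X) (fun _ => w) n k = itr w k := by
  induction k with
  | zero => rfl
  | succ k ih =>
    rw [trT_succ, ih, itr_succ]

/-- the telescope of a nilpotent endomorphism is zero -/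
theorem Tel.isZero_const {w : End X} (U : Tel (X := fun _ => X) (fun _ => w))
    (h : IsNilpotent w) : IsZero U.obj := by
  refine U.isZero_of_proZero fun n => ?_
  obtain ⟨k, hk⟩ := h
  exact ⟨k, by rw [trT_const, itr_eq_pow, hk]⟩

/-- the maps to the telescope differ by powers -/
theorem Tel.itr_ι_const (U : Tel (X := fun _ => X) (fun _ => w)) (n : ℕ) :
    itr w n ≫ U.ι n = U.ι 0 := by
  induction n with
  | zero => exact Category.id_comp _
  | succ n ih => rw [itr_succ, Category.assoc, U.w, ih]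

/-- the telescope of an isomorphism -/
theorem Tel.isIso_const (U : Tel (X := fun _ => X) (fun _ => w)) [IsIso w] :
    IsIso (U.ι 0) := by
  obtain ⟨l, hl⟩ := U.exists_desc (Z := X) (fun n => itr (inv w) n)
    (by
      intro n
      change w ≫ itr (inv w) (n + 1) = _
      rw [itr_succ', IsIso.hom_inv_id_assoc])
  have h1 : U.ι 0 ≫ l = 𝟙 X := by rw [hl 0]; rfl
  have hsurj : ∀ Z : T, CLim1 (X := fun _ => X) (fun _ => w) Z := by
    intro Z
    refine Vale.Agent.P251.S.lim1_of_surjective (A := fun _ => (X ⟶ Z)) ?_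
    intro n y
    refine ⟨inv w ≫ y, ?_⟩
    change w ≫ inv w ≫ y = y
    rw [IsIso.hom_inv_id_assoc]
  refine ⟨l, h1, ?_⟩
  refine U.hom_ext (hsurj _) _ _ fun n => ?_
  rw [reassoc_of% (hl n), Category.comp_id, ← U.itr_ι_const n, ← Category.assoc,
    itr_comp_itr _ _ (IsIso.inv_hom_id w), Category.id_comp]

/-- extension over the telescope: `g` intertwines `w` and the isomorphism `z` -/
theorem Tel.exists_desc_const (U : Tel (X := fun _ => X) (fun _ => w)) {N : T} (z : N ⟶ N)
    [IsIso z] (g : X ⟶ N) (hg : w ≫ g = g ≫ z) : ∃ l : U.obj ⟶ N, U.ι 0 ≫ l = g := by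
  obtain ⟨l, hl⟩ := U.exists_desc (Z := N) (fun n => g ≫ itr (inv z) n)
    (by
      intro n
      change w ≫ g ≫ itr (inv z) (n + 1) = _
      rw [itr_succ', reassoc_of% hg, IsIso.hom_inv_id_assoc])
  exact ⟨l, by rw [hl 0, itr_zero, Category.comp_id]⟩

end const

end Vale.Agent.P251.S
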