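import Vale.Agent.P251.S.Seq

/-!
# Telescopes in a pretriangulated category, compact objects

`Tel f` : telescope of a sequence `f n : X n ⟶ X (n+1)`, i.e. a distinguished triangle
`∐ X ⟶ ∐ X ⟶ obj ⟶ (∐ X)⟦1⟧` on `1 - shift`.
-/

set_option linter.unusedSectionVars false

open CategoryTheory Limits Pretriangulated Preadditive

universe v u v' u'

namespace Vale.Agent.P251.S

variable {C : Type u} [Category.{v} C] [Preadditive C]

section Hom

variable {X : ℕ → C}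

/-- `lim¹ Hom(X n, Z) = 0` -/
def CLim1 (f : ∀ n, X n ⟶ X (n + 1)) (Z : C) : Prop :=
  Lim1 (A := fun n => (X n ⟶ Z)) (coTower f Z)

/-- compatible families in `Hom(X n, Z)` -/
def CCompat (f : ∀ n, X n ⟶ X (n + 1)) {Z : C} (x : ∀ n, X n ⟶ Z) : Prop :=
  ∀ n, f n ≫ x (n + 1) = x n

/-- `lim Hom(X n, Z)` -/
def clim (f : ∀ n, X n ⟶ X (n + 1)) (Z : C) : AddSubgroup (∀ n, X n ⟶ Z) :=
  limSub (A := fun n => (X n ⟶ Z)) (coTower f Z)

lemma mem_clim {f : ∀ n, X n ⟶ X (n + 1)} {Z : C} {x : ∀ n, X n ⟶ Z} :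
    x ∈ clim f Z ↔ CCompat f x := mem_limSub (A := fun n => (X n ⟶ Z)) (coTower f Z)

/-- the transition morphisms of a sequence -/
def trT (f : ∀ n, X n ⟶ X (n + 1)) (n : ℕ) : ∀ k : ℕ, X n ⟶ X (n + k)
  | 0 => 𝟙 _
  | k + 1 => trT f n k ≫ f (n + k)

@[simp] lemma trT_zero (f : ∀ n, X n ⟶ X (n + 1)) (n : ℕ) : trT f n 0 = 𝟙 _ := rfl

lemma trT_succ (f : ∀ n, X n ⟶ X (n + 1)) (n k : ℕ) :
    trT f n (k + 1) = trT f n k ≫ f (n + k) := rfl

lemma tr_coTower (f : ∀ n, X n ⟶ X (n + 1)) (Z : C) (n k : ℕ) (x : X (n + k) ⟶ Z) :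
    tr (A := fun n => (X n ⟶ Z)) (coTower f Z) n (n + k) x = trT f n k ≫ x := by
  induction k with
  | zero =>
    rw [trT_zero, Category.id_comp]
    exact tr_self_apply (A := fun n => (X n ⟶ Z)) _ _ _
  | succ k ih =>
    have h := tr_succ_apply (A := fun n => (X n ⟶ Z)) (coTower f Z) (Nat.le_add_right n k) x
    rw [trT_succ]
    refine h.trans ?_
    rw [ih, coTower_apply, Category.assoc]

/-- the transition morphisms of a sequence, indexed by `n ≤ m` -/
def trTo (f : ∀ n, X n ⟶ X (n + 1)) {n m : ℕ} (h : n ≤ m) : X n ⟶ X m :=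
  Nat.leRec (motive := fun m _ => (X n ⟶ X m)) (𝟙 _) (fun k _ g => g ≫ f k) h

@[simp] lemma trTo_self (f : ∀ n, X n ⟶ X (n + 1)) (n : ℕ) : trTo f (le_refl n) = 𝟙 _ :=
  Nat.leRec_self _ _

lemma trTo_succ (f : ∀ n, X n ⟶ X (n + 1)) {n m : ℕ} (h : n ≤ m) :
    trTo f (h.trans (Nat.le_succ m)) = trTo f h ≫ f m :=
  Nat.leRec_succ _ _ _

end Hom

variable [HasZeroObject C]
    [HasShift C ℤ] [∀ n : ℤ, (shiftFunctor C n).Additive] [Pretriangulated C]

section Tel

variable {X : ℕ → C} (f : ∀ n, X n ⟶ X (n + 1)) [HasCoproduct X]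

/-- `1 - shift : ∐ X ⟶ ∐ X` -/
noncomputable def sigmaSub : ∐ X ⟶ ∐ X :=
  Sigma.desc fun n => Sigma.ι X n - f n ≫ Sigma.ι X (n + 1)

@[reassoc (attr := simp)]
lemma ι_sigmaSub (n : ℕ) :
    Sigma.ι X n ≫ sigmaSub f = Sigma.ι X n - f n ≫ Sigma.ι X (n + 1) := by
  simp [sigmaSub]

lemma sigmaSub_desc {Z : C} (x : ∀ n, X n ⟶ Z) :
    sigmaSub f ≫ Sigma.desc x = Sigma.desc (fun n => x n - f n ≫ x (n + 1)) := by
  apply Sigma.hom_ext
  intro n
  simp [sub_comp]

/-- A telescope of a sequence. -/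
structure Tel where
  /-- the telescope -/
  obj : C
  /-- the inclusions -/
  ι (n : ℕ) : X n ⟶ obj
  /-- the connecting morphism -/
  δ : obj ⟶ (∐ X)⟦(1 : ℤ)⟧
  dist : Triangle.mk (sigmaSub f) (Sigma.desc ι) δ ∈ distTriang C

variable {f}

theorem exists_tel (f : ∀ n, X n ⟶ X (n + 1)) : Nonempty (Tel f) := by
  obtain ⟨T, a, δ, h⟩ := distinguished_cocone_triangle (sigmaSub f)
  refine ⟨⟨T, fun n => Sigma.ι X n ≫ a, δ, ?_⟩⟩
  have : Sigma.desc (fun n => Sigma.ι X n ≫ a) = a := by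
    apply Sigma.hom_ext; intro n; simp
  rw [this]
  exact h

/-- a chosen telescope -/
noncomputable def tel (f : ∀ n, X n ⟶ X (n + 1)) : Tel f := (exists_tel f).some

namespace Tel

variable (T : Tel f)

lemma sigmaSub_desc_ι : sigmaSub f ≫ Sigma.desc T.ι = 0 := comp_distTriang_mor_zero₁₂ _ T.dist

lemma desc_ι_δ : Sigma.desc T.ι ≫ T.δ = 0 := comp_distTriang_mor_zero₂₃ _ T.dist

lemma δ_sigmaSub : T.δ ≫ (sigmaSub f)⟦(1 : ℤ)⟧' = 0 := comp_distTriang_mor_zero₃₁ _ T.dist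

@[reassoc (attr := simp)]
lemma w (n : ℕ) : f n ≫ T.ι (n + 1) = T.ι n := by
  have h := congrArg (Sigma.ι X n ≫ ·) T.sigmaSub_desc_ι
  simp only [ι_sigmaSub_assoc, sub_comp, comp_zero, sub_eq_zero,
    Category.assoc, colimit.ι_desc, Cofan.mk_pt, Cofan.mk_ι_app] at h
  exact h.symm

@[reassoc (attr := simp)]
lemma ι_δ (n : ℕ) : T.ι n ≫ T.δ = 0 := by
  have h := congrArg (Sigma.ι X n ≫ ·) T.desc_ι_δ
  simpa using h

lemma compat {Z : C} (l : T.obj ⟶ Z) : CCompat f (fun n => T.ι n ≫ l) := fun n => by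
  simp

@[reassoc (attr := simp)]
lemma trT_ι (n k : ℕ) : trT f n k ≫ T.ι (n + k) = T.ι n := by
  induction k with
  | zero => simp
  | succ k ih =>
    change (trT f n k ≫ f (n + k)) ≫ T.ι (n + k + 1) = _
    rw [Category.assoc, T.w, ih]

@[reassoc (attr := simp)]
lemma trTo_ι {n m : ℕ} (h : n ≤ m) : trTo f h ≫ T.ι m = T.ι n := by
  induction m, h using Nat.le_induction with
  | base => simp
  | succ m h ih => rw [trTo_succ f h, Category.assoc, T.w, ih]

/-- Milnor sequence, surjectivity part: a compatible family factors through the telescope. -/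
theorem exists_desc {Z : C} (x : ∀ n, X n ⟶ Z) (hx : CCompat f x) :
    ∃ l : T.obj ⟶ Z, ∀ n, T.ι n ≫ l = x n := by
  have h1 : sigmaSub f ≫ Sigma.desc x = 0 := by
    apply Sigma.hom_ext
    intro n
    have := hx n
    simp [sub_comp, this]
  obtain ⟨l, hl⟩ := Triangle.yoneda_exact₂ _ T.dist (Sigma.desc x) h1
  change T.obj ⟶ Z at l
  replace hl : Sigma.desc x = Sigma.desc T.ι ≫ l := hl
  refine ⟨l, fun n => ?_⟩
  have := congrArg (Sigma.ι X n ≫ ·) hl
  simpa using this.symm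

/-- Milnor sequence: a morphism from the telescope with zero components comes from `lim¹`. -/
theorem exists_of_ι_comp_eq_zero {Z : C} (l : T.obj ⟶ Z) (hl : ∀ n, T.ι n ≫ l = 0) :
    ∃ y : (∐ X)⟦(1 : ℤ)⟧ ⟶ Z, l = T.δ ≫ y := by
  have h1 : Sigma.desc T.ι ≫ l = 0 := by
    apply Sigma.hom_ext
    intro n
    simp [hl]
  exact Triangle.yoneda_exact₃ _ T.dist l h1

/-- Milnor sequence, injectivity part (shifted target). -/
theorem eq_zero' {Z : C} (h1 : CLim1 f Z)
    (l : T.obj ⟶ Z⟦(1 : ℤ)⟧) (hl : ∀ n, T.ι n ≫ l = 0) : l = 0 := by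
  obtain ⟨y, hy⟩ := T.exists_of_ι_comp_eq_zero l hl
  obtain ⟨y, rfl⟩ := (shiftFunctor C (1 : ℤ)).map_surjective y
  obtain ⟨x, hx⟩ := h1 (fun n => Sigma.ι X n ≫ y)
  have hx' : (fun n => x n - f n ≫ x (n + 1)) = (fun n => Sigma.ι X n ≫ y) := hx
  have h2 : y = sigmaSub f ≫ Sigma.desc x := by
    rw [sigmaSub_desc, hx']
    apply Sigma.hom_ext; intro n; simp
  rw [hy, h2, Functor.map_comp, reassoc_of% T.δ_sigmaSub, zero_comp]

/-- Milnor sequence, injectivity part. -/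
theorem eq_zero {Z : C} (h1 : CLim1 f (Z⟦(-1 : ℤ)⟧))
    (l : T.obj ⟶ Z) (hl : ∀ n, T.ι n ≫ l = 0) : l = 0 := by
  let e : (Z⟦(-1 : ℤ)⟧)⟦(1 : ℤ)⟧ ≅ Z := (shiftFunctorCompIsoId C (-1 : ℤ) 1 (by norm_num)).app Z
  have h2 : l ≫ e.inv = 0 := T.eq_zero' h1 _ fun n => by rw [← Category.assoc, hl, zero_comp]
  rw [← cancel_mono e.inv, h2, zero_comp]

theorem hom_ext {Z : C} (h1 : CLim1 f (Z⟦(-1 : ℤ)⟧))
    (l l' : T.obj ⟶ Z) (hl : ∀ n, T.ι n ≫ l = T.ι n ≫ l') : l = l' := by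
  rw [← sub_eq_zero]
  exact T.eq_zero h1 _ fun n => by rw [comp_sub, hl, sub_self]

/-- The Milnor isomorphism when `lim¹` vanishes. -/
noncomputable def homEquiv {Z : C} (h1 : CLim1 f (Z⟦(-1 : ℤ)⟧)) :
    (T.obj ⟶ Z) ≃+ clim f Z where
  toFun l := ⟨fun n => T.ι n ≫ l, mem_clim.2 (T.compat l)⟩
  invFun x := (T.exists_desc x.1 (mem_clim.1 x.2)).choose
  left_inv l := by
    apply T.hom_ext h1
    intro n
    exact (T.exists_desc (fun n => T.ι n ≫ l)
      (mem_clim.1 (mem_clim.2 (T.compat l)))).choose_spec n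
  right_inv x := by
    ext n
    exact (T.exists_desc x.1 (mem_clim.1 x.2)).choose_spec n
  map_add' l l' := by
    ext n
    simp

@[simp] lemma homEquiv_apply {Z : C} (h1 : CLim1 f (Z⟦(-1 : ℤ)⟧))
    (l : T.obj ⟶ Z) (n : ℕ) : (T.homEquiv h1 l).1 n = T.ι n ≫ l := rfl

lemma ι_homEquiv_symm {Z : C} (h1 : CLim1 f (Z⟦(-1 : ℤ)⟧))
    (x : clim f Z) (n : ℕ) : T.ι n ≫ (T.homEquiv h1).symm x = x.1 n := by
  rw [← homEquiv_apply T h1, AddEquiv.apply_symm_apply]

variable {Y : ℕ → C} {g : ∀ n, Y n ⟶ Y (n + 1)} [HasCoproduct Y]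

lemma sigmaSub_map (φ : ∀ n, X n ⟶ Y n) (hφ : ∀ n, φ n ≫ g n = f n ≫ φ (n + 1)) :
    sigmaSub f ≫ Limits.Sigma.map φ = Limits.Sigma.map φ ≫ sigmaSub g := by
  apply Sigma.hom_ext
  intro n
  simp only [ι_sigmaSub_assoc, sub_comp, Category.assoc, Sigma.ι_map, Sigma.ι_map_assoc,
    ι_sigmaSub, comp_sub, reassoc_of% (hφ n)]

/-- A morphism of sequences induces a (non unique) morphism of telescopes, part of a
morphism of triangles. -/
theorem exists_map (T : Tel f) (U : Tel g) (φ : ∀ n, X n ⟶ Y n)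
    (hφ : ∀ n, φ n ≫ g n = f n ≫ φ (n + 1)) :
    ∃ l : T.obj ⟶ U.obj, (∀ n, T.ι n ≫ l = φ n ≫ U.ι n) ∧
      T.δ ≫ (Limits.Sigma.map φ)⟦(1 : ℤ)⟧' = l ≫ U.δ := by
  obtain ⟨l, h1, h2⟩ := complete_distinguished_triangle_morphism _ _ T.dist U.dist
    (Limits.Sigma.map φ) (Limits.Sigma.map φ) (sigmaSub_map φ hφ)
  change T.obj ⟶ U.obj at l
  replace h1 : Sigma.desc T.ι ≫ l = Limits.Sigma.map φ ≫ Sigma.desc U.ι := h1
  refine ⟨l, fun n => ?_, h2⟩
  have h3 := congrArg (Sigma.ι X n ≫ ·) h1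
  simpa using h3

lemma isIso_sigmaMap (φ : ∀ n, X n ≅ Y n) : IsIso (Limits.Sigma.map (fun n => (φ n).hom)) :=
  ⟨Limits.Sigma.map (fun n => (φ n).inv), by apply Sigma.hom_ext; intro n; simp,
      by apply Sigma.hom_ext; intro n; simp⟩

/-- A levelwise isomorphism of sequences induces an isomorphism of telescopes. -/
theorem exists_iso (T : Tel f) (U : Tel g) (φ : ∀ n, X n ≅ Y n)
    (hφ : ∀ n, (φ n).hom ≫ g n = f n ≫ (φ (n + 1)).hom) :
    ∃ l : T.obj ≅ U.obj, ∀ n, T.ι n ≫ l.hom = (φ n).hom ≫ U.ι n := by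
  have comm := sigmaSub_map (fun n => (φ n).hom) hφ
  obtain ⟨l, h1, h2⟩ := complete_distinguished_triangle_morphism _ _ T.dist U.dist
    (Limits.Sigma.map (fun n => (φ n).hom)) (Limits.Sigma.map (fun n => (φ n).hom)) comm
  change T.obj ⟶ U.obj at l
  replace h1 : Sigma.desc T.ι ≫ l =
    Limits.Sigma.map (fun n => (φ n).hom) ≫ Sigma.desc U.ι := h1
  have h0 := isIso_sigmaMap φ
  let Φ : Triangle.mk (sigmaSub f) (Sigma.desc T.ι) T.δ ⟶
      Triangle.mk (sigmaSub g) (Sigma.desc U.ι) U.δ :=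
    { hom₁ := Limits.Sigma.map (fun n => (φ n).hom)
      hom₂ := Limits.Sigma.map (fun n => (φ n).hom)
      hom₃ := l
      comm₁ := comm
      comm₂ := h1
      comm₃ := h2 }
  have h4 : IsIso Φ.hom₃ := isIso₃_of_isIso₁₂ Φ T.dist U.dist h0 h0
  have h5 : IsIso l := h4
  refine ⟨asIso l, fun n => ?_⟩
  have h3 := congrArg (Sigma.ι X n ≫ ·) h1
  simpa using h3

/-- uniqueness of telescopes -/
theorem exists_iso_self (T U : Tel f) : ∃ l : T.obj ≅ U.obj, ∀ n, T.ι n ≫ l.hom = U.ι n := by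
  obtain ⟨l, hl⟩ := exists_iso T U (fun n => Iso.refl _) (fun n => by simp)
  exact ⟨l, fun n => by simpa using hl n⟩

/-- The telescope of isomorphic sequences, same object. -/
noncomputable def congr (T : Tel f) (φ : ∀ n, Y n ≅ X n)
    (hφ : ∀ n, (φ n).hom ≫ f n = g n ≫ (φ (n + 1)).hom) : Tel g where
  obj := T.obj
  ι n := (φ n).hom ≫ T.ι n
  δ := T.δ ≫ (Limits.Sigma.map (fun n => (φ n).inv))⟦(1 : ℤ)⟧'
  dist := by
    refine isomorphic_distinguished _ T.dist _ ?_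
    have h0 : IsIso (Limits.Sigma.map (fun n => (φ n).hom)) := isIso_sigmaMap φ
    refine Triangle.isoMk _ _ (@asIso _ _ _ _ _ h0) (@asIso _ _ _ _ _ h0) (Iso.refl _) ?_ ?_ ?_
    · exact sigmaSub_map (fun n => (φ n).hom) hφ
    · change Sigma.desc (fun n => (φ n).hom ≫ T.ι n) ≫ 𝟙 _ =
        Limits.Sigma.map (fun n => (φ n).hom) ≫ Sigma.desc T.ι
      apply Sigma.hom_ext; intro n; simp
    · change (T.δ ≫ (Limits.Sigma.map (fun n => (φ n).inv))⟦(1 : ℤ)⟧') ≫
        (Limits.Sigma.map (fun n => (φ n).hom))⟦(1 : ℤ)⟧' = 𝟙 _ ≫ T.δ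
      have : Limits.Sigma.map (fun n => (φ n).inv) ≫
          Limits.Sigma.map (fun n => (φ n).hom) = 𝟙 (∐ X) := by
        apply Sigma.hom_ext; intro n; simp
      rw [Category.assoc, ← Functor.map_comp, this, CategoryTheory.Functor.map_id,
        Category.comp_id, Category.id_comp]

end Tel

end Tel

/-! ### Compact objects -/

section Compact

variable [HasCoproducts.{0} C]

/-- `W` is compact: a map to a coproduct is a finite sum of maps to the summands. -/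
def IsCpt (W : C) : Prop :=
  ∀ ⦃I : Type⦄ (X : I → C) (f : W ⟶ ∐ X), ∃ (s : Finset I) (g : ∀ i, W ⟶ X i),
    f = ∑ i ∈ s, g i ≫ Sigma.ι X i

open Classical in
/-- the projection of a coproduct to a summand -/
noncomputable def sproj {I : Type} (X : I → C) (i : I) : ∐ X ⟶ X i :=
  Sigma.desc (fun j => if h : j = i then eqToHom (congrArg X h) else 0)

@[simp] lemma ι_sproj_self {I : Type} (X : I → C) (i : I) : Sigma.ι X i ≫ sproj X i = 𝟙 _ := by
  simp [sproj]

lemma ι_sproj_ne {I : Type} (X : I → C) {i j : I} (h : j ≠ i) : Sigma.ι X j ≫ sproj X i = 0 := by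
  simp [sproj, h]

lemma sum_sproj {I : Type} {X : I → C} {W : C} (s : Finset I) (g : ∀ i, W ⟶ X i) (i : I)
    (hi : i ∈ s) : (∑ j ∈ s, g j ≫ Sigma.ι X j) ≫ sproj X i = g i := by
  classical
  rw [sum_comp, Finset.sum_eq_single_of_mem i hi]
  · simp
  · intro j _ hj
    rw [Category.assoc, ι_sproj_ne X hj, comp_zero]

/-- a factorization through a finite subcoproduct is a finite sum -/
lemma exists_sum_of_factor {I : Type} {X : I → C} {W : C} (s : Finset I)
    (g : W ⟶ ∐ (fun i : s => X i)) :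
    ∃ g' : ∀ i, W ⟶ X i, g ≫ Sigma.desc (fun i : s => Sigma.ι X i) =
      ∑ i ∈ s, g' i ≫ Sigma.ι X i := by
  classical
  have hid : 𝟙 (∐ (fun i : s => X i)) =
      ∑ i : s, sproj (fun i : s => X i) i ≫ Sigma.ι (fun i : s => X i) i := by
    apply Sigma.hom_ext
    intro j
    rw [Category.comp_id, comp_sum, Finset.sum_eq_single j]
    · rw [← Category.assoc, ι_sproj_self, Category.id_comp]
    · intro i _ hi
      rw [← Category.assoc, ι_sproj_ne _ hi.symm, zero_comp]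
    · intro h; exact absurd (Finset.mem_univ j) h
  refine ⟨fun i => if h : i ∈ s then g ≫ sproj (fun i : s => X i) ⟨i, h⟩ else 0, ?_⟩
  conv_lhs => rw [← Category.comp_id g, hid, comp_sum, sum_comp]
  rw [← Finset.sum_coe_sort s]
  refine Finset.sum_congr rfl fun i _ => ?_
  simp

/-- A compact object: maps to a shifted coproduct. -/
lemma IsCpt.shift_target {W : C} (hW : IsCpt W) {I : Type} (X : I → C) (k : ℤ)
    (f : W ⟶ (∐ X)⟦k⟧) : ∃ (s : Finset I) (g : ∀ i, W ⟶ (X i)⟦k⟧),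
      f = ∑ i ∈ s, g i ≫ (Sigma.ι X i)⟦k⟧' := by
  let e := PreservesCoproduct.iso (shiftFunctor C k) X
  obtain ⟨s, g, hg⟩ := hW (fun i => (X i)⟦k⟧) (f ≫ e.hom)
  refine ⟨s, g, ?_⟩
  rw [← cancel_mono e.hom, hg, sum_comp]
  refine Finset.sum_congr rfl fun i _ => ?_
  have : (Sigma.ι X i)⟦k⟧' ≫ e.hom = Sigma.ι (fun i => (X i)⟦k⟧) i := by
    rw [← cancel_mono e.inv, Category.assoc, e.hom_inv_id, Category.comp_id]
    simp [e]
  rw [Category.assoc, this]

/-- Compactness is invariant under isomorphism. -/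
lemma IsCpt.of_iso {W W' : C} (hW : IsCpt W) (e : W ≅ W') : IsCpt W' := by
  intro I X f
  obtain ⟨s, g, hg⟩ := hW X (e.hom ≫ f)
  refine ⟨s, fun i => e.inv ≫ g i, ?_⟩
  rw [← cancel_epi e.hom, hg, comp_sum]
  exact Finset.sum_congr rfl fun i _ => by simp

lemma IsCpt.of_retract {W W' : C} (hW : IsCpt W) (a : W' ⟶ W) (b : W ⟶ W')
    (hab : a ≫ b = 𝟙 _) : IsCpt W' := by
  intro I X f
  obtain ⟨s, g, hg⟩ := hW X (b ≫ f)
  refine ⟨s, fun i => a ≫ g i, ?_⟩
  rw [← Category.id_comp f, ← hab, Category.assoc, hg, comp_sum]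
  exact Finset.sum_congr rfl fun i _ => by simp

lemma IsCpt.shift {W : C} (hW : IsCpt W) (k : ℤ) : IsCpt (W⟦k⟧) := by
  intro I X f
  let e : (W⟦k⟧)⟦-k⟧ ≅ W := (shiftFunctorCompIsoId C k (-k) (by simp)).app W
  obtain ⟨s, g, hg⟩ := hW.shift_target X (-k) (e.inv ≫ f⟦-k⟧')
  refine ⟨s, fun i => (shiftFunctor C (-k)).preimage (e.hom ≫ g i), ?_⟩
  apply (shiftFunctor C (-k)).map_injective
  rw [Functor.map_sum]
  simp only [Functor.map_comp, Functor.map_preimage]
  rw [← cancel_epi e.inv, hg, comp_sum]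
  exact Finset.sum_congr rfl fun i _ => by simp

lemma isCpt_of_isZero {W : C} (hW : IsZero W) : IsCpt W := fun I X f =>
  ⟨∅, fun _ => 0, by rw [Finset.sum_empty]; exact hW.eq_of_src _ _⟩

/-- The cofibre of a map of compact objects is compact. -/
lemma IsCpt.of_dist (Δ : Triangle C) (hΔ : Δ ∈ distTriang C) (h1 : IsCpt Δ.obj₁)
    (h2 : IsCpt Δ.obj₂) : IsCpt Δ.obj₃ := by
  classical
  intro I X f
  obtain ⟨s, g, hg⟩ := h2 X (Δ.mor₂ ≫ f)
  let p : ∐ X ⟶ ∐ X := 𝟙 _ - ∑ i ∈ s, sproj X i ≫ Sigma.ι X i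
  have hp : ∀ i ∈ s, Sigma.ι X i ≫ p = 0 := by
    intro i hi
    simp only [p]
    rw [comp_sub, Category.comp_id, comp_sum, Finset.sum_eq_single_of_mem i hi]
    · rw [← Category.assoc, ι_sproj_self, Category.id_comp, sub_self]
    · intro j _ hj
      rw [← Category.assoc, ι_sproj_ne X hj.symm, zero_comp]
  have h4 : Δ.mor₂ ≫ f ≫ p = 0 := by
    rw [← Category.assoc, hg, sum_comp]
    refine Finset.sum_eq_zero fun i hi => ?_
    rw [Category.assoc, hp i hi, comp_zero]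
  obtain ⟨h, hh⟩ := Triangle.yoneda_exact₃ _ hΔ (f ≫ p) h4
  obtain ⟨t, g', hg'⟩ := h1.shift 1 X h
  have h5 : f = ∑ i ∈ s, (f ≫ sproj X i) ≫ Sigma.ι X i +
      ∑ i ∈ t, (Δ.mor₃ ≫ g' i) ≫ Sigma.ι X i := by
    have h6 : f ≫ p = ∑ i ∈ t, (Δ.mor₃ ≫ g' i) ≫ Sigma.ι X i := by
      rw [hh, hg', comp_sum]
      exact Finset.sum_congr rfl fun i _ => by simp
    rw [← h6]
    simp only [p]
    rw [comp_sub, Category.comp_id, comp_sum]
    simp only [Category.assoc]
    abel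
  refine ⟨s ∪ t, fun i => (if i ∈ s then f ≫ sproj X i else 0) +
    (if i ∈ t then Δ.mor₃ ≫ g' i else 0), ?_⟩
  conv_lhs => rw [h5]
  simp only [add_comp, Finset.sum_add_distrib]
  congr 1
  · rw [← Finset.sum_subset Finset.subset_union_left]
    · exact Finset.sum_congr rfl fun i hi => by rw [if_pos hi]
    · intro i _ hi
      rw [if_neg hi, zero_comp]
  · rw [← Finset.sum_subset Finset.subset_union_right]
    · exact Finset.sum_congr rfl fun i hi => by rw [if_pos hi]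
    · intro i _ hi
      rw [if_neg hi, zero_comp]

lemma IsCpt.of_dist₂ (Δ : Triangle C) (hΔ : Δ ∈ distTriang C) (h1 : IsCpt Δ.obj₁)
    (h3 : IsCpt Δ.obj₃) : IsCpt Δ.obj₂ :=
  IsCpt.of_dist _ (inv_rot_of_distTriang _ hΔ) (h3.shift (-1)) h1

lemma IsCpt.of_dist₁ (Δ : Triangle C) (hΔ : Δ ∈ distTriang C) (h2 : IsCpt Δ.obj₂)
    (h3 : IsCpt Δ.obj₃) : IsCpt Δ.obj₁ := by
  have h := IsCpt.of_dist _ (inv_rot_of_distTriang _ (inv_rot_of_distTriang _ hΔ))
    (h2.shift (-1)) (h3.shift (-1))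
  exact h

variable {X : ℕ → C} {f : ∀ n, X n ⟶ X (n + 1)} (T : Tel f)

namespace Tel

/-- A map from a compact object to a telescope, composed with the connecting map, is zero. -/
lemma comp_δ {W : C} (hW : IsCpt W) (g : W ⟶ T.obj) : g ≫ T.δ = 0 := by
  classical
  obtain ⟨s, a, ha⟩ := hW.shift_target X 1 (g ≫ T.δ)
  -- `a` may be taken zero outside `s`
  let b : ∀ i, W ⟶ (X i)⟦(1 : ℤ)⟧ := fun i => if i ∈ s then a i else 0
  have hb : ∀ t : Finset ℕ, s ⊆ t →
      g ≫ T.δ = ∑ i ∈ t, b i ≫ (Sigma.ι X i)⟦(1 : ℤ)⟧' := by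
    intro t hst
    rw [ha, ← Finset.sum_subset hst]
    · exact Finset.sum_congr rfl fun i hi => by simp only [b]; rw [if_pos hi]
    · intro i _ hi
      simp only [b]
      rw [if_neg hi, zero_comp]
  have h1 : (g ≫ T.δ) ≫ (sigmaSub f)⟦(1 : ℤ)⟧' = 0 := by
    rw [Category.assoc, T.δ_sigmaSub, comp_zero]
  have h3 : ∀ n, b n = 0 := by
    intro n
    induction n using Nat.strong_induction_on with
    | _ n ih =>
      have h4 := congrArg (· ≫ (sproj X n)⟦(1 : ℤ)⟧') h1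
      rw [hb (s ∪ Finset.range (n + 1)) Finset.subset_union_left, sum_comp, sum_comp,
        zero_comp] at h4
      rw [Finset.sum_eq_single_of_mem n (by simp)] at h4
      · rw [Category.assoc, Category.assoc, ← Functor.map_comp, ← Functor.map_comp,
          ι_sigmaSub_assoc, sub_comp, ι_sproj_self, Category.assoc,
          ι_sproj_ne X (Nat.succ_ne_self n), comp_zero, sub_zero,
          CategoryTheory.Functor.map_id, Category.comp_id] at h4
        exact h4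
      · intro i _ hi
        rw [Category.assoc, Category.assoc, ← Functor.map_comp, ← Functor.map_comp,
          ι_sigmaSub_assoc, sub_comp, ι_sproj_ne X hi, zero_sub, Category.assoc]
        rcases lt_trichotomy (i + 1) n with h | h | h
        · rw [ι_sproj_ne X h.ne, comp_zero, neg_zero, Functor.map_zero, comp_zero]
        · rw [ih i (by omega), zero_comp]
        · rw [ι_sproj_ne X h.ne', comp_zero, neg_zero, Functor.map_zero, comp_zero]
  rw [hb s subset_rfl]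
  exact Finset.sum_eq_zero fun i _ => by rw [h3, zero_comp]

/-- A map from a compact object to a telescope factors through a finite stage. -/
theorem exists_factor {W : C} (hW : IsCpt W) (g : W ⟶ T.obj) :
    ∃ (n : ℕ) (a : W ⟶ X n), a ≫ T.ι n = g := by
  obtain ⟨l, hl⟩ := Triangle.coyoneda_exact₃ _ T.dist g (T.comp_δ hW g)
  change W ⟶ ∐ X at l
  replace hl : g = l ≫ Sigma.desc T.ι := hl
  obtain ⟨s, a, ha⟩ := hW X l
  obtain ⟨N, hN⟩ : ∃ N, ∀ i ∈ s, i ≤ N := ⟨s.sup id, fun i hi => Finset.le_sup (f := id) hi⟩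
  refine ⟨N, ∑ i ∈ s.attach, a i.1 ≫ trTo f (hN i.1 i.2), ?_⟩
  rw [hl, ha, sum_comp, sum_comp, ← Finset.sum_attach s]
  refine Finset.sum_congr rfl fun i _ => ?_
  simp

/-- A map from a compact object to a stage, which becomes zero in the telescope, becomes zero at
a finite stage. -/
theorem exists_eq_zero {W : C} (hW : IsCpt W) {n : ℕ} (g : W ⟶ X n) (hg : g ≫ T.ι n = 0) :
    ∃ k, g ≫ trT f n k = 0 := by
  classical
  have h1 : (g ≫ Sigma.ι X n) ≫ Sigma.desc T.ι = 0 := by simpa using hg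
  obtain ⟨l, hl⟩ := Triangle.coyoneda_exact₂ _ T.dist (g ≫ Sigma.ι X n) h1
  change W ⟶ ∐ X at l
  replace hl : g ≫ Sigma.ι X n = l ≫ sigmaSub f := hl
  obtain ⟨s, a, ha⟩ := hW X l
  let b : ∀ i, W ⟶ X i := fun i => if i ∈ s then a i else 0
  have hb : ∀ t : Finset ℕ, s ⊆ t → l = ∑ i ∈ t, b i ≫ Sigma.ι X i := by
    intro t hst
    rw [ha, ← Finset.sum_subset hst]
    · exact Finset.sum_congr rfl fun i hi => by simp only [b]; rw [if_pos hi]
    · intro i _ hi
      simp only [b]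
      rw [if_neg hi, zero_comp]
  -- components
  have h5 : ∀ m i, (b i ≫ Sigma.ι X i) ≫ sigmaSub f ≫ sproj X m =
      b i ≫ Sigma.ι X i ≫ sproj X m - b i ≫ f i ≫ Sigma.ι X (i + 1) ≫ sproj X m := by
    intro m i
    rw [Category.assoc, ι_sigmaSub_assoc, sub_comp, comp_sub, Category.assoc]
  have h6 : ∀ m, l ≫ sigmaSub f ≫ sproj X m = b m -
      ∑ i ∈ s ∪ Finset.range (m + 1), b i ≫ f i ≫ Sigma.ι X (i + 1) ≫ sproj X m := by
    intro m
    rw [hb (s ∪ Finset.range (m + 1)) Finset.subset_union_left, sum_comp,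
      Finset.sum_congr rfl (fun i _ => h5 m i), Finset.sum_sub_distrib]
    congr 1
    rw [Finset.sum_eq_single_of_mem m (by simp)]
    · rw [ι_sproj_self, Category.comp_id]
    · intro i _ hi
      rw [ι_sproj_ne X hi, comp_zero]
  have hcomp0 : l ≫ sigmaSub f ≫ sproj X 0 = b 0 := by
    rw [h6, Finset.sum_eq_zero, sub_zero]
    intro i _
    rw [ι_sproj_ne X (Nat.succ_ne_zero i), comp_zero, comp_zero]
  have hcomp : ∀ m, l ≫ sigmaSub f ≫ sproj X (m + 1) = b (m + 1) - b m ≫ f m := by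
    intro m
    rw [h6, Finset.sum_eq_single_of_mem m (by simp)]
    · rw [ι_sproj_self, Category.comp_id]
    · intro i _ hi
      rw [ι_sproj_ne X (show i + 1 ≠ m + 1 by omega), comp_zero, comp_zero]
  have hgl : ∀ m, l ≫ sigmaSub f ≫ sproj X m = g ≫ Sigma.ι X n ≫ sproj X m := by
    intro m
    rw [← Category.assoc, ← hl, Category.assoc]
  have h0 : ∀ m, m < n → b m = 0 := by
    intro m hm
    induction m with
    | zero =>
      rw [← hcomp0, hgl, ι_sproj_ne X hm.ne', comp_zero]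
    | succ m ih =>
      have h7 := hcomp m
      rw [hgl, ι_sproj_ne X hm.ne', comp_zero, ih (by omega), zero_comp, sub_zero] at h7
      exact h7.symm
  have hn : b n = g := by
    cases n with
    | zero => rw [← hcomp0, hgl, ι_sproj_self, Category.comp_id]
    | succ n =>
      have h7 := hcomp n
      rw [hgl, ι_sproj_self, Category.comp_id, h0 n (by omega), zero_comp, sub_zero] at h7
      exact h7.symm
  have hk : ∀ k, b (n + k) = g ≫ trT f n k := by
    intro k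
    induction k with
    | zero => simp [hn]
    | succ k ih =>
      have h7 := hcomp (n + k)
      rw [hgl, ι_sproj_ne X (show n ≠ n + k + 1 by omega), comp_zero, ih] at h7
      change b (n + k + 1) = g ≫ trT f n k ≫ f (n + k)
      rw [← Category.assoc]
      exact (sub_eq_zero.1 h7.symm)
  obtain ⟨N, hN⟩ : ∃ N, ∀ i ∈ s, i ≤ N := ⟨s.sup id, fun i hi => Finset.le_sup (f := id) hi⟩
  refine ⟨N + 1, ?_⟩
  rw [← hk]
  have : n + (N + 1) ∉ s := fun h => by have := hN _ h; omega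
  simp only [b]
  rw [if_neg this]

/-- If all maps from shifts of a generator... : the telescope of an eventually zero sequence. -/
theorem isZero_of_proZero (h : ∀ n, ∃ k, trT f n k = 0) : IsZero T.obj := by
  have hp : ∀ Z : C, ProZero (A := fun n => (X n ⟶ Z)) (coTower f Z) := by
    intro Z n
    obtain ⟨k, hk⟩ := h n
    refine ⟨n + k, Nat.le_add_right _ _, ?_⟩
    ext x
    rw [tr_coTower, hk, zero_comp]
    rfl
  rw [IsZero.iff_id_eq_zero]
  refine T.eq_zero (hp _).lim1 _ fun n => ?_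
  obtain ⟨k, hk⟩ := h n
  rw [← T.trT_ι n k, hk, zero_comp, zero_comp]

end Tel

end Compact

end Vale.Agent.P251.S
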