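import Vale.Agent.P251.T.Axioms
import Mathlib.CategoryTheory.Triangulated.Functor
import Mathlib.CategoryTheory.Monoidal.Mon

/-!
# P251, part S: definitions

Spheres, Bousfield classes, local objects, localizations, sequential (co)limits, module
structures and scalars.
-/

open CategoryTheory MonoidalCategory Limits Pretriangulated MonObj

universe v u

namespace Vale.Agent.P251.S

section Seq

variable {T : Type u} [Category.{v} T] [Preadditive T]

/-- The shift map of the coproduct of a sequence. -/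
noncomputable def telShift [HasCoproducts.{0} T] {X : ℕ → T} (f : ∀ n, X n ⟶ X (n + 1)) :
    ∐ X ⟶ ∐ X :=
  Sigma.desc fun n => f n ≫ Sigma.ι X (n + 1)

/-- The shift map of the product of a tower. -/
noncomputable def holShift [HasProducts.{0} T] {X : ℕ → T} (f : ∀ n, X (n + 1) ⟶ X n) :
    ∏ᶜ X ⟶ ∏ᶜ X :=
  Pi.lift fun n => Pi.π X (n + 1) ≫ f n

variable [HasZeroObject T] [HasShift T ℤ] [∀ n : ℤ, (shiftFunctor T n).Additive]
  [Pretriangulated T]

/-- `Z` (with the maps `ι n : X n ⟶ Z`) is a telescope (sequential homotopy colimit) of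
`X 0 ⟶ X 1 ⟶ ...`. -/
def IsTel [HasCoproducts.{0} T] {X : ℕ → T} (f : ∀ n, X n ⟶ X (n + 1)) {Z : T}
    (ι : ∀ n, X n ⟶ Z) : Prop :=
  ∃ w : Z ⟶ (∐ X)⟦(1 : ℤ)⟧,
    Triangle.mk (𝟙 (∐ X) - telShift f) (Sigma.desc ι) w ∈ distTriang T

/-- `Z` (with the maps `π n : Z ⟶ X n`) is a sequential homotopy limit of
`... ⟶ X 1 ⟶ X 0`. -/
def IsHol [HasProducts.{0} T] {X : ℕ → T} (f : ∀ n, X (n + 1) ⟶ X n) {Z : T}
    (π : ∀ n, Z ⟶ X n) : Prop :=
  ∃ w : (∏ᶜ X) ⟶ Z⟦(1 : ℤ)⟧,
    Triangle.mk (Pi.lift π) (𝟙 (∏ᶜ X) - holShift f) w ∈ distTriang T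

end Seq

section Bousfield

variable {T : Type u} [Category.{v} T] [MonoidalCategory T]

/-- `W` is `K`-acyclic: `K ⊗ W` is a zero object. -/
def Acyclic (K W : T) : Prop := IsZero (K ⊗ W)

variable [Preadditive T]

/-- `Y` is `K`-local: every map from a `K`-acyclic object to `Y` is zero. -/
def IsLocal (K Y : T) : Prop := ∀ ⦃W : T⦄, Acyclic K W → ∀ f : W ⟶ Y, f = 0

/-- A Bousfield localization of `X` with respect to `K`. -/
structure BLoc (K X : T) where
  /-- the localized object -/
  obj : T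
  /-- the localization map -/
  toLoc : X ⟶ obj
  isIso : IsIso (K ◁ toLoc)
  isLocal : IsLocal K obj

variable [HasZeroObject T] [HasShift T ℤ] [∀ n : ℤ, (shiftFunctor T n).Additive]
  [Pretriangulated T]

/-- A functorial Bousfield localization with respect to `K`. -/
structure LocFunctor (K : T) where
  /-- the localization functor -/
  L : T ⥤ T
  [comm : L.CommShift ℤ]
  [tri : L.IsTriangulated]
  /-- the localization map -/
  unit : 𝟭 T ⟶ L
  [unit_comm : NatTrans.CommShift unit ℤ]
  isIso : ∀ X, IsIso (K ◁ unit.app X)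
  isLocal : ∀ X, IsLocal K (L.obj X)

attribute [instance] LocFunctor.comm LocFunctor.tri LocFunctor.unit_comm

end Bousfield

section Modules

variable {T : Type u} [Category.{v} T] [MonoidalCategory T]

/-- The sphere `S^n = 𝟙⟦n⟧`. -/
abbrev Sph (T : Type u) [Category.{v} T] [MonoidalCategory T] [HasShift T ℤ] (n : ℤ) : T :=
  (𝟙_ T)⟦n⟧

/-- A module structure on `N` over the monoid `R`. -/
structure ModStr (R : T) [MonObj R] (N : T) where
  /-- the action -/
  act : R ⊗ N ⟶ N
  one_act : (η[R] ▷ N) ≫ act = (λ_ N).hom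
  mul_act : (μ[R] ▷ N) ≫ act = (α_ R R N).hom ≫ (R ◁ act) ≫ act

namespace ModStr

variable {R : T} [MonObj R] {N : T}

/-- The action of a scalar `a : 𝟙_ T ⟶ R` on a module. -/
def smul (M : ModStr R N) (a : 𝟙_ T ⟶ R) : N ⟶ N :=
  (λ_ N).inv ≫ (a ▷ N) ≫ M.act

/-- Linear maps. -/
def IsLinear {N' : T} (M : ModStr R N) (M' : ModStr R N') (f : N ⟶ N') : Prop :=
  M.act ≫ f = (R ◁ f) ≫ M'.act

/-- The free module `R ⊗ X`. -/
def free (R : T) [MonObj R] (X : T) : ModStr R (R ⊗ X) where
  act := (α_ R R X).inv ≫ (μ[R] ▷ X)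
  one_act := by
    rw [← Category.assoc, associator_inv_naturality_left, Category.assoc, ← comp_whiskerRight,
      MonObj.one_mul]
    simp
  mul_act := by
    simp only [whiskerLeft_comp]
    rw [← Category.assoc, associator_inv_naturality_left, Category.assoc, ← comp_whiskerRight,
      MonObj.mul_assoc]
    simp

/-- `N ⊗ X` is a module if `N` is one. -/
def tensorRight (M : ModStr R N) (X : T) : ModStr R (N ⊗ X) where
  act := (α_ R N X).inv ≫ (M.act ▷ X)
  one_act := by
    rw [← Category.assoc, associator_inv_naturality_left, Category.assoc, ← comp_whiskerRight,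
      M.one_act]
    simp
  mul_act := by
    simp only [whiskerLeft_comp]
    rw [← Category.assoc, associator_inv_naturality_left, Category.assoc, ← comp_whiskerRight,
      M.mul_act]
    simp

end ModStr

end Modules

end Vale.Agent.P251.S
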