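import Mathlib.CategoryTheory.Monoidal.Mon
import Mathlib.CategoryTheory.Monoidal.CommMon_
import Mathlib.Data.Fin.Tuple.Basic
import Mathlib.Tactic.CategoryTheory.Monoidal.Basic

/-!
# P251, part S (S3): the tensor powers of a commutative monoid

For a commutative monoid `R` of a symmetric monoidal category, `Am R n = R^{⊗ n}`
(`Am R 0 = 𝟙_`, `Am R (n+1) = Am R n ⊗ R`) is the coproduct of `n` copies of `R` in commutative
monoids: vertices `Am.v`, universal property `Am.lift`, `Am.hom_ext`, functoriality `Am.map α` for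
every map `α : Fin m → Fin n`.
-/

open CategoryTheory MonoidalCategory MonObj

universe v u

namespace Vale.Agent.P251.S

variable {T : Type u} [Category.{v} T] [MonoidalCategory T]

instance isMonHom_one (X : T) [MonObj X] : IsMonHom (η[X] : 𝟙_ T ⟶ X) where
  one_hom := by
    change 𝟙 _ ≫ η[X] = η[X]
    rw [Category.id_comp]
  mul_hom := by
    change (λ_ (𝟙_ T)).hom ≫ η[X] = (η[X] ⊗ₘ η[X]) ≫ μ[X]
    rw [MonObj.one_mul_hom]

variable [SymmetricCategory T]

section Coprod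

variable (X Y : T) [MonObj X] [MonObj Y]

/-- The first coprojection. -/
def inlM : X ⟶ X ⊗ Y := (ρ_ X).inv ≫ (X ◁ η[Y])

/-- The second coprojection. -/
def inrM : Y ⟶ X ⊗ Y := (λ_ Y).inv ≫ (η[X] ▷ Y)

instance : IsMonHom (inlM X Y) := by
  unfold inlM
  infer_instance

instance : IsMonHom (inrM X Y) := by
  unfold inrM
  infer_instance

variable {X Y} {Z : T} [MonObj Z]

/-- The multiplication of a commutative monoid is a homomorphism. -/
instance isMonHom_mul (Z : T) [MonObj Z] [IsCommMonObj Z] : IsMonHom (μ[Z] : Z ⊗ Z ⟶ Z) where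
  one_hom := by
    change ((λ_ (𝟙_ T)).inv ≫ (η[Z] ⊗ₘ η[Z])) ≫ μ[Z] = η[Z]
    rw [Category.assoc, MonObj.one_mul_hom, Iso.inv_hom_id_assoc]
  mul_hom := by
    change (tensorμ Z Z Z Z ≫ (μ[Z] ⊗ₘ μ[Z])) ≫ μ[Z] = (μ[Z] ⊗ₘ μ[Z]) ≫ μ[Z]
    rw [Category.assoc, MonObj.mul_mul_mul_comm]

/-- The homomorphism out of a tensor product of monoids, for a commutative target. -/
def descM (f : X ⟶ Z) (g : Y ⟶ Z) : X ⊗ Y ⟶ Z := (f ⊗ₘ g) ≫ μ[Z]

instance [IsCommMonObj Z] (f : X ⟶ Z) (g : Y ⟶ Z) [IsMonHom f] [IsMonHom g] :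
    IsMonHom (descM f g) := by
  unfold descM
  infer_instance

omit [SymmetricCategory T] [MonObj X] in
@[reassoc]
lemma inlM_descM (f : X ⟶ Z) (g : Y ⟶ Z) [IsMonHom g] : inlM X Y ≫ descM f g = f := by
  have h : (X ◁ η[Y]) ≫ (f ⊗ₘ g) = f ⊗ₘ η[Z] := by
    rw [← id_tensorHom, tensorHom_comp_tensorHom, IsMonHom.one_hom, Category.id_comp]
  rw [inlM, descM, Category.assoc, reassoc_of% h, mul_one_hom, Iso.inv_hom_id_assoc]

omit [SymmetricCategory T] [MonObj Y] in
@[reassoc]
lemma inrM_descM (f : X ⟶ Z) (g : Y ⟶ Z) [IsMonHom f] : inrM X Y ≫ descM f g = g := by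
  have h : (η[X] ▷ Y) ≫ (f ⊗ₘ g) = η[Z] ⊗ₘ g := by
    rw [← tensorHom_id, tensorHom_comp_tensorHom, IsMonHom.one_hom, Category.id_comp]
  rw [inrM, descM, Category.assoc, reassoc_of% h, one_mul_hom, Iso.inv_hom_id_assoc]

lemma inlM_inrM_mul (X Y : T) [MonObj X] [MonObj Y] :
    (inlM X Y ⊗ₘ inrM X Y) ≫ μ[X ⊗ Y] = 𝟙 (X ⊗ Y) := by
  change (inlM X Y ⊗ₘ inrM X Y) ≫ tensorμ X Y X Y ≫ (μ[X] ⊗ₘ μ[Y]) = _
  have h1 : tensorμ X (𝟙_ T) (𝟙_ T) Y = 𝟙 _ := by
    rw [tensorμ, braiding_tensorUnit_left]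
    monoidal
  have h2 : (inlM X Y ⊗ₘ inrM X Y) = ((ρ_ X).inv ⊗ₘ (λ_ Y).inv) ≫
      ((X ◁ η[Y]) ⊗ₘ (η[X] ▷ Y)) := by
    rw [inlM, inrM, tensorHom_comp_tensorHom]
  rw [h2, Category.assoc, ← id_tensorHom, ← tensorHom_id,
    reassoc_of% tensorμ_natural (𝟙 X) η[Y] η[X] (𝟙 Y), h1, Category.id_comp,
    tensorHom_comp_tensorHom, tensorHom_comp_tensorHom, mul_one_hom, one_mul_hom,
    Category.comp_id, Category.comp_id, Iso.inv_hom_id, Iso.inv_hom_id, id_tensorHom_id]

/-- A homomorphism out of a tensor product of monoids is determined by its components. -/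
lemma eq_descM (h : X ⊗ Y ⟶ Z) [IsMonHom h] :
    h = descM (inlM X Y ≫ h) (inrM X Y ≫ h) := by
  rw [descM, ← tensorHom_comp_tensorHom, Category.assoc, ← IsMonHom.mul_hom,
    reassoc_of% (inlM_inrM_mul X Y)]

omit [SymmetricCategory T] [MonObj X] [MonObj Z] in
@[reassoc]
lemma inlM_whiskerRight (f : X ⟶ Z) : inlM X Y ≫ (f ▷ Y) = f ≫ inlM Z Y := by
  rw [inlM, inlM, Category.assoc, whisker_exchange, rightUnitor_inv_naturality_assoc]

omit [SymmetricCategory T] [MonObj Y] in
@[reassoc]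
lemma inrM_whiskerRight (f : X ⟶ Z) [IsMonHom f] : inrM X Y ≫ (f ▷ Y) = inrM Z Y := by
  rw [inrM, inrM, Category.assoc, ← comp_whiskerRight, IsMonHom.one_hom]

lemma hom_ext_tensor {h h' : X ⊗ Y ⟶ Z} [IsMonHom h] [IsMonHom h']
    (hl : inlM X Y ≫ h = inlM X Y ≫ h') (hr : inrM X Y ≫ h = inrM X Y ≫ h') : h = h' := by
  rw [eq_descM h, eq_descM h', hl, hr]

end Coprod

/-! ### The tensor powers of a commutative monoid -/

/-- The tensor powers `R^{⊗ n}`: `Am R 0 = 𝟙_`, `Am R (n + 1) = Am R n ⊗ R`. -/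
@[reducible] def Am (R : T) : ℕ → T
  | 0 => 𝟙_ T
  | n + 1 => Am R n ⊗ R

namespace Am

variable (R : T) [MonObj R]

/-- The monoid structure of `R^{⊗ n}`. -/
@[instance_reducible] def mon : ∀ n, MonObj (Am R n)
  | 0 => inferInstanceAs (MonObj (𝟙_ T))
  | n + 1 => letI := mon n; inferInstanceAs (MonObj (Am R n ⊗ R))

attribute [instance] mon

instance comm [IsCommMonObj R] : ∀ n, IsCommMonObj (Am R n)
  | 0 => inferInstanceAs (IsCommMonObj (𝟙_ T))
  | n + 1 => by
    have := comm n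
    exact inferInstanceAs (IsCommMonObj (Am R n ⊗ R))

/-- The vertices `R ⟶ R^{⊗ n}`. -/
def v : ∀ {n : ℕ}, Fin n → (R ⟶ Am R n)
  | 0, i => i.elim0
  | n + 1, i => Fin.lastCases (motive := fun _ => R ⟶ Am R (n + 1))
      (inrM (Am R n) R) (fun j => v j ≫ inlM (Am R n) R) i

@[simp] lemma v_last (n : ℕ) : v R (Fin.last n) = inrM (Am R n) R := by
  rw [v, Fin.lastCases_last]

@[simp] lemma v_castSucc {n : ℕ} (j : Fin n) : v R j.castSucc = v R j ≫ inlM (Am R n) R := by
  rw [v, Fin.lastCases_castSucc]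

instance isMonHom_v {n : ℕ} (i : Fin n) : IsMonHom (v R i) := by
  induction n with
  | zero => exact i.elim0
  | succ n ih =>
    refine Fin.lastCases ?_ (fun j => ?_) i
    · rw [v_last]; infer_instance
    · have := ih j
      rw [v_castSucc]; infer_instance

variable {R} {Z : T} [MonObj Z]

/-- Homomorphisms out of `R^{⊗ n}` are determined by their restrictions to the vertices. -/
lemma hom_ext {n : ℕ} {h h' : Am R n ⟶ Z} [IsMonHom h] [IsMonHom h']
    (H : ∀ i, v R i ≫ h = v R i ≫ h') : h = h' := by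
  induction n with
  | zero =>
    have h1 : η[Am R 0] ≫ h = η[Am R 0] ≫ h' := by rw [IsMonHom.one_hom, IsMonHom.one_hom]
    have h2 : η[Am R 0] = 𝟙 (𝟙_ T) := rfl
    rwa [h2, Category.id_comp, Category.id_comp] at h1
  | succ n ih =>
    apply hom_ext_tensor (X := Am R n) (Y := R) (Z := Z)
    · apply ih
      intro i
      have := H i.castSucc
      rwa [v_castSucc, Category.assoc, Category.assoc] at this
    · have := H (Fin.last n)
      rwa [v_last] at this

/-- The homomorphism `R^{⊗ n} ⟶ Z` with given components. -/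
def lift : ∀ {n : ℕ}, (Fin n → (R ⟶ Z)) → (Am R n ⟶ Z)
  | 0, _ => η[Z]
  | n + 1, f => descM (lift (n := n) fun i => f i.castSucc) (f (Fin.last n))

omit [SymmetricCategory T] [MonObj R] in
lemma lift_succ {n : ℕ} (f : Fin (n + 1) → (R ⟶ Z)) :
    lift f = descM (lift (n := n) fun i => f i.castSucc) (f (Fin.last n)) := rfl

instance isMonHom_lift [IsCommMonObj Z] {n : ℕ} (f : Fin n → (R ⟶ Z)) [∀ i, IsMonHom (f i)] :
    IsMonHom (lift f) := by
  induction n with
  | zero => exact isMonHom_one Z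
  | succ n ih => 
    have := ih (fun i => f i.castSucc)
    rw [lift_succ]
    infer_instance

@[reassoc (attr := simp)]
lemma v_lift [IsCommMonObj Z] {n : ℕ} (f : Fin n → (R ⟶ Z)) [∀ i, IsMonHom (f i)] (i : Fin n) :
    v R i ≫ lift f = f i := by
  induction n with
  | zero => exact i.elim0
  | succ n ih =>
    refine Fin.lastCases ?_ (fun j => ?_) i
    · rw [v_last, lift_succ, inrM_descM]
    · rw [v_castSucc, lift_succ, Category.assoc, inlM_descM, ih]

variable (R) [IsCommMonObj R]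

/-- Functoriality of `n ↦ R^{⊗ n}` with respect to all maps of finite sets. -/
def map {m n : ℕ} (α : Fin m → Fin n) : Am R m ⟶ Am R n := lift fun i => v R (α i)

instance isMonHom_map {m n : ℕ} (α : Fin m → Fin n) : IsMonHom (map R α) := by
  unfold map
  infer_instance

@[reassoc (attr := simp)]
lemma v_map {m n : ℕ} (α : Fin m → Fin n) (i : Fin m) : v R i ≫ map R α = v R (α i) := by
  rw [map, v_lift]

lemma map_eq_of {m n : ℕ} (α : Fin m → Fin n) (h : Am R m ⟶ Am R n) [IsMonHom h]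
    (H : ∀ i, v R i ≫ h = v R (α i)) : map R α = h :=
  hom_ext fun i => by rw [v_map, H]

@[simp] lemma map_id {n : ℕ} : map R (id : Fin n → Fin n) = 𝟙 _ :=
  map_eq_of R _ _ fun i => by rw [Category.comp_id]; rfl

@[reassoc]
lemma map_comp {m n l : ℕ} (α : Fin m → Fin n) (β : Fin n → Fin l) :
    map R (β ∘ α) = map R α ≫ map R β :=
  map_eq_of R _ _ fun i => by rw [v_map_assoc, v_map]; rfl

/-- The inclusion of the first `n` factors into `R^{⊗ (n + 1)}`. -/
lemma map_castSucc (n : ℕ) : map R (Fin.castSucc : Fin n → Fin (n + 1)) = inlM (Am R n) R :=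
  map_eq_of R _ _ fun i => by rw [v_castSucc]

/-- The cofaces which are not the last one. -/
lemma map_succAbove_castSucc {n : ℕ} (i : Fin (n + 1)) :
    map R (Fin.succAbove i.castSucc : Fin (n + 1) → Fin (n + 2)) = map R (Fin.succAbove i) ▷ R := by
  have hl : i.castSucc.succAbove (Fin.last n) = Fin.last (n + 1) := by
    rw [Fin.succAbove_of_le_castSucc _ _ (by
      rw [Fin.castSucc_le_castSucc_iff]; exact Fin.le_last i)]
    rfl
  apply map_eq_of
  intro j
  refine Fin.lastCases ?_ (fun k => ?_) j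
  · rw [v_last, hl, v_last, inrM_whiskerRight]
  · rw [v_castSucc, Fin.castSucc_succAbove_castSucc, v_castSucc, Category.assoc,
      inlM_whiskerRight, v_map_assoc]

/-- The last coface. -/
lemma map_succAbove_last (n : ℕ) :
    map R (Fin.succAbove (Fin.last n) : Fin n → Fin (n + 1)) = inlM (Am R n) R := by
  rw [Fin.succAbove_last, map_castSucc]

end Am

end Vale.Agent.P251.S
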