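import Vale.Agent.P251.S.Ghost
import Mathlib.CategoryTheory.Limits.Preserves.Shapes.Products
import Mathlib.CategoryTheory.Adjunction.Limits

/-!
# P251, part S5: homotopy groups of coproducts
-/

open CategoryTheory MonoidalCategory Limits Pretriangulated

set_option linter.unusedSectionVars false

universe v u

namespace Vale.Agent.P251.S

open Vale.Agent.P251.T

variable {T : Type u} [Category.{v} T] [Preadditive T] [HasZeroObject T]
    [HasShift T ℤ] [∀ n : ℤ, (shiftFunctor T n).Additive] [Pretriangulated T] [IsTriangulated T]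
    [MonoidalCategory T] [SymmetricCategory T] [TensorTriangulated T] [MonoidalClosed T]
    [HasCoproducts.{0} T] [HasProducts.{0} T] [StableCat T]

/-- A map from `A` to a finite coproduct is the sum of its components. -/
lemma finite_sum {I : Type} [Fintype I] (X : I → T) {A : T} (f : A ⟶ ∐ X) :
    ∃ g : ∀ i, A ⟶ X i, f = ∑ i, g i ≫ Sigma.ι X i := by
  classical
  let p : ∀ i, (∐ X ⟶ X i) := fun i => Sigma.desc (fun j => if h : j = i then
    eqToHom (by rw [h]) else 0)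
  have hp : ∑ i, p i ≫ Sigma.ι X i = 𝟙 (∐ X) := by
    apply Sigma.hom_ext
    intro j
    rw [Preadditive.comp_sum, Finset.sum_eq_single j]
    · simp [p]
    · intro i _ hij
      simp [p, hij.symm]
    · simp
  refine ⟨fun i => f ≫ p i, ?_⟩
  simp only [Category.assoc, ← Preadditive.comp_sum, hp, Category.comp_id]

/-- Homotopy of a coproduct: a map from a sphere is a finite sum of maps into the summands. -/
lemma compact_sum {I : Type} (X : I → T) {A : T} (hA : IsSphere A) (f : A ⟶ ∐ X) :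
    ∃ (s : Finset I) (g : ∀ i, A ⟶ X i), f = ∑ i ∈ s, g i ≫ Sigma.ι X i := by
  classical
  obtain ⟨n, ⟨e⟩⟩ := hA
  obtain ⟨s, g, hg⟩ := StableCat.compact n X (e.inv ≫ f)
  obtain ⟨h, hh⟩ := finite_sum (fun i : s => X i) g
  refine ⟨s, fun i => if hi : i ∈ s then e.hom ≫ h ⟨i, hi⟩ else 0, ?_⟩
  have : f = e.hom ≫ g ≫ Sigma.desc (fun i : s => Sigma.ι X i) := by
    rw [hg]; simp
  rw [this, hh]
  simp only [Preadditive.sum_comp, Preadditive.comp_sum, Category.assoc, Sigma.ι_desc]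
  rw [← Finset.sum_coe_sort s]
  refine Finset.sum_congr rfl (fun i _ => ?_)
  simp

/-- Homotopy of `Q ⊗ ∐ X`. -/
lemma compact_sumL (Q : T) {I : Type} (X : I → T) {A : T} (hA : IsSphere A) (f : A ⟶ Q ⊗ ∐ X) :
    ∃ (s : Finset I) (g : ∀ i, A ⟶ Q ⊗ X i), f = ∑ i ∈ s, g i ≫ Q ◁ Sigma.ι X i := by
  have : (tensorLeft Q).IsLeftAdjoint := ⟨_, ⟨ihom.adjunction Q⟩⟩
  obtain ⟨s, g, hg⟩ := compact_sum (fun i => Q ⊗ X i) hA (f ≫ inv (sigmaComparison (tensorLeft Q) X))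
  refine ⟨s, g, ?_⟩
  rw [IsIso.comp_inv_eq] at hg
  rw [hg, Preadditive.sum_comp]
  refine Finset.sum_congr rfl (fun i _ => ?_)
  rw [Category.assoc]
  congr 1
  exact ι_comp_sigmaComparison (tensorLeft Q) X i

/-- Homotopy of `(∐ X) ⊗ Q`. -/
lemma compact_sumR (Q : T) {I : Type} (X : I → T) {A : T} (hA : IsSphere A) (f : A ⟶ (∐ X) ⊗ Q) :
    ∃ (s : Finset I) (g : ∀ i, A ⟶ X i ⊗ Q), f = ∑ i ∈ s, g i ≫ Sigma.ι X i ▷ Q := by
  obtain ⟨s, g, hg⟩ := compact_sumL Q X hA (f ≫ (β_ _ _).hom)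
  refine ⟨s, fun i => g i ≫ (β_ _ _).inv, ?_⟩
  rw [← cancel_mono (β_ (∐ X) Q).hom, hg, Preadditive.sum_comp]
  refine Finset.sum_congr rfl (fun i _ => ?_)
  simp

/-- If each `X i ◁ q` is a ghost, so is `(∐ X) ◁ q`. -/
lemma ghost_coprod {Q Q' : T} (q : Q ⟶ Q') {I : Type} (X : I → T) (h : ∀ i, Ghost (X i ◁ q)) :
    Ghost ((∐ X) ◁ q) := by
  intro A hA f
  obtain ⟨s, g, rfl⟩ := compact_sumR Q X hA f
  rw [Preadditive.sum_comp]
  refine Finset.sum_eq_zero (fun i _ => ?_)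
  rw [Category.assoc, ← whisker_exchange, ← Category.assoc, h i A hA, zero_comp]

/-- If each `X i ◁ q` is zero, so is `(∐ X) ◁ q`. -/
lemma zero_coprod {Q Q' : T} (q : Q ⟶ Q') {I : Type} (X : I → T) (h : ∀ i, X i ◁ q = 0) :
    (∐ X) ◁ q = 0 := by
  have : (tensorLeft Q).IsLeftAdjoint := ⟨_, ⟨ihom.adjunction Q⟩⟩
  have h1 : (β_ Q (∐ X)).hom ≫ (∐ X) ◁ q = q ▷ (∐ X) ≫ (β_ Q' (∐ X)).hom := by simp
  rw [← cancel_epi (β_ Q (∐ X)).hom, comp_zero, h1,
    ← cancel_epi (sigmaComparison (tensorLeft Q) X), comp_zero]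
  apply Sigma.hom_ext
  intro i
  rw [comp_zero, ← Category.assoc, ι_comp_sigmaComparison]
  have h2 : Q ◁ Sigma.ι X i ≫ q ▷ (∐ X) ≫ (β_ Q' (∐ X)).hom =
      (β_ Q (X i)).hom ≫ X i ◁ q ≫ Sigma.ι X i ▷ Q' := by
    rw [← Category.assoc, whisker_exchange, Category.assoc]
    simp only [BraidedCategory.braiding_naturality_right, BraidedCategory.braiding_naturality_left_assoc]
  rw [show (tensorLeft Q).map (Sigma.ι X i) = Q ◁ Sigma.ι X i from rfl, h2, h i, zero_comp,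
    comp_zero]

end Vale.Agent.P251.S
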