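import Vale.Agent.P251.S.Defs
import Mathlib.CategoryTheory.Preadditive.Basic
import Mathlib.CategoryTheory.Monoidal.Mon
import Mathlib.RingTheory.Nilpotent.Basic

/-!
# P251, part S2: scalars acting on modules

For a commutative monoid `R` the scalars `𝟙_ T ⟶ R` act on the `R`-modules by commuting
endomorphisms.
-/

open CategoryTheory MonoidalCategory Limits MonObj

universe v u

namespace Vale.Agent.P251.S

variable {T : Type u} [Category.{v} T] [MonoidalCategory T]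

/-- the product of two scalars -/
def scMul {R : T} [MonObj R] (a b : 𝟙_ T ⟶ R) : 𝟙_ T ⟶ R :=
  (λ_ (𝟙_ T)).inv ≫ (a ⊗ₘ b) ≫ μ[R]

namespace ModStr

variable {R : T} [MonObj R] {N : T}

theorem smul_one (M : ModStr R N) : M.smul η[R] = 𝟙 N := by
  unfold smul
  rw [M.one_act]
  simp

theorem smul_mul (M : ModStr R N) (a b : 𝟙_ T ⟶ R) :
    M.smul (scMul a b) = M.smul b ≫ M.smul a := by
  unfold smul scMul
  have h1 : ((λ_ (𝟙_ T)).inv ≫ (a ⊗ₘ b) ≫ μ[R]) ▷ N ≫ M.act =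
      (λ_ (𝟙_ T)).inv ▷ N ≫ (a ⊗ₘ b) ▷ N ≫ (α_ R R N).hom ≫ (R ◁ M.act) ≫ M.act := by
    simp only [comp_whiskerRight, Category.assoc]
    rw [M.mul_act]
  rw [h1]
  have h2 : (a ⊗ₘ b) ▷ N ≫ (α_ R R N).hom = (α_ _ _ _).hom ≫ (a ⊗ₘ (b ▷ N)) := by
    rw [← tensorHom_id, associator_naturality, tensorHom_id]
  rw [reassoc_of% h2]
  have h3 : (a ⊗ₘ (b ▷ N)) ≫ (R ◁ M.act) = ((𝟙_ T) ◁ (b ▷ N ≫ M.act)) ≫ (a ▷ N) := by
    rw [tensorHom_def', Category.assoc, ← whisker_exchange, whiskerLeft_comp, Category.assoc]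
  rw [reassoc_of% h3]
  simp only [Category.assoc]
  have h4 : (λ_ N).inv ≫ (λ_ (𝟙_ T)).inv ▷ N ≫ (α_ (𝟙_ T) (𝟙_ T) N).hom =
      (λ_ N).inv ≫ (𝟙_ T) ◁ (λ_ N).inv := by
    simp
  rw [reassoc_of% h4, ← whiskerLeft_comp_assoc, ← leftUnitor_inv_naturality_assoc]
  simp only [Category.assoc]

/-- linear maps commute with the scalars -/
theorem IsLinear.smul {N' : T} {M : ModStr R N} {M' : ModStr R N'} {f : N ⟶ N'}
    (hf : M.IsLinear M' f) (a : 𝟙_ T ⟶ R) : M.smul a ≫ f = f ≫ M'.smul a := by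
  unfold ModStr.smul
  unfold IsLinear at hf
  rw [Category.assoc, Category.assoc, hf, leftUnitor_inv_naturality_assoc]
  rw [whisker_exchange_assoc]

/-- the monoid as a module over itself -/
def self (R : T) [MonObj R] : ModStr R R where
  act := μ[R]
  one_act := MonObj.one_mul R
  mul_act := MonObj.mul_assoc R

theorem tensorRight_smul (M : ModStr R N) (X : T) (a : 𝟙_ T ⟶ R) :
    (M.tensorRight X).smul a = M.smul a ▷ X := by
  unfold smul tensorRight
  simp

end ModStr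

section preadd

variable [Preadditive T] [MonoidalPreadditive T] {R : T} [MonObj R] {N : T}

theorem ModStr.smul_add (M : ModStr R N) (a b : 𝟙_ T ⟶ R) :
    M.smul (a + b) = M.smul a + M.smul b := by
  unfold ModStr.smul
  rw [MonoidalPreadditive.add_whiskerRight, Preadditive.add_comp, Preadditive.comp_add]

theorem ModStr.smul_zero (M : ModStr R N) : M.smul (0 : 𝟙_ T ⟶ R) = 0 := by
  unfold ModStr.smul
  rw [MonoidalPreadditive.zero_whiskerRight, zero_comp, comp_zero]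

/-- the scalars act additively -/
def ModStr.smulHom (M : ModStr R N) : (𝟙_ T ⟶ R) →+ (N ⟶ N) where
  toFun := M.smul
  map_zero' := M.smul_zero
  map_add' := M.smul_add

theorem ModStr.smul_sum (M : ModStr R N) {ι : Type*} (s : Finset ι) (a : ι → (𝟙_ T ⟶ R)) :
    M.smul (∑ i ∈ s, a i) = ∑ i ∈ s, M.smul (a i) :=
  map_sum M.smulHom a s

end preadd

section comm

variable [BraidedCategory T] {R : T} [MonObj R] [IsCommMonObj R] {N : T}

theorem scMul_comm (a b : 𝟙_ T ⟶ R) : scMul a b = scMul b a := by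
  unfold scMul
  have h : (a ⊗ₘ b) ≫ μ[R] = (β_ _ _).hom ≫ (b ⊗ₘ a) ≫ μ[R] := by
    rw [← BraidedCategory.braiding_naturality_assoc, IsCommMonObj.mul_comm]
  rw [h]
  have h2 : (β_ (𝟙_ T) (𝟙_ T)).hom = 𝟙 _ := by
    rw [braiding_tensorUnit_left]
    simp [unitors_equal]
  rw [h2, Category.id_comp]

theorem ModStr.smul_comm (M : ModStr R N) (a b : 𝟙_ T ⟶ R) :
    M.smul a ≫ M.smul b = M.smul b ≫ M.smul a := by
  rw [← M.smul_mul, ← M.smul_mul, scMul_comm]

theorem ModStr.smul_mul' (M : ModStr R N) (a b : 𝟙_ T ⟶ R) :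
    M.smul (scMul a b) = M.smul a ≫ M.smul b := by
  rw [M.smul_mul, M.smul_comm]

end comm

section tensorMod

variable [BraidedCategory T] {R R' : T} [MonObj R] [MonObj R'] {N N' : T}

/-- the tensor product of modules over two monoids -/
def ModStr.tens (M : ModStr R N) (M' : ModStr R' N') : ModStr (R ⊗ R') (N ⊗ N') where
  act := tensorμ R R' N N' ≫ (M.act ⊗ₘ M'.act)
  one_act := by
    rw [MonObj.tensorObj.one_def]
    simp only [comp_whiskerRight_assoc]
    slice_lhs 2 3 => rw [tensorμ_natural_left]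
    slice_lhs 3 4 => rw [tensorHom_comp_tensorHom, M.one_act, M'.one_act]
    symm
    exact tensor_left_unitality N N'
  mul_act := by
    rw [MonObj.tensorObj.mul_def]
    simp only [comp_whiskerRight_assoc, whiskerLeft_comp_assoc]
    slice_lhs 2 3 => rw [tensorμ_natural_left]
    slice_lhs 3 4 => rw [tensorHom_comp_tensorHom, M.mul_act, M'.mul_act,
      ← tensorHom_comp_tensorHom, ← tensorHom_comp_tensorHom]
    slice_lhs 1 3 => rw [tensor_associativity]
    slice_lhs 3 4 => rw [← tensorμ_natural_right]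
    simp

/-- scalars from the first factor -/
def scL (R' : T) [MonObj R'] (a : 𝟙_ T ⟶ R) : 𝟙_ T ⟶ R ⊗ R' :=
  (λ_ (𝟙_ T)).inv ≫ (a ⊗ₘ η[R'])

/-- scalars from the second factor -/
def scR (R : T) [MonObj R] (b : 𝟙_ T ⟶ R') : 𝟙_ T ⟶ R ⊗ R' :=
  (λ_ (𝟙_ T)).inv ≫ (η[R] ⊗ₘ b)

theorem ModStr.tens_smul (M : ModStr R N) (M' : ModStr R' N') (a : 𝟙_ T ⟶ R) (b : 𝟙_ T ⟶ R') :
    (M.tens M').smul ((λ_ (𝟙_ T)).inv ≫ (a ⊗ₘ b)) = M.smul a ⊗ₘ M'.smul b := by
  unfold ModStr.smul ModStr.tens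
  simp only [comp_whiskerRight, Category.assoc]
  rw [tensorμ_natural_left_assoc, tensorHom_comp_tensorHom]
  have h : (λ_ (N ⊗ N')).inv ≫ (λ_ (𝟙_ T)).inv ▷ (N ⊗ N') ≫ tensorμ (𝟙_ T) (𝟙_ T) N N' =
      ((λ_ N).inv ⊗ₘ (λ_ N').inv) := by
    rw [← cancel_mono ((λ_ N).hom ⊗ₘ (λ_ N').hom)]
    simp only [Category.assoc]
    rw [← tensor_left_unitality, tensorHom_comp_tensorHom]
    simp
  rw [reassoc_of% h, tensorHom_comp_tensorHom]

theorem ModStr.tens_smul_left (M : ModStr R N) (M' : ModStr R' N') (a : 𝟙_ T ⟶ R) :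
    (M.tens M').smul (scL R' a) = M.smul a ▷ N' := by
  unfold scL
  rw [ModStr.tens_smul, M'.smul_one, tensorHom_id]

theorem ModStr.tens_smul_right (M : ModStr R N) (M' : ModStr R' N') (b : 𝟙_ T ⟶ R') :
    (M.tens M').smul (scR R b) = N ◁ M'.smul b := by
  unfold scR
  rw [ModStr.tens_smul, M.smul_one, id_tensorHom]

end tensorMod

end Vale.Agent.P251.S
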