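import Mathlib.CategoryTheory.Triangulated.Adjunction
import Mathlib.CategoryTheory.Triangulated.Functor
import Mathlib.Algebra.Group.MinimalAxioms
import Mathlib.Algebra.Group.TypeTags.Hom
import Mathlib.Algebra.Group.Int.Defs

/-!
# Constructing `F.CommShift ℤ` from the isomorphism for the shift by one

`commShiftOfOne F c : F.CommShift ℤ` for `c : shiftFunctor C 1 ⋙ F ≅ F ⋙ shiftFunctor D 1`,
with `commShiftIso 1 = c`; and `NatTrans.CommShift τ ℤ` can be checked for the shift by one.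
-/

set_option linter.unusedSectionVars false

open CategoryTheory Category Functor

universe v u v' u'

namespace Vale.Agent.P251.S

variable {C : Type u} [Category.{v} C] {D : Type u'} [Category.{v'} D]
  [HasShift C ℤ] [HasShift D ℤ] (F : C ⥤ D)

namespace CSAux

/-- pairs: an integer and a commutation isomorphism -/
def M : Type _ := Σ a : ℤ, (shiftFunctor C a ⋙ F ≅ F ⋙ shiftFunctor D a)

variable {F}

lemma mk_eq {a b c c' : ℤ} (h : a + b = c) (h' : a + b = c')
    (x : shiftFunctor C a ⋙ F ≅ F ⋙ shiftFunctor D a)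
    (y : shiftFunctor C b ⋙ F ≅ F ⋙ shiftFunctor D b) :
    (⟨c, CommShift.isoAdd' h x y⟩ : M F) = ⟨c', CommShift.isoAdd' h' x y⟩ := by
  subst h; subst h'; rfl

lemma exists_left_inv (x : M F) : ∃ y : M F, y.1 + x.1 = 0 ∧
    (⟨y.1 + x.1, CommShift.isoAdd' rfl y.2 x.2⟩ : M F) = ⟨0, CommShift.isoZero F ℤ⟩ := by
  obtain ⟨a, x⟩ := x
  have hba : -a + a = 0 := neg_add_cancel a
  let w : (shiftFunctor C (-a) ⋙ F) ⋙ shiftFunctor D a ≅
      (F ⋙ shiftFunctor D (-a)) ⋙ shiftFunctor D a :=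
    Functor.associator _ _ _ ≪≫ isoWhiskerLeft _ x.symm ≪≫ (Functor.associator _ _ _).symm ≪≫
      isoWhiskerRight (shiftFunctorAdd' C _ _ _ hba).symm F ≪≫ CommShift.isoZero F ℤ ≪≫
      isoWhiskerLeft F (shiftFunctorAdd' D _ _ _ hba) ≪≫ (Functor.associator _ _ _).symm
  let y : shiftFunctor C (-a) ⋙ F ≅ F ⋙ shiftFunctor D (-a) :=
    fullyFaithfulCancelRight (shiftFunctor D a) w
  have hy : ∀ X, (y.hom.app X)⟦a⟧' = w.hom.app X := fun X => by
    simp [y, fullyFaithfulCancelRight]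
  refine ⟨⟨-a, y⟩, hba, ?_⟩
  have h1 : CommShift.isoAdd' hba y x = CommShift.isoZero F ℤ := by
    ext X
    rw [CommShift.isoAdd'_hom_app, hy]
    simp [w]
  change (⟨-a + a, CommShift.isoAdd' rfl y x⟩ : M F) = _
  rw [mk_eq rfl hba, h1]

noncomputable instance : Group (M F) :=
  letI : Mul (M F) := ⟨fun x y => ⟨x.1 + y.1, CommShift.isoAdd' rfl x.2 y.2⟩⟩
  letI : One (M F) := ⟨⟨0, CommShift.isoZero F ℤ⟩⟩
  letI : Inv (M F) := ⟨fun x => (exists_left_inv x).choose⟩
  Group.ofLeftAxioms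
    (by
      rintro ⟨a, x⟩ ⟨b, y⟩ ⟨c, z⟩
      change (⟨a + b + c, CommShift.isoAdd' rfl (CommShift.isoAdd' rfl x y) z⟩ : M F) =
        ⟨a + (b + c), CommShift.isoAdd' rfl x (CommShift.isoAdd' rfl y z)⟩
      rw [CommShift.isoAdd'_assoc x y z rfl rfl rfl]
      exact mk_eq _ _ _ _)
    (by
      rintro ⟨a, x⟩
      change (⟨0 + a, CommShift.isoAdd' rfl (CommShift.isoZero F ℤ) x⟩ : M F) = ⟨a, x⟩
      rw [mk_eq rfl (zero_add a), CommShift.isoZero_isoAdd'_])
    (fun x => (exists_left_inv x).choose_spec.2)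

lemma mul_def (x y : M F) :
    x * y = (⟨x.1 + y.1, CommShift.isoAdd' rfl x.2 y.2⟩ : M F) := rfl

lemma one_def : (1 : M F) = ⟨0, CommShift.isoZero F ℤ⟩ := rfl

/-- the degree -/
def deg : M F →* Multiplicative ℤ where
  toFun x := Multiplicative.ofAdd x.1
  map_one' := rfl
  map_mul' _ _ := rfl

variable (c : shiftFunctor C (1 : ℤ) ⋙ F ≅ F ⋙ shiftFunctor D (1 : ℤ))

/-- the generator -/
def gen : M F := ⟨1, c⟩

lemma zpow_fst (n : ℤ) : ((gen c) ^ n).1 = n := by
  have h := map_zpow (deg (F := F)) (gen c) n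
  have h2 : Multiplicative.toAdd (deg ((gen c) ^ n)) = n := by
    rw [h]
    change Multiplicative.toAdd ((Multiplicative.ofAdd (1 : ℤ)) ^ n) = n
    rw [toAdd_zpow]
    simp
  exact h2

/-- the commutation isomorphisms -/
noncomputable def isoN (n : ℤ) : shiftFunctor C n ⋙ F ≅ F ⋙ shiftFunctor D n :=
  (zpow_fst c n) ▸ ((gen c) ^ n).2

lemma mk_isoN (n : ℤ) : (⟨n, isoN c n⟩ : M F) = (gen c) ^ n := by
  have : ∀ (m : M F) (h : m.1 = n), (⟨n, h ▸ m.2⟩ : M F) = m := by
    rintro ⟨a, x⟩ h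
    cases h
    rfl
  exact this _ _

lemma isoN_one : isoN c 1 = c := by
  have h := mk_isoN c 1
  rw [zpow_one] at h
  exact eq_of_heq (Sigma.mk.inj h).2

lemma isoN_zero : isoN c 0 = CommShift.isoZero F ℤ := by
  have h := mk_isoN c 0
  rw [zpow_zero] at h
  exact eq_of_heq (Sigma.mk.inj h).2

lemma isoN_add (a b : ℤ) : isoN c (a + b) = CommShift.isoAdd (isoN c a) (isoN c b) := by
  have h := mk_isoN c (a + b)
  rw [zpow_add, ← mk_isoN, ← mk_isoN] at h
  exact eq_of_heq (Sigma.mk.inj h).2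

end CSAux

/-- A functor commuting with the shift by one commutes with the shift by `ℤ`. -/
@[instance_reducible]
noncomputable def commShiftOfOne
    (c : shiftFunctor C (1 : ℤ) ⋙ F ≅ F ⋙ shiftFunctor D (1 : ℤ)) : F.CommShift ℤ where
  commShiftIso := CSAux.isoN c
  commShiftIso_zero := CSAux.isoN_zero c
  commShiftIso_add := CSAux.isoN_add c

lemma commShiftOfOne_iso_one
    (c : shiftFunctor C (1 : ℤ) ⋙ F ≅ F ⋙ shiftFunctor D (1 : ℤ)) :
    (commShiftOfOne F c).commShiftIso (F := F) (1 : ℤ) = c := CSAux.isoN_one c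

variable {F}

/-- The compatibility of a natural transformation with the shifts can be checked for the shift
by one. -/
theorem natTrans_commShift_of_one {G : C ⥤ D} [F.CommShift ℤ] [G.CommShift ℤ] (τ : F ⟶ G)
    (h : ∀ X : C, (F.commShiftIso (1 : ℤ)).hom.app X ≫ (τ.app X)⟦(1 : ℤ)⟧' =
      τ.app (X⟦(1 : ℤ)⟧) ≫ (G.commShiftIso (1 : ℤ)).hom.app X) :
    NatTrans.CommShift τ ℤ := by
  have h1 : NatTrans.CommShiftCore τ (1 : ℤ) := ⟨by ext X; exact h X⟩
  -- cancellation
  have hneg : ∀ a : ℤ, NatTrans.CommShiftCore τ a → NatTrans.CommShiftCore τ (-a) := by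
    intro a ha
    have key : ∀ X : C, ((F.commShiftIso (-a)).hom.app X ≫ (τ.app X)⟦-a⟧')⟦a⟧' =
        (τ.app (X⟦-a⟧) ≫ (G.commShiftIso (-a)).hom.app X)⟦a⟧' := by
      intro X
      have hba : -a + a = 0 := neg_add_cancel a
      have e1 : ∀ (H : C ⥤ D) [H.CommShift ℤ],
          (H.commShiftIso (-a)).hom.app X⟦a⟧' =
            (H.commShiftIso a).inv.app (X⟦-a⟧) ≫
              H.map ((shiftFunctorCompIsoId C (-a) a hba).hom.app X) ≫
              (shiftFunctorCompIsoId D (-a) a hba).inv.app (H.obj X) := by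
        intro H _
        have := H.map_shiftFunctorCompIsoId_hom_app X (-a) a hba
        rw [this]
        simp
      simp only [Functor.map_comp]
      rw [e1 F, e1 G, ha.shift_app]
      have n1 := (shiftFunctorCompIsoId D (-a) a hba).inv.naturality (τ.app X)
      have n2 := τ.naturality ((shiftFunctorCompIsoId C (-a) a hba).hom.app X)
      dsimp at n1 n2
      simp only [assoc, Iso.hom_inv_id_app_assoc]
      rw [← n1, reassoc_of% n2]
    refine ⟨?_⟩
    ext X
    exact (shiftFunctor D a).map_injective (key X)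
  refine NatTrans.CommShift.of_core fun a => ?_
  have hnat : ∀ n : ℕ, NatTrans.CommShiftCore τ (n : ℤ) := by
    intro n
    induction n with
    | zero => exact NatTrans.CommShiftCore.zero ℤ
    | succ n ih =>
      push_cast
      exact ih.add h1
  rcases Int.eq_nat_or_neg a with ⟨n, rfl | rfl⟩
  · exact hnat n
  · exact hneg _ (hnat n)

end Vale.Agent.P251.S
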