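import Vale.Agent.P251.T.Axioms
import Vale.Agent.P251.S.CommShift
import Vale.Agent.P251.S.Tel
import Mathlib.CategoryTheory.Monoidal.Closed.Braided

/-!
# P251, part S: tensoring is a triangulated functor

* `(tensorLeft X).CommShift ℤ`, `(tensorLeft X).IsTriangulated`, the same for `tensorRight X`;
* natural transformations `φ ▷ -`, `- ◁ φ` commute with shifts;
* `ihom X` is triangulated;
* `sphTensor : Sph n ⊗ Y ≅ Y⟦n⟧`.
-/

set_option linter.unusedSectionVars false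

open CategoryTheory MonoidalCategory Limits Pretriangulated

universe v u

namespace Vale.Agent.P251.S

open T

variable {T : Type u} [Category.{v} T] [Preadditive T] [HasZeroObject T] [HasShift T ℤ]
  [∀ n : ℤ, (shiftFunctor T n).Additive] [Pretriangulated T]
  [MonoidalCategory T] [SymmetricCategory T] [TensorTriangulated T]

/-- `X ⊗ Y⟦1⟧ ≅ (X ⊗ Y)⟦1⟧`, naturally in `Y`. -/
noncomputable def tensorShiftOne (X : T) :
    shiftFunctor T (1 : ℤ) ⋙ tensorLeft X ≅ tensorLeft X ⋙ shiftFunctor T (1 : ℤ) :=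
  NatIso.ofComponents
    (fun Y => whiskerLeftIso X (TensorTriangulated.e Y).symm ≪≫
      (α_ X Y ((𝟙_ T)⟦(1 : ℤ)⟧)).symm ≪≫ TensorTriangulated.e (X ⊗ Y))
    (by
      intro Y Z f
      have h : f⟦(1 : ℤ)⟧' ≫ (TensorTriangulated.e Z).inv =
          (TensorTriangulated.e Y).inv ≫ (f ▷ ((𝟙_ T)⟦(1 : ℤ)⟧)) := by
        rw [Iso.comp_inv_eq, Category.assoc, Iso.eq_inv_comp, TensorTriangulated.e_naturality]
      change (X ◁ f⟦(1 : ℤ)⟧') ≫ (X ◁ (TensorTriangulated.e Z).inv) ≫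
          (α_ X Z ((𝟙_ T)⟦(1 : ℤ)⟧)).inv ≫ (TensorTriangulated.e (X ⊗ Z)).hom =
        ((X ◁ (TensorTriangulated.e Y).inv) ≫
          (α_ X Y ((𝟙_ T)⟦(1 : ℤ)⟧)).inv ≫ (TensorTriangulated.e (X ⊗ Y)).hom) ≫
          (X ◁ f)⟦(1 : ℤ)⟧'
      rw [← whiskerLeft_comp_assoc, h, whiskerLeft_comp_assoc, Category.assoc, Category.assoc,
        ← TensorTriangulated.e_naturality]
      simp)

lemma tensorShiftOne_hom_app (X Y : T) : (tensorShiftOne X).hom.app Y =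
    (X ◁ (TensorTriangulated.e Y).inv) ≫
      (α_ X Y ((𝟙_ T)⟦(1 : ℤ)⟧)).inv ≫ (TensorTriangulated.e (X ⊗ Y)).hom := rfl

noncomputable instance tensorLeftCommShift (X : T) : (tensorLeft X).CommShift ℤ :=
  commShiftOfOne _ (tensorShiftOne X)

lemma tensorLeft_commShiftIso_one (X : T) :
    (tensorLeft X).commShiftIso (1 : ℤ) = tensorShiftOne X :=
  commShiftOfOne_iso_one _ _

lemma tensorLeft_commShiftIso_one_app (X Y : T) :
    ((tensorLeft X).commShiftIso (1 : ℤ)).hom.app Y =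
    (X ◁ (TensorTriangulated.e Y).inv) ≫
      (α_ X Y ((𝟙_ T)⟦(1 : ℤ)⟧)).inv ≫ (TensorTriangulated.e (X ⊗ Y)).hom := by
  rw [tensorLeft_commShiftIso_one]; rfl

instance tensorLeft_isTriangulated (X : T) : (tensorLeft X).IsTriangulated where
  map_distinguished Δ hΔ := by
    have h := TensorTriangulated.distinguished X Δ hΔ
    have h2 : (tensorLeft X).mapTriangle.obj Δ = Triangle.mk (X ◁ Δ.mor₁) (X ◁ Δ.mor₂)
      ((X ◁ Δ.mor₃) ≫ (X ◁ (TensorTriangulated.e Δ.obj₁).inv) ≫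
        (α_ X Δ.obj₁ ((𝟙_ T)⟦(1 : ℤ)⟧)).inv ≫ (TensorTriangulated.e (X ⊗ Δ.obj₁)).hom) := by
      change Triangle.mk (X ◁ Δ.mor₁) (X ◁ Δ.mor₂)
        ((X ◁ Δ.mor₃) ≫ ((tensorLeft X).commShiftIso (1 : ℤ)).hom.app Δ.obj₁) = _
      rw [tensorLeft_commShiftIso_one_app]
    rw [h2]
    exact h

/-- `φ ▷ -` as a natural transformation -/
def tlMap {X X' : T} (φ : X ⟶ X') : tensorLeft X ⟶ tensorLeft X' where
  app Y := φ ▷ Y
  naturality Y Y' f := by
    change (X ◁ f) ≫ (φ ▷ Y') = (φ ▷ Y) ≫ (X' ◁ f)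
    exact whisker_exchange φ f

@[simp] lemma tlMap_app {X X' : T} (φ : X ⟶ X') (Y : T) : (tlMap φ).app Y = φ ▷ Y := rfl

instance tlMap_commShift {X X' : T} (φ : X ⟶ X') : NatTrans.CommShift (tlMap φ) ℤ := by
  apply natTrans_commShift_of_one
  intro Y
  rw [tensorLeft_commShiftIso_one_app, tensorLeft_commShiftIso_one_app]
  change ((X ◁ (TensorTriangulated.e Y).inv) ≫
      (α_ X Y ((𝟙_ T)⟦(1 : ℤ)⟧)).inv ≫ (TensorTriangulated.e (X ⊗ Y)).hom) ≫
      (φ ▷ Y)⟦(1 : ℤ)⟧' = (φ ▷ (Y⟦(1 : ℤ)⟧)) ≫ (X' ◁ (TensorTriangulated.e Y).inv) ≫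
      (α_ X' Y ((𝟙_ T)⟦(1 : ℤ)⟧)).inv ≫ (TensorTriangulated.e (X' ⊗ Y)).hom
  rw [← whisker_exchange_assoc]
  simp only [Category.assoc]
  rw [← TensorTriangulated.e_naturality, ← associator_inv_naturality_left_assoc]

noncomputable instance tensorRightCommShift (X : T) : (tensorRight X).CommShift ℤ :=
  Functor.CommShift.ofIso (BraidedCategory.tensorLeftIsoTensorRight X) ℤ

instance tensorLeftIsoTensorRight_commShift (X : T) :
    NatTrans.CommShift (BraidedCategory.tensorLeftIsoTensorRight X).hom ℤ :=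
  Functor.CommShift.ofIso_compatibility (BraidedCategory.tensorLeftIsoTensorRight X) ℤ

instance tensorRight_isTriangulated (X : T) : (tensorRight X).IsTriangulated :=
  Functor.isTriangulated_of_iso (BraidedCategory.tensorLeftIsoTensorRight X)

/-- `- ◁ φ` as a natural transformation -/
def trMap {X X' : T} (φ : X ⟶ X') : tensorRight X ⟶ tensorRight X' where
  app Y := Y ◁ φ
  naturality Y Y' f := by
    change (f ▷ X) ≫ (Y' ◁ φ) = (Y ◁ φ) ≫ (f ▷ X')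
    exact (whisker_exchange f φ).symm

@[simp] lemma trMap_app {X X' : T} (φ : X ⟶ X') (Y : T) : (trMap φ).app Y = Y ◁ φ := rfl

instance trMap_commShift {X X' : T} (φ : X ⟶ X') : NatTrans.CommShift (trMap φ) ℤ := by
  have h : trMap φ = (BraidedCategory.tensorLeftIsoTensorRight X).inv ≫ tlMap φ ≫
      (BraidedCategory.tensorLeftIsoTensorRight X').hom := by
    ext Y
    simp [← BraidedCategory.braiding_naturality_right]
  rw [h]
  infer_instance

/-- A distinguished triangle tensored on the left. -/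
theorem dist_whiskerLeft (X : T) {Δ : Triangle T} (h : Δ ∈ distTriang T) :
    Triangle.mk (X ◁ Δ.mor₁) (X ◁ Δ.mor₂)
      ((X ◁ Δ.mor₃) ≫ ((tensorLeft X).commShiftIso (1 : ℤ)).hom.app Δ.obj₁) ∈ distTriang T :=
  (tensorLeft X).map_distinguished Δ h

/-- A distinguished triangle tensored on the right. -/
theorem dist_whiskerRight (X : T) {Δ : Triangle T} (h : Δ ∈ distTriang T) :
    Triangle.mk (Δ.mor₁ ▷ X) (Δ.mor₂ ▷ X)
      ((Δ.mor₃ ▷ X) ≫ ((tensorRight X).commShiftIso (1 : ℤ)).hom.app Δ.obj₁) ∈ distTriang T :=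
  (tensorRight X).map_distinguished Δ h

section sphere

/-- `𝟙⟦n⟧ ⊗ Y ≅ Y⟦n⟧` -/
noncomputable def sphTensor (n : ℤ) (Y : T) : ((𝟙_ T)⟦n⟧) ⊗ Y ≅ Y⟦n⟧ :=
  ((tensorRight Y).commShiftIso n).app (𝟙_ T) ≪≫ (shiftFunctor T n).mapIso (λ_ Y)

/-- `Y ⊗ 𝟙⟦n⟧ ≅ Y⟦n⟧` -/
noncomputable def tensorSph (n : ℤ) (Y : T) : Y ⊗ ((𝟙_ T)⟦n⟧) ≅ Y⟦n⟧ :=
  ((tensorLeft Y).commShiftIso n).app (𝟙_ T) ≪≫ (shiftFunctor T n).mapIso (ρ_ Y)

@[reassoc]
lemma sphTensor_naturality (n : ℤ) {Y Z : T} (f : Y ⟶ Z) :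
    (((𝟙_ T)⟦n⟧) ◁ f) ≫ (sphTensor n Z).hom = (sphTensor n Y).hom ≫ f⟦n⟧' := by
  have h := NatTrans.shift_app_comm (trMap f) n (𝟙_ T)
  change ((tensorRight Y).commShiftIso n).hom.app (𝟙_ T) ≫ ((𝟙_ T) ◁ f)⟦n⟧' =
    (((𝟙_ T)⟦n⟧) ◁ f) ≫ ((tensorRight Z).commShiftIso n).hom.app (𝟙_ T) at h
  change (((𝟙_ T)⟦n⟧) ◁ f) ≫ ((tensorRight Z).commShiftIso n).hom.app (𝟙_ T) ≫
      (shiftFunctor T n).map (λ_ Z).hom =
    (((tensorRight Y).commShiftIso n).hom.app (𝟙_ T) ≫ (shiftFunctor T n).map (λ_ Y).hom) ≫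
      f⟦n⟧'
  rw [← reassoc_of% h, Category.assoc, ← Functor.map_comp, ← Functor.map_comp,
    leftUnitor_naturality]

@[reassoc]
lemma tensorSph_naturality (n : ℤ) {Y Z : T} (f : Y ⟶ Z) :
    (f ▷ ((𝟙_ T)⟦n⟧)) ≫ (tensorSph n Z).hom = (tensorSph n Y).hom ≫ f⟦n⟧' := by
  have h := NatTrans.shift_app_comm (tlMap f) n (𝟙_ T)
  change ((tensorLeft Y).commShiftIso n).hom.app (𝟙_ T) ≫ (f ▷ (𝟙_ T))⟦n⟧' =
    (f ▷ ((𝟙_ T)⟦n⟧)) ≫ ((tensorLeft Z).commShiftIso n).hom.app (𝟙_ T) at h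
  change (f ▷ ((𝟙_ T)⟦n⟧)) ≫ ((tensorLeft Z).commShiftIso n).hom.app (𝟙_ T) ≫
      (shiftFunctor T n).map (ρ_ Z).hom =
    (((tensorLeft Y).commShiftIso n).hom.app (𝟙_ T) ≫ (shiftFunctor T n).map (ρ_ Y).hom) ≫
      f⟦n⟧'
  rw [← reassoc_of% h, Category.assoc, ← Functor.map_comp, ← Functor.map_comp,
    rightUnitor_naturality]

end sphere

section closed

variable [MonoidalClosed T]

noncomputable instance ihomCommShift (X : T) : (ihom X).CommShift ℤ :=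
  (ihom.adjunction X).rightAdjointCommShift ℤ

instance ihomAdjunction_commShift (X : T) : (ihom.adjunction X).CommShift ℤ :=
  (ihom.adjunction X).commShift_of_leftAdjoint ℤ

instance ihom_isTriangulated (X : T) : (ihom X).IsTriangulated :=
  (ihom.adjunction X).isTriangulated_rightAdjoint

instance (X : T) : PreservesLimits (ihom X) := (ihom.adjunction X).rightAdjoint_preservesLimits

instance (X : T) : PreservesColimits (tensorRight X) :=
  preservesColimits_of_natIso (BraidedCategory.tensorLeftIsoTensorRight X)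

end closed

end Vale.Agent.P251.S
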