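import Vale.Agent.P251.S.TowerR

/-!
# P251, part S: reduction modulo an integer

Let `𝟙 -p→ 𝟙 -i→ C -δ→ 𝟙⟦1⟧` be a distinguished triangle (`C = S/p`).  `redC i : 𝟭 ⟶ - ⊗ C`
commutes with shifts, and `Y -p→ Y → Y ⊗ C → Y⟦1⟧` is distinguished for every `Y`
(`redTri_distinguished`).  Consequences for `Hom (X, Y) → Hom (X, Y ⊗ C)`:

* `exists_zsmul_of_red` : the kernel is `p · Hom (X, Y)`;
* `exists_lift_of_torsionFree` : it is onto if `Hom (X, Y⟦1⟧)` has no `p`-torsion;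
* `torsionFree_of_red` : `Hom (X, Y)` has no `p`-torsion if `Hom (X⟦1⟧, Y ⊗ C) = 0`.
-/

open CategoryTheory MonoidalCategory Limits Pretriangulated

universe v u

namespace Vale.Agent.P251.S

open Vale.Agent.P251.T

variable {T : Type u} [Category.{v} T] [Preadditive T] [HasZeroObject T] [HasShift T ℤ]
  [∀ n : ℤ, (shiftFunctor T n).Additive] [Pretriangulated T] [MonoidalCategory T]
  [SymmetricCategory T] [TensorTriangulated T]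

/-- The left unitor as a natural isomorphism. -/
def lunIso (T : Type u) [Category.{v} T] [MonoidalCategory T] : tensorLeft (𝟙_ T) ≅ 𝟭 T :=
  NatIso.ofComponents (fun Y => λ_ Y) (fun f => leftUnitor_naturality f)

instance lunIso_commShift : NatTrans.CommShift (lunIso T).hom ℤ := by
  have h : (lunIso T).hom = lunNat T := rfl
  rw [h]
  infer_instance

/-- The natural transformation `Y ⟶ Y ⊗ C` given by `i : 𝟙 ⟶ C`. -/
def redC {C : T} (i : 𝟙_ T ⟶ C) : 𝟭 T ⟶ tensorRight C where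
  app Y := (ρ_ Y).inv ≫ (Y ◁ i)
  naturality Y Z f := by
    change f ≫ (ρ_ Z).inv ≫ (Z ◁ i) = ((ρ_ Y).inv ≫ (Y ◁ i)) ≫ (f ▷ C)
    rw [Category.assoc, whisker_exchange, rightUnitor_inv_naturality_assoc]

omit [Preadditive T] [HasZeroObject T] [HasShift T ℤ] [∀ n : ℤ, (shiftFunctor T n).Additive]
  [Pretriangulated T] [SymmetricCategory T] [TensorTriangulated T] in
@[simp] lemma redC_app {C : T} (i : 𝟙_ T ⟶ C) (Y : T) :
    (redC i).app Y = (ρ_ Y).inv ≫ (Y ◁ i) := rfl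

instance redC_commShift {C : T} (i : 𝟙_ T ⟶ C) : NatTrans.CommShift (redC i) ℤ := by
  have h : redC i = (lunIso T).inv ≫ (BraidedCategory.tensorLeftIsoTensorRight (𝟙_ T)).hom ≫
      trMap i := by
    ext Y
    change (ρ_ Y).inv ≫ (Y ◁ i) = (λ_ Y).inv ≫ (β_ (𝟙_ T) Y).hom ≫ (Y ◁ i)
    rw [braiding_tensorUnit_left]
    simp
  rw [h]
  infer_instance

/-- The boundary map `Y ⊗ C ⟶ Y⟦1⟧`. -/
noncomputable def bdC {C : T} (δ : C ⟶ (𝟙_ T)⟦(1 : ℤ)⟧) (Y : T) : Y ⊗ C ⟶ Y⟦(1 : ℤ)⟧ :=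
  (Y ◁ δ) ≫ (tensorSph 1 Y).hom

@[reassoc]
lemma bdC_naturality {C : T} (δ : C ⟶ (𝟙_ T)⟦(1 : ℤ)⟧) {Y Z : T} (f : Y ⟶ Z) :
    (f ▷ C) ≫ bdC δ Z = bdC δ Y ≫ f⟦(1 : ℤ)⟧' := by
  rw [bdC, bdC, Category.assoc, ← tensorSph_naturality, whisker_exchange_assoc]

section

variable {C : T} {n : ℤ} {i : 𝟙_ T ⟶ C} {δ : C ⟶ (𝟙_ T)⟦(1 : ℤ)⟧}
  (hC : Triangle.mk (n • 𝟙 (𝟙_ T)) i δ ∈ distTriang T)

include hC

/-- The triangle `Y -n→ Y → Y ⊗ C → Y⟦1⟧`. -/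
lemma redTri_distinguished (Y : T) :
    Triangle.mk (n • 𝟙 Y) ((redC i).app Y) (bdC δ Y) ∈ distTriang T := by
  refine isomorphic_distinguished _ (dist_whiskerLeft Y hC) _ ?_
  refine Triangle.isoMk _ _ (ρ_ Y).symm (ρ_ Y).symm (Iso.refl _) ?_ ?_ ?_
  · change (n • 𝟙 Y) ≫ (ρ_ Y).inv = (ρ_ Y).inv ≫ (Y ◁ (n • 𝟙 (𝟙_ T)))
    have h : Y ◁ (n • 𝟙 (𝟙_ T)) = n • 𝟙 _ :=
      ((tensorLeft Y).map_zsmul).trans (congrArg _ (MonoidalCategory.whiskerLeft_id _ _))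
    rw [h, Preadditive.zsmul_comp, Preadditive.comp_zsmul, Category.id_comp, Category.comp_id]
  · change ((ρ_ Y).inv ≫ (Y ◁ i)) ≫ 𝟙 _ = (ρ_ Y).inv ≫ (Y ◁ i)
    rw [Category.comp_id]
  · change ((Y ◁ δ) ≫ ((tensorLeft Y).commShiftIso (1 : ℤ)).hom.app (𝟙_ T) ≫
      ((ρ_ Y).hom)⟦(1 : ℤ)⟧') ≫ ((ρ_ Y).inv)⟦(1 : ℤ)⟧' =
      𝟙 _ ≫ (Y ◁ δ) ≫ ((tensorLeft Y).commShiftIso (1 : ℤ)).hom.app (𝟙_ T)
    rw [Category.id_comp, Category.assoc, Category.assoc, ← Functor.map_comp, Iso.hom_inv_id,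
      CategoryTheory.Functor.map_id]
    exact congrArg _ (Category.comp_id _)

lemma zsmul_red (Y : T) : n • ((redC i).app Y) = 0 := by
  have h := comp_distTriang_mor_zero₁₂ _ (redTri_distinguished hC Y)
  change (n • 𝟙 Y) ≫ ((redC i).app Y) = 0 at h
  rwa [Preadditive.zsmul_comp, Category.id_comp] at h

lemma zsmul_comp_red {X Y : T} (f : X ⟶ Y) : (n • f) ≫ ((redC i).app Y) = 0 := by
  rw [Preadditive.zsmul_comp, ← Preadditive.comp_zsmul, zsmul_red hC]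
  exact comp_zero

/-- The kernel of the reduction is `n · Hom (X, Y)`. -/
theorem exists_zsmul_of_red {X Y : T} (f : X ⟶ Y) (h : f ≫ (redC i).app Y = 0) :
    ∃ g : X ⟶ Y, n • g = f := by
  obtain ⟨g, hg⟩ : ∃ g : X ⟶ Y, f = g ≫ (n • 𝟙 Y) :=
    Triangle.coyoneda_exact₂ _ (redTri_distinguished hC Y) f h
  exact ⟨g, by rw [hg, Preadditive.comp_zsmul, Category.comp_id]⟩

lemma bdC_zsmul (Y : T) : n • bdC δ Y = 0 := by
  have h := comp_distTriang_mor_zero₃₁ _ (redTri_distinguished hC Y)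
  change bdC δ Y ≫ (n • 𝟙 Y)⟦(1 : ℤ)⟧' = 0 at h
  rwa [Functor.map_zsmul, CategoryTheory.Functor.map_id, Preadditive.comp_zsmul,
    Category.comp_id] at h

/-- The reduction is onto if `Hom (X, Y⟦1⟧)` has no `n`-torsion. -/
theorem exists_lift_of_torsionFree {X Y : T} (htf : ∀ g : X ⟶ Y⟦(1 : ℤ)⟧, n • g = 0 → g = 0)
    (f : X ⟶ Y ⊗ C) : ∃ g : X ⟶ Y, g ≫ (redC i).app Y = f := by
  have h : f ≫ bdC δ Y = 0 := by
    apply htf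
    rw [← Preadditive.comp_zsmul, bdC_zsmul hC, comp_zero]
  obtain ⟨g, hg⟩ : ∃ g : X ⟶ Y, f = g ≫ (redC i).app Y :=
    Triangle.coyoneda_exact₃ _ (redTri_distinguished hC Y) f h
  exact ⟨g, hg.symm⟩

/-- `Hom (X, Y)` has no `n`-torsion if `Hom (X⟦1⟧, Y ⊗ C) = 0`. -/
theorem torsionFree_of_red {X Y : T} (h0 : ∀ g : X⟦(1 : ℤ)⟧ ⟶ Y ⊗ C, g = 0) (f : X ⟶ Y)
    (hf : n • f = 0) : f = 0 := by
  have h : f⟦(1 : ℤ)⟧' ≫ (n • 𝟙 Y)⟦(1 : ℤ)⟧' = 0 := by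
    rw [← Functor.map_comp, Preadditive.comp_zsmul, Category.comp_id, hf, Functor.map_zero]
  obtain ⟨g, hg⟩ : ∃ g : X⟦(1 : ℤ)⟧ ⟶ Y ⊗ C, f⟦(1 : ℤ)⟧' = g ≫ bdC δ Y :=
    Triangle.coyoneda_exact₁ _ (redTri_distinguished hC Y) (f⟦(1 : ℤ)⟧') h
  apply (shiftFunctor T (1 : ℤ)).map_injective
  rw [hg, h0 g, zero_comp, Functor.map_zero]

/-- `Hom (P⟦t⟧, Y)` has no `n`-torsion if `Hom (P⟦t+1⟧, Y ⊗ C) = 0`. -/
theorem torsionFree_of_red_shift {P Y : T} (t t' : ℤ) (ht : t + 1 = t')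
    (h0 : ∀ g : P⟦t'⟧ ⟶ Y ⊗ C, g = 0) (f : P⟦t⟧ ⟶ Y) (hf : n • f = 0) : f = 0 := by
  refine torsionFree_of_red hC (fun g => ?_) f hf
  have h := h0 ((shiftFunctorAdd' T t 1 t' ht).hom.app P ≫ g)
  have h2 := congrArg (fun z => (shiftFunctorAdd' T t 1 t' ht).inv.app P ≫ z) h
  simpa using h2

end

end Vale.Agent.P251.S
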