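import Vale.Agent.P251.S.ExactCouple
import Mathlib.CategoryTheory.Triangulated.Functor
import Mathlib.CategoryTheory.Triangulated.Pretriangulated

/-!
# P251, part S: the exact couple of a tower of triangles

A tower in the `J`-convention: distinguished triangles
`J s → W s → J (s+1) → (J s)⟦1⟧` (maps `a`, `b`, `c`).  For a test object `P` the groups
`D^s_n = Hom (P⟦n+s⟧, J s)`, `E^s_n = Hom (P⟦n+s⟧, W s)` form an exact couple of Adams type; for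
fixed `t = n + s` the complex `E_1` is `Hom (P⟦t⟧, W s)` with the differential `(b s ≫ a (s+1))`.
-/

open CategoryTheory Limits Pretriangulated

universe v u

namespace Vale.Agent.P251.S

section Shift

variable {D : Type u} [Category.{v} D] [Preadditive D] [HasShift D ℤ]
  [∀ n : ℤ, (shiftFunctor D n).Additive]

/-- The suspension isomorphism `Hom (P⟦t⟧, Y) ≃ Hom (P⟦t+k⟧, Y⟦k⟧)`. -/
noncomputable def sh {P Y : D} (t k t' : ℤ) (h : t + k = t') :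
    (P⟦t⟧ ⟶ Y) ≃+ (P⟦t'⟧ ⟶ Y⟦k⟧) where
  toFun f := (shiftFunctorAdd' D t k t' h).hom.app P ≫ f⟦k⟧'
  invFun g := (shiftFunctor D k).preimage ((shiftFunctorAdd' D t k t' h).inv.app P ≫ g)
  left_inv f := by
    apply (shiftFunctor D k).map_injective
    simp
  right_inv g := by simp
  map_add' f g := by simp

@[simp] lemma sh_comp {P Y Z : D} (t k t' : ℤ) (h : t + k = t') (f : P⟦t⟧ ⟶ Y) (g : Y ⟶ Z) :
    sh t k t' h (f ≫ g) = sh t k t' h f ≫ g⟦k⟧' := by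
  simp [sh]

lemma sh_symm_comp {P Y Z : D} (t k t' : ℤ) (h : t + k = t') (f : P⟦t'⟧ ⟶ Y⟦k⟧)
    (g : Y ⟶ Z) : (sh t k t' h).symm f ≫ g = (sh t k t' h).symm (f ≫ g⟦k⟧') := by
  apply (sh t k t' h).injective
  simp

lemma sh_sh_comm {P Y : D} (t k l t' t'' t''' : ℤ) (h1 : t + k = t') (h2 : t' + l = t''')
    (h3 : t + l = t'') (h4 : t'' + k = t''') (f : P⟦t⟧ ⟶ Y) :
    sh t' l t''' h2 (sh t k t' h1 f) ≫ (shiftFunctorComm D k l).hom.app Y =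
      sh t'' k t''' h4 (sh t l t'' h3 f) := by
  simp only [sh, AddEquiv.coe_mk, Equiv.coe_fn_mk, Functor.map_comp, Category.assoc]
  erw [(shiftFunctorComm D k l).hom.naturality f]
  rw [shiftFunctorComm_eq D k l (k + l) rfl]
  have e1 := shiftFunctorAdd'_assoc_hom_app (C := D) t k l t' (k + l) t''' h1 rfl
    (by rw [h1, h2]) P
  have e2 := shiftFunctorAdd'_assoc_hom_app (C := D) t l k t'' (k + l) t''' h3 (add_comm l k)
    (by rw [h3, h4]) P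
  simp only [Iso.trans_hom, Iso.symm_hom, NatTrans.comp_app, Functor.comp_map]
  rw [reassoc_of% e1, reassoc_of% e2]
  simp only [Category.assoc, Iso.hom_inv_id_app_assoc]

/-- Change of the name of the degree. -/
def cst (P Y : D) {t t' : ℤ} (h : t = t') : (P⟦t⟧ ⟶ Y) ≃+ (P⟦t'⟧ ⟶ Y) := by
  subst h; exact AddEquiv.refl _

omit [∀ n : ℤ, (shiftFunctor D n).Additive] in
@[simp] lemma cst_rfl {P Y : D} {t : ℤ} (f : P⟦t⟧ ⟶ Y) : cst P Y rfl f = f := rfl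

omit [∀ n : ℤ, (shiftFunctor D n).Additive] in
lemma cst_comp {P Y Z : D} {t t' : ℤ} (h : t = t') (f : P⟦t⟧ ⟶ Y) (g : Y ⟶ Z) :
    cst P Z h (f ≫ g) = cst P Y h f ≫ g := by
  subst h; rfl

omit [∀ n : ℤ, (shiftFunctor D n).Additive] in
lemma cst_cst {P Y : D} {t t' t'' : ℤ} (h : t = t') (h' : t' = t'') (f : P⟦t⟧ ⟶ Y) :
    cst P Y h' (cst P Y h f) = cst P Y (h.trans h') f := by
  subst h; subst h'; rfl

lemma sh_cst {P Y : D} {t s : ℤ} (k t' : ℤ) (e : t = s) (h : s + k = t') (f : P⟦t⟧ ⟶ Y) :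
    sh s k t' h (cst P Y e f) = sh t k t' (by rw [e, h]) f := by
  subst e; rfl

lemma cst_sh {P Y : D} {t' s' : ℤ} (t k : ℤ) (e : t' = s') (h : t + k = t') (f : P⟦t⟧ ⟶ Y) :
    cst P _ e (sh t k t' h f) = sh t k s' (by rw [h, e]) f := by
  subst e; rfl

end Shift

section Tower

variable {D : Type u} [Category.{v} D] [Preadditive D] [HasZeroObject D] [HasShift D ℤ]
  [∀ n : ℤ, (shiftFunctor D n).Additive] [Pretriangulated D]

/-- A tower of distinguished triangles `J s → W s → J (s+1) → (J s)⟦1⟧` (maps `a`, `b`, `c`). -/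
structure Tow (D : Type u) [Category.{v} D] [Preadditive D] [HasZeroObject D] [HasShift D ℤ]
    [∀ n : ℤ, (shiftFunctor D n).Additive] [Pretriangulated D] where
  /-- the objects `J s` (`J^{⊗s}`) -/
  J : ℕ → D
  /-- the objects `W s` (`R ⊗ J^{⊗s}`) -/
  W : ℕ → D
  /-- the first map -/
  a : ∀ s, J s ⟶ W s
  /-- the second map -/
  b : ∀ s, W s ⟶ J (s + 1)
  /-- the connecting map -/
  c : ∀ s, J (s + 1) ⟶ (J s)⟦(1 : ℤ)⟧
  dist : ∀ s, Triangle.mk (a s) (b s) (c s) ∈ distTriang D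

namespace Tow

variable (X : Tow D) (P : D)

@[reassoc (attr := simp)] lemma a_b (s : ℕ) : X.a s ≫ X.b s = 0 :=
  comp_distTriang_mor_zero₁₂ _ (X.dist s)

@[reassoc (attr := simp)] lemma b_c (s : ℕ) : X.b s ≫ X.c s = 0 :=
  comp_distTriang_mor_zero₂₃ _ (X.dist s)

@[reassoc (attr := simp)] lemma c_a (s : ℕ) : X.c s ≫ (X.a s)⟦(1 : ℤ)⟧' = 0 :=
  comp_distTriang_mor_zero₃₁ _ (X.dist s)

/-- The map of the tower. -/
noncomputable def iMap (s : ℕ) (n : ℤ) :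
    (P⟦n + ((s + 1 : ℕ) : ℤ)⟧ ⟶ X.J (s + 1)) →+ (P⟦n + (s : ℤ)⟧ ⟶ X.J s) :=
  AddMonoidHom.mk' (fun y => (sh (n + (s : ℤ)) 1 (n + ((s + 1 : ℕ) : ℤ))
    (by push_cast; ring)).symm (y ≫ X.c s)) (by intro x y; simp)

lemma iMap_apply (s : ℕ) (n : ℤ) (y : P⟦n + ((s + 1 : ℕ) : ℤ)⟧ ⟶ X.J (s + 1)) :
    X.iMap P s n y = (sh (n + (s : ℤ)) 1 (n + ((s + 1 : ℕ) : ℤ))
      (by push_cast; ring)).symm (y ≫ X.c s) := rfl

/-- The map to `E_1`. -/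
def jMap (s : ℕ) (n : ℤ) : (P⟦n + (s : ℤ)⟧ ⟶ X.J s) →+ (P⟦n + (s : ℤ)⟧ ⟶ X.W s) :=
  AddMonoidHom.mk' (fun y => y ≫ X.a s) (by intro x y; simp)

/-- The boundary map. -/
def kMap (s : ℕ) (n m : ℤ) (h : n = m + 1) :
    (P⟦n + (s : ℤ)⟧ ⟶ X.W s) →+ (P⟦m + ((s + 1 : ℕ) : ℤ)⟧ ⟶ X.J (s + 1)) :=
  AddMonoidHom.mk' (fun y => cst P (X.J (s + 1)) (by rw [h]; push_cast; ring) (y ≫ X.b s))
    (by intro x y; simp)

/-- The exact couple of a tower. -/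
noncomputable def couple : Couple.{v, v} where
  D s n := P⟦n + (s : ℤ)⟧ ⟶ X.J s
  E s n := P⟦n + (s : ℤ)⟧ ⟶ X.W s
  i s n := X.iMap P s n
  j s n := X.jMap P s n
  k s n m h := X.kMap P s n m h
  j_i s n y := by
    change (sh _ _ _ _).symm (y ≫ X.c s) ≫ X.a s = 0
    rw [sh_symm_comp, Category.assoc, c_a, comp_zero, map_zero]
  exact_j s n y hy := by
    change y ≫ X.a s = 0 at hy
    have h1 : n + (s : ℤ) + 1 = n + ((s + 1 : ℕ) : ℤ) := by push_cast; ring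
    have h2 : sh (n + (s : ℤ)) 1 _ h1 y ≫ (X.a s)⟦(1 : ℤ)⟧' = 0 := by
      rw [← sh_comp, hy, map_zero]
    obtain ⟨g, hg⟩ := Triangle.coyoneda_exact₁ _ (X.dist s) _ h2
    refine ⟨g, ?_⟩
    change (sh _ _ _ _).symm (g ≫ X.c s) = y
    rw [AddEquiv.symm_apply_eq]
    exact hg.symm
  k_j s n m h y := by
    change cst _ _ _ ((y ≫ X.a s) ≫ X.b s) = 0
    rw [Category.assoc, a_b, comp_zero, map_zero]
  exact_k s n m h z hz := by
    change cst _ _ _ (z ≫ X.b s) = 0 at hz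
    rw [AddEquiv.map_eq_zero_iff] at hz
    obtain ⟨g, hg⟩ := Triangle.coyoneda_exact₂ _ (X.dist s) _ hz
    exact ⟨g, hg.symm⟩
  i_k s n m h z := by
    change (sh _ _ _ _).symm (cst _ _ _ (z ≫ X.b s) ≫ X.c s) = 0
    rw [← cst_comp, Category.assoc, b_c, comp_zero, map_zero, map_zero]
  exact_i s n m h y hy := by
    change (sh _ _ _ _).symm (y ≫ X.c s) = 0 at hy
    rw [AddEquiv.map_eq_zero_iff] at hy
    obtain ⟨g, hg⟩ : ∃ g : P⟦m + ((s + 1 : ℕ) : ℤ)⟧ ⟶ X.W s, y = g ≫ X.b s :=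
      Triangle.coyoneda_exact₃ _ (X.dist s) _ hy
    have e : m + ((s + 1 : ℕ) : ℤ) = n + (s : ℤ) := by rw [h]; push_cast; ring
    refine ⟨cst _ _ e g, ?_⟩
    change cst _ _ _ (cst _ _ e g ≫ X.b s) = y
    rw [← cst_comp, cst_cst, hg]
    rfl

/-- The identification of `E^s_n` with `Hom (P⟦t⟧, W s)`, `t = n + s`. -/
def eE {s : ℕ} {n t : ℤ} (h : n + (s : ℤ) = t) :
    (X.couple P).E s n ≃+ (P⟦t⟧ ⟶ X.W s) := cst P (X.W s) h

/-- The identification of `D^s_n` with `Hom (P⟦t⟧, J s)`, `t = n + s`. -/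
def eD {s : ℕ} {n t : ℤ} (h : n + (s : ℤ) = t) :
    (X.couple P).D s n ≃+ (P⟦t⟧ ⟶ X.J s) := cst P (X.J s) h

lemma eE_j {s : ℕ} {n t : ℤ} (h : n + (s : ℤ) = t) (y : (X.couple P).D s n) :
    X.eE P h ((X.couple P).j s n y) = X.eD P h y ≫ X.a s :=
  cst_comp _ _ _

lemma eD_k {s : ℕ} {n m t : ℤ} (h : n = m + 1) (h1 : n + (s : ℤ) = t)
    (h2 : m + ((s + 1 : ℕ) : ℤ) = t) (z : (X.couple P).E s n) :
    X.eD P h2 ((X.couple P).k s n m h z) = X.eE P h1 z ≫ X.b s := by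
  exact (cst_cst _ h2 (_ : P⟦n + (s : ℤ)⟧ ⟶ X.J (s + 1))).trans
    (cst_comp h1 (z : P⟦n + (s : ℤ)⟧ ⟶ X.W s) (X.b s))

/-- In internal degree `t` the differential of `E_1` is composition with `b s ≫ a (s+1)`. -/
lemma eE_d {s : ℕ} {n m t : ℤ} (h : n = m + 1) (h1 : n + (s : ℤ) = t)
    (h2 : m + ((s + 1 : ℕ) : ℤ) = t) (z : (X.couple P).E s n) :
    X.eE P h2 ((X.couple P).d s n m h z) = X.eE P h1 z ≫ X.b s ≫ X.a (s + 1) := by
  rw [Couple.d_apply, eE_j, eD_k X P h h1 h2, Category.assoc]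

lemma eD_i {s : ℕ} {n t t' : ℤ} (h : n + (s : ℤ) = t) (h' : n + ((s + 1 : ℕ) : ℤ) = t')
    (ht : t + 1 = t') (y : (X.couple P).D (s + 1) n) :
    sh t 1 t' ht (X.eD P h ((X.couple P).i s n y)) = X.eD P h' y ≫ X.c s := by
  subst h; subst h'
  change sh _ _ _ _ ((sh _ _ _ _).symm (y ≫ X.c s)) = y ≫ X.c s
  rw [AddEquiv.apply_symm_apply]

/-! ### Multiplication by an element of filtration `2` -/

/-- Multiplication on `D`. -/
noncomputable def muMap (k a : ℤ) (hk : k = a + 2) (ξ : ∀ s, (X.J s)⟦k⟧ ⟶ X.J (s + 2))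
    (s : ℕ) (n : ℤ) :
    (P⟦n + (s : ℤ)⟧ ⟶ X.J s) →+ (P⟦n + a + ((s + 2 : ℕ) : ℤ)⟧ ⟶ X.J (s + 2)) :=
  AddMonoidHom.mk' (fun y => sh (P := P) (n + (s : ℤ)) k (n + a + ((s + 2 : ℕ) : ℤ))
    (by rw [hk]; push_cast; ring) y ≫ ξ s)
    (by intro x y; rw [map_add, Preadditive.add_comp])

lemma iMap_muMap (k a : ℤ) (hk : k = a + 2) (ξ : ∀ s, (X.J s)⟦k⟧ ⟶ X.J (s + 2))
    (hξ : ∀ s, ξ (s + 1) ≫ X.c (s + 2) =
      (X.c s)⟦k⟧' ≫ (shiftFunctorComm D (1 : ℤ) k).hom.app (X.J s) ≫ (ξ s)⟦(1 : ℤ)⟧')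
    (s : ℕ) (n : ℤ) (y : P⟦n + ((s + 1 : ℕ) : ℤ)⟧ ⟶ X.J (s + 1)) :
    X.iMap P (s + 2) (n + a) (X.muMap P k a hk ξ (s + 1) n y) =
      X.muMap P k a hk ξ s n (X.iMap P s n y) := by
  change (sh _ _ _ _).symm ((sh (P := P) _ k _ _ y ≫ ξ (s + 1)) ≫ X.c (s + 2)) =
    sh (P := P) _ k _ _ ((sh _ _ _ _).symm (y ≫ X.c s)) ≫ ξ s
  rw [AddEquiv.symm_apply_eq, sh_comp, Category.assoc, hξ]
  have h1 : n + (s : ℤ) + 1 = n + ((s + 1 : ℕ) : ℤ) := by push_cast; ring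
  have h2 : n + ((s + 1 : ℕ) : ℤ) + k = n + a + ((s + 2 + 1 : ℕ) : ℤ) := by
    rw [hk]; push_cast; ring
  have h3 : n + (s : ℤ) + k = n + a + ((s + 2 : ℕ) : ℤ) := by rw [hk]; push_cast; ring
  have h4 : n + a + ((s + 2 : ℕ) : ℤ) + 1 = n + a + ((s + 2 + 1 : ℕ) : ℤ) := by
    push_cast; ring
  have key := sh_sh_comm (P := P) (n + (s : ℤ)) 1 k _ _ _ h1 h2 h3 h4
    ((sh (n + (s : ℤ)) 1 _ h1).symm (y ≫ X.c s))
  rw [AddEquiv.apply_symm_apply, sh_comp, Category.assoc] at key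
  rw [← key]
  simp only [Category.assoc]

/-- Maps `ξ s : (J s)⟦k⟧ ⟶ J (s + 2)` compatible with the connecting maps of the tower, with
`k = a + 2`: multiplication by an element of filtration `2` and stem `a`. -/
noncomputable def mul2 (k a : ℤ) (hk : k = a + 2) (ξ : ∀ s, (X.J s)⟦k⟧ ⟶ X.J (s + 2))
    (hξ : ∀ s, ξ (s + 1) ≫ X.c (s + 2) =
      (X.c s)⟦k⟧' ≫ (shiftFunctorComm D (1 : ℤ) k).hom.app (X.J s) ≫ (ξ s)⟦(1 : ℤ)⟧') :
    (X.couple P).Mul2 a where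
  μ s n := X.muMap P k a hk ξ s n
  i_μ s n y := X.iMap_muMap P k a hk ξ hξ s n y

lemma eD_μ (k a : ℤ) (hk : k = a + 2) (ξ : ∀ s, (X.J s)⟦k⟧ ⟶ X.J (s + 2))
    (hξ : ∀ s, ξ (s + 1) ≫ X.c (s + 2) =
      (X.c s)⟦k⟧' ≫ (shiftFunctorComm D (1 : ℤ) k).hom.app (X.J s) ≫ (ξ s)⟦(1 : ℤ)⟧')
    {s : ℕ} {n t t' : ℤ} (h : n + (s : ℤ) = t) (h' : n + a + ((s + 2 : ℕ) : ℤ) = t')
    (ht : t + k = t') (y : (X.couple P).D s n) :
    X.eD P h' ((X.mul2 P k a hk ξ hξ).μ s n y) = sh t k t' ht (X.eD P h y) ≫ ξ s := by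
  subst h; subst h'
  rfl

end Tow

/-! ### Morphisms of towers -/

namespace Tow

/-- A morphism of towers. -/
structure Mor (X Y : Tow D) where
  /-- the map on `J` -/
  f : ∀ s, X.J s ⟶ Y.J s
  /-- the map on `W` -/
  g : ∀ s, X.W s ⟶ Y.W s
  comm_a : ∀ s, X.a s ≫ g s = f s ≫ Y.a s
  comm_b : ∀ s, X.b s ≫ f (s + 1) = g s ≫ Y.b s
  comm_c : ∀ s, X.c s ≫ (f s)⟦(1 : ℤ)⟧' = f (s + 1) ≫ Y.c s

variable {X Y : Tow D} (φ : Mor X Y) (P : D)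

namespace Mor

/-- The map on `D`. -/
noncomputable def fD (s : ℕ) (n : ℤ) : (X.couple P).D s n →+ (Y.couple P).D s n :=
  (AddMonoidHom.mk' (fun (y : P⟦n + (s : ℤ)⟧ ⟶ X.J s) => y ≫ φ.f s)
    (fun x y => Preadditive.add_comp _ _ _ x y (φ.f s)) :
    (P⟦n + (s : ℤ)⟧ ⟶ X.J s) →+ (P⟦n + (s : ℤ)⟧ ⟶ Y.J s))

/-- The map on `E`. -/
noncomputable def fE (s : ℕ) (n : ℤ) : (X.couple P).E s n →+ (Y.couple P).E s n :=
  (AddMonoidHom.mk' (fun (y : P⟦n + (s : ℤ)⟧ ⟶ X.W s) => y ≫ φ.g s)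
    (fun x y => Preadditive.add_comp _ _ _ x y (φ.g s)) :
    (P⟦n + (s : ℤ)⟧ ⟶ X.W s) →+ (P⟦n + (s : ℤ)⟧ ⟶ Y.W s))

lemma eD_fD {s : ℕ} {n t : ℤ} (h : n + (s : ℤ) = t) (y : (X.couple P).D s n) :
    Y.eD P h (φ.fD P s n y) = X.eD P h y ≫ φ.f s := by
  subst h; rfl

lemma eE_fE {s : ℕ} {n t : ℤ} (h : n + (s : ℤ) = t) (y : (X.couple P).E s n) :
    Y.eE P h (φ.fE P s n y) = X.eE P h y ≫ φ.g s := by
  subst h; rfl

lemma iMap_comm (s : ℕ) (n : ℤ) (y : P⟦n + ((s + 1 : ℕ) : ℤ)⟧ ⟶ X.J (s + 1)) :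
    Y.iMap P s n (y ≫ φ.f (s + 1)) = X.iMap P s n y ≫ φ.f s := by
  rw [iMap_apply, iMap_apply, sh_symm_comp, Category.assoc, Category.assoc, φ.comm_c]

lemma i_fD (s : ℕ) (n : ℤ) (y : (X.couple P).D (s + 1) n) :
    (Y.couple P).i s n (φ.fD P (s + 1) n y) = φ.fD P s n ((X.couple P).i s n y) :=
  φ.iMap_comm P s n y

lemma j_fD (s : ℕ) (n : ℤ) (y : (X.couple P).D s n) :
    (Y.couple P).j s n (φ.fD P s n y) = φ.fE P s n ((X.couple P).j s n y) := by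
  have : ∀ y : P⟦n + (s : ℤ)⟧ ⟶ X.J s, (y ≫ φ.f s) ≫ Y.a s = (y ≫ X.a s) ≫ φ.g s := by
    intro y
    rw [Category.assoc, Category.assoc, φ.comm_a]
  exact this y

lemma k_fE (s : ℕ) (n m : ℤ) (h : n = m + 1) (z : (X.couple P).E s n) :
    (Y.couple P).k s n m h (φ.fE P s n z) = φ.fD P (s + 1) m ((X.couple P).k s n m h z) := by
  have e : n + (s : ℤ) = m + ((s + 1 : ℕ) : ℤ) := by rw [h]; push_cast; ring
  have : ∀ z : P⟦n + (s : ℤ)⟧ ⟶ X.W s,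
      cst P _ e ((z ≫ φ.g s) ≫ Y.b s) = cst P _ e (z ≫ X.b s) ≫ φ.f (s + 1) := by
    intro z
    rw [← cst_comp, Category.assoc, Category.assoc, φ.comm_b]
  exact this z

end Mor

end Tow

/-! ### Image of a tower under a triangulated functor -/

namespace Tow

variable {T : Type*} [Category T] [Preadditive T] [HasZeroObject T] [HasShift T ℤ]
  [∀ n : ℤ, (shiftFunctor T n).Additive] [Pretriangulated T]

/-- The image of a tower under a triangulated functor. -/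
def map (X : Tow T) (F : T ⥤ D) [F.CommShift ℤ] [F.IsTriangulated] : Tow D where
  J s := F.obj (X.J s)
  W s := F.obj (X.W s)
  a s := F.map (X.a s)
  b s := F.map (X.b s)
  c s := F.map (X.c s) ≫ (F.commShiftIso (1 : ℤ)).hom.app (X.J s)
  dist s := F.map_distinguished _ (X.dist s)

/-- A natural transformation commuting with the shifts induces a morphism of towers. -/
def mapTrans (X : Tow T) {F G : T ⥤ D} [F.CommShift ℤ] [F.IsTriangulated] [G.CommShift ℤ]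
    [G.IsTriangulated] (τ : F ⟶ G) [NatTrans.CommShift τ ℤ] : Mor (X.map F) (X.map G) where
  f s := τ.app (X.J s)
  g s := τ.app (X.W s)
  comm_a s := τ.naturality _
  comm_b s := τ.naturality _
  comm_c s := by
    change (F.map (X.c s) ≫ (F.commShiftIso (1 : ℤ)).hom.app (X.J s)) ≫
      (τ.app (X.J s))⟦(1 : ℤ)⟧' =
      τ.app (X.J (s + 1)) ≫ G.map (X.c s) ≫ (G.commShiftIso (1 : ℤ)).hom.app (X.J s)
    rw [Category.assoc, NatTrans.shift_app_comm, τ.naturality_assoc]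

/-- The multiplication maps on the image of a tower. -/
noncomputable def mapXi (X : Tow T) (F : T ⥤ D) [F.CommShift ℤ] [F.IsTriangulated] {k : ℤ}
    (ξ : ∀ s, (X.J s)⟦k⟧ ⟶ X.J (s + 2)) (s : ℕ) :
    ((X.map F).J s)⟦k⟧ ⟶ (X.map F).J (s + 2) :=
  (F.commShiftIso k).inv.app (X.J s) ≫ F.map (ξ s)

lemma mapXi_comm (X : Tow T) (F : T ⥤ D) [F.CommShift ℤ] [F.IsTriangulated] {k : ℤ}
    (ξ : ∀ s, (X.J s)⟦k⟧ ⟶ X.J (s + 2))
    (hξ : ∀ s, ξ (s + 1) ≫ X.c (s + 2) =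
      (X.c s)⟦k⟧' ≫ (shiftFunctorComm T (1 : ℤ) k).hom.app (X.J s) ≫ (ξ s)⟦(1 : ℤ)⟧') (s : ℕ) :
    X.mapXi F ξ (s + 1) ≫ (X.map F).c (s + 2) =
      ((X.map F).c s)⟦k⟧' ≫ (shiftFunctorComm D (1 : ℤ) k).hom.app ((X.map F).J s) ≫
        (X.mapXi F ξ s)⟦(1 : ℤ)⟧' := by
  change ((F.commShiftIso k).inv.app (X.J (s + 1)) ≫ F.map (ξ (s + 1))) ≫
    F.map (X.c (s + 2)) ≫ (F.commShiftIso (1 : ℤ)).hom.app (X.J (s + 2)) =
    (F.map (X.c s) ≫ (F.commShiftIso (1 : ℤ)).hom.app (X.J s))⟦k⟧' ≫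
    (shiftFunctorComm D (1 : ℤ) k).hom.app (F.obj (X.J s)) ≫
    ((F.commShiftIso k).inv.app (X.J s) ≫ F.map (ξ s))⟦(1 : ℤ)⟧'
  rw [Category.assoc, ← F.map_comp_assoc, hξ]
  simp only [Functor.map_comp, Category.assoc]
  rw [F.map_shiftFunctorComm_hom_app]
  simp only [Category.assoc]
  rw [F.commShiftIso_hom_naturality_assoc (X.c s) k, Iso.inv_hom_id_app_assoc,
    F.commShiftIso_hom_naturality (ξ s) 1, Iso.inv_hom_id_app_assoc]

end Tow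

end Tower

end Vale.Agent.P251.S
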