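import Vale.Agent.P251.S.CobarR
import Vale.Agent.P251.S.TowerCouple
import Vale.Agent.P251.S.TensorShift

/-!
# P251, part S (S3): the tower of a monoid and multiplication by an element of filtration two

* `UnitCof.tow U Y : Tow T`, the tower `B s Y → R ⊗ B s Y → B (s+1) Y → (B s Y)⟦1⟧`;
* `UnitCof.ξ U k x s : (B s Y)⟦k⟧ ⟶ B (s+2) Y` for `x : Y⟦k⟧ ⟶ B 2 Y`, compatible with the
  connecting maps for `k` even (`UnitCof.ξ_comm`).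
-/

open CategoryTheory MonoidalCategory Limits Pretriangulated MonObj

universe v u

namespace Vale.Agent.P251.S

open Vale.Agent.P251.T

variable {T : Type u} [Category.{v} T] [Preadditive T] [HasZeroObject T] [HasShift T ℤ]
  [∀ n : ℤ, (shiftFunctor T n).Additive] [Pretriangulated T] [MonoidalCategory T]
  [SymmetricCategory T] [TensorTriangulated T]

/-! ### The map `S¹ ⊗ Y ⟶ Y⟦1⟧` and its sign -/

/-- The map `S¹ ⊗ Y ⟶ Y⟦1⟧`. -/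
noncomputable def sOne (Y : T) : ((𝟙_ T)⟦(1 : ℤ)⟧) ⊗ Y ⟶ Y⟦(1 : ℤ)⟧ :=
  (β_ ((𝟙_ T)⟦(1 : ℤ)⟧) Y).hom ≫ (TensorTriangulated.e Y).hom

@[reassoc]
lemma sOne_nat {X Y : T} (f : X ⟶ Y) :
    (((𝟙_ T)⟦(1 : ℤ)⟧) ◁ f) ≫ sOne Y = sOne X ≫ f⟦(1 : ℤ)⟧' := by
  rw [sOne, sOne, BraidedCategory.braiding_naturality_right_assoc,
    TensorTriangulated.e_naturality, Category.assoc]

/-- The sign property of the shift by `a` with respect to `sOne`. -/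
def SignProp (T : Type u) [Category.{v} T] [Preadditive T] [HasZeroObject T] [HasShift T ℤ]
    [∀ n : ℤ, (shiftFunctor T n).Additive] [Pretriangulated T] [MonoidalCategory T]
    [SymmetricCategory T] [TensorTriangulated T] (a ε : ℤ) : Prop :=
  ∀ Y : T, ((tensorLeft ((𝟙_ T)⟦(1 : ℤ)⟧)).commShiftIso a).hom.app Y ≫ (sOne Y)⟦a⟧' ≫
    (shiftFunctorComm T (1 : ℤ) a).hom.app Y = ε • sOne (Y⟦a⟧)

lemma signProp_one : SignProp T 1 (-1) := by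
  intro Y
  rw [tensorLeft_commShiftIso_one_app, shiftFunctorComm_eq_refl]
  have h1 : (TensorTriangulated.e (((𝟙_ T)⟦(1 : ℤ)⟧) ⊗ Y)).hom ≫ (sOne Y)⟦(1 : ℤ)⟧' =
      (sOne Y ▷ ((𝟙_ T)⟦(1 : ℤ)⟧)) ≫ (TensorTriangulated.e (Y⟦(1 : ℤ)⟧)).hom :=
    (TensorTriangulated.e_naturality _).symm
  have h2 : (β_ ((𝟙_ T)⟦(1 : ℤ)⟧) (Y ⊗ ((𝟙_ T)⟦(1 : ℤ)⟧))).hom =
      -((α_ _ _ _).inv ≫ ((β_ ((𝟙_ T)⟦(1 : ℤ)⟧) Y).hom ▷ ((𝟙_ T)⟦(1 : ℤ)⟧))) := by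
    have hn : Y ◁ (-𝟙 (((𝟙_ T)⟦(1 : ℤ)⟧) ⊗ ((𝟙_ T)⟦(1 : ℤ)⟧))) = -𝟙 _ := by
      exact ((tensorLeft Y).map_neg).trans (congrArg Neg.neg (MonoidalCategory.whiskerLeft_id _ _))
    rw [BraidedCategory.braiding_tensor_right_hom, TensorTriangulated.sign, hn]
    simp only [Preadditive.neg_comp, Preadditive.comp_neg, Category.id_comp, Iso.hom_inv_id,
      Category.comp_id]
  have h3 : (β_ ((𝟙_ T)⟦(1 : ℤ)⟧) (Y⟦(1 : ℤ)⟧)).hom =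
      (((𝟙_ T)⟦(1 : ℤ)⟧) ◁ (TensorTriangulated.e Y).inv) ≫
        (β_ ((𝟙_ T)⟦(1 : ℤ)⟧) (Y ⊗ ((𝟙_ T)⟦(1 : ℤ)⟧))).hom ≫
          ((TensorTriangulated.e Y).hom ▷ ((𝟙_ T)⟦(1 : ℤ)⟧)) := by
    rw [← BraidedCategory.braiding_naturality_right, ← MonoidalCategory.whiskerLeft_comp_assoc,
      Iso.inv_hom_id, MonoidalCategory.whiskerLeft_id, Category.id_comp]
  have h4 : sOne (Y⟦(1 : ℤ)⟧) = (β_ ((𝟙_ T)⟦(1 : ℤ)⟧) (Y⟦(1 : ℤ)⟧)).hom ≫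
    (TensorTriangulated.e (Y⟦(1 : ℤ)⟧)).hom := rfl
  have h5 : sOne Y ▷ ((𝟙_ T)⟦(1 : ℤ)⟧) = ((β_ ((𝟙_ T)⟦(1 : ℤ)⟧) Y).hom ▷ _) ≫
      ((TensorTriangulated.e Y).hom ▷ _) := by
    rw [sOne, comp_whiskerRight]
  rw [h4, h3, h2]
  simp only [Category.assoc, Iso.refl_hom, NatTrans.id_app]
  rw [reassoc_of% h1, h5]
  simp

lemma SignProp.add {a b ε ε' : ℤ} (ha : SignProp T a ε) (hb : SignProp T b ε') :
    SignProp T (a + b) (ε * ε') := by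
  intro Y
  have hc := shiftFunctorComm_hom_app_comp_shift_shiftFunctorAdd_hom_app (C := T) 1 a b Y
  have n1 : (shiftFunctorAdd T a b).inv.app (((𝟙_ T)⟦(1 : ℤ)⟧) ⊗ Y) ≫ (sOne Y)⟦a + b⟧' ≫
      (shiftFunctorAdd T a b).hom.app (Y⟦(1 : ℤ)⟧) = ((sOne Y)⟦a⟧')⟦b⟧' := by
    have n2 : ((sOne Y)⟦a⟧')⟦b⟧' ≫ (shiftFunctorAdd T a b).inv.app (Y⟦(1 : ℤ)⟧) =
        (shiftFunctorAdd T a b).inv.app (((𝟙_ T)⟦(1 : ℤ)⟧) ⊗ Y) ≫ (sOne Y)⟦a + b⟧' :=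
      (shiftFunctorAdd T a b).inv.naturality (sOne Y)
    rw [← reassoc_of% n2, Iso.inv_hom_id_app]
    exact Category.comp_id _
  have h1 : (((𝟙_ T)⟦(1 : ℤ)⟧) ◁ (shiftFunctorAdd T a b).hom.app Y) ≫ sOne (Y⟦a⟧⟦b⟧) =
      sOne (Y⟦a + b⟧) ≫ ((shiftFunctorAdd T a b).hom.app Y)⟦(1 : ℤ)⟧' := sOne_nat _
  have h2 : (shiftFunctor T b).map
        (((tensorLeft ((𝟙_ T)⟦(1 : ℤ)⟧)).commShiftIso a).hom.app Y) ≫
      ((sOne Y)⟦a⟧')⟦b⟧' ≫ (shiftFunctor T b).map ((shiftFunctorComm T 1 a).hom.app Y) =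
      ε • (sOne (Y⟦a⟧))⟦b⟧' := by
    rw [← Functor.map_comp, ← Functor.map_comp, ha Y, Functor.map_zsmul]
  rw [← cancel_mono (((shiftFunctorAdd T a b).hom.app Y)⟦(1 : ℤ)⟧'), Functor.commShiftIso_add,
    Functor.CommShift.isoAdd_hom_app]
  simp only [Category.assoc]
  rw [hc]
  calc _ = (((𝟙_ T)⟦(1 : ℤ)⟧) ◁ (shiftFunctorAdd T a b).hom.app Y) ≫
        ((tensorLeft ((𝟙_ T)⟦(1 : ℤ)⟧)).commShiftIso b).hom.app (Y⟦a⟧) ≫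
        ((shiftFunctor T b).map (((tensorLeft ((𝟙_ T)⟦(1 : ℤ)⟧)).commShiftIso a).hom.app Y) ≫
      ((sOne Y)⟦a⟧')⟦b⟧' ≫ (shiftFunctor T b).map ((shiftFunctorComm T 1 a).hom.app Y)) ≫
        (shiftFunctorComm T 1 b).hom.app (Y⟦a⟧) := by
        rw [← n1]
        simp only [Category.assoc]
        rfl
    _ = _ := by
        rw [h2, Preadditive.zsmul_comp, Preadditive.comp_zsmul, hb (Y⟦a⟧),
          Preadditive.comp_zsmul, Preadditive.comp_zsmul, h1, smul_smul,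
          Preadditive.zsmul_comp]

lemma signProp_zero : SignProp T 0 1 := by
  intro Y
  rw [shiftFunctorComm_zero_hom_app, Functor.commShiftIso_zero,
    Functor.CommShift.isoZero_hom_app]
  have h : (((𝟙_ T)⟦(1 : ℤ)⟧) ◁ (shiftFunctorZero T ℤ).hom.app Y) ≫ sOne Y =
      sOne (Y⟦(0 : ℤ)⟧) ≫ ((shiftFunctorZero T ℤ).hom.app Y)⟦(1 : ℤ)⟧' :=
    sOne_nat ((shiftFunctorZero T ℤ).hom.app Y)
  have h3 : (shiftFunctorZero T ℤ).inv.app (((𝟙_ T)⟦(1 : ℤ)⟧) ⊗ Y) ≫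
      (shiftFunctorZero T ℤ).hom.app (((𝟙_ T)⟦(1 : ℤ)⟧) ⊗ Y) = 𝟙 _ := Iso.inv_hom_id_app _ _
  have h' : (sOne Y)⟦(0 : ℤ)⟧' ≫ (shiftFunctorZero T ℤ).hom.app (Y⟦(1 : ℤ)⟧) =
    (shiftFunctorZero T ℤ).hom.app _ ≫ sOne Y := (shiftFunctorZero T ℤ).hom.naturality (sOne Y)
  have h2 : ((shiftFunctorZero T ℤ).hom.app Y)⟦(1 : ℤ)⟧' ≫
      ((shiftFunctorZero T ℤ).inv.app Y)⟦(1 : ℤ)⟧' = 𝟙 _ := by
    rw [← Functor.map_comp, Iso.hom_inv_id_app, CategoryTheory.Functor.map_id]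
  calc _ = (((𝟙_ T)⟦(1 : ℤ)⟧) ◁ (shiftFunctorZero T ℤ).hom.app Y) ≫
        ((shiftFunctorZero T ℤ).inv.app (((𝟙_ T)⟦(1 : ℤ)⟧) ⊗ Y) ≫ ((sOne Y)⟦(0 : ℤ)⟧' ≫
          (shiftFunctorZero T ℤ).hom.app (Y⟦(1 : ℤ)⟧))) ≫
            ((shiftFunctorZero T ℤ).inv.app Y)⟦(1 : ℤ)⟧' := by
        simp only [Category.assoc]
        rfl
    _ = _ := by
        rw [h', reassoc_of% h3, reassoc_of% h, h2, one_smul]
        exact Category.comp_id _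

lemma signProp_two_mul (n : ℕ) : SignProp T (2 * (n : ℤ)) 1 := by
  induction n with
  | zero => exact signProp_zero
  | succ n ih =>
    have h := ih.add (signProp_one.add signProp_one)
    have e : 2 * ((n + 1 : ℕ) : ℤ) = 2 * (n : ℤ) + (1 + 1) := by push_cast; ring
    rw [e]
    exact h

/-! ### The commutation `X ⊗ Y⟦k⟧ ≅ (X ⊗ Y)⟦k⟧` -/

/-- `X ⊗ Y⟦k⟧ ≅ (X ⊗ Y)⟦k⟧`. -/
noncomputable def csh (X : T) (k : ℤ) (Y : T) : X ⊗ (Y⟦k⟧) ≅ (X ⊗ Y)⟦k⟧ :=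
  ((tensorLeft X).commShiftIso k).app Y

@[reassoc]
lemma csh_nat (X : T) (k : ℤ) {Y Y' : T} (f : Y ⟶ Y') :
    (X ◁ f⟦k⟧') ≫ (csh X k Y').hom = (csh X k Y).hom ≫ (X ◁ f)⟦k⟧' :=
  ((tensorLeft X).commShiftIso k).hom.naturality f

@[reassoc]
lemma csh_inv_nat (X : T) (k : ℤ) {Y Y' : T} (f : Y ⟶ Y') :
    (X ◁ f)⟦k⟧' ≫ (csh X k Y').inv = (csh X k Y).inv ≫ (X ◁ f⟦k⟧') :=
  ((tensorLeft X).commShiftIso k).inv.naturality f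

@[reassoc]
lemma csh_tlMap {X X' : T} (φ : X ⟶ X') (k : ℤ) (Y : T) :
    (csh X k Y).hom ≫ (φ ▷ Y)⟦k⟧' = (φ ▷ (Y⟦k⟧)) ≫ (csh X' k Y).hom :=
  NatTrans.shift_app_comm (tlMap φ) k Y

@[reassoc]
lemma csh_inv_tlMap {X X' : T} (φ : X ⟶ X') (k : ℤ) (Y : T) :
    (φ ▷ Y)⟦k⟧' ≫ (csh X' k Y).inv = (csh X k Y).inv ≫ (φ ▷ (Y⟦k⟧)) := by
  rw [Iso.comp_inv_eq, Category.assoc, ← csh_tlMap, Iso.inv_hom_id_assoc]

lemma csh_one (X Y : T) : (csh X 1 Y).hom = (X ◁ (TensorTriangulated.e Y).inv) ≫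
      (α_ X Y ((𝟙_ T)⟦(1 : ℤ)⟧)).inv ≫ (TensorTriangulated.e (X ⊗ Y)).hom :=
  tensorLeft_commShiftIso_one_app X Y

/-- The left unitor as a natural transformation. -/
def lunNat (T : Type u) [Category.{v} T] [MonoidalCategory T] : tensorLeft (𝟙_ T) ⟶ 𝟭 T where
  app Y := (λ_ Y).hom
  naturality _ _ f := leftUnitor_naturality f

instance lunNat_commShift : NatTrans.CommShift (lunNat T) ℤ := by
  apply natTrans_commShift_of_one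
  intro Y
  have h1 := TensorTriangulated.e_naturality (λ_ Y).hom
  change (csh (𝟙_ T) 1 Y).hom ≫ ((λ_ Y).hom)⟦(1 : ℤ)⟧' = (λ_ (Y⟦(1 : ℤ)⟧)).hom ≫ 𝟙 _ ≫ 𝟙 _
  have h2 : (α_ (𝟙_ T) Y ((𝟙_ T)⟦(1 : ℤ)⟧)).inv ≫ ((λ_ Y).hom ▷ ((𝟙_ T)⟦(1 : ℤ)⟧)) =
      (λ_ (Y ⊗ ((𝟙_ T)⟦(1 : ℤ)⟧))).hom := by simp
  rw [csh_one, Category.assoc, Category.assoc, ← h1, reassoc_of% h2, leftUnitor_naturality_assoc,
    Iso.inv_hom_id, Category.id_comp]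

/-- Compatibility with the left unitor. -/
@[reassoc]
lemma csh_leftUnitor (k : ℤ) (Y : T) :
    (csh (𝟙_ T) k Y).hom ≫ ((λ_ Y).hom)⟦k⟧' = (λ_ (Y⟦k⟧)).hom := by
  have h := NatTrans.shift_app_comm (lunNat T) k Y
  refine h.trans ?_
  change (λ_ (Y⟦k⟧)).hom ≫ 𝟙 _ ≫ 𝟙 _ = _
  rw [Category.comp_id, Category.comp_id]

/-- The associator as a natural transformation. -/
def assNat (X X' : T) : tensorLeft (X ⊗ X') ⟶ tensorLeft X' ⋙ tensorLeft X where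
  app Y := (α_ X X' Y).hom
  naturality _ _ f := associator_naturality_right X X' f

instance assNat_commShift (X X' : T) : NatTrans.CommShift (assNat X X') ℤ := by
  apply natTrans_commShift_of_one
  intro Y
  have h1 := TensorTriangulated.e_naturality (α_ X X' Y).hom
  rw [Functor.commShiftIso_comp_hom_app]
  change (csh (X ⊗ X') 1 Y).hom ≫ ((α_ X X' Y).hom)⟦(1 : ℤ)⟧' = (α_ X X' (Y⟦(1 : ℤ)⟧)).hom ≫
    (X ◁ (csh X' 1 Y).hom) ≫ (csh X 1 (X' ⊗ Y)).hom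
  rw [csh_one, csh_one, csh_one, Category.assoc, Category.assoc, ← h1]
  simp only [MonoidalCategory.whiskerLeft_comp, Category.assoc]
  rw [← MonoidalCategory.whiskerLeft_comp_assoc X (TensorTriangulated.e (X' ⊗ Y)).hom,
    Iso.hom_inv_id]
  simp

/-- Compatibility with the associator. -/
@[reassoc]
lemma csh_associator (X X' : T) (k : ℤ) (Y : T) :
    (csh (X ⊗ X') k Y).hom ≫ ((α_ X X' Y).hom)⟦k⟧' =
      (α_ X X' (Y⟦k⟧)).hom ≫ (X ◁ (csh X' k Y).hom) ≫ (csh X k (X' ⊗ Y)).hom := by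
  have h := NatTrans.shift_app_comm (assNat X X') k Y
  rw [Functor.commShiftIso_comp_hom_app] at h
  exact h

@[reassoc]
lemma unitMap_csh {R : T} [MonObj R] (k : ℤ) (Y : T) :
    unitMap R (Y⟦k⟧) ≫ (csh R k Y).hom = (unitMap R Y)⟦k⟧' := by
  rw [unitMap, unitMap, Category.assoc, ← csh_tlMap, Functor.map_comp]
  rw [← cancel_epi (λ_ (Y⟦k⟧)).hom, Iso.hom_inv_id_assoc, ← csh_leftUnitor_assoc,
    ← Functor.map_comp_assoc, Iso.hom_inv_id, CategoryTheory.Functor.map_id, Category.id_comp]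

@[reassoc]
lemma mulMap_csh {R : T} [MonObj R] (k : ℤ) (Y : T) :
    mulMap R (Y⟦k⟧) ≫ (csh R k Y).hom =
      (R ◁ (csh R k Y).hom) ≫ (csh R k (R ⊗ Y)).hom ≫ (mulMap R Y)⟦k⟧' := by
  rw [mulMap, mulMap, Category.assoc, ← csh_tlMap, Functor.map_comp]
  rw [← cancel_epi (α_ R R (Y⟦k⟧)).hom, Iso.hom_inv_id_assoc, ← csh_associator_assoc,
    ← Functor.map_comp_assoc, Iso.hom_inv_id, CategoryTheory.Functor.map_id, Category.id_comp]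

namespace UnitCof

variable {R : T} [MonObj R] (U : UnitCof R)

lemma bdry_eq (Y : T) : U.bdry Y = (U.δ ▷ Y) ≫ sOne Y := by
  have h1 : (Y ◁ (TensorTriangulated.e (𝟙_ T)).inv) ≫ (α_ Y (𝟙_ T) ((𝟙_ T)⟦(1 : ℤ)⟧)).inv =
      (ρ_ Y).inv ▷ ((𝟙_ T)⟦(1 : ℤ)⟧) := by
    have h2 : (TensorTriangulated.e (𝟙_ T)).inv = (λ_ ((𝟙_ T)⟦(1 : ℤ)⟧)).inv := by
      rw [Iso.inv_eq_inv]
      exact TensorTriangulated.e_unit
    rw [h2]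
    simp
  rw [bdry, sOne, reassoc_of% h1, reassoc_of% TensorTriangulated.e_naturality (ρ_ Y).inv,
    ← Functor.map_comp, Iso.inv_hom_id, CategoryTheory.Functor.map_id, Category.comp_id,
    BraidedCategory.braiding_naturality_left_assoc]

/-- The sign of the boundary map is trivial for even shifts. -/
lemma bdry_csh (n : ℕ) (Y : T) :
    (csh U.J (2 * (n : ℤ)) Y).hom ≫ (U.bdry Y)⟦2 * (n : ℤ)⟧' ≫
      (shiftFunctorComm T (1 : ℤ) (2 * (n : ℤ))).hom.app Y = U.bdry (Y⟦2 * (n : ℤ)⟧) := by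
  have h := signProp_two_mul (T := T) n Y
  rw [one_smul] at h
  rw [bdry_eq, bdry_eq, ← h, Functor.map_comp, Category.assoc, csh_tlMap_assoc]
  rfl

/-- The tower of `U` and `Y`. -/
def tow (Y : T) : Tow T where
  J s := U.cobar.B s Y
  W s := R ⊗ U.cobar.B s Y
  a s := unitMap R (U.cobar.B s Y)
  b s := U.cobar.k s Y
  c s := U.bd s Y
  dist s := U.towerTriangle_distinguished s Y

/-- `(B s Y)⟦k⟧ ⟶ B s (Y⟦k⟧)`. -/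
noncomputable def κB (k : ℤ) : ∀ (s : ℕ) (Y : T), (U.cobar.B s Y)⟦k⟧ ⟶ U.cobar.B s (Y⟦k⟧)
  | 0, _ => 𝟙 _
  | s + 1, Y => κB k s (U.J ⊗ Y) ≫ U.cobar.Bm s (csh U.J k Y).inv

/-- `(Q s Y)⟦k⟧ ⟶ Q s (Y⟦k⟧)`. -/
noncomputable def κQ (k : ℤ) : ∀ (s : ℕ) (Y : T), (U.cobar.Q s Y)⟦k⟧ ⟶ U.cobar.Q s (Y⟦k⟧)
  | 0, _ => 𝟙 _
  | s + 1, Y => κQ k s (R ⊗ Y) ≫ U.cobar.Qm s (csh R k Y).inv

lemma κB_succ (k : ℤ) (s : ℕ) (Y : T) :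
    U.κB k (s + 1) Y = U.κB k s (U.J ⊗ Y) ≫ U.cobar.Bm s (csh U.J k Y).inv := rfl

lemma κQ_succ (k : ℤ) (s : ℕ) (Y : T) :
    U.κQ k (s + 1) Y = U.κQ k s (R ⊗ Y) ≫ U.cobar.Qm s (csh R k Y).inv := rfl

@[reassoc]
lemma κB_nat (k : ℤ) (s : ℕ) {X Y : T} (f : X ⟶ Y) :
    (U.cobar.Bm s f)⟦k⟧' ≫ U.κB k s Y = U.κB k s X ≫ U.cobar.Bm s (f⟦k⟧') := by
  induction s generalizing X Y with
  | zero => exact (Category.comp_id _).trans (Category.id_comp _).symm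
  | succ s ih =>
    rw [κB_succ, κB_succ, Category.assoc, ← Category.assoc]
    have h := ih (U.J ◁ f)
    rw [CobarData.Bm_succ, h]
    rw [Category.assoc, ← CobarData.Bm_comp, csh_inv_nat, CobarData.Bm_comp]
    rfl

@[reassoc]
lemma κQ_nat (k : ℤ) (s : ℕ) {X Y : T} (f : X ⟶ Y) :
    (U.cobar.Qm s f)⟦k⟧' ≫ U.κQ k s Y = U.κQ k s X ≫ U.cobar.Qm s (f⟦k⟧') := by
  induction s generalizing X Y with
  | zero => exact (Category.comp_id _).trans (Category.id_comp _).symm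
  | succ s ih =>
    rw [κQ_succ, κQ_succ, Category.assoc, ← Category.assoc]
    have h := ih (R ◁ f)
    rw [CobarData.Qm_succ, h]
    rw [Category.assoc, ← CobarData.Qm_comp, csh_inv_nat, CobarData.Qm_comp]
    rfl

/-- Compatibility of `κB` with the connecting maps, for even shifts. -/
lemma κB_bd (n : ℕ) (s : ℕ) (Y : T) :
    U.κB (2 * (n : ℤ)) (s + 1) Y ≫ U.bd s (Y⟦2 * (n : ℤ)⟧) =
      (U.bd s Y)⟦2 * (n : ℤ)⟧' ≫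
        (shiftFunctorComm T (1 : ℤ) (2 * (n : ℤ))).hom.app (U.cobar.B s Y) ≫
          (U.κB (2 * (n : ℤ)) s Y)⟦(1 : ℤ)⟧' := by
  induction s generalizing Y with
  | zero =>
    have h := U.bdry_csh n Y
    have h0 : U.κB (2 * (n : ℤ)) 1 Y = (csh U.J (2 * (n : ℤ)) Y).inv := Category.id_comp _
    have h1 : (U.κB (2 * (n : ℤ)) 0 Y)⟦(1 : ℤ)⟧' = 𝟙 _ :=
      CategoryTheory.Functor.map_id _ _
    rw [h0, h1, Iso.inv_comp_eq]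
    refine Eq.trans ?_ (congrArg _ (congrArg _ (Category.comp_id _).symm))
    exact h.symm
  | succ s ih =>
    have h1 := U.bd_naturality s (csh U.J (2 * (n : ℤ)) Y).inv
    have h2 : U.κB (2 * (n : ℤ)) (s + 1 + 1) Y = U.κB (2 * (n : ℤ)) (s + 1) (U.J ⊗ Y) ≫
      U.cobar.Bm (s + 1) (csh U.J (2 * (n : ℤ)) Y).inv := rfl
    have h3 : U.bd (s + 1) (Y⟦2 * (n : ℤ)⟧) = U.bd s (U.J ⊗ Y⟦2 * (n : ℤ)⟧) := rfl
    rw [h2, h3, Category.assoc, h1, reassoc_of% ih (U.J ⊗ Y), ← Functor.map_comp]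
    rfl

@[reassoc]
lemma κQ_d (k : ℤ) (s : ℕ) (Y : T) :
    (U.cobar.d s Y)⟦k⟧' ≫ U.κQ k (s + 1) Y = U.κQ k s Y ≫ U.cobar.d s (Y⟦k⟧) := by
  have hu : ∀ Y : T, (unitMap R Y)⟦k⟧' ≫ (csh R k Y).inv = unitMap R (Y⟦k⟧) := fun Y => by
    rw [Iso.comp_inv_eq, unitMap_csh]
  have hlam : ∀ s (Y : T), (U.cobar.lam s Y)⟦k⟧' ≫ U.κQ k (s + 1) Y =
      U.κQ k s Y ≫ U.cobar.lam s (Y⟦k⟧) := by
    intro s Y
    have h := U.κQ_nat k s (unitMap R Y)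
    rw [κQ_succ]
    change (U.cobar.Qm s (unitMap R Y))⟦k⟧' ≫ U.κQ k s (R ⊗ Y) ≫
      U.cobar.Qm s (csh R k Y).inv = U.κQ k s Y ≫ U.cobar.Qm s (unitMap R (Y⟦k⟧))
    rw [reassoc_of% h, ← CobarData.Qm_comp, hu]
  induction s generalizing Y with
  | zero => exact hlam 0 Y
  | succ s ih =>
    rw [CobarData.d_succ, CobarData.d_succ, Functor.map_add, Functor.map_zsmul,
      Preadditive.add_comp, Preadditive.comp_add, Preadditive.zsmul_comp,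
      Preadditive.comp_zsmul, hlam (s + 1) Y]
    congr 1
    have h1 := U.cobar.d_naturality s (csh R k Y).inv
    have h2 : U.κQ k (s + 1 + 1) Y = U.κQ k (s + 1) (R ⊗ Y) ≫
      U.cobar.Qm (s + 1) (csh R k Y).inv := rfl
    have h3 := reassoc_of% ih (R ⊗ Y)
    rw [h2]
    refine (h3 _).trans ?_
    rw [κQ_succ, Category.assoc]
    congr 1
    exact h1.symm

/-- Multiplication by `x : Y⟦k⟧ ⟶ B 2 Y` on the tower. -/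
noncomputable def ξ (k : ℤ) {Y Z : T} (x : Y⟦k⟧ ⟶ U.cobar.B 2 Z) (s : ℕ) :
    (U.cobar.B s Y)⟦k⟧ ⟶ U.cobar.B (s + 2) Z :=
  U.κB k s Y ≫ U.cobar.Bm s x

/-- Multiplication by an element of filtration two commutes with the connecting maps. -/
lemma ξ_comm (n : ℕ) {Y Z : T} (x : Y⟦2 * (n : ℤ)⟧ ⟶ U.cobar.B 2 Z) (s : ℕ) :
    U.ξ (2 * (n : ℤ)) x (s + 1) ≫ U.bd (s + 2) Z =
      (U.bd s Y)⟦2 * (n : ℤ)⟧' ≫
        (shiftFunctorComm T (1 : ℤ) (2 * (n : ℤ))).hom.app (U.cobar.B s Y) ≫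
          (U.ξ (2 * (n : ℤ)) x s)⟦(1 : ℤ)⟧' := by
  have h1 : U.cobar.Bm (s + 1) x ≫ U.bd (s + 2) Z = U.bd s (Y⟦2 * (n : ℤ)⟧) ≫
    (U.cobar.Bm s x)⟦(1 : ℤ)⟧' := U.bd_naturality s x
  rw [ξ, ξ, Category.assoc, h1, reassoc_of% U.κB_bd n s Y, Functor.map_comp]

/-- The version of `ξ` on the `E_1`-terms. -/
noncomputable def ξW (k : ℤ) {Y Z : T} (x : Y⟦k⟧ ⟶ U.cobar.B 2 Z) (s : ℕ) :
    (R ⊗ U.cobar.B s Y)⟦k⟧ ⟶ R ⊗ U.cobar.B (s + 2) Z :=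
  (csh R k (U.cobar.B s Y)).inv ≫ (R ◁ U.ξ k x s)

lemma unitMap_ξW (k : ℤ) {Y Z : T} (x : Y⟦k⟧ ⟶ U.cobar.B 2 Z) (s : ℕ) :
    (unitMap R (U.cobar.B s Y))⟦k⟧' ≫ U.ξW k x s = U.ξ k x s ≫ unitMap R _ := by
  rw [ξW, ← unitMap_csh_assoc, Iso.hom_inv_id_assoc, unitMap_nat]

/-- `κB` and `κQ` are compatible with the projection from the cobar complex. -/
@[reassoc]
lemma κQ_q (k : ℤ) (s : ℕ) (Y : T) :
    U.κQ k (s + 1) Y ≫ U.cobar.q s (Y⟦k⟧) =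
      (U.cobar.q s Y)⟦k⟧' ≫ (csh R k (U.cobar.B s Y)).inv ≫ (R ◁ U.κB k s Y) := by
  induction s generalizing Y with
  | zero =>
    rw [CobarData.q_zero, CobarData.q_zero, CategoryTheory.Functor.map_id]
    change (𝟙 _ ≫ (csh R k Y).inv) ≫ 𝟙 _ = 𝟙 _ ≫ (csh R k Y).inv ≫ (R ◁ 𝟙 _)
    rw [MonoidalCategory.whiskerLeft_id]
    simp
  | succ s ih =>
    have h1 := U.κQ_nat k (s + 1) (U.ρ ▷ Y)
    have h2 := U.cobar.q_naturality s (csh U.J k Y).inv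
    have h3 : U.cobar.Qm (s + 1) (csh R k Y).inv ≫ U.cobar.Qm (s + 1) (U.ρ ▷ (Y⟦k⟧)) =
        U.cobar.Qm (s + 1) ((U.ρ ▷ Y)⟦k⟧') ≫ U.cobar.Qm (s + 1) (csh U.J k Y).inv := by
      rw [← CobarData.Qm_comp, ← CobarData.Qm_comp, csh_inv_tlMap]
    calc _ = U.κQ k (s + 1) (R ⊗ Y) ≫ (U.cobar.Qm (s + 1) (csh R k Y).inv ≫
          U.cobar.Qm (s + 1) (U.ρ ▷ (Y⟦k⟧))) ≫ U.cobar.q s (U.J ⊗ Y⟦k⟧) := by
          rw [κQ_succ, CobarData.q_succ, Category.assoc, Category.assoc]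
      _ = (U.cobar.Qm (s + 1) (U.ρ ▷ Y))⟦k⟧' ≫ U.κQ k (s + 1) (U.J ⊗ Y) ≫
          U.cobar.q s ((U.J ⊗ Y)⟦k⟧) ≫ (R ◁ U.cobar.Bm s (csh U.J k Y).inv) := by
          rw [h3, Category.assoc, reassoc_of% h1]
          congr 2
      _ = (U.cobar.Qm (s + 1) (U.ρ ▷ Y))⟦k⟧' ≫ (U.cobar.q s (U.J ⊗ Y))⟦k⟧' ≫
          (csh R k (U.cobar.B s (U.J ⊗ Y))).inv ≫ (R ◁ U.κB k s (U.J ⊗ Y)) ≫
            (R ◁ U.cobar.Bm s (csh U.J k Y).inv) := by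
          rw [reassoc_of% ih (U.J ⊗ Y)]
      _ = _ := by
          rw [CobarData.q_succ, Functor.map_comp, κB_succ, MonoidalCategory.whiskerLeft_comp,
            Category.assoc]

/-- The product of a cochain with a cochain `z : Y⟦k⟧ ⟶ Q 3 Z` of degree two. -/
noncomputable def cupQ (k : ℤ) {Y Z : T} (z : Y⟦k⟧ ⟶ U.cobar.Q 3 Z) (s : ℕ) :
    (U.cobar.Q (s + 1) Y)⟦k⟧ ⟶ U.cobar.Q (s + 3) Z :=
  U.κQ k (s + 1) Y ≫ U.cobar.cup z s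

lemma cupQ_d (k : ℤ) {Y Z : T} (z : Y⟦k⟧ ⟶ U.cobar.Q 3 Z) (hz : z ≫ U.cobar.d 3 Z = 0) (s : ℕ) :
    U.cupQ k z s ≫ U.cobar.d (s + 3) Z = (U.cobar.d (s + 1) Y)⟦k⟧' ≫ U.cupQ k z (s + 1) := by
  rw [cupQ, Category.assoc, U.cobar.cup_d z hz, cupQ, κQ_d_assoc]

lemma cupQ_q (k : ℤ) {Y Z : T} (z : Y⟦k⟧ ⟶ U.cobar.Q 3 Z) (x : Y⟦k⟧ ⟶ U.cobar.B 2 Z)
    (hz : z ≫ U.cobar.q 2 Z = x ≫ unitMap R _) (s : ℕ) :
    U.cupQ k z s ≫ U.cobar.q (s + 2) Z = (U.cobar.q s Y)⟦k⟧' ≫ U.ξW k x s := by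
  rw [cupQ, Category.assoc, U.cobar.cup_q z x hz, κQ_q_assoc, ξW, ξ,
    MonoidalCategory.whiskerLeft_comp]

end UnitCof

end Vale.Agent.P251.S
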