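import Vale.Agent.P251.S.AmitsurCobar
import Vale.Agent.P251.S.TowerR

/-!
# P251, part S (S3): the cup product in terms of the tensor powers `R^{⊗ n}`

The cup product with a cochain of degree two is the product of the front face of the first factor
and the back face of the second factor in the commutative monoid `R^{⊗ (s+3)}`.
-/

set_option linter.unusedSectionVars false

open CategoryTheory MonoidalCategory Limits Pretriangulated MonObj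

universe v u

namespace Vale.Agent.P251.S

open Vale.Agent.P251.T

section Monoids

variable {T : Type u} [Category.{v} T] [MonoidalCategory T] [SymmetricCategory T]

section

variable {X Y Z W : T} [MonObj X] [MonObj Y] [MonObj Z] [MonObj W]

@[reassoc]
lemma inlM_whiskerLeft (f : Y ⟶ Z) [IsMonHom f] : inlM X Y ≫ (X ◁ f) = inlM X Z := by
  rw [inlM, inlM, Category.assoc, ← MonoidalCategory.whiskerLeft_comp, IsMonHom.one_hom]

@[reassoc]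
lemma inrM_whiskerLeft (f : Y ⟶ Z) : inrM X Y ≫ (X ◁ f) = f ≫ inrM X Z := by
  rw [inrM, inrM, Category.assoc, ← whisker_exchange, leftUnitor_inv_naturality_assoc]

lemma one_tensor (X Y : T) [MonObj X] [MonObj Y] :
    η[X ⊗ Y] = (λ_ (𝟙_ T)).inv ≫ (η[X] ▷ 𝟙_ T) ≫ (X ◁ η[Y]) := by
  change (λ_ (𝟙_ T)).inv ≫ (η[X] ⊗ₘ η[Y]) = _
  rw [tensorHom_def]

lemma one_tensor' (X Y : T) [MonObj X] [MonObj Y] :
    η[X ⊗ Y] = (λ_ (𝟙_ T)).inv ≫ (𝟙_ T ◁ η[Y]) ≫ (η[X] ▷ Y) := by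
  change (λ_ (𝟙_ T)).inv ≫ (η[X] ⊗ₘ η[Y]) = _
  rw [tensorHom_def']

@[reassoc]
lemma inlM_associator_inv (X Y Z : T) [MonObj X] [MonObj Y] [MonObj Z] :
    inlM X (Y ⊗ Z) ≫ (α_ X Y Z).inv = inlM X Y ≫ inlM (X ⊗ Y) Z := by
  rw [inlM, inlM, inlM, one_tensor]
  monoidal

@[reassoc]
lemma inlM_associator (X Y Z : T) [MonObj X] [MonObj Y] [MonObj Z] :
    inlM (X ⊗ Y) Z ≫ (α_ X Y Z).hom = X ◁ inlM Y Z := by
  rw [inlM, inlM]
  monoidal

@[reassoc]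
lemma inrM_associator_inv (X Y Z : T) [MonObj X] [MonObj Y] [MonObj Z] :
    inrM X (Y ⊗ Z) ≫ (α_ X Y Z).inv = inrM X Y ▷ Z := by
  rw [inrM, inrM]
  monoidal

@[reassoc]
lemma inrM_associator (X Y Z : T) [MonObj X] [MonObj Y] [MonObj Z] :
    inrM (X ⊗ Y) Z ≫ (α_ X Y Z).hom = inrM Y Z ≫ inrM X (Y ⊗ Z) := by
  rw [inrM, inrM, inrM, one_tensor']
  monoidal

@[reassoc]
lemma inlM_mul (R : T) [MonObj R] : inlM R R ≫ μ[R] = 𝟙 R := by
  rw [inlM, Category.assoc, MonObj.mul_one, Iso.inv_hom_id]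

@[reassoc]
lemma inrM_mul (R : T) [MonObj R] : inrM R R ≫ μ[R] = 𝟙 R := by
  rw [inrM, Category.assoc, MonObj.one_mul, Iso.inv_hom_id]

end

/-- The inclusion of the first `s + 1` vertices. -/
def frontF (s : ℕ) : Fin (s + 1) → Fin (s + 3) := fun i => ⟨i, by omega⟩

/-- The inclusion of the last `3` vertices. -/
def backF (s : ℕ) : Fin 3 → Fin (s + 3) := fun i => ⟨s + i, by omega⟩

/-- The concatenation `R^{⊗ (s+1)} ⊗ R^{⊗ 3} ⟶ R^{⊗ (s+3)}`, multiplying the last factor of the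
first with the first factor of the second. -/
def conc (R : T) [MonObj R] (s : ℕ) : Am R (s + 1) ⊗ Am R 3 ⟶ Am R (s + 3) :=
  ((Am R s ⊗ R) ◁ (((λ_ R).hom ▷ R) ▷ R)) ≫ (α_ (Am R s ⊗ R) (R ⊗ R) R).inv ≫
    ((α_ (Am R s ⊗ R) R R).inv ▷ R) ≫ (((α_ (Am R s) R R).hom ▷ R) ▷ R) ≫
      (((Am R s ◁ μ[R]) ▷ R) ▷ R)

instance isMonHom_conc (R : T) [MonObj R] [IsCommMonObj R] (s : ℕ) : IsMonHom (conc R s) := by
  unfold conc
  infer_instance

lemma inlM_conc (R : T) [MonObj R] [IsCommMonObj R] (s : ℕ) :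
    inlM (Am R (s + 1)) (Am R 3) ≫ conc R s = inlM (Am R (s + 1)) R ≫ inlM (Am R (s + 2)) R := by
  unfold conc
  rw [inlM_whiskerLeft_assoc, inlM_associator_inv_assoc, inlM_whiskerRight_assoc,
    inlM_associator_inv_assoc, inlM_whiskerRight_assoc, inlM_whiskerRight_assoc,
    inlM_associator_assoc, inlM_whiskerRight, inlM_whiskerRight_assoc,
    ← MonoidalCategory.whiskerLeft_comp_assoc, inlM_mul, MonoidalCategory.whiskerLeft_id,
    Category.id_comp]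

lemma inrM_conc (R : T) [MonObj R] [IsCommMonObj R] (s : ℕ) :
    inrM (Am R (s + 1)) (Am R 3) ≫ conc R s =
      ((((λ_ R).hom ≫ inrM (Am R s) R) ▷ R) ▷ R : ((𝟙_ T ⊗ R) ⊗ R) ⊗ R ⟶ _) := by
  unfold conc
  rw [inrM_whiskerLeft_assoc, inrM_associator_inv_assoc]
  simp only [← comp_whiskerRight]
  rw [inrM_associator_inv_assoc]
  simp only [← comp_whiskerRight]
  rw [inrM_associator_assoc, inrM_whiskerLeft, inrM_mul_assoc]

variable (R : T) [MonObj R] [IsCommMonObj R]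

lemma conc_eq (s : ℕ) : conc R s = descM (Am.map R (frontF s)) (Am.map R (backF s)) := by
  apply hom_ext_tensor (X := Am R (s + 1)) (Y := Am R 3)
  · rw [inlM_conc, inlM_descM]
    symm
    apply Am.map_eq_of
    intro i
    have h : frontF s i = i.castSucc.castSucc := rfl
    rw [h, Am.v_castSucc, Am.v_castSucc, Category.assoc]
  · rw [inrM_conc, inrM_descM]
    symm
    have h1 : IsMonHom ((λ_ R).hom ≫ inrM (Am R s) R) := by infer_instance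
    have h2 : inrM (𝟙_ T) R ≫ (λ_ R).hom = 𝟙 R := by
      have h : η[(𝟙_ T)] = 𝟙 (𝟙_ T) := rfl
      rw [inrM, h, id_whiskerRight, Category.comp_id, Iso.inv_hom_id]
    apply Am.map_eq_of
    intro i
    obtain rfl | rfl | rfl : i = Fin.last 2 ∨ i = (Fin.last 1).castSucc ∨
        i = (Fin.last 0).castSucc.castSucc := by
      revert i; decide
    · have h : backF s (Fin.last 2) = Fin.last (s + 2) := rfl
      rw [h, Am.v_last, Am.v_last, inrM_whiskerRight]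
    · have h : backF s (Fin.last 1).castSucc = (Fin.last (s + 1)).castSucc := rfl
      rw [h, Am.v_castSucc, Am.v_castSucc, Am.v_last, Am.v_last, Category.assoc,
        inlM_whiskerRight, inrM_whiskerRight_assoc]
    · have h : backF s (Fin.last 0).castSucc.castSucc = (Fin.last s).castSucc.castSucc := rfl
      rw [h, Am.v_castSucc, Am.v_castSucc, Am.v_castSucc, Am.v_castSucc, Am.v_last, Am.v_last,
        Category.assoc, Category.assoc, inlM_whiskerRight, inlM_whiskerRight_assoc]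
      simp only [Category.assoc]
      rw [reassoc_of% h2]

lemma conc_aux (A R Y : T) [MonObj R] :
    (A ◁ mulMap R (R ⊗ R ⊗ Y)) ≫ (α_ A R (R ⊗ R ⊗ Y)).inv ≫ (α_ (A ⊗ R) R (R ⊗ Y)).inv ≫
        (α_ ((A ⊗ R) ⊗ R) R Y).inv =
      (α_ A R (R ⊗ R ⊗ R ⊗ Y)).inv ≫ ((A ⊗ R) ◁ ((λ_ (R ⊗ R ⊗ R ⊗ Y)).inv ≫
        (α_ (𝟙_ T) R (R ⊗ R ⊗ Y)).inv ≫ (α_ (𝟙_ T ⊗ R) R (R ⊗ Y)).inv ≫
          (α_ ((𝟙_ T ⊗ R) ⊗ R) R Y).inv)) ≫ (α_ (A ⊗ R) (((𝟙_ T ⊗ R) ⊗ R) ⊗ R) Y).inv ≫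
        ((((A ⊗ R) ◁ (((λ_ R).hom ▷ R) ▷ R)) ≫ (α_ (A ⊗ R) (R ⊗ R) R).inv ≫
          ((α_ (A ⊗ R) R R).inv ▷ R) ≫ (((α_ A R R).hom ▷ R) ▷ R) ≫
            (((A ◁ μ[R]) ▷ R) ▷ R)) ▷ Y) := by
  rw [mulMap]
  monoidal

end Monoids

variable {T : Type u} [Category.{v} T] [Preadditive T] [HasZeroObject T] [HasShift T ℤ]
  [∀ n : ℤ, (shiftFunctor T n).Additive] [Pretriangulated T] [MonoidalCategory T]
  [SymmetricCategory T] [TensorTriangulated T]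

namespace UnitCof

variable {R : T} [MonObj R] (U : UnitCof R)

/-- The cup product in terms of the tensor powers of `R`. -/
@[reassoc]
lemma cup_θ {Y' Y : T} (z : Y' ⟶ U.cobar.Q 3 Y) (s : ℕ) :
    U.cobar.cup z s ≫ (U.θ (s + 3) Y).hom =
      (U.θ (s + 1) Y').hom ≫ (Am R (s + 1) ◁ (z ≫ (U.θ 3 Y).hom)) ≫
        (α_ (Am R (s + 1)) (Am R 3) Y).inv ≫ (conc R s ▷ Y) := by
  have h3 : (U.θ (s + 3) Y).hom = (U.θ s (R ⊗ R ⊗ R ⊗ Y)).hom ≫
      (α_ (Am R s) R (R ⊗ R ⊗ Y)).inv ≫ (α_ (Am R (s + 1)) R (R ⊗ Y)).inv ≫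
        (α_ (Am R (s + 2)) R Y).inv := by
    rw [θ_succ, θ_succ, θ_succ, Iso.trans_hom, Iso.trans_hom, Iso.trans_hom, Category.assoc,
      Category.assoc]
    rfl
  have h3' : (U.θ 3 Y).hom = (λ_ (R ⊗ R ⊗ R ⊗ Y)).inv ≫
      (α_ (𝟙_ T) R (R ⊗ R ⊗ Y)).inv ≫ (α_ (𝟙_ T ⊗ R) R (R ⊗ Y)).inv ≫
        (α_ ((𝟙_ T ⊗ R) ⊗ R) R Y).inv := by
    rw [θ_succ, θ_succ, θ_succ, Iso.trans_hom, Iso.trans_hom, Iso.trans_hom, Category.assoc,
      Category.assoc]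
    rfl
  have hc := conc_aux (Am R s) R Y
  have hn := U.θ_naturality s ((R ◁ z) ≫ mulMap R (R ⊗ R ⊗ Y))
  have h1 : U.cobar.cup z s ≫ (U.θ (s + 3) Y).hom = (U.θ s (R ⊗ Y')).hom ≫
      (Am R s ◁ (R ◁ z)) ≫ (Am R s ◁ mulMap R (R ⊗ R ⊗ Y)) ≫
        (α_ (Am R s) R (R ⊗ R ⊗ Y)).inv ≫ (α_ (Am R s ⊗ R) R (R ⊗ Y)).inv ≫
          (α_ ((Am R s ⊗ R) ⊗ R) R Y).inv := by
    rw [h3]
    refine (reassoc_of% hn) _ |>.trans ?_
    rw [MonoidalCategory.whiskerLeft_comp, Category.assoc]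
  have h2 : (U.θ (s + 1) Y').hom = (U.θ s (R ⊗ Y')).hom ≫ (α_ (Am R s) R Y').inv := by
    rw [θ_succ, Iso.trans_hom]
    rfl
  rw [h1, h2, hc, h3']
  simp only [Category.assoc, conc, MonoidalCategory.whiskerLeft_comp]
  rw [associator_inv_naturality_right_assoc]

/-- `θ` is compatible with shifts. -/
@[reassoc]
lemma κQ_θ (k : ℤ) (n : ℕ) (Y : T) :
    U.κQ k n Y ≫ (U.θ n (Y⟦k⟧)).hom = ((U.θ n Y).hom)⟦k⟧' ≫ (csh (Am R n) k Y).inv := by
  induction n generalizing Y with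
  | zero =>
    change 𝟙 _ ≫ (λ_ (Y⟦k⟧)).inv = ((λ_ Y).inv)⟦k⟧' ≫ (csh (𝟙_ T) k Y).inv
    rw [Category.id_comp, Iso.eq_comp_inv, Iso.inv_comp_eq, ← csh_leftUnitor, Category.assoc,
      ← Functor.map_comp, Iso.hom_inv_id, CategoryTheory.Functor.map_id, Category.comp_id]
  | succ n ih =>
    have h1 := csh_associator (Am R n) R k Y
    have h2 : (csh (Am R n) k (R ⊗ Y)).inv ≫ (Am R n ◁ (csh R k Y).inv) ≫
        (α_ (Am R n) R (Y⟦k⟧)).inv = ((α_ (Am R n) R Y).inv)⟦k⟧' ≫ (csh (Am R (n + 1)) k Y).inv := by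
      rw [← cancel_mono (csh (Am R (n + 1)) k Y).hom, ← cancel_mono (((α_ (Am R n) R Y).hom)⟦k⟧')]
      simp only [Category.assoc]
      have h4 : (csh (Am R (n + 1)) k Y).inv ≫ (csh (Am R n ⊗ R) k Y).hom = 𝟙 _ :=
        Iso.inv_hom_id _
      rw [reassoc_of% h4, ← Functor.map_comp, Iso.inv_hom_id,
        CategoryTheory.Functor.map_id, h1, Iso.inv_hom_id_assoc,
        ← MonoidalCategory.whiskerLeft_comp_assoc, Iso.inv_hom_id,
        MonoidalCategory.whiskerLeft_id, Category.id_comp, Iso.inv_hom_id]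
    have h3 := U.θ_naturality n (csh R k Y).inv
    rw [κQ_succ, θ_succ, θ_succ, Iso.trans_hom, Iso.trans_hom, Functor.map_comp, Category.assoc,
      Category.assoc, reassoc_of% h3, reassoc_of% ih (R ⊗ Y)]
    exact congrArg _ h2

/-- The comparison `Q n 𝟙 ≅ R^{⊗ n}`. -/
def θU (n : ℕ) : U.cobar.Q n (𝟙_ T) ≅ Am R n := U.θ n (𝟙_ T) ≪≫ ρ_ (Am R n)

/-- The product of cochains, in terms of the concatenation of tensor powers of `R`. -/
lemma cupQ_conc (k : ℤ) {X : T} (s : ℕ) (f : X ⟶ U.cobar.Q (s + 1) (𝟙_ T))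
    (z : (𝟙_ T)⟦k⟧ ⟶ U.cobar.Q 3 (𝟙_ T)) :
    f⟦k⟧' ≫ U.cupQ k z s ≫ (U.θU (s + 3)).hom =
      (tensorSph k X).inv ≫ ((f ≫ (U.θU (s + 1)).hom) ⊗ₘ (z ≫ (U.θU 3).hom)) ≫ conc R s := by
  have h1 : (α_ (Am R (s + 1)) (Am R 3) (𝟙_ T)).inv ≫ (conc R s ▷ 𝟙_ T) ≫
      (ρ_ (Am R (s + 3))).hom = (Am R (s + 1) ◁ (ρ_ (Am R 3)).hom) ≫ conc R s := by
    rw [rightUnitor_naturality, rightUnitor_tensor_hom_assoc, Iso.inv_hom_id_assoc]
  have h2 : U.κQ k (s + 1) (𝟙_ T) ≫ (U.θ (s + 1) ((𝟙_ T)⟦k⟧)).hom =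
      ((U.θU (s + 1)).hom)⟦k⟧' ≫ (tensorSph k (Am R (s + 1))).inv := by
    rw [κQ_θ, θU, tensorSph, Iso.trans_hom, Iso.trans_inv, Functor.map_comp, Functor.mapIso_inv,
      Category.assoc, ← Functor.map_comp_assoc (shiftFunctor T k) (ρ_ _).hom, Iso.hom_inv_id,
      CategoryTheory.Functor.map_id, Category.id_comp]
    rfl
  have h3 : ((f ≫ (U.θU (s + 1)).hom) ▷ ((𝟙_ T)⟦k⟧)) = (tensorSph k X).hom ≫
      (f ≫ (U.θU (s + 1)).hom)⟦k⟧' ≫ (tensorSph k (Am R (s + 1))).inv := by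
    rw [← tensorSph_naturality_assoc, Iso.hom_inv_id, Category.comp_id]
  calc _ = f⟦k⟧' ≫ U.κQ k (s + 1) (𝟙_ T) ≫ (U.cobar.cup z s ≫ (U.θ (s + 3) (𝟙_ T)).hom) ≫
        (ρ_ (Am R (s + 3))).hom := by
        rw [cupQ, θU, Iso.trans_hom]
        simp only [Category.assoc]
    _ = f⟦k⟧' ≫ (U.κQ k (s + 1) (𝟙_ T) ≫ (U.θ (s + 1) ((𝟙_ T)⟦k⟧)).hom) ≫
        (Am R (s + 1) ◁ (z ≫ (U.θ 3 (𝟙_ T)).hom)) ≫ (Am R (s + 1) ◁ (ρ_ (Am R 3)).hom) ≫
          conc R s := by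
        rw [cup_θ, ← h1]
        simp only [Category.assoc]
    _ = (tensorSph k X).inv ≫ ((f ≫ (U.θU (s + 1)).hom) ▷ ((𝟙_ T)⟦k⟧)) ≫
        (Am R (s + 1) ◁ (z ≫ (U.θU 3).hom)) ≫ conc R s := by
        rw [h2, h3, ← MonoidalCategory.whiskerLeft_comp_assoc,
          Category.assoc, Functor.map_comp]
        simp only [Category.assoc]
        rw [Iso.inv_hom_id_assoc]
        rfl
    _ = _ := by
        rw [tensorHom_def]
        simp only [Category.assoc]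

end UnitCof

end Vale.Agent.P251.S
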