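import Vale.Agent.P251.S.Defs
import Mathlib.CategoryTheory.Triangulated.Pretriangulated
import Mathlib.Tactic.Abel

/-!
# P251, part S (S2): the key lemma (K)

An object `E` with an endomorphism `w` such that the tower `(π_n E, w)` has vanishing `lim` and
`lim¹` (in the form of unique solvability) and such that `E / w` has no odd homotopy: then `E` has
no odd homotopy, `w` is injective on the even homotopy, which is `w`-adically complete, and the
even homotopy of `E / w^j` is the quotient by `w^j`.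
-/

open CategoryTheory MonoidalCategory Limits Pretriangulated

universe v u

namespace Vale.Agent.P251.S

set_option linter.unusedSectionVars false

variable {T : Type u} [Category.{v} T] [Preadditive T]

/-- Unique solvability of `x k - w (x (k+1)) = a k` in `Hom(W, E)`: this says that `lim` and `lim¹`
of the tower `(Hom(W, E), w)` vanish. -/
def US (W : T) {E : T} (w : End E) : Prop :=
  ∀ a : ℕ → (W ⟶ E), ∃! x : ℕ → (W ⟶ E), ∀ k, x k - x (k + 1) ≫ w = a k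

lemma comp_pow_succ {W E : T} (w : End E) (x : W ⟶ E) (j : ℕ) :
    x ≫ (w ^ (j + 1) : End E) = (x ≫ w) ≫ (w ^ j : End E) := by
  rw [pow_succ, Category.assoc]; rfl

lemma comp_pow_succ' {W E : T} (w : End E) (x : W ⟶ E) (j : ℕ) :
    x ≫ (w ^ (j + 1) : End E) = (x ≫ (w ^ j : End E)) ≫ w := by
  rw [pow_succ', Category.assoc]; rfl

lemma comp_pow_zero {W E : T} (w : End E) (x : W ⟶ E) : x ≫ (w ^ 0 : End E) = x := by
  rw [pow_zero]; exact Category.comp_id x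

lemma US.eq_zero {W E : T} {w : End E} (h : US W w) (x : ℕ → (W ⟶ E))
    (hx : ∀ k, x k = x (k + 1) ≫ w) (k : ℕ) : x k = 0 := by
  obtain ⟨y, -, hy⟩ := h (fun _ => 0)
  have h1 := hy x (fun k => by rw [← hx k, sub_self])
  have h2 := hy (fun _ => 0) (fun k => by simp)
  rw [h1, ← h2]

/-- If `w` is surjective on `Hom(W, E)`, then `Hom(W, E) = 0`. -/
lemma US.eq_zero_of_surj {W E : T} {w : End E} (h : US W w)
    (hs : ∀ x : W ⟶ E, ∃ y : W ⟶ E, y ≫ w = x) (x : W ⟶ E) : x = 0 := by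
  choose f hf using hs
  let s : ℕ → (W ⟶ E) := fun k => Nat.rec x (fun _ y => f y) k
  exact h.eq_zero s (fun k => (hf (s k)).symm) 0

/-- If `w` is injective, then `Hom(W, E)` is `w`-adically Hausdorff. -/
lemma US.haus {W E : T} {w : End E} (h : US W w)
    (hi : ∀ x : W ⟶ E, x ≫ w = 0 → x = 0) (x : W ⟶ E)
    (hx : ∀ j : ℕ, ∃ y : W ⟶ E, y ≫ (w ^ j : End E) = x) : x = 0 := by
  choose y hy using hx
  have hi' : ∀ (j : ℕ) (x : W ⟶ E), x ≫ (w ^ j : End E) = 0 → x = 0 := by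
    intro j
    induction j with
    | zero => intro x hx; rwa [comp_pow_zero] at hx
    | succ j ih => intro x hx; rw [comp_pow_succ] at hx; exact hi _ (ih _ hx)
  have h0 : ∀ k, y k = y (k + 1) ≫ w := by
    intro k
    rw [← sub_eq_zero]
    apply hi' k
    rw [Preadditive.sub_comp, hy, ← comp_pow_succ, hy, sub_self]
  have := h.eq_zero y h0 0
  rw [← hy 0, this, zero_comp]

/-- `Hom(W, E)` is `w`-adically complete. -/
lemma US.complete {W E : T} {w : End E} (h : US W w) (e : ℕ → (W ⟶ E))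
    (he : ∀ k, ∃ a : W ⟶ E, e (k + 1) - e k = a ≫ (w ^ k : End E)) :
    ∃ l : W ⟶ E, ∀ k, ∃ a : W ⟶ E, l - e k = a ≫ (w ^ k : End E) := by
  choose a ha using he
  obtain ⟨x, hx, -⟩ := h a
  refine ⟨e 0 + x 0, fun k => ⟨x k, ?_⟩⟩
  induction k with
  | zero => rw [comp_pow_zero]; abel
  | succ k ih =>
    have h1 : e (k + 1) = e k + a k ≫ (w ^ k : End E) := by rw [← ha]; abel
    have h2 : x k ≫ (w ^ k : End E) = a k ≫ (w ^ k : End E) + x (k + 1) ≫ (w ^ (k + 1) : End E) := by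
      rw [comp_pow_succ, ← Preadditive.add_comp, ← hx k]; congr 1; abel
    rw [h1, ← sub_sub, ih, h2]; abel

variable [HasShift T ℤ] [MonoidalCategory T]

/-- The odd homotopy groups vanish. -/
def OddZero (X : T) : Prop := ∀ (n : ℤ), Odd n → ∀ f : Sph T n ⟶ X, f = 0

lemma OddZero.retract {X Y : T} (h : OddZero Y) (i : X ⟶ Y) (r : Y ⟶ X) (hir : i ≫ r = 𝟙 X) :
    OddZero X := by
  intro n hn f
  have := h n hn (f ≫ i)
  rw [← Category.comp_id f, ← hir, ← Category.assoc, this, zero_comp]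

/-- Desuspension of a map into a shift. -/
lemma exists_desuspend {X : T} (n : ℤ) (f : Sph T n ⟶ X⟦(1 : ℤ)⟧) :
    ∃ g : Sph T (n - 1) ⟶ X,
      f = ((shiftFunctorAdd' T (n - 1) 1 n (by omega)).app (𝟙_ T)).hom ≫ g⟦(1 : ℤ)⟧' := by
  obtain ⟨g, hg⟩ := (shiftFunctor T (1 : ℤ)).map_surjective
    (((shiftFunctorAdd' T (n - 1) 1 n (by omega)).app (𝟙_ T)).inv ≫ f)
  exact ⟨g, by rw [hg, Iso.hom_inv_id_assoc]⟩

variable [HasZeroObject T] [∀ n : ℤ, (shiftFunctor T n).Additive] [Pretriangulated T]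

section Exact

variable {X Y Z : T} {f : X ⟶ Y} {g : Y ⟶ Z} {h : Z ⟶ X⟦(1 : ℤ)⟧}
  (hT : Triangle.mk f g h ∈ distTriang T)

include hT

lemma exact₂ {W : T} (x : W ⟶ Y) (hx : x ≫ g = 0) : ∃ y : W ⟶ X, x = y ≫ f :=
  Triangle.coyoneda_exact₂ _ hT x hx

lemma exact₃ {W : T} (x : W ⟶ Z) (hx : x ≫ h = 0) : ∃ y : W ⟶ Y, x = y ≫ g :=
  Triangle.coyoneda_exact₃ _ hT x hx

lemma exact₁ {W : T} (x : W ⟶ X⟦(1 : ℤ)⟧) (hx : x ≫ f⟦(1 : ℤ)⟧' = 0) :
    ∃ y : W ⟶ Z, x = y ≫ h :=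
  Triangle.coyoneda_exact₁ _ hT x hx

lemma zero₁₂ : f ≫ g = 0 := comp_distTriang_mor_zero₁₂ _ hT

lemma zero₂₃ : g ≫ h = 0 := comp_distTriang_mor_zero₂₃ _ hT

lemma zero₃₁ : h ≫ f⟦(1 : ℤ)⟧' = 0 := comp_distTriang_mor_zero₃₁ _ hT

end Exact

lemma exists_desuspend_comp {X : T} (w : X ⟶ X) (n : ℤ) (f : Sph T n ⟶ X⟦(1 : ℤ)⟧)
    (hf : f ≫ w⟦(1 : ℤ)⟧' = 0) :
    ∃ g : Sph T (n - 1) ⟶ X, g ≫ w = 0 ∧
      f = ((shiftFunctorAdd' T (n - 1) 1 n (by omega)).app (𝟙_ T)).hom ≫ g⟦(1 : ℤ)⟧' := by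
  obtain ⟨g, hg⟩ := exists_desuspend n f
  refine ⟨g, ?_, hg⟩
  apply (shiftFunctor T (1 : ℤ)).map_injective
  rw [hg, Category.assoc, ← Functor.map_comp] at hf
  rw [Functor.map_zero]
  exact (cancel_epi (((shiftFunctorAdd' T (n - 1) 1 n (by omega)).app (𝟙_ T)).hom)).1
    (by rw [hf, comp_zero])

section Cofibre

/-! Consequences of a triangle `E ⟶ E ⟶ C ⟶ E⟦1⟧` (maps `w`, `q`, `d`). -/

variable {E C : T} {w : E ⟶ E} {q : E ⟶ C} {d : C ⟶ E⟦(1 : ℤ)⟧}

/-- If `C` has no odd homotopy, then `w` is injective on the even homotopy of `E`. -/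
lemma injective_of_oddZero (h : Triangle.mk w q d ∈ distTriang T) (hC : OddZero C) {n : ℤ}
    (hn : Even n) (x : Sph T n ⟶ E) (hx : x ≫ w = 0) : x = 0 := by
  have hodd : Odd (n + 1) := hn.add_one
  -- suspend `x`
  let a := ((shiftFunctorAdd' T n 1 (n + 1) rfl).app (𝟙_ T))
  have h1 : (a.hom ≫ x⟦(1 : ℤ)⟧') ≫ w⟦(1 : ℤ)⟧' = 0 := by
    rw [Category.assoc, ← Functor.map_comp, hx, Functor.map_zero, comp_zero]
  obtain ⟨g, hg⟩ := exact₁ h (a.hom ≫ x⟦(1 : ℤ)⟧') h1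
  rw [hC _ hodd g, zero_comp] at hg
  apply (shiftFunctor T (1 : ℤ)).map_injective
  rw [Functor.map_zero]
  exact (cancel_epi a.hom).1 (by rw [hg, comp_zero])

/-- If `C` has no odd homotopy, then `w` is surjective on the odd homotopy of `E`. -/
lemma surjective_of_oddZero (h : Triangle.mk w q d ∈ distTriang T) (hC : OddZero C) {n : ℤ}
    (hn : Odd n) (x : Sph T n ⟶ E) : ∃ y : Sph T n ⟶ E, y ≫ w = x := by
  obtain ⟨y, hy⟩ := exact₂ h x (hC n hn _)
  exact ⟨y, hy.symm⟩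

/-- If `E` has no odd homotopy, then `E → C` is surjective on even homotopy. -/
lemma surjective_even (h : Triangle.mk w q d ∈ distTriang T) (hE : OddZero E) {n : ℤ}
    (hn : Even n) (x : Sph T n ⟶ C) : ∃ y : Sph T n ⟶ E, y ≫ q = x := by
  have h0 : x ≫ d = 0 := by
    obtain ⟨g, hg⟩ := exists_desuspend n (x ≫ d)
    rw [hg, hE (n - 1) (Even.sub_odd hn odd_one) g, Functor.map_zero, comp_zero]
  obtain ⟨y, hy⟩ := exact₃ h x h0
  exact ⟨y, hy.symm⟩

lemma eq_zero_iff_even (h : Triangle.mk w q d ∈ distTriang T) {n : ℤ} (x : Sph T n ⟶ E) :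
    x ≫ q = 0 ↔ ∃ y : Sph T n ⟶ E, y ≫ w = x := by
  constructor
  · intro hx
    obtain ⟨y, hy⟩ := exact₂ h x hx
    exact ⟨y, hy.symm⟩
  · rintro ⟨y, rfl⟩
    rw [Category.assoc, zero₁₂ h, comp_zero]

/-- If `E` has no odd homotopy and `w` is injective on even homotopy, then `C` has no odd
homotopy. -/
lemma OddZero.cofibre (h : Triangle.mk w q d ∈ distTriang T) (hE : OddZero E)
    (hw : ∀ (n : ℤ), Even n → ∀ x : Sph T n ⟶ E, x ≫ w = 0 → x = 0) : OddZero C := by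
  intro n hn x
  have h0 : x ≫ d = 0 := by
    obtain ⟨g, hg, hg'⟩ := exists_desuspend_comp w n (x ≫ d)
      (by rw [Category.assoc, zero₃₁ h, comp_zero])
    rw [hg', hw (n - 1) (Odd.sub_odd hn odd_one) g hg, Functor.map_zero, comp_zero]
  obtain ⟨y, hy⟩ := exact₃ h x h0
  rw [hy, hE n hn y, zero_comp]

end Cofibre

/-- Extensions of objects without odd homotopy. -/
lemma OddZero.of_triangle {X Y Z : T} {f : X ⟶ Y} {g : Y ⟶ Z} {h : Z ⟶ X⟦(1 : ℤ)⟧}
    (hT : Triangle.mk f g h ∈ distTriang T) (hX : OddZero X) (hZ : OddZero Z) : OddZero Y := by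
  intro n hn x
  obtain ⟨y, hy⟩ := exact₂ hT x (hZ n hn _)
  rw [hy, hX n hn y, zero_comp]

section Key

variable {E : T} {w : End E} {C : ℕ → T} {q : ∀ j, E ⟶ C j} {d : ∀ j, C j ⟶ E⟦(1 : ℤ)⟧}

lemma pow_injective {n : ℤ} (hi : ∀ x : Sph T n ⟶ E, x ≫ w = 0 → x = 0) (j : ℕ) :
    ∀ x : Sph T n ⟶ E, x ≫ (w ^ j : End E) = 0 → x = 0 := by
  induction j with
  | zero => intro x hx; rwa [comp_pow_zero] at hx
  | succ j ih => intro x hx; rw [comp_pow_succ] at hx; exact hi _ (ih _ hx)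

/-- (K), part 1: `E` has no odd homotopy. -/
theorem key_oddZero (hus : ∀ n, US (Sph T n) w)
    (hC : ∀ j, Triangle.mk (w ^ j : End E) (q j) (d j) ∈ distTriang T) (h1 : OddZero (C 1)) :
    OddZero E := by
  intro n hn x
  refine (hus n).eq_zero_of_surj (fun x => ?_) x
  obtain ⟨y, hy⟩ := surjective_of_oddZero (hC 1) h1 hn x
  exact ⟨y, by rw [← hy, pow_one]⟩

/-- (K), part 2: `w` is injective on even homotopy. -/
theorem key_injective
    (hC : ∀ j, Triangle.mk (w ^ j : End E) (q j) (d j) ∈ distTriang T) (h1 : OddZero (C 1))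
    {n : ℤ} (hn : Even n) (x : Sph T n ⟶ E) (hx : x ≫ w = 0) : x = 0 :=
  injective_of_oddZero (hC 1) h1 hn x (by rw [pow_one]; exact hx)

/-- (K), part 3: all the cofibres `E / w^j` have no odd homotopy. -/
theorem key_oddZero_cofibre (hus : ∀ n, US (Sph T n) w)
    (hC : ∀ j, Triangle.mk (w ^ j : End E) (q j) (d j) ∈ distTriang T) (h1 : OddZero (C 1))
    (j : ℕ) : OddZero (C j) :=
  OddZero.cofibre (hC j) (key_oddZero hus hC h1) fun _ hn =>
    pow_injective (fun x hx => key_injective hC h1 hn x hx) j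

end Key

end Vale.Agent.P251.S
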