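import Vale.Agent.P251.S.Tens

/-!
# P251, part S2: the invariance relation and nilpotence on Koszul objects
-/

open CategoryTheory MonoidalCategory Limits MonObj Pretriangulated

set_option linter.unusedSectionVars false

universe v u

namespace Vale.Agent.P251.S

open T

section ring

variable {E : Type*} [Ring E]

/-- `(x + n)^N` is divisible by `x^j` for large `N`, if `n` is nilpotent -/
theorem exists_pow_eq_mul' {x n : E} (hc : Commute x n) (hn : IsNilpotent n)
    (j : ℕ) : ∃ (N : ℕ) (g : E), (x + n) ^ N = x ^ j * g ∧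
      ∀ z, Commute z x → Commute z n → Commute z g := by
  obtain ⟨m, hm⟩ := hn
  refine ⟨j + m, ∑ i ∈ Finset.range (m + 1), x ^ i * n ^ (m - i) * ((j + m).choose (j + i) : E),
    ?_, ?_⟩
  · rw [hc.add_pow, Finset.mul_sum]
    rw [show j + m + 1 = j + (m + 1) by ring, Finset.sum_range_add]
    have h0 : ∑ i ∈ Finset.range j, x ^ i * n ^ (j + m - i) * ((j + m).choose i : E) = 0 := by
      refine Finset.sum_eq_zero fun i hi => ?_
      rw [Finset.mem_range] at hi
      have : n ^ (j + m - i) = 0 := by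
        rw [show j + m - i = m + (j - i) by omega, pow_add, hm, zero_mul]
      rw [this, mul_zero, zero_mul]
    rw [h0, zero_add]
    refine Finset.sum_congr rfl fun i hi => ?_
    rw [Finset.mem_range] at hi
    rw [show j + m - (j + i) = m - i by omega, pow_add]
    simp only [_root_.mul_assoc]
  · intro z h1 h2
    refine Commute.sum_right _ _ _ fun i _ => ?_
    exact ((h1.pow_right i).mul_right (h2.pow_right _)).mul_right
      (Nat.cast_commute _ z).symm

/-- if `x = U y + n` with `U` invertible, `n` nilpotent, everything commuting, then a power of `y`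
is divisible by `x ^ j` -/
theorem exists_pow_dvd {x y n U U' : E} (hx : x = U * y + n) (hU : U * U' = 1)
    (hn : IsNilpotent n) (cxn : Commute x n)
    (cxU' : Commute x U') (cyU : Commute y U) (cyU' : Commute y U') (cUU : Commute U U') (j : ℕ) :
    ∃ (N : ℕ) (g : E), y ^ N = x ^ j * g ∧ Commute x g := by
  have h1 : U * y = x + -n := by rw [hx]; abel
  obtain ⟨N, g, hg, hgc⟩ := exists_pow_eq_mul' cxn.neg_right hn.neg j
  refine ⟨N, g * U' ^ N, ?_, (hgc x (Commute.refl x) cxn.neg_right).mul_right (cxU'.pow_right N)⟩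
  have h2 : y = (U * y) * U' := by
    rw [cyU.symm.eq, _root_.mul_assoc, hU, _root_.mul_one]
  have h3 : Commute (U * y) U' := cUU.mul_left cyU'
  conv_lhs => rw [h2]
  rw [h3.mul_pow, h1, hg, _root_.mul_assoc]

/-- the other direction: a power of `x` is divisible by `y ^ j` -/
theorem exists_pow_dvd' {x y n U : E} (hx : x = U * y + n) (hn : IsNilpotent n)
    (cyn : Commute y n) (cUn : Commute U n) (cyU : Commute y U) (j : ℕ) :
    ∃ (N : ℕ) (g : E), x ^ N = y ^ j * g ∧ Commute y g := by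
  obtain ⟨N, g, hg, hgc⟩ := exists_pow_eq_mul' (cUn.mul_left cyn) hn j
  refine ⟨N, U ^ j * g, ?_, ?_⟩
  · rw [hx, hg, cyU.symm.mul_pow, (cyU.pow_pow j j).symm.eq, _root_.mul_assoc]
  · exact (cyU.pow_right j).mul_right (hgc y (cyU.mul_right (Commute.refl y)) cyn)

end ring

section rel

variable {T : Type u} [Category.{v} T] [Preadditive T] [MonoidalCategory T]
  [MonoidalPreadditive T] [SymmetricCategory T] {P : T} [MonObj P] [IsCommMonObj P] {N : T}

/-- The invariance relation (INV): `1 ⊗ v_i` is a unit times `v_i ⊗ 1` modulo the ideal generated by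
`v_k ⊗ 1`, `k < i`. -/
def InvRel (P : T) [MonObj P] (v : ℕ → (𝟙_ T ⟶ P)) (i : ℕ) : Prop :=
  ∃ (u u' : 𝟙_ T ⟶ P ⊗ P) (c : ℕ → (𝟙_ T ⟶ P ⊗ P)), scMul u u' = η[P ⊗ P] ∧
    scR P (v i) = scMul u (scL P (v i)) + ∑ k ∈ Finset.range i, scMul (scL P (v k)) (c k)

theorem ModStr.sm_one (M : ModStr P N) : M.sm η[P] = 1 := M.smul_one

/-- On `N ⊗ P` (with `v_k`, `k < i` nilpotent on `N`): `x = 1 ⊗ v_i`, `y = v_i ⊗ 1` divide powers of
each other, all commuting. -/
theorem exists_dvd (M : ModStr P N) (v : ℕ → (𝟙_ T ⟶ P)) (i : ℕ) (hv : InvRel P v i)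
    (hb : ∀ k < i, IsNilpotent (M.sm (v k))) (j : ℕ) :
    (∃ (m : ℕ) (g : End (N ⊗ P)), (endR N P (M.sm (v i))) ^ m =
      (endL N P ((ModStr.self P).sm (v i))) ^ j * g ∧
        Commute (endL N P ((ModStr.self P).sm (v i))) g) ∧
    (∃ (m : ℕ) (g : End (N ⊗ P)), (endL N P ((ModStr.self P).sm (v i))) ^ m =
      (endR N P (M.sm (v i))) ^ j * g ∧
        Commute (endR N P (M.sm (v i))) g) := by
  obtain ⟨w, w', c, hw, hr⟩ := hv
  set MM := M.tens (ModStr.self P) with hMM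
  have hx : MM.sm (scR P (v i)) = endL N P ((ModStr.self P).sm (v i)) :=
    M.tens_smul_right (ModStr.self P) (v i)
  have hy : MM.sm (scL P (v i)) = endR N P (M.sm (v i)) :=
    M.tens_smul_left (ModStr.self P) (v i)
  have hn : IsNilpotent (MM.sm (∑ k ∈ Finset.range i, scMul (scL P (v k)) (c k))) := by
    rw [show MM.sm (∑ k ∈ Finset.range i, scMul (scL P (v k)) (c k)) =
      ∑ k ∈ Finset.range i, MM.sm (scMul (scL P (v k)) (c k)) from MM.smul_sum _ _]
    refine Commute.isNilpotent_sum ?_ ?_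
    · intro k hk
      rw [Finset.mem_range] at hk
      rw [show MM.sm (scMul (scL P (v k)) (c k)) = MM.sm (scL P (v k)) * MM.sm (c k) from
        MM.smul_mul _ _]
      refine Commute.isNilpotent_mul_right (MM.smul_comm _ _) ?_
      have h1 : MM.sm (scL P (v k)) = endR N P (M.sm (v k)) :=
        ModStr.tens_smul_left _ _ _
      rw [h1]
      obtain ⟨n, hn⟩ := hb k hk
      exact ⟨n, by rw [← map_pow, hn]; exact MonoidalPreadditive.zero_whiskerRight⟩
    · intro k k' _ _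
      exact MM.smul_comm _ _
  have hrel : MM.sm (scR P (v i)) = MM.sm w * MM.sm (scL P (v i)) +
      MM.sm (∑ k ∈ Finset.range i, scMul (scL P (v k)) (c k)) := by
    rw [hr, show MM.sm (scMul w (scL P (v i)) +
      ∑ k ∈ Finset.range i, scMul (scL P (v k)) (c k)) = MM.sm (scMul w (scL P (v i))) +
      MM.sm (∑ k ∈ Finset.range i, scMul (scL P (v k)) (c k)) from MM.smul_add _ _]
    congr 1
    exact MM.smul_mul _ _
  have hcomm : ∀ a b, Commute (MM.sm a) (MM.sm b) := fun a b => MM.smul_comm b a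
  have hww : MM.sm w * MM.sm w' = 1 := by
    rw [show MM.sm w * MM.sm w' = MM.sm (scMul w w') from (MM.smul_mul _ _).symm, hw]
    exact MM.smul_one
  rw [← hx, ← hy]
  exact ⟨exists_pow_dvd hrel hww hn (hcomm _ _) (hcomm _ _) (hcomm _ _) (hcomm _ _) (hcomm _ _) j,
    exists_pow_dvd' hrel hn (hcomm _ _) (hcomm _ _) (hcomm _ _) j⟩

end rel

section koszul

variable {T : Type u} [Category.{v} T] [Preadditive T] [HasZeroObject T] [HasShift T ℤ]
  [∀ n : ℤ, (shiftFunctor T n).Additive] [Pretriangulated T]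
  [MonoidalCategory T] [SymmetricCategory T] [TensorTriangulated T]
  {P : T} [MonObj P] [IsCommMonObj P] {N : T}

/-- **(a1)** If `v_0, …, v_{i-1}` are nilpotent on `N` then `v_i` is nilpotent on `N ⊗ C`, where `C`
is the cofibre of `v_i ^ j : P ⟶ P`. -/
theorem isNilpotent_step (M : ModStr P N) (v : ℕ → (𝟙_ T ⟶ P)) (i : ℕ) (hv : InvRel P v i)
    (hb : ∀ k < i, IsNilpotent (M.sm (v k))) (j : ℕ) {C : T} {q : P ⟶ C}
    {δ : C ⟶ P⟦(1 : ℤ)⟧}
    (hC : Triangle.mk (((ModStr.self P).sm (v i)) ^ j : End P) q δ ∈ distTriang T) :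
    IsNilpotent ((M.tensorRight C).sm (v i)) := by
  obtain ⟨⟨m, g, hg, hgc⟩, -⟩ := exists_dvd M v i hv hb j
  refine isNilpotent_cof (f := endL N P (((ModStr.self P).sm (v i)) ^ j)) (g := g)
    (N := m) (y := endR N P (M.sm (v i))) (tens_dist N hC) ?_ ?_ ?_ ?_
  · change (N ◁ q) ≫ (M.tensorRight C).smul (v i) = M.smul (v i) ▷ P ≫ (N ◁ q)
    rw [ModStr.tensorRight_smul]
    exact whisker_exchange _ _
  · change (M.tensorRight C).smul (v i) ≫ _ = _ ≫ (M.smul (v i) ▷ P)⟦(1 : ℤ)⟧'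
    rw [ModStr.tensorRight_smul]
    exact tensδ_natural _ _
  · rw [map_pow, hg]
  · rw [map_pow]
    exact hgc.pow_left j

theorem sm_tensorRight (M : ModStr P N) (X : T) (a : 𝟙_ T ⟶ P) :
    (M.tensorRight X).sm a = endR N X (M.sm a) :=
  M.tensorRight_smul X a

/-- nilpotence is inherited by `N ⊗ X` -/
theorem isNilpotent_tensorRight (M : ModStr P N) (X : T) (a : 𝟙_ T ⟶ P)
    (h : IsNilpotent (M.sm a)) : IsNilpotent ((M.tensorRight X).sm a) := by
  rw [sm_tensorRight]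
  exact isNilpotent_endR X h

/-- `p` is nilpotent on `N ⊗ C`, `C` the cofibre of `m : 𝟙 ⟶ 𝟙` -/
theorem isNilpotent_mod (M : ModStr P N) (m : ℤ) {C : T} {q : 𝟙_ T ⟶ C}
    {δ : C ⟶ (𝟙_ T)⟦(1 : ℤ)⟧}
    (hC : Triangle.mk (m • 𝟙 (𝟙_ T)) q δ ∈ distTriang T) :
    IsNilpotent ((M.tensorRight C).sm (m • η[P])) := by
  have h0 : ∀ {X : T} (MX : ModStr P X), MX.sm (m • η[P]) = m • (1 : End X) := by
    intro X MX
    have := map_zsmul MX.smulHom m η[P]
    change MX.smul (m • η[P]) = m • MX.smul η[P] at this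
    change MX.smul (m • η[P]) = m • 𝟙 X
    rw [this, MX.smul_one]
  have hf : endL N (𝟙_ T) (m • (1 : End (𝟙_ T))) = (m • (1 : End (N ⊗ 𝟙_ T))) := by
    change N ◁ (m • 𝟙 (𝟙_ T)) = m • 𝟙 (N ⊗ 𝟙_ T)
    have := map_zsmul ((tensorLeft N).mapAddHom (X := 𝟙_ T) (Y := 𝟙_ T)) m (𝟙 _)
    change N ◁ (m • 𝟙 (𝟙_ T)) = m • (N ◁ 𝟙 (𝟙_ T)) at this
    rw [this, MonoidalCategory.whiskerLeft_id]
  refine isNilpotent_cof (f := endL N (𝟙_ T) (m • (1 : End (𝟙_ T)))) (g := 1)
    (N := 1) (y := (m • (1 : End (N ⊗ 𝟙_ T)))) (tens_dist N hC) ?_ ?_ ?_ ?_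
  · rw [h0]
    change (N ◁ q) ≫ (m • 𝟙 _) = (m • 𝟙 _) ≫ (N ◁ q)
    simp
  · rw [h0]
    change (m • 𝟙 _) ≫ _ = _ ≫ (m • 𝟙 _)⟦(1 : ℤ)⟧'
    rw [Functor.map_zsmul]
    simp
  · rw [pow_one, hf, _root_.mul_one]
  · exact Commute.one_right _

end koszul

end Vale.Agent.P251.S
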