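import Vale.Agent.P251.S.Act
import Mathlib.CategoryTheory.Monoidal.Preadditive
import Mathlib.CategoryTheory.Monoidal.Braided.Basic

/-!
# P251, part S2: linear extension of maps to modules

For a module `N` over `P` a map `f : W ⟶ N` extends to the linear map `M.ext f : P ⊗ W ⟶ N`.
-/

open CategoryTheory MonoidalCategory Limits MonObj

set_option linter.unusedSectionVars false

universe v u

namespace Vale.Agent.P251.S

variable {T : Type u} [Category.{v} T] [MonoidalCategory T] {P : T} [MonObj P] {N : T}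

namespace ModStr

/-- the linear extension of `f : W ⟶ N` -/
def ext (M : ModStr P N) {W : T} (f : W ⟶ N) : P ⊗ W ⟶ N := (P ◁ f) ≫ M.act

/-- the unit `W ⟶ P ⊗ W` -/
def unitMap (P : T) [MonObj P] (W : T) : W ⟶ P ⊗ W := (λ_ W).inv ≫ (η[P] ▷ W)

@[reassoc (attr := simp)]
theorem unitMap_ext (M : ModStr P N) {W : T} (f : W ⟶ N) : unitMap P W ≫ M.ext f = f := by
  unfold unitMap ext
  rw [Category.assoc, ← whisker_exchange_assoc, M.one_act]
  simp

theorem ext_linear (M : ModStr P N) {W : T} (f : W ⟶ N) :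
    ((self P).tensorRight W).IsLinear M (M.ext f) := by
  unfold IsLinear ext tensorRight self
  simp only [Category.assoc, whiskerLeft_comp]
  rw [← whisker_exchange_assoc, M.mul_act]
  simp

theorem ext_comp (M : ModStr P N) {W : T} {N' : T} (M' : ModStr P N') (f : W ⟶ N) (g : N ⟶ N')
    (hg : M.IsLinear M' g) : M.ext f ≫ g = M'.ext (f ≫ g) := by
  unfold ext
  unfold IsLinear at hg
  rw [whiskerLeft_comp, Category.assoc, Category.assoc, hg]

theorem comp_ext (M : ModStr P N) {W W' : T} (g : W' ⟶ W) (f : W ⟶ N) :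
    (P ◁ g) ≫ M.ext f = M.ext (g ≫ f) := by
  unfold ext
  rw [whiskerLeft_comp, Category.assoc]

/-- a linear map is the extension of its restriction -/
theorem ext_unitMap (M : ModStr P N) {W : T} (g : P ⊗ W ⟶ N)
    (hg : ((self P).tensorRight W).IsLinear M g) : M.ext (unitMap P W ≫ g) = g := by
  unfold IsLinear at hg
  unfold ext unitMap
  simp only [whiskerLeft_comp, Category.assoc]
  rw [← hg]
  unfold tensorRight self
  have h1 : (P ◁ η[P]) ≫ μ[P] = (ρ_ P).hom := MonObj.mul_one P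
  have h2 : (P ◁ (λ_ W).inv) ≫ (P ◁ (η[P] ▷ W)) ≫ (α_ P P W).inv ≫ (μ[P] ▷ W) =
      𝟙 _ := by
    rw [associator_inv_naturality_middle_assoc, ← comp_whiskerRight, h1]
    simp
  rw [Category.assoc, reassoc_of% h2]

theorem act_smul (M : ModStr P N) (a : 𝟙_ T ⟶ P) :
    M.act ≫ M.smul a = ((self P).smul a ▷ N) ≫ M.act := by
  unfold smul
  rw [leftUnitor_inv_naturality_assoc, whisker_exchange_assoc]
  have h : (P ◁ M.act) ≫ M.act = (α_ P P N).inv ≫ (μ[P] ▷ N) ≫ M.act := by
    rw [M.mul_act]; simp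
  rw [h]
  unfold self
  simp

section comm

variable [BraidedCategory T] [IsCommMonObj P]

theorem self_smul_eq (a : 𝟙_ T ⟶ P) : (self P).smul a = (ρ_ P).inv ≫ (P ◁ a) ≫ μ[P] := by
  unfold smul self
  have h : (P ◁ a) ≫ μ[P] = (β_ P (𝟙_ T)).hom ≫ (a ▷ P) ≫ μ[P] := by
    rw [← BraidedCategory.braiding_naturality_right_assoc, IsCommMonObj.mul_comm]
  rw [h]
  simp

/-- the scalars act by linear maps -/
theorem smul_linear (M : ModStr P N) (a : 𝟙_ T ⟶ P) : M.IsLinear M (M.smul a) := by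
  unfold IsLinear
  rw [act_smul, self_smul_eq]
  have h : (P ◁ M.act) ≫ M.act = (α_ P P N).inv ≫ (μ[P] ▷ N) ≫ M.act := by
    rw [M.mul_act]; simp
  unfold smul
  simp only [whiskerLeft_comp, Category.assoc]
  rw [h]
  simp

theorem ext_smul (M : ModStr P N) {W : T} (f : W ⟶ N) (a : 𝟙_ T ⟶ P) :
    M.ext f ≫ M.smul a = M.ext (f ≫ M.smul a) :=
  M.ext_comp M f _ (M.smul_linear a)

theorem self_smul_ext (M : ModStr P N) {W : T} (f : W ⟶ N) (a : 𝟙_ T ⟶ P) :
    ((self P).smul a ▷ W) ≫ M.ext f = M.ext (f ≫ M.smul a) := by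
  rw [← ext_smul]
  have := (M.ext_linear f).smul a
  rwa [tensorRight_smul] at this

/-- the extension on the right -/
def extR (M : ModStr P N) {W : T} (f : W ⟶ N) : W ⊗ P ⟶ N := (β_ W P).hom ≫ M.ext f

theorem self_smul_extR (M : ModStr P N) {W : T} (f : W ⟶ N) (a : 𝟙_ T ⟶ P) :
    (W ◁ (self P).smul a) ≫ M.extR f = M.extR (f ≫ M.smul a) := by
  unfold extR
  rw [BraidedCategory.braiding_naturality_right_assoc, self_smul_ext]

theorem extR_smul (M : ModStr P N) {W : T} (f : W ⟶ N) (a : 𝟙_ T ⟶ P) :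
    M.extR f ≫ M.smul a = M.extR (f ≫ M.smul a) := by
  unfold extR
  rw [Category.assoc, ext_smul]

theorem eq_of_extR (M : ModStr P N) {W : T} (f g : W ⟶ N) (h : M.extR f = M.extR g) :
    f = g := by
  unfold extR at h
  rw [cancel_epi] at h
  rw [← M.unitMap_ext f, h, M.unitMap_ext]

end comm

end ModStr

section preadd

variable [Preadditive T] [MonoidalPreadditive T] [BraidedCategory T] [IsCommMonObj P]

theorem ModStr.ext_zero (M : ModStr P N) {W : T} : M.ext (0 : W ⟶ N) = 0 := by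
  unfold ModStr.ext
  rw [MonoidalPreadditive.whiskerLeft_zero, zero_comp]

theorem ModStr.ext_add (M : ModStr P N) {W : T} (f g : W ⟶ N) :
    M.ext (f + g) = M.ext f + M.ext g := by
  unfold ModStr.ext
  rw [MonoidalPreadditive.whiskerLeft_add, Preadditive.add_comp]

/-- `ext` as a homomorphism of groups -/
def ModStr.extHom (M : ModStr P N) (W : T) : (W ⟶ N) →+ (P ⊗ W ⟶ N) where
  toFun := M.ext
  map_zero' := M.ext_zero
  map_add' := M.ext_add

theorem ModStr.ext_sub (M : ModStr P N) {W : T} (f g : W ⟶ N) :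
    M.ext (f - g) = M.ext f - M.ext g := map_sub (M.extHom W) f g

theorem ModStr.extR_zero (M : ModStr P N) {W : T} : M.extR (0 : W ⟶ N) = 0 := by
  unfold ModStr.extR
  rw [M.ext_zero, comp_zero]

theorem ModStr.eq_zero_of_extR (M : ModStr P N) {W : T} (f : W ⟶ N) (h : M.extR f = 0) :
    f = 0 := M.eq_of_extR _ _ (h.trans M.extR_zero.symm)

theorem ModStr.eq_zero_of_ext (M : ModStr P N) {W : T} (f : W ⟶ N) (h : M.ext f = 0) :
    f = 0 := by
  rw [← M.unitMap_ext f, h, comp_zero]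

end preadd

end Vale.Agent.P251.S
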