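import Vale.Agent.P251.S.TelTens
import Vale.Agent.P251.S.Kos
import Vale.Agent.P251.S.ModExt
import Vale.Agent.P251.S.KeyLemma

/-!
# P251, part S2: the Koszul object `K_h`, (a2)
-/

open CategoryTheory MonoidalCategory Limits MonObj Pretriangulated

set_option linter.unusedSectionVars false

universe v u

namespace Vale.Agent.P251.S

open T

section tensR

variable {T : Type u} [Category.{v} T] [Preadditive T] [HasZeroObject T] [HasShift T ℤ]
  [∀ n : ℤ, (shiftFunctor T n).Additive] [Pretriangulated T]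
  [MonoidalCategory T] [SymmetricCategory T] [TensorTriangulated T]

/-- the connecting map of a triangle tensored on the right -/
noncomputable def tensRδ {C X : T} (δ : C ⟶ X⟦(1 : ℤ)⟧) (Y : T) : C ⊗ Y ⟶ (X ⊗ Y)⟦(1 : ℤ)⟧ :=
  (β_ C Y).hom ≫ tensδ Y δ ≫ ((β_ Y X).hom)⟦(1 : ℤ)⟧'

theorem tensR_dist (Y : T) {X X' C : T} {f : X ⟶ X'} {q : X' ⟶ C} {δ : C ⟶ X⟦(1 : ℤ)⟧}
    (h : Triangle.mk f q δ ∈ distTriang T) :
    Triangle.mk (f ▷ Y) (q ▷ Y) (tensRδ δ Y) ∈ distTriang T := by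
  refine isomorphic_distinguished _ (tens_dist Y h) _ ?_
  refine Triangle.isoMk _ _ (β_ X Y) (β_ X' Y) (β_ C Y) ?_ ?_ ?_
  · exact BraidedCategory.braiding_naturality_left f Y
  · exact BraidedCategory.braiding_naturality_left q Y
  · change ((β_ C Y).hom ≫ tensδ Y δ ≫ ((β_ Y X).hom)⟦(1 : ℤ)⟧') ≫ ((β_ X Y).hom)⟦(1 : ℤ)⟧' =
      (β_ C Y).hom ≫ tensδ Y δ
    simp only [Category.assoc]
    rw [← Functor.map_comp, SymmetricCategory.symmetry, CategoryTheory.Functor.map_id,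
      Category.comp_id]

theorem tensRδ_natural {C X : T} (δ : C ⟶ X⟦(1 : ℤ)⟧) {Y Y' : T} (φ : Y ⟶ Y')  :
    (C ◁ φ) ≫ tensRδ δ Y' = tensRδ δ Y ≫ (X ◁ φ)⟦(1 : ℤ)⟧' := by
  unfold tensRδ
  simp only [Category.assoc]
  rw [← Functor.map_comp, ← BraidedCategory.braiding_naturality_left, Functor.map_comp,
    ← reassoc_of% (tensδ_natural φ δ), BraidedCategory.braiding_naturality_right_assoc]

end tensR

section iso

variable {T : Type u} [Category.{v} T] [Preadditive T] [HasZeroObject T] [HasShift T ℤ]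
  [∀ n : ℤ, (shiftFunctor T n).Additive] [Pretriangulated T]

/-- a map with zero cofibre is an isomorphism -/
theorem isIso_of_isZero_cof {X Y C : T} {f : X ⟶ Y} {q : Y ⟶ C} {δ : C ⟶ X⟦(1 : ℤ)⟧}
    (h : Triangle.mk f q δ ∈ distTriang T) (hC : IsZero C) : IsIso f :=
  (Triangle.isZero₃_iff_isIso₁ _ h).1 hC

theorem isZero_cof_of_isIso {X Y C : T} {f : X ⟶ Y} {q : Y ⟶ C} {δ : C ⟶ X⟦(1 : ℤ)⟧}
    (h : Triangle.mk f q δ ∈ distTriang T) (hf : IsIso f) : IsZero C :=
  (Triangle.isZero₃_iff_isIso₁ _ h).2 hf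

end iso

section a2

variable {T : Type u} [Category.{v} T] [Preadditive T] [HasZeroObject T] [HasShift T ℤ]
  [∀ n : ℤ, (shiftFunctor T n).Additive] [Pretriangulated T]
  [MonoidalCategory T] [SymmetricCategory T] [TensorTriangulated T] [MonoidalClosed T]
  [HasCoproducts.{0} T]
  {P : T} [MonObj P] [IsCommMonObj P] {N : T}

/-- **(a2)** If `v_0, …, v_{i-1}` are nilpotent on `N` then `v_i` (of `N`) is an isomorphism on
`N ⊗ Tl`, where `Tl` is the telescope of `v_i : P ⟶ P`. -/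
theorem isIso_a2 (M : ModStr P N) (v : ℕ → (𝟙_ T ⟶ P)) (i : ℕ) (hv : InvRel P v i)
    (hb : ∀ k < i, IsNilpotent (M.sm (v k)))
    (U : Tel (X := fun _ => P) (fun _ => (ModStr.self P).smul (v i))) :
    IsIso ((M.tensorRight U.obj).smul (v i)) := by
  obtain ⟨-, m, g, hg, hgc⟩ := exists_dvd M v i hv hb 1
  rw [pow_one] at hg
  rw [ModStr.tensorRight_smul]
  have hE := cof_dist (M.smul (v i))
  set E := cof (M.smul (v i)) with hEdef
  -- `v_i` of the `P`-factor is nilpotent on `E ⊗ P`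
  have hnil : IsNilpotent (endL E P ((ModStr.self P).sm (v i))) := by
    refine isNilpotent_cof (f := endR N P (M.sm (v i))) (g := g) (N := m)
      (y := endL N P ((ModStr.self P).sm (v i))) (tensR_dist P hE) ?_ ?_ hg hgc
    · exact (whisker_exchange (cofπ (M.smul (v i))) ((ModStr.self P).smul (v i))).symm
    · exact tensRδ_natural (cofδ (M.smul (v i))) ((ModStr.self P).smul (v i))
  have hz : IsZero (E ⊗ U.obj) :=
    Tel.isZero_const (w := endL E P ((ModStr.self P).sm (v i))) (U.tensL E) hnil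
  exact isIso_of_isZero_cof (tensR_dist U.obj hE) hz

end a2

section conj

variable {T : Type u} [Category.{v} T]

theorem isNilpotent_conj [Preadditive T] {X Y : T} (e : X ≅ Y) {f : End X} {g : End Y}
    (h : e.hom ≫ g = f ≫ e.hom) (hf : IsNilpotent f) : IsNilpotent g := by
  obtain ⟨n, hn⟩ := hf
  refine ⟨n, ?_⟩
  rw [← cancel_epi e.hom, comp_pow_eq h n, hn]
  change (0 : X ⟶ X) ≫ e.hom = e.hom ≫ 0
  rw [zero_comp, comp_zero]

theorem isIso_conj {X Y : T} (e : X ≅ Y) {f : X ⟶ X} {g : Y ⟶ Y}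
    (h : e.hom ≫ g = f ≫ e.hom) (hf : IsIso f) : IsIso g := by
  have : g = e.inv ≫ f ≫ e.hom := by rw [← h, Iso.inv_hom_id_assoc]
  rw [this]
  infer_instance

end conj

section defs

variable {T : Type u} [Category.{v} T] [Preadditive T] [HasZeroObject T] [HasShift T ℤ]
  [∀ n : ℤ, (shiftFunctor T n).Additive] [Pretriangulated T] [HasCoproducts.{0} T]
  [MonoidalCategory T]

/-- The data of the Koszul object `K_h = Q 0 ⊗ Q 1 ⊗ ⋯ ⊗ Q (h-1) ⊗ Tl`: `Q 0` is the cofibre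
of `p` on the unit, `Q (i+1)` the cofibre of `v (i+1)` on `P`, and `Tl` the telescope of `v h`
on `P`. -/
structure KosData (P : T) [MonObj P] (p : ℤ) (h : ℕ) (v : ℕ → (𝟙_ T ⟶ P)) where
  /-- the cofibres -/
  Q : ℕ → T
  /-- the map to the cofibre of `p` -/
  q0 : 𝟙_ T ⟶ Q 0
  /-- the connecting map -/
  δ0 : Q 0 ⟶ (𝟙_ T)⟦(1 : ℤ)⟧
  dist0 : Triangle.mk (p • 𝟙 (𝟙_ T)) q0 δ0 ∈ distTriang T
  /-- the maps to the cofibres -/
  q (i : ℕ) : P ⟶ Q (i + 1)
  /-- the connecting maps -/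
  δ (i : ℕ) : Q (i + 1) ⟶ P⟦(1 : ℤ)⟧
  dist (i : ℕ) : Triangle.mk ((ModStr.self P).smul (v (i + 1))) (q i) (δ i) ∈ distTriang T
  /-- the telescope -/
  Tl : T
  /-- the maps to the telescope -/
  ι : ℕ → (P ⟶ Tl)
  isTel : IsTel (X := fun _ => P) (fun _ => (ModStr.self P).smul (v h)) ι

/-- the hypotheses on the elements `v i`: `v 0 = p`, and invariance modulo lower terms -/
structure InvData (P : T) [MonoidalPreadditive T] [SymmetricCategory T] [MonObj P] (p : ℤ)
    (h : ℕ) (v : ℕ → (𝟙_ T ⟶ P)) : Prop where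
  v0 : v 0 = p • η[P]
  inv (i : ℕ) (hi : 1 ≤ i) (hi' : i ≤ h) : InvRel P v i

theorem exists_kosData (P : T) [MonObj P] (p : ℤ) (h : ℕ) (v : ℕ → (𝟙_ T ⟶ P)) :
    Nonempty (KosData P p h v) := by
  obtain ⟨U⟩ := exists_tel (X := fun _ : ℕ => P) (fun _ => (ModStr.self P).smul (v h))
  obtain ⟨Q0, q0, δ0, h0⟩ := distinguished_cocone_triangle (p • 𝟙 (𝟙_ T))
  have hQ : ∀ i, ∃ (C : T) (q : P ⟶ C) (δ : C ⟶ P⟦(1 : ℤ)⟧),
      Triangle.mk ((ModStr.self P).smul (v (i + 1))) q δ ∈ distTriang T := fun i =>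
    distinguished_cocone_triangle ((ModStr.self P).smul (v (i + 1)))
  choose C q δ hd using hQ
  exact ⟨{
    Q := fun i => match i with
      | 0 => Q0
      | i + 1 => C i
    q0 := q0
    δ0 := δ0
    dist0 := h0
    q := q
    δ := δ
    dist := hd
    Tl := U.obj
    ι := U.ι
    isTel := U.isTel }⟩

namespace KosData

variable {P : T} [MonObj P] {p : ℤ} {h : ℕ} {v : ℕ → (𝟙_ T ⟶ P)} (D : KosData P p h v)

/-- the partial Koszul objects `Q 0 ⊗ ⋯ ⊗ Q (i-1)` -/
def kos : ℕ → T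
  | 0 => 𝟙_ T
  | i + 1 => kos i ⊗ D.Q i

@[simp] theorem kos_zero : D.kos 0 = 𝟙_ T := rfl

@[simp] theorem kos_succ (i : ℕ) : D.kos (i + 1) = D.kos i ⊗ D.Q i := rfl

/-- the object `K_h` -/
def K : T := D.kos h ⊗ D.Tl

end KosData

end defs

section main

variable {T : Type u} [Category.{v} T] [Preadditive T] [HasZeroObject T] [HasShift T ℤ]
  [∀ n : ℤ, (shiftFunctor T n).Additive] [Pretriangulated T]
  [MonoidalCategory T] [SymmetricCategory T] [TensorTriangulated T] [MonoidalClosed T]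
  [HasCoproducts.{0} T]
  {P : T} [MonObj P] [IsCommMonObj P] {p : ℤ} {h : ℕ} {v : ℕ → (𝟙_ T ⟶ P)}
  (D : KosData P p h v) {N : T}

namespace KosData

include D in
/-- the first step of the induction: `v 0, …, v i` are nilpotent on `N ⊗ Q i` if `v 0, …, v (i-1)`
are nilpotent on `N` -/
theorem nil_step (M : ModStr P N) (hv : InvData P p h v) (i : ℕ) (hi : i ≤ h)
    (hb : ∀ k < i, IsNilpotent (M.sm (v k))) (k : ℕ) (hk : k < i + 1) :
    IsNilpotent ((M.tensorRight (D.Q i)).sm (v k)) := by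
  rcases Nat.lt_succ_iff_lt_or_eq.1 hk with hk | rfl
  · exact isNilpotent_tensorRight M _ _ (hb k hk)
  · match k, hb with
    | 0, _ =>
      rw [hv.v0]
      exact isNilpotent_mod M p D.dist0
    | i + 1, hb =>
      refine isNilpotent_step M v (i + 1) (hv.inv (i + 1) (by omega) hi) hb 1 (q := D.q i)
        (δ := D.δ i) ?_
      rw [pow_one]
      exact D.dist i

theorem smul_tensor_assoc (M : ModStr P N) (X Y : T) (a : 𝟙_ T ⟶ P) :
    (α_ N X Y).hom ≫ (M.tensorRight (X ⊗ Y)).smul a =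
      ((M.tensorRight X).tensorRight Y).smul a ≫ (α_ N X Y).hom := by
  rw [ModStr.tensorRight_smul, ModStr.tensorRight_smul, ModStr.tensorRight_smul]
  simp

/-- nilpotence on the Koszul objects -/
theorem nil_kos (M : ModStr P N) (hv : InvData P p h v) (i : ℕ) (hi : i ≤ h + 1) (k : ℕ)
    (hk : k < i) : IsNilpotent ((M.tensorRight (D.kos i)).sm (v k)) := by
  induction i generalizing k with
  | zero => omega
  | succ i ih =>
    have h1 := D.nil_step (M.tensorRight (D.kos i)) hv i (by omega)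
      (fun k hk => ih (by omega) k hk) k hk
    exact isNilpotent_conj (α_ N (D.kos i) (D.Q i)) (smul_tensor_assoc M _ _ _) h1

/-- `v h` is an isomorphism on `N ⊗ K` -/
theorem isIso_smul_K (M : ModStr P N) (hv : InvData P p h v) (hh : 1 ≤ h) :
    IsIso ((M.tensorRight D.K).smul (v h)) := by
  have h1 := isIso_a2 (M.tensorRight (D.kos h)) v h (hv.inv h hh le_rfl)
    (fun k hk => D.nil_kos M hv h (by omega) k hk) D.isTel.tel
  exact isIso_conj (α_ N (D.kos h) D.Tl) (smul_tensor_assoc M _ _ _) h1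

theorem nil_K (M : ModStr P N) (hv : InvData P p h v) (k : ℕ) (hk : k < h) :
    IsNilpotent ((M.tensorRight D.K).sm (v k)) := by
  have h1 := isNilpotent_tensorRight (M.tensorRight (D.kos h)) D.Tl (v k)
    (D.nil_kos M hv h (by omega) k hk)
  exact isNilpotent_conj (α_ N (D.kos h) D.Tl) (smul_tensor_assoc M _ _ _) h1

/-- `K ⊗ (X ⊗ P) ≅ (P ⊗ K) ⊗ X` -/
def eKXP (K X P : T) : (P ⊗ K) ⊗ X ≅ K ⊗ (X ⊗ P) :=
  (whiskerRightIso (β_ P K) X) ≪≫ α_ K P X ≪≫ whiskerLeftIso K (β_ P X)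

theorem eKXP_natural (K X : T) {P P' : T} (a : P ⟶ P') :
    (eKXP K X P).hom ≫ (K ◁ (X ◁ a)) = ((a ▷ K) ▷ X) ≫ (eKXP K X P').hom := by
  unfold eKXP
  simp only [Iso.trans_hom, whiskerRightIso_hom, whiskerLeftIso_hom, Category.assoc]
  rw [← whiskerLeft_comp, ← BraidedCategory.braiding_naturality_left, whiskerLeft_comp,
    ← comp_whiskerRight_assoc, ← associator_naturality_middle_assoc]
  rw [BraidedCategory.braiding_naturality_left, comp_whiskerRight_assoc]

/-- `X ⊗ P ⟶ X ⊗ Tl` is a `K`-equivalence -/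
theorem isIso_K_ι (hv : InvData P p h v) (hh : 1 ≤ h) (X : T) :
    IsIso (D.K ◁ (X ◁ D.ι 0)) := by
  have h1 := D.isIso_smul_K (ModStr.self P) hv hh
  rw [ModStr.tensorRight_smul] at h1
  have h2 : IsIso (D.K ◁ (X ◁ (ModStr.self P).smul (v h))) :=
    isIso_conj (eKXP D.K X P) (eKXP_natural D.K X ((ModStr.self P).smul (v h))) inferInstance
  exact Tel.isIso_const ((D.isTel.tel.tensL X).tensL D.K)

/-- the telescopes of the lower `v i` are `K`-acyclic -/
theorem tel_acyclic (hv : InvData P p h v) (i : ℕ) (hi : i < h) (X : T)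
    (U : Tel (X := fun _ => P) (fun _ => (ModStr.self P).smul (v i))) :
    Acyclic D.K (X ⊗ U.obj) := by
  have h1 := D.nil_K (ModStr.self P) hv i hi
  rw [sm_tensorRight] at h1
  have h2 : IsNilpotent (endR (P ⊗ D.K) X (endR P D.K ((ModStr.self P).sm (v i)))) :=
    isNilpotent_endR X h1
  have h3 : IsNilpotent (endL D.K (X ⊗ P) (endL X P ((ModStr.self P).sm (v i)))) :=
    isNilpotent_conj (eKXP D.K X P) (eKXP_natural D.K X ((ModStr.self P).smul (v i))) h2
  exact Tel.isZero_const (w := endL D.K (X ⊗ P) (endL X P ((ModStr.self P).sm (v i))))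
    ((U.tensL X).tensL D.K) h3

end KosData

end main

end Vale.Agent.P251.S
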