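import Vale.Agent.P251.S.CobarR
import Vale.Agent.P251.S.Amitsur
import Mathlib.Algebra.BigOperators.Fin

/-!
# P251, part S (S3): the cobar complex of a commutative monoid in terms of `R^{⊗ n}`

`θ n Y : Q n Y ≅ R^{⊗ n} ⊗ Y` identifies the cobar complex with the complex of the cosimplicial
object `n ↦ R^{⊗ (n+1)} ⊗ Y` (alternating sum of cofaces).
-/

open CategoryTheory MonoidalCategory Limits Pretriangulated MonObj

universe v u

namespace Vale.Agent.P251.S

open Vale.Agent.P251.T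

variable {T : Type u} [Category.{v} T] [Preadditive T] [HasZeroObject T] [HasShift T ℤ]
  [∀ n : ℤ, (shiftFunctor T n).Additive] [Pretriangulated T] [MonoidalCategory T]
  [SymmetricCategory T] [TensorTriangulated T]

namespace UnitCof

variable {R : T} [MonObj R] (U : UnitCof R)

/-- The comparison `Q n Y ≅ R^{⊗ n} ⊗ Y`. -/
def θ : ∀ (n : ℕ) (Y : T), U.cobar.Q n Y ≅ Am R n ⊗ Y
  | 0, Y => (λ_ Y).symm
  | n + 1, Y => θ n (R ⊗ Y) ≪≫ (α_ (Am R n) R Y).symm

lemma θ_zero (Y : T) : U.θ 0 Y = (λ_ Y).symm := rfl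

lemma θ_succ (n : ℕ) (Y : T) : U.θ (n + 1) Y = U.θ n (R ⊗ Y) ≪≫ (α_ (Am R n) R Y).symm := rfl

@[reassoc]
lemma θ_naturality (n : ℕ) {X Y : T} (f : X ⟶ Y) :
    U.cobar.Qm n f ≫ (U.θ n Y).hom = (U.θ n X).hom ≫ (Am R n ◁ f) := by
  induction n generalizing X Y with
  | zero => exact leftUnitor_inv_naturality f
  | succ n ih =>
    rw [θ_succ, θ_succ, Iso.trans_hom, Iso.trans_hom, Category.assoc, CobarData.Qm_succ,
      reassoc_of% ih (R ◁ f)]
    simp

@[reassoc]
lemma lam_θ (n : ℕ) (Y : T) : U.cobar.lam n Y ≫ (U.θ (n + 1) Y).hom =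
    (U.θ n Y).hom ≫ (inlM (Am R n) R ▷ Y) := by
  have h : (Am R n ◁ unitMap R Y) ≫ (α_ (Am R n) R Y).inv = inlM (Am R n) R ▷ Y := by
    simp only [unitMap, inlM, MonoidalCategory.whiskerLeft_comp, Category.assoc,
      comp_whiskerRight]
    rw [associator_inv_naturality_middle, ← Category.assoc]
    congr 1
    simp
  rw [CobarData.lam, θ_succ, Iso.trans_hom, reassoc_of% U.θ_naturality n (unitMap R Y)]
  exact congrArg _ h

variable [IsCommMonObj R]

/-- The differential of the cobar complex is the alternating sum of the cofaces. -/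
lemma d_θ (n : ℕ) (Y : T) : U.cobar.d n Y ≫ (U.θ (n + 1) Y).hom =
    (U.θ n Y).hom ≫ ∑ i : Fin (n + 1), (-1 : ℤ) ^ (i : ℕ) •
      (Am.map R (Fin.succAbove i : Fin n → Fin (n + 1)) ▷ Y) := by
  induction n generalizing Y with
  | zero =>
    have h := U.lam_θ 0 Y
    rw [← Am.map_succAbove_last] at h
    rw [Fin.sum_univ_one, Fin.val_zero, pow_zero, one_smul]
    exact h
  | succ n ih =>
    rw [CobarData.d_succ, Preadditive.add_comp, Preadditive.zsmul_comp, lam_θ,
      Fin.sum_univ_castSucc, Preadditive.comp_add, Am.map_succAbove_last, Fin.val_last,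
      Preadditive.comp_zsmul]
    congr 1
    have h1 : U.cobar.d n (R ⊗ Y) ≫ (U.θ (n + 2) Y).hom = (U.θ n (R ⊗ Y)).hom ≫
        (∑ i : Fin (n + 1), (-1 : ℤ) ^ (i : ℕ) •
          (Am.map R (Fin.succAbove i : Fin n → Fin (n + 1)) ▷ (R ⊗ Y))) ≫
            (α_ (Am R (n + 1)) R Y).inv := by
      rw [U.θ_succ (n + 1) Y, Iso.trans_hom, ← Category.assoc, ih (R ⊗ Y), Category.assoc]
      rfl
    refine h1.trans ?_
    rw [θ_succ, Iso.trans_hom, Category.assoc]
    congr 1
    rw [Preadditive.sum_comp, Preadditive.comp_sum]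
    refine Finset.sum_congr rfl fun i _ => ?_
    rw [Preadditive.zsmul_comp, Preadditive.comp_zsmul, Fin.val_castSucc,
      Am.map_succAbove_castSucc]
    simp

end UnitCof

end Vale.Agent.P251.S
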