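import Vale.Agent.P251.S.CobLim

/-!
# P251, part S2G: weights and naturality

`E` a complete `Cob Laz s`-module as in `CobCompl` with projections `ε w`, `w : ℤ`: the part of
weight `w` of `E` is the limit of the `(Cob (NN p h j) s)_w` (`CobCompl.toLim`); semilinear maps
induce the cosimplicial maps (`CobCompl.lam_map`).
-/

open Vale.Agent.P251.F Vale.Agent.P251.I

namespace Vale.Agent.P251.S

/-! ### homogeneous elements -/

namespace CobWt

open Cob

variable {N : Type} [CommRing N] [LawRing N] {n : ℕ}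

theorem proj_sum {ι : Type*} (t : Finset ι) (f : ι → Cob N n) (w : ℤ) :
    proj w (∑ i ∈ t, f i) = ∑ i ∈ t, proj w (f i) :=
  _root_.map_sum (projHom N n w) f t

theorem proj_mul {v : ℤ} {a : Cob N n} (ha : IsWt v a) (w : ℤ) (x : Cob N n) :
    proj (v + w) (a * x) = a * proj w x := by
  conv_lhs => rw [← sum_proj x, Finset.mul_sum, proj_sum]
  have h1 : ∀ i ∈ wts x, proj (v + w) (a * proj i x) = if w = i then a * proj w x else 0 := by
    intro i _
    rw [proj_of_isWt (ha.mul (isWt_proj i x))]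
    by_cases hi : w = i
    · subst hi; simp
    · rw [if_neg, if_neg hi]
      intro h; exact hi (by linarith)
  rw [Finset.sum_congr rfl h1, Finset.sum_ite_eq (wts x) w fun _ => a * proj w x]
  split_ifs with h
  · rfl
  · rw [proj_eq_zero h, mul_zero]

end CobWt

section Invariance

variable (p h : ℕ) [Fact p.Prime] {m n : ℕ} (α : Fin (m + 1) → Fin (n + 1))

omit [Fact p.Prime] in
theorem map_comp_C : (Cob.map (N := Laz) α).comp MvPolynomial.C =
    Laz.lift ((Cob.univ Laz n).g (α 0) • Laz.univ.map MvPolynomial.C) := by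
  ext a
  rw [RingHom.comp_apply, Cob.map, Cob.ev_C, Chain.res_pt, Cob.univ_pt, Laz.act_eq]

/-- `I_h` is the same ideal at every vertex. -/
theorem map_IC : (IC p h m).map (Cob.map α) = IC p h n := by
  rw [IC, IC, Ideal.map_map, map_comp_C, Laz.I_map, Laz.univ_map_lift, Ih_smul, Laz.I_map]

theorem map_mem_IC_pow {j : ℕ} {c : Cob Laz m} (hc : c ∈ IC p h m ^ j) :
    Cob.map α c ∈ IC p h n ^ j := by
  rw [← map_IC p h α, ← Ideal.map_pow]
  exact Ideal.mem_map_of_mem _ hc

theorem toNN_map (j : ℕ) (c : Cob Laz m) :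
    toNN p h j n (Cob.map α c) = Cob.map α (toNN p h j m c) :=
  Cob.mapRing_map LawRing.isLawHom_ofLaz α c

end Invariance

/-! ### naturality -/

namespace CobCompl

section Nat

variable {p h : ℕ} [Fact p.Prime] {m n : ℕ} {E E' : Type*} [AddCommGroup E] [Module (Cob Laz m) E]
  [AddCommGroup E'] [Module (Cob Laz n) E'] {u : E} {u' : E'}
  (H : CobCompl p h m u) (H' : CobCompl p h n u')

omit H H' in
theorem map_fil {α : Fin (m + 1) → Fin (n + 1)} {f : E →+ E'}
    (hf : ∀ (c : Cob Laz m) (e : E), f (c • e) = Cob.map α c • f e) {j : ℕ} {e : E}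
    (he : e ∈ Fil p h m j E) : f e ∈ Fil p h n j E' := by
  refine Submodule.smul_induction_on he ?_ ?_
  · intro r hr e _
    rw [hf]
    exact Submodule.smul_mem_smul (map_mem_IC_pow p h α hr) trivial
  · intro x y hx hy
    rw [map_add]
    exact add_mem hx hy

/-- Semilinear maps induce the cosimplicial maps. -/
theorem lam_map {α : Fin (m + 1) → Fin (n + 1)} {f : E →+ E'}
    (hf : ∀ (c : Cob Laz m) (e : E), f (c • e) = Cob.map α c • f e) (hu : f u = u') (j : ℕ)
    (e : E) : H'.lam j (f e) = Cob.map α (H.lam j e) := by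
  obtain ⟨k, c, hc⟩ := H.dense j e
  have h1 := map_fil hf hc
  rw [map_sub, hf, hf, hu, map_pow] at h1
  have h2 := (H'.lam_eq_zero_iff j _).2 h1
  rw [map_sub, sub_eq_zero, H'.lam_smul_u, H'.lam_smul, map_pow, toNN_map, toNN_map,
    ← H.lam_spec j e hc, map_mul, map_pow] at h2
  exact (((isUnit_toNN_vC p h j m).map (Cob.map α)).pow k).mul_right_injective h2

end Nat

/-! ### weights -/

section Wt

variable (p h s : ℕ) [Fact p.Prime]

/-- Projections to the homogeneous parts of a `Cob Laz s`-module (which need not be a direct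
sum). -/
structure WtProj {E : Type*} [AddCommGroup E] [Module (Cob Laz s) E] (u : E) where
  /-- the projection to the part of weight `w` -/
  ε : ℤ → E →+ E
  ε_smul : ∀ (v w : ℤ) (c : Cob Laz s) (e : E), Cob.IsWt v c → ε (v + w) (c • e) = c • ε w e
  ε_u : ε 0 u = u
  ε_u' : ∀ w : ℤ, w ≠ 0 → ε w u = 0

variable {p h s} {E : Type*} [AddCommGroup E] [Module (Cob Laz s) E] {u : E}
  (H : CobCompl p h s u) (D : WtProj s u)

omit H [Fact p.Prime] in
theorem WtProj.ε_smul_u (w : ℤ) (c : Cob Laz s) : D.ε w (c • u) = Cob.proj w c • u := by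
  conv_lhs => rw [← Cob.sum_proj c, Finset.sum_smul, map_sum]
  have h1 : ∀ i ∈ Cob.wts c, D.ε w (Cob.proj i c • u) = if w = i then Cob.proj w c • u else 0 := by
    intro i _
    have h2 := D.ε_smul i (w - i) (Cob.proj i c) u (Cob.isWt_proj i c)
    rw [add_sub_cancel] at h2
    rw [h2]
    split_ifs with hi
    · subst hi
      rw [sub_self, D.ε_u]
    · rw [D.ε_u' _ (sub_ne_zero.2 hi), smul_zero]
  rw [Finset.sum_congr rfl h1, Finset.sum_ite_eq (Cob.wts c) w fun _ => Cob.proj w c • u]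
  split_ifs with hw
  · rfl
  · rw [Cob.proj_eq_zero hw, zero_smul]

omit H [Fact p.Prime] in
theorem IC_eq_span : IC p h s = Ideal.span {x | ∃ i < h, MvPolynomial.C (Laz.v p i) = x} := by
  rw [IC, Laz.I, Ih, Ideal.map_span]
  congr 1
  ext x
  constructor
  · rintro ⟨_, ⟨i, hi, rfl⟩, rfl⟩
    exact ⟨i, hi, rfl⟩
  · rintro ⟨i, hi, rfl⟩
    exact ⟨_, ⟨i, hi, rfl⟩, rfl⟩

omit [Fact p.Prime] in
theorem isWt_C_v (i : ℕ) :
    Cob.IsWt ((p ^ i : ℤ) - 1) (MvPolynomial.C (Laz.v p i) : Cob Laz s) := by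
  have := Cob.isWt_v (N := Laz) (n := s) p i
  rwa [ofLaz_laz] at this

omit H [Fact p.Prime] in
/-- The filtration is homogeneous. -/
theorem WtProj.ε_fil (j : ℕ) (w : ℤ) {e : E} (he : e ∈ Fil p h s j E) :
    D.ε w e ∈ Fil p h s j E := by
  induction j generalizing w e with
  | zero => rw [Fil, pow_zero, Ideal.one_eq_top, Submodule.top_smul]; trivial
  | succ j ih =>
    have hF : Fil p h s (j + 1) E = IC p h s • Fil p h s j E := by
      rw [Fil, Fil, pow_succ', Submodule.mul_smul]
    rw [hF] at he ⊢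
    refine Submodule.smul_induction_on he ?_ ?_
    · intro r hr e he
      rw [IC_eq_span] at hr
      refine Submodule.span_induction (p := fun r _ => ∀ e ∈ Fil p h s j E,
        D.ε w (r • e) ∈ (IC p h s • Fil p h s j E : Submodule (Cob Laz s) E))
        ?_ ?_ ?_ ?_ hr e he
      · rintro _ ⟨i, hi, rfl⟩ e he
        have h2 := D.ε_smul _ (w - ((p ^ i : ℤ) - 1)) _ e (isWt_C_v (p := p) (s := s) i)
        rw [add_sub_cancel] at h2
        rw [h2]
        refine Submodule.smul_mem_smul ?_ (ih _ he)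
        rw [IC_eq_span]
        exact Ideal.subset_span ⟨i, hi, rfl⟩
      · intro e _
        rw [zero_smul, map_zero]
        exact zero_mem _
      · intro a b _ _ ha hb e he
        rw [add_smul, map_add]
        exact add_mem (ha e he) (hb e he)
      · intro a b _ hb e he
        rw [smul_eq_mul, mul_comm, mul_smul]
        exact hb _ (Submodule.smul_mem _ _ he)
    · intro x y hx hy
      rw [map_add]
      exact add_mem hx hy

/-- `E → Cob (NN p h j) s` respects the projections to the homogeneous parts. -/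
theorem lam_ε (j : ℕ) (w : ℤ) (e : E) : H.lam j (D.ε w e) = Cob.proj w (H.lam j e) := by
  obtain ⟨k, c, hc⟩ := H.dense j e
  have hv : Cob.IsWt (k * ((p ^ h : ℤ) - 1)) (vC p h s ^ k) := (isWt_C_v h).pow k
  have h1 := D.ε_fil j (k * ((p ^ h : ℤ) - 1) + w) hc
  rw [map_sub, D.ε_smul _ _ _ _ hv, D.ε_smul_u] at h1
  have h2 := H.lam_spec j _ h1
  have hv' : Cob.IsWt (k * ((p ^ h : ℤ) - 1)) (toNN p h j s (vC p h s) ^ k) := by
    rw [← map_pow]
    exact hv.mapRing LawRing.isLawHom_ofLaz
  refine (((isUnit_toNN_vC p h j s)).pow k).mul_right_injective ?_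
  change toNN p h j s (vC p h s) ^ k * _ = toNN p h j s (vC p h s) ^ k * _
  rw [h2, ← CobWt.proj_mul hv', H.lam_spec j e hc]
  exact (Cob.proj_mapRing LawRing.isLawHom_ofLaz _ c).symm

theorem isWt_lam (j : ℕ) {w : ℤ} {e : E} (he : D.ε w e = e) : Cob.IsWt w (H.lam j e) := by
  rw [← he, H.lam_ε D]
  exact Cob.isWt_proj _ _

theorem ε_of_isWt_lam {w : ℤ} {e : E} (he : ∀ j, Cob.IsWt w (H.lam (j + 1) e)) :
    D.ε w e = e := by
  refine H.ext_lam fun j => ?_
  rw [H.lam_ε D, Cob.proj_of_isWt (he j), if_pos rfl]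

/-- The part of weight `w` of `E` is the limit of the `(Cob (NN p h j) s)_w`. -/
theorem exists_lim (w : ℤ) {G : Type*} [AddCommGroup G] (i : G →+ E)
    (hi : Function.Injective i) (hr : ∀ e, D.ε w e = e ↔ ∃ g, i g = e) :
    ∃ φ : G ≃+ (towerN p h w).lim s, ∀ (g : G) (j : ℕ), ((φ g).1 j).1 = H.lam (j + 1) (i g) := by
  have h1 : ∀ g j, Cob.IsWt w (H.lam (j + 1) (i g)) := fun g j =>
    H.isWt_lam D _ ((hr _).2 ⟨g, rfl⟩)
  let φ : G →+ (towerN p h w).lim s :=
    { toFun := fun g => ⟨fun j => (⟨H.lam (j + 1) (i g), h1 g j⟩ : Cob.wt (NN p h (j + 1)) s w),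
        fun j => Subtype.ext (H.red_lam (Nat.le_succ (j + 1)) (i g))⟩
      map_zero' := by
        apply Subtype.ext
        funext j
        apply Subtype.ext
        change H.lam (j + 1) (i 0) = 0
        rw [map_zero, map_zero]
      map_add' := fun g g' => by
        apply Subtype.ext
        funext j
        apply Subtype.ext
        change H.lam (j + 1) (i (g + g')) = H.lam (j + 1) (i g) + H.lam (j + 1) (i g')
        rw [map_add, map_add] }
  have hφ : ∀ (g : G) (j : ℕ), ((φ g).1 j).1 = H.lam (j + 1) (i g) := fun _ _ => rfl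
  refine ⟨AddEquiv.ofBijective φ ⟨?_, ?_⟩, hφ⟩
  · intro g g' hgg
    apply hi
    refine H.ext_lam fun j => ?_
    rw [← hφ, ← hφ, hgg]
  · rintro ⟨x, hx⟩
    obtain ⟨e, he⟩ := H.exists_of_compatible (fun j => (x j).1) fun j =>
      congrArg Subtype.val (hx j)
    obtain ⟨g, rfl⟩ := (hr e).1 (H.ε_of_isWt_lam D fun j => by rw [he]; exact (x j).2)
    refine ⟨g, Subtype.ext (funext fun j => Subtype.ext ?_)⟩
    rw [hφ, he]

end Wt

end CobCompl

end Vale.Agent.P251.S
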