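import Vale.Agent.P251.S.GrA
import Vale.Agent.P251.S.CobWt
import Vale.Agent.P251.M.MUInv
import Vale.Agent.P251.S.AmitsurCobar

/-!
# P251, part S2G: the modules `N_s = (R^{⊗ (s+1)} ⊗ C) ⊗ PS` for `D : MUData T`

* `ModStr.restr`: restriction of scalars;
* `GD.γ s : Cob Laz s →+* Sc (R^{⊗ (s+1)} ⊗ PS)`, `GD.γ_wt`, `GD.γ_map`;
* `GD.vs_v0`: the element `v_i` at the vertex `0`;
* `GD.MX s : ModStr (R^{⊗ (s+1)}) (R^{⊗ (s+1)} ⊗ C)`, `GD.MN s` the module structure on `N_s` over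
  `R^{⊗ (s+1)} ⊗ PS`, `GD.MP s` its restriction to `P = R ⊗ PS` (vertex `0`).
-/

open CategoryTheory MonoidalCategory MonObj Limits

set_option linter.unusedSectionVars false

universe v u

namespace Vale.Agent.P251.S

open Vale.Agent.P251.M Vale.Agent.P251.M.EvenSpheres Vale.Agent.P251.F Vale.Agent.P251.T
open Pretriangulated

section restr

variable {T : Type u} [Category.{v} T] [MonoidalCategory T] {A B N : T} [MonObj A] [MonObj B]

/-- Restriction of scalars. -/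
def ModStr.restr (f : A ⟶ B) [IsMonHom f] (M : ModStr B N) : ModStr A N where
  act := (f ▷ N) ≫ M.act
  one_act := by
    rw [← Category.assoc, ← comp_whiskerRight, IsMonHom.one_hom, M.one_act]
  mul_act := by
    rw [← comp_whiskerRight_assoc, IsMonHom.mul_hom, comp_whiskerRight_assoc, M.mul_act,
      tensorHom_def]
    simp only [comp_whiskerRight, Category.assoc, MonoidalCategory.whiskerLeft_comp]
    rw [associator_naturality_middle_assoc, associator_naturality_left_assoc,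
      ← whisker_exchange_assoc, ← whisker_exchange_assoc]

theorem ModStr.restr_smul (f : A ⟶ B) [IsMonHom f] (M : ModStr B N) (a : 𝟙_ T ⟶ A) :
    (M.restr f).smul a = M.smul (a ≫ f) := by
  unfold ModStr.smul ModStr.restr
  simp only [comp_whiskerRight, Category.assoc]

end restr

variable {T : Type u} [Category.{v} T] [Preadditive T] [HasZeroObject T]
    [HasShift T ℤ] [∀ n : ℤ, (shiftFunctor T n).Additive] [Pretriangulated T] [IsTriangulated T]
    [MonoidalCategory T] [SymmetricCategory T] [TensorTriangulated T] [MonoidalClosed T]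
    [HasCoproducts.{0} T] [HasProducts.{0} T] [StableCat T]

namespace GD

variable (D : I.MUData T)

/-- The ring homomorphism `Cob Laz s → Hom(𝟙, R^{⊗ (s+1)} ⊗ PS)`. -/
noncomputable def γ (s : ℕ) : Cob Laz s →+* Sc (Am D.R (s + 1) ⊗ (stdEven T).PS) :=
  (sharpHom (Am D.R (s + 1))).comp (D.ev s)

theorem γ_eq {s : ℕ} {w : ℤ} {z : Cob Laz s} {a : (stdEven T).S w ⟶ Am D.R (s + 1)}
    (h : D.ev s z = HRing.of (stdEven T) (Am D.R (s + 1)) w a) : γ D s z = sharp a := by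
  rw [γ, RingHom.comp_apply, h, sharpHom_of]

theorem γ_wt {s : ℕ} {w : ℤ} {z : Cob Laz s} (hz : Cob.IsWt w z) :
    ∃ a : (stdEven T).S w ⟶ Am D.R (s + 1),
      D.ev s z = HRing.of (stdEven T) (Am D.R (s + 1)) w a ∧ γ D s z = sharp a := by
  obtain ⟨a, ha⟩ := D.ev_wt s w z hz
  exact ⟨a, ha, γ_eq D ha⟩

/-- Compatibility of `γ` with the cosimplicial structures. -/
theorem γ_map {m n : ℕ} (α : Fin (m + 1) → Fin (n + 1)) (z : Cob Laz m) :
    Sc.map (Am.map D.R α ▷ (stdEven T).PS) (γ D m z) = γ D n (Cob.map α z) := by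
  rw [γ, RingHom.comp_apply, sharpHom_map, D.ev_map, γ, RingHom.comp_apply]

section vP

variable (p : ℕ)

theorem vel_spec' (i : ℕ) : D.ev 0 (MvPolynomial.C (Laz.v p i)) =
    HRing.of (stdEven T) (Am D.R 1) ((p ^ i : ℤ) - 1) (D.vel p i ≫ (λ_ D.R).inv) := by
  obtain ⟨a, ha⟩ := D.ev_wt 0 _ _ (CobCompl.isWt_C_v (p := p) (s := 0) i)
  have h1 : vv p i D.law1 = D.ev 0 (MvPolynomial.C (Laz.v p i)) := by
    unfold I.MUData.law1
    rw [vv_map]
    rfl
  have h2 := D.vel_spec p i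
  unfold I.MUData.law at h2
  rw [vv_map, h1, ha, HRing.map_of] at h2
  have h3 : a ≫ (λ_ D.R).hom = D.vel p i :=
    DirectSum.of_injective (β := (stdEven T).Gr D.R) _ h2
  rw [ha, ← h3, Category.assoc, Iso.hom_inv_id, Category.comp_id]

theorem v_zero_one (R : T) [MonObj R] : Am.v R (0 : Fin 1) = (λ_ R).inv := by
  have h : (0 : Fin 1) = Fin.last 0 := rfl
  rw [h, Am.v_last]
  change (λ_ R).inv ≫ (𝟙 (𝟙_ T) ▷ R) = _
  rw [id_whiskerRight, Category.comp_id]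

/-- `v_i` at the vertex `j`. -/
theorem ev_vertex {s : ℕ} (j : Fin (s + 1)) (i : ℕ) :
    D.ev s (Cob.map (fun _ : Fin 1 => j) (MvPolynomial.C (Laz.v p i))) =
      HRing.of (stdEven T) (Am D.R (s + 1)) ((p ^ i : ℤ) - 1) (D.vel p i ≫ Am.v D.R j) := by
  rw [← D.ev_map, vel_spec', HRing.map_of, Category.assoc, ← v_zero_one, Am.v_map]

theorem map_C_zero {s : ℕ} (x : Laz) :
    Cob.map (fun _ : Fin 1 => (0 : Fin (s + 1))) (MvPolynomial.C x : Cob Laz 0) =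
      MvPolynomial.C x := by
  have h := DFunLike.congr_fun (map_comp_C (fun _ : Fin 1 => (0 : Fin (s + 1)))) x
  rw [RingHom.comp_apply] at h
  rw [h, (Cob.univ Laz s).zero, one_smul, Laz.lift_map_univ]

/-- `v_i` at the vertex `0`. -/
theorem ev_v (s i : ℕ) :
    D.ev s (MvPolynomial.C (Laz.v p i)) =
      HRing.of (stdEven T) (Am D.R (s + 1)) ((p ^ i : ℤ) - 1)
        (D.vel p i ≫ Am.v D.R (0 : Fin (s + 1))) := by
  rw [← ev_vertex D p (0 : Fin (s + 1)) i, map_C_zero]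

theorem vs_v0 (s i : ℕ) : D.vs p i ≫ (Am.v D.R (0 : Fin (s + 1)) ▷ (stdEven T).PS) =
    γ D s (MvPolynomial.C (Laz.v p i)) := by
  rw [γ_eq D (ev_v D p s i), I.MUData.vs, sharp_comp]

end vP

/-! ### the modules -/

variable (C : T)

/-- `R^{⊗ (s+1)} ⊗ C` as an `R^{⊗ (s+1)}`-module. -/
def MX (s : ℕ) : ModStr (Am D.R (s + 1)) (Am D.R (s + 1) ⊗ C) :=
  (ModStr.self (Am D.R (s + 1))).tensorRight C

/-- `(R^{⊗ (s+1)} ⊗ C) ⊗ PS` as an `R^{⊗ (s+1)} ⊗ PS`-module. -/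
noncomputable def MN (s : ℕ) : ModStr (Am D.R (s + 1) ⊗ (stdEven T).PS)
    ((Am D.R (s + 1) ⊗ C) ⊗ (stdEven T).PS) := PM (stdEven T) (MX D C s)

/-- `(R^{⊗ (s+1)} ⊗ C) ⊗ PS` as an `R ⊗ PS`-module (vertex `0`). -/
noncomputable def MP (s : ℕ) : ModStr (D.R ⊗ (stdEven T).PS)
    ((Am D.R (s + 1) ⊗ C) ⊗ (stdEven T).PS) :=
  (MN D C s).restr (Am.v D.R (0 : Fin (s + 1)) ▷ (stdEven T).PS)

theorem MP_smul (s : ℕ) (a : 𝟙_ T ⟶ D.R ⊗ (stdEven T).PS) : (MP D C s).smul a =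
    (MN D C s).smul (a ≫ (Am.v D.R (0 : Fin (s + 1)) ▷ (stdEven T).PS)) :=
  ModStr.restr_smul _ _ _

/-! ### homotopy of `N_s` -/

variable {C} (i : 𝟙_ T ⟶ C)

/-- The unit of `R^{⊗ (s+1)} ⊗ C`. -/
def uX (s : ℕ) : 𝟙_ T ⟶ Am D.R (s + 1) ⊗ C := i ≫ unitMap (Am D.R (s + 1)) C

/-- The unit of `(R^{⊗ (s+1)} ⊗ C) ⊗ PS`. -/
noncomputable def uN (s : ℕ) : 𝟙_ T ⟶ (Am D.R (s + 1) ⊗ C) ⊗ (stdEven T).PS :=
  sharp ((stdEven T).zero.inv ≫ uX D i s)

theorem gsmul_uX (s : ℕ) {w : ℤ} (a : (stdEven T).S w ⟶ Am D.R (s + 1)) :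
    gsmul (MX D C s) (add_zero w) a ((stdEven T).zero.inv ≫ uX D i s) =
      a ≫ (ρ_ (Am D.R (s + 1))).inv ≫ (Am D.R (s + 1) ◁ i) := by
  have h : (Am D.R (s + 1) ◁ unitMap (Am D.R (s + 1)) C) ≫ (MX D C s).act = 𝟙 _ :=
    whiskerLeft_unitMap_mulMap (R := Am D.R (s + 1)) C
  unfold gsmul
  rw [ext_one, uX, MonoidalCategory.whiskerLeft_comp]
  simp only [Category.assoc]
  rw [h, Category.comp_id]

theorem uN_smul (s : ℕ) {w : ℤ} (a : (stdEven T).S w ⟶ Am D.R (s + 1)) :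
    uN D i s ≫ (MN D C s).smul (sharp a) =
      sharp (a ≫ (ρ_ (Am D.R (s + 1))).inv ≫ (Am D.R (s + 1) ◁ i)) := by
  rw [uN, MN, sharp_smul (MX D C s) (add_zero w), gsmul_uX]

variable (C) in
/-- The action of `Cob Laz s` on `N_s`. -/
noncomputable def rN (s : ℕ) : Cob Laz s →+* End ((Am D.R (s + 1) ⊗ C) ⊗ (stdEven T).PS) :=
  (MN D C s).smr.comp (γ D s)

theorem rN_eq (s : ℕ) (z : Cob Laz s) : rN D C s z = (MN D C s).smul (γ D s z) := rfl

theorem rN_of {s : ℕ} {w : ℤ} {z : Cob Laz s} {a : (stdEven T).S w ⟶ Am D.R (s + 1)}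
    (h : D.ev s z = HRing.of (stdEven T) (Am D.R (s + 1)) w a) :
    rN D C s z = (MN D C s).smul (sharp a) := by
  rw [rN_eq, γ_eq D h]

theorem uN_rN (s : ℕ) {w : ℤ} {z : Cob Laz s} {a : (stdEven T).S w ⟶ Am D.R (s + 1)}
    (h : D.ev s z = HRing.of (stdEven T) (Am D.R (s + 1)) w a) :
    uN D i s ≫ rN D C s z = sharp (a ≫ (ρ_ (Am D.R (s + 1))).inv ≫ (Am D.R (s + 1) ◁ i)) := by
  rw [rN_of D h, uN_smul]

variable {p : ℕ} [Fact p.Prime] (hp : p ≠ 2) {δ : C ⟶ (𝟙_ T)⟦(1 : ℤ)⟧}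
  (hC : Triangle.mk ((p : ℤ) • 𝟙 (𝟙_ T)) i δ ∈ distTriang T)

include hp hC

/-- `π_0 N_s` is generated by the unit over `Cob Laz s`. -/
theorem exists_smul_uN (s : ℕ) (f : 𝟙_ T ⟶ (Am D.R (s + 1) ⊗ C) ⊗ (stdEven T).PS) :
    ∃ z : Cob Laz s, uN D i s ≫ rN D C s z = f := by
  obtain ⟨x, rfl⟩ := sharpTot_surjective (E := stdEven T) (Am D.R (s + 1) ⊗ C) f
  induction x using DirectSum.induction_on with
  | zero =>
    refine ⟨0, ?_⟩
    rw [map_zero, map_zero]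
    exact comp_zero
  | of w a =>
    obtain ⟨z, b, -, hz, rfl⟩ := D.surj p hp s C i δ hC w a
    refine ⟨z, ?_⟩
    rw [sharpTot_of, uN_rN D i s hz]
  | add x y hx hy =>
    obtain ⟨z, hz⟩ := hx
    obtain ⟨z', hz'⟩ := hy
    refine ⟨z + z', ?_⟩
    rw [map_add, map_add, ← hz, ← hz']
    exact Preadditive.comp_add _ _ _ _ _ _

omit [Fact p.Prime] [StableCat T] hp hC in
theorem sharp_injective {X : T} (w : ℤ) {a : (stdEven T).S w ⟶ X} (h : sharp a = 0) : a = 0 := by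
  have h1 := sharpTot_injective (E := stdEven T) X
  have h2 : DirectSum.of ((stdEven T).Gr X) w a = 0 := by
    apply h1
    rw [sharpTot_of, h, map_zero]
  exact DirectSum.of_injective (β := (stdEven T).Gr X) w (h2.trans (map_zero _).symm)

/-- The annihilator of the unit is generated by `p`. -/
theorem mem_span_of_smul_uN (s : ℕ) (z : Cob Laz s)
    (hz : uN D i s ≫ rN D C s z = 0) : z ∈ Ideal.span {(p : Cob Laz s)} := by
  choose a ha ha' using fun w => γ_wt D (Cob.isWt_proj w z)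
  have h1 : ∀ w ∈ Cob.wts z, ∃ y : Cob Laz s, Cob.proj w z = (p : ℤ) • y := by
    intro w hw
    have h2 : uN D i s ≫ rN D C s z = ∑ v ∈ Cob.wts z,
        sharp (a v ≫ (ρ_ (Am D.R (s + 1))).inv ≫ (Am D.R (s + 1) ◁ i)) := by
      conv_lhs => rw [← Cob.sum_proj z, map_sum]
      refine (Preadditive.comp_sum _ _ _).trans (Finset.sum_congr rfl fun v _ => ?_)
      exact uN_rN D i s (ha v)
    rw [h2] at hz
    have h3 := congrArg (fun f => f ≫ ((Am D.R (s + 1) ⊗ C) ◁ wq (stdEven T) w)) hz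
    simp only [Preadditive.sum_comp, zero_comp] at h3
    rw [Finset.sum_eq_single w (fun v _ hvw => sharp_wq_ne _ _ hvw _)
      (fun hw' => absurd hw hw'), sharp_wq _ _ rfl] at h3
    obtain ⟨y, -, hy⟩ := D.ker p hp s C i δ hC w _ (Cob.isWt_proj w z) (a w) (ha w)
      (sharp_injective w h3)
    exact ⟨y, hy⟩
  rw [← Cob.sum_proj z]
  refine sum_mem fun w hw => ?_
  obtain ⟨y, hy⟩ := h1 w hw
  rw [hy, zsmul_eq_mul, Int.cast_natCast]
  exact Ideal.mul_mem_right _ _ (Ideal.mem_span_singleton_self _)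

end GD

end Vale.Agent.P251.S
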