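import Mathlib.Algebra.Group.Subgroup.Ker
import Mathlib.Algebra.Group.Pi.Lemmas
import Mathlib.Order.Interval.Finset.Nat
import Mathlib.Tactic.Abel
import Mathlib.Tactic.Linarith
import Mathlib.Tactic.Push

/-!
# P251, part S: cohomology of the limit of a tower of complexes

`(C_j^s, d)` a tower of cochain complexes of abelian groups with surjective transition maps.
If the towers `j ↦ H^{s+1}(C_j)` and `j ↦ H^{s+2}(C_j)` are pro-zero, then
`H^{s+2}(lim_j C_j) = 0` (`TowerCx.lim_cobdy`).
-/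

universe u

namespace Vale.Agent.P251.S

/-- A tower of cochain complexes of abelian groups. -/
structure TowerCx where
  /-- the group `C_j^s` -/
  C : ℕ → ℕ → Type u
  [inst : ∀ s j, AddCommGroup (C s j)]
  /-- the differential -/
  d : ∀ s j, C s j →+ C (s + 1) j
  /-- the transition maps -/
  r : ∀ s j, C s (j + 1) →+ C s j
  d_d : ∀ s j x, d (s + 1) j (d s j x) = 0
  d_r : ∀ s j x, d s j (r s j x) = r (s + 1) j (d s (j + 1) x)

attribute [instance] TowerCx.inst

namespace TowerCx

variable (T : TowerCx.{u})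

/-- The composite transition map. -/
def res (s : ℕ) {a b : ℕ} (h : a ≤ b) : T.C s b →+ T.C s a :=
  Nat.leRecOn (C := fun b => T.C s b →+ T.C s a) h (fun {_} f => f.comp (T.r s _))
    (AddMonoidHom.id _)

lemma res_self (s a : ℕ) (x : T.C s a) : T.res s (le_refl a) x = x := by
  unfold res
  rw [Nat.leRecOn_self]
  rfl

lemma res_succ (s : ℕ) {a b : ℕ} (h : a ≤ b) (x : T.C s (b + 1)) :
    T.res s (Nat.le_succ_of_le h) x = T.res s h (T.r s b x) := by
  unfold res
  rw [Nat.leRecOn_succ h]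
  rfl

lemma r_res (s : ℕ) {a b : ℕ} (h : a + 1 ≤ b) (x : T.C s b) :
    T.r s a (T.res s h x) = T.res s (Nat.le_of_succ_le h) x := by
  induction b, h using Nat.le_induction with
  | base =>
    rw [res_self]
    have := T.res_succ s (le_refl a) x
    rw [res_self] at this
    exact this.symm
  | succ b h ih => rw [T.res_succ s h, ih, ← T.res_succ s]

lemma d_res (s : ℕ) {a b : ℕ} (h : a ≤ b) (x : T.C s b) :
    T.d s a (T.res s h x) = T.res (s + 1) h (T.d s b x) := by
  induction b, h using Nat.le_induction with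
  | base => rw [res_self, res_self]
  | succ b h ih => rw [T.res_succ s h, ih, T.d_r, ← T.res_succ (s + 1) h]

lemma res_res (s : ℕ) {a b c : ℕ} (h : a ≤ b) (h' : b ≤ c) (x : T.C s c) :
    T.res s h (T.res s h' x) = T.res s (h.trans h') x := by
  induction c, h' using Nat.le_induction with
  | base => rw [res_self]
  | succ c h' ih => rw [T.res_succ s h', ih, ← T.res_succ s (h.trans h')]

/-- The tower `j ↦ H^{s+1}(C_j)` is pro-zero. -/
def ProZero (s : ℕ) : Prop :=
  ∀ j, ∃ j', ∃ h : j ≤ j', ∀ z : T.C (s + 1) j', T.d (s + 1) j' z = 0 →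
    ∃ y : T.C s j, T.d s j y = T.res (s + 1) h z

/-- A monotone choice of levels for a pro-zero tower. -/
lemma ProZero.exists_mono {T : TowerCx.{u}} {s : ℕ} (h : T.ProZero s) :
    ∃ P : ℕ → ℕ, Monotone P ∧ ∃ hP : ∀ j, j ≤ P j, ∀ j, ∀ z : T.C (s + 1) (P j),
      T.d (s + 1) (P j) z = 0 → ∃ y : T.C s j, T.d s j y = T.res (s + 1) (hP j) z := by
  choose Q hQ hQ' using h
  let P : ℕ → ℕ := fun j => (Finset.range (j + 1)).sup Q
  have hQP : ∀ j, Q j ≤ P j := fun j => Finset.le_sup (f := Q) (Finset.self_mem_range_succ j)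
  refine ⟨P, ?_, fun j => (hQ j).trans (hQP j), ?_⟩
  · intro a b hab
    exact Finset.sup_mono (Finset.range_mono (by omega))
  · intro j z hz
    obtain ⟨y, hy⟩ := hQ' j (T.res (s + 1) (hQP j) z) (by rw [d_res, hz, map_zero])
    exact ⟨y, by rw [hy, res_res]⟩

/-- The degree `s` part of the inverse limit. -/
def lim (s : ℕ) : AddSubgroup (∀ j, T.C s j) where
  carrier := {x | ∀ j, T.r s j (x (j + 1)) = x j}
  zero_mem' := fun j => by simp
  add_mem' := fun {a b} ha hb j => by simp [ha j, hb j]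
  neg_mem' := fun {a} ha j => by simp [ha j]

lemma mem_lim {s : ℕ} {x : ∀ j, T.C s j} : x ∈ T.lim s ↔ ∀ j, T.r s j (x (j + 1)) = x j :=
  Iff.rfl

lemma res_eq_of_mem_lim {s : ℕ} {x : ∀ j, T.C s j} (hx : x ∈ T.lim s) {a b : ℕ} (h : a ≤ b) :
    T.res s h (x b) = x a := by
  induction b, h using Nat.le_induction with
  | base => rw [res_self]
  | succ b h ih => rw [T.res_succ s h, hx b, ih]

/-- If `H^{s+1}(C_j)` and `H^{s+2}(C_j)` are pro-zero and the transition maps in degree `s` are
surjective, then every cocycle of degree `s + 2` of the limit complex is a coboundary. -/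
theorem lim_cobdy {s : ℕ} (hsurj : ∀ j, Function.Surjective (T.r s j)) (h1 : T.ProZero s)
    (h2 : T.ProZero (s + 1)) (z : ∀ j, T.C (s + 2) j) (hz : z ∈ T.lim (s + 2))
    (hdz : ∀ j, T.d (s + 2) j (z j) = 0) :
    ∃ y ∈ T.lim (s + 1), ∀ j, T.d (s + 1) j (y j) = z j := by
  -- a primitive at every level
  have hprim : ∀ N, ∃ y : T.C (s + 1) N, T.d (s + 1) N y = z N := by
    intro N
    obtain ⟨N', hN', h⟩ := h2 N
    obtain ⟨y, hy⟩ := h (z N') (hdz N')
    exact ⟨y, by rw [hy, T.res_eq_of_mem_lim hz]⟩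
  choose y hy using hprim
  obtain ⟨P, hPmono, hP, hP'⟩ := h1.exists_mono
  -- restrict from level `P j`
  let y' : ∀ j, T.C (s + 1) j := fun j => T.res (s + 1) (hP j) (y (P j))
  have hy' : ∀ j, T.d (s + 1) j (y' j) = z j := by
    intro j
    rw [T.d_res, hy, T.res_eq_of_mem_lim hz]
  have hdiff : ∀ j, ∃ w : T.C s j, T.d s j w = T.r (s + 1) j (y' (j + 1)) - y' j := by
    intro j
    have hle : P j ≤ P (j + 1) := hPmono (Nat.le_succ j)
    obtain ⟨w, hw⟩ := hP' j (T.res (s + 1) hle (y (P (j + 1))) - y (P j)) (by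
      rw [map_sub, T.d_res, hy, hy, T.res_eq_of_mem_lim hz, sub_self])
    refine ⟨w, ?_⟩
    rw [hw, map_sub, T.res_res, T.r_res]
  choose w hw using hdiff
  -- telescoping correction
  have hv : ∃ v : ∀ j, T.C s j, ∀ j, T.r s j (v (j + 1)) = v j + w j := by
    choose f hf using hsurj
    let v : ∀ j, T.C s j := fun j => Nat.rec (motive := fun j => T.C s j) 0
      (fun j vj => f j (vj + w j)) j
    exact ⟨v, fun j => hf j _⟩
  obtain ⟨v, hv⟩ := hv
  refine ⟨fun j => y' j - T.d s j (v j), ?_, fun j => by rw [map_sub, T.d_d, sub_zero, hy']⟩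
  intro j
  have : T.r (s + 1) j (T.d s (j + 1) (v (j + 1))) = T.d s j (v j) + T.d s j (w j) := by
    rw [← T.d_r, hv, map_add]
  simp only [map_sub, this, hw]
  abel

end TowerCx

end Vale.Agent.P251.S
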