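import Vale.Agent.P251.S.ExactCouple
import Vale.Agent.P251.S.LimComplex
import Mathlib.Algebra.Ring.Parity

/-!
# P251, part S6(II): the detection argument at height `p - 1`, algebraic part

`C` is the exact couple of the tower `L_{K(4)} X_s`.  In the internal degree `2 w` the complex
`E_1` is the limit of a tower of complexes (`v_4^{-1} Cob / I_4^j` in weight `w`), in odd internal
degree it is zero.  If the cohomology of these towers is pro-zero in large filtrations and all the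
weights `20 K - ρ`, `1 ≤ ρ ≤ 13`, then no element `x` of filtration `2` and stem `38` with
`x^14` zero in filtration `0` can have all its powers detected in `E_2`.
-/

universe u v w

namespace Vale.Agent.P251.S

namespace Couple

variable (C : Couple.{u, v})

/-- In internal degree `2 w`, the `E_1`-complex of `C` is the limit of the tower `T`. -/
structure LimModel (w : ℤ) (T : TowerCx.{w}) where
  /-- the identification -/
  φ : ∀ (s : ℕ) (n : ℤ), n + s = 2 * w → (C.E s n ≃+ T.lim s)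
  φ_d : ∀ (s : ℕ) (n m : ℤ) (h : n = m + 1) (h1 : n + s = 2 * w)
    (h2 : m + (s + 1 : ℕ) = 2 * w) (z : C.E s n) (j : ℕ),
    (φ (s + 1) m h2 (C.d s n m h z)).1 j = T.d s j ((φ s n h1 z).1 j)

variable {C}

/-- Vanishing of the `E_2`-term from pro-vanishing of the cohomology of the tower. -/
theorem LimModel.van {w : ℤ} {T : TowerCx.{w}} (Φ : C.LimModel w T) {s : ℕ} {m : ℤ}
    (hm : m + (s + 2 : ℕ) = 2 * w) (hsurj : ∀ j, Function.Surjective (T.r s j))
    (h1 : T.ProZero s) (h2 : T.ProZero (s + 1)) : C.Van (s + 1) m := by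
  intro b hb
  have hm' : m + ((s + 1 + 1 : ℕ) : ℤ) = 2 * w := by
    rw [← hm]
  have hm1 : (m + 1) + ((s + 1 : ℕ) : ℤ) = 2 * w := by
    rw [← hm]; push_cast; ring
  have hm0 : (m - 1) + ((s + 1 + 1 + 1 : ℕ) : ℤ) = 2 * w := by
    rw [← hm]; push_cast; ring
  obtain ⟨y, hy, hyd⟩ := T.lim_cobdy hsurj h1 h2 (Φ.φ (s + 1 + 1) m hm' b).1
    (Φ.φ (s + 1 + 1) m hm' b).2 (by
      intro j
      have h := Φ.φ_d (s + 1 + 1) m (m - 1) (by ring) hm' hm0 b j
      rw [hb (m - 1) (by ring), map_zero] at h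
      exact h.symm)
  refine ⟨(Φ.φ (s + 1) (m + 1) hm1).symm ⟨y, hy⟩, ?_⟩
  apply (Φ.φ (s + 1 + 1) m hm').injective
  apply Subtype.ext
  funext j
  rw [Φ.φ_d (s + 1) (m + 1) m rfl hm1 hm' _ j, AddEquiv.apply_symm_apply]
  exact hyd j

/-- The detection argument at `p = 5`, height `4`, from the vanishing of the `E_2`-term in large
filtrations and the internal degrees `2 w` with `w` not in the exceptional classes. -/
theorem detection_five_of_van (M : C.Mul2 38) (u : C.D 0 0)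
    (hodd : ∀ (s : ℕ) (n : ℤ), Odd (n + s) → ∀ z : C.E s n, z = 0) (s₀ : ℕ)
    (hvan : ∀ (s : ℕ) (m w : ℤ), m + ((s + 2 : ℕ) : ℤ) = 2 * w → s₀ ≤ s →
      ¬ ((4 : ℤ) ∣ w ∧ ((5 : ℤ) ∣ w ∨ (5 : ℤ) ∣ w + 1)) → C.Van (s + 1) m)
    (hdet : ∀ K, C.j _ _ (M.pow u K) ≠ 0)
    (hdet' : ∀ K s, ∀ h : s + 1 = 2 * K,
      ¬ C.IsCobdy (h ▸ C.j _ _ (M.pow u K) : C.E (s + 1) (Mul2.deg 38 0 K))) :
    C.proj (Mul2.deg 38 0 14) (Nat.zero_le _) (M.pow u 14) ≠ 0 := by
  intro h0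
  refine M.detection u 14 (s₀ + 1) h0 hdet hdet' ?_
  intro K s r hr2 hr28 hsr hs
  obtain ⟨s, rfl⟩ : ∃ t, s = t + 1 := ⟨s - 1, by omega⟩
  rcases Nat.even_or_odd r with he | ho
  · -- odd internal degree: the `E_1`-term vanishes
    intro b _
    refine ⟨0, ?_⟩
    rw [map_zero]
    refine (hodd _ _ ?_ b).symm
    obtain ⟨q, rfl⟩ := he
    have : (0 + (K : ℤ) * 38 + 1) + ((s + 1 + 1 : ℕ) : ℤ) = 2 * (20 * K - q) + 1 := by
      have : ((s + 1 + 1 + (q + q) : ℕ) : ℤ) = 2 * K := by exact_mod_cast hsr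
      push_cast at this ⊢
      linarith
    rw [this]
    exact ⟨_, rfl⟩
  · obtain ⟨q, rfl⟩ := ho
    have hK : ((s + 1 + 1 + (2 * q + 1) : ℕ) : ℤ) = 2 * K := by exact_mod_cast hsr
    have hm : (0 + (K : ℤ) * 38 + 1) + ((s + 2 : ℕ) : ℤ) = 2 * (20 * K - q) := by
      push_cast at hK ⊢
      linarith
    have hw : ¬ ((4 : ℤ) ∣ (20 * K - q) ∧ ((5 : ℤ) ∣ (20 * K - q) ∨ (5 : ℤ) ∣ (20 * K - q) + 1)) := by
      omega
    exact hvan s _ _ hm (by omega) hw

/-- The detection argument at `p = 5`, height `4`. -/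
theorem detection_five (M : C.Mul2 38) (u : C.D 0 0)
    (hodd : ∀ (s : ℕ) (n : ℤ), Odd (n + s) → ∀ z : C.E s n, z = 0)
    (T : ℤ → TowerCx.{w}) (Φ : ∀ w, C.LimModel w (T w))
    (hsurj : ∀ w s j, Function.Surjective ((T w).r s j)) (s₀ : ℕ)
    (hpro : ∀ (w : ℤ) (s : ℕ), s₀ ≤ s →
      ¬ ((4 : ℤ) ∣ w ∧ ((5 : ℤ) ∣ w ∨ (5 : ℤ) ∣ w + 1)) → (T w).ProZero s)
    (hdet : ∀ K, C.j _ _ (M.pow u K) ≠ 0)
    (hdet' : ∀ K s, ∀ h : s + 1 = 2 * K,
      ¬ C.IsCobdy (h ▸ C.j _ _ (M.pow u K) : C.E (s + 1) (Mul2.deg 38 0 K))) :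
    C.proj (Mul2.deg 38 0 14) (Nat.zero_le _) (M.pow u 14) ≠ 0 :=
  detection_five_of_van M u hodd s₀
    (fun s _ w hm hs hw => (Φ w).van hm (hsurj w s) (hpro w s hs hw) (hpro w (s + 1) (by omega) hw))
    hdet hdet'

end Couple

end Vale.Agent.P251.S
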