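import Vale.Agent.P251.S.TowerR
import Vale.Agent.P251.S.PartII
import Mathlib.CategoryTheory.Preadditive.Yoneda.Basic

/-!
# P251, part S: the `E_1`-term of the tower of a monoid and the cobar complex

`U : UnitCof R`, `F` a triangulated functor, `X = (U.tow Y).map F`.

* `homF F P t : T ⥤ AddCommGrpCat`, `Z ↦ Hom (P⟦t⟧, F Z)`;
* `UnitCof.E_eq_zero` : odd vanishing of the `E_1`-term;
* `UnitCof.van_of_exact` : `Van` from the exactness of the cobar complex;
* `CobModel` : the cobar complex in internal degree `2 w` is the limit of a tower of complexes;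
  `CobModel.van`;
* `UnitCof.not_isCobdy` : a cocycle of the cobar complex which is not a coboundary is not a
  coboundary in the `E_1`-term.
-/

open CategoryTheory Limits Pretriangulated MonoidalCategory MonObj Opposite

set_option linter.unusedSectionVars false

universe v u v' u' w

namespace Vale.Agent.P251.S

open Vale.Agent.P251.T

namespace CobarData

variable {C : Type u} [Category.{v} C] [Preadditive C] (K : CobarData C)
  {F : C ⥤ AddCommGrpCat.{w}} [F.Additive]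

include K

omit [F.Additive] in
/-- The projection from the cobar complex is surjective. -/
lemma q_surjective (s : ℕ) (Y : C) (e : F.obj (K.M.obj (K.B s Y))) :
    ∃ c : F.obj (K.Q (s + 1) Y), ev F (K.q s Y) c = e := by
  induction s generalizing Y with
  | zero => exact ⟨e, by rw [q_zero, ev_id]⟩
  | succ s ih =>
    obtain ⟨c₁, rfl⟩ := ih (K.G.obj Y) e
    obtain ⟨c, rfl⟩ := K.Qρ_surjective s Y c₁
    exact ⟨c, by rw [q_succ, ev_comp]⟩

end CobarData

variable {T : Type u} [Category.{v} T] [Preadditive T] [HasZeroObject T] [HasShift T ℤ]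
  [∀ n : ℤ, (shiftFunctor T n).Additive] [Pretriangulated T] [MonoidalCategory T]
  [SymmetricCategory T] [TensorTriangulated T]
  {D : Type u'} [Category.{v'} D] [Preadditive D] [HasZeroObject D] [HasShift D ℤ]
  [∀ n : ℤ, (shiftFunctor D n).Additive] [Pretriangulated D]

/-- The functor `Z ↦ Hom (P⟦t⟧, F Z)`. -/
abbrev homF (F : T ⥤ D) (P : D) (t : ℤ) : T ⥤ AddCommGrpCat.{v'} :=
  F ⋙ preadditiveCoyoneda.obj (op (P⟦t⟧))

instance homF_additive (F : T ⥤ D) [F.Additive] (P : D) (t : ℤ) : (homF F P t).Additive := by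
  unfold homF
  infer_instance

lemma ev_homF (F : T ⥤ D) (P : D) (t : ℤ) {X Y : T} (f : X ⟶ Y) (x : P⟦t⟧ ⟶ F.obj X) :
    CobarData.ev (homF F P t) f x = x ≫ F.map f := rfl

namespace UnitCof

variable {R : T} [MonObj R] (U : UnitCof R) (Y : T) (F : T ⥤ D) [F.CommShift ℤ]
  [F.IsTriangulated] (P : D)

/-- The identification of `E^s_n`, `n + s = t`. -/
noncomputable def eT {s : ℕ} {n t : ℤ} (h : n + (s : ℤ) = t) :
    (((U.tow Y).map F).couple P).E s n ≃+ (P⟦t⟧ ⟶ F.obj (U.cobar.M.obj (U.cobar.B s Y))) :=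
  ((U.tow Y).map F).eE P h

/-- The differential of the `E_1`-term. -/
lemma eT_d {s : ℕ} {n m t : ℤ} (h : n = m + 1) (h1 : n + (s : ℤ) = t)
    (h2 : m + ((s + 1 : ℕ) : ℤ) = t) (z : (((U.tow Y).map F).couple P).E s n) :
    U.eT Y F P h2 ((((U.tow Y).map F).couple P).d s n m h z) =
      U.eT Y F P h1 z ≫ F.map (U.cobar.D s Y) := by
  have h3 := ((U.tow Y).map F).eE_d P h h1 h2 z
  refine h3.trans ?_
  change _ ≫ F.map (U.cobar.k s Y) ≫ F.map (unitMap R _) = _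
  rw [← F.map_comp]
  rfl

/-- The map from the cobar complex to the `E_1`-term. -/
noncomputable def qE {s : ℕ} {n t : ℤ} (h : n + (s : ℤ) = t) :
    (P⟦t⟧ ⟶ F.obj (U.cobar.Q (s + 1) Y)) →+ (((U.tow Y).map F).couple P).E s n :=
  (U.eT Y F P h).symm.toAddMonoidHom.comp
    (AddMonoidHom.mk' (fun x => x ≫ F.map (U.cobar.q s Y)) (fun _ _ => Preadditive.add_comp ..))

lemma eT_qE {s : ℕ} {n t : ℤ} (h : n + (s : ℤ) = t)
    (x : P⟦t⟧ ⟶ F.obj (U.cobar.Q (s + 1) Y)) :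
    U.eT Y F P h (U.qE Y F P h x) = x ≫ F.map (U.cobar.q s Y) :=
  AddEquiv.apply_symm_apply _ _

lemma qE_surjective {s : ℕ} {n t : ℤ} (h : n + (s : ℤ) = t) :
    Function.Surjective (U.qE Y F P h) := by
  intro z
  obtain ⟨c, hc⟩ := U.cobar.q_surjective (F := homF F P t) s Y (U.eT Y F P h z)
  refine ⟨c, ?_⟩
  apply (U.eT Y F P h).injective
  exact (U.eT_qE Y F P h c).trans hc

lemma d_qE {s : ℕ} {n m t : ℤ} (h : n = m + 1) (h1 : n + (s : ℤ) = t)
    (h2 : m + ((s + 1 : ℕ) : ℤ) = t) (x : P⟦t⟧ ⟶ F.obj (U.cobar.Q (s + 1) Y)) :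
    (((U.tow Y).map F).couple P).d s n m h (U.qE Y F P h1 x) =
      U.qE Y F P h2 (x ≫ F.map (U.cobar.d (s + 1) Y)) := by
  apply (U.eT Y F P h2).injective
  rw [U.eT_d Y F P h h1 h2, eT_qE, eT_qE, Category.assoc, Category.assoc, ← F.map_comp,
    ← F.map_comp, CobarData.d_q]

/-- Vanishing of the `E_1`-term from the vanishing of the homotopy of the cobar objects. -/
theorem E_eq_zero {s : ℕ} {n t : ℤ} (h : n + (s : ℤ) = t)
    (h0 : ∀ x : P⟦t⟧ ⟶ F.obj (U.cobar.Q (s + 1) Y), x = 0)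
    (z : (((U.tow Y).map F).couple P).E s n) : z = 0 := by
  obtain ⟨c, rfl⟩ := U.qE_surjective Y F P h z
  rw [h0 c, map_zero]

/-- Every cocycle of the `E_1`-term comes from a cocycle of the cobar complex. -/
theorem exists_cocycle_qE {s : ℕ} {n t : ℤ} (h : n + (s : ℤ) = t)
    (z : (((U.tow Y).map F).couple P).E s n)
    (hz : (((U.tow Y).map F).couple P).IsCocycle z) :
    ∃ c : P⟦t⟧ ⟶ F.obj (U.cobar.Q (s + 1) Y), c ≫ F.map (U.cobar.d (s + 1) Y) = 0 ∧
      U.qE Y F P h c = z := by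
  have h2 : (n - 1) + ((s + 1 : ℕ) : ℤ) = t := by push_cast; omega
  have h3 := hz (n - 1) (by ring)
  have h4 := U.eT_d Y F P (by ring) h h2 z
  rw [h3, map_zero] at h4
  obtain ⟨c, hc, hc'⟩ := U.cobar.exists_cocycle (F := homF F P t) s Y (U.eT Y F P h z) h4.symm
  refine ⟨c, hc, ?_⟩
  apply (U.eT Y F P h).injective
  exact (U.eT_qE Y F P h c).trans hc'

/-- `Van` from the exactness of the cobar complex. -/
theorem van_of_exact {s : ℕ} {m t : ℤ} (h : m + ((s + 1 : ℕ) : ℤ) = t)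
    (hex : ∀ c : P⟦t⟧ ⟶ F.obj (U.cobar.Q (s + 2) Y), c ≫ F.map (U.cobar.d (s + 2) Y) = 0 →
      ∃ c' : P⟦t⟧ ⟶ F.obj (U.cobar.Q (s + 1) Y), c' ≫ F.map (U.cobar.d (s + 1) Y) = c) :
    (((U.tow Y).map F).couple P).Van s m := by
  intro b hb
  obtain ⟨c, hc, rfl⟩ := U.exists_cocycle_qE Y F P h b hb
  obtain ⟨c', rfl⟩ := hex c hc
  have h1 : (m + 1) + (s : ℤ) = t := by push_cast at h; omega
  exact ⟨U.qE Y F P h1 c', U.d_qE Y F P rfl h1 h c'⟩

/-- A cocycle of the cobar complex whose image in the `E_1`-term is a coboundary is a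
coboundary. -/
theorem exists_of_isCobdy {s : ℕ} {m t : ℤ} (h : m + ((s + 1 : ℕ) : ℤ) = t)
    (c : P⟦t⟧ ⟶ F.obj (U.cobar.Q (s + 2) Y)) (hc : c ≫ F.map (U.cobar.d (s + 2) Y) = 0)
    (hb : (((U.tow Y).map F).couple P).IsCobdy (U.qE Y F P h c)) :
    ∃ c' : P⟦t⟧ ⟶ F.obj (U.cobar.Q (s + 1) Y), c' ≫ F.map (U.cobar.d (s + 1) Y) = c := by
  obtain ⟨z, hz⟩ := hb
  have h1 : (m + 1) + (s : ℤ) = t := by push_cast at h; omega
  have h2 := congrArg (U.eT Y F P h) hz
  rw [U.eT_d Y F P rfl h1 h, eT_qE] at h2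
  obtain ⟨c', hc', -⟩ := U.cobar.exists_cobdy (F := homF F P t) s Y c hc
    (U.eT Y F P h1 z) h2.symm
  exact ⟨c', hc'⟩

/-- A cocycle of degree `0` of the cobar complex is determined by its image. -/
theorem qE_zero_injective {n t : ℤ} (h : n + ((0 : ℕ) : ℤ) = t) :
    Function.Injective (U.qE Y F P h) := by
  rw [injective_iff_map_eq_zero]
  intro x hx
  have h2 := congrArg (U.eT Y F P h) hx
  rw [eT_qE, map_zero, CobarData.q_zero, F.map_id, Category.comp_id] at h2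
  exact h2

/-- In internal degree `2 w`, the cobar complex is the limit of the tower `Tw`. -/
structure CobModel (w : ℤ) (Tw : TowerCx.{w}) where
  /-- the identification -/
  φ : ∀ s : ℕ, (P⟦2 * w⟧ ⟶ F.obj (U.cobar.Q (s + 1) Y)) ≃+ Tw.lim s
  φ_d : ∀ (s : ℕ) (x : P⟦2 * w⟧ ⟶ F.obj (U.cobar.Q (s + 1) Y)) (j : ℕ),
    (φ (s + 1) (x ≫ F.map (U.cobar.d (s + 1) Y))).1 j = Tw.d s j ((φ s x).1 j)

namespace CobModel

variable {U Y F P} {w : ℤ} {Tw : TowerCx.{w}} (Φ : U.CobModel Y F P w Tw)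

include Φ

/-- Vanishing from the pro-vanishing of the cohomology of the tower. -/
theorem van {s : ℕ} {m : ℤ} (hm : m + (s + 2 : ℕ) = 2 * w)
    (hsurj : ∀ j, Function.Surjective (Tw.r s j)) (h1 : Tw.ProZero s)
    (h2 : Tw.ProZero (s + 1)) : (((U.tow Y).map F).couple P).Van (s + 1) m := by
  refine U.van_of_exact Y F P hm ?_
  intro c hc
  obtain ⟨y, hy, hyd⟩ := Tw.lim_cobdy hsurj h1 h2 (Φ.φ (s + 2) c).1 (Φ.φ (s + 2) c).2 (by
    intro j
    have h := Φ.φ_d (s + 2) c j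
    rw [hc, map_zero] at h
    exact h.symm)
  refine ⟨(Φ.φ (s + 1)).symm ⟨y, hy⟩, ?_⟩
  apply (Φ.φ (s + 2)).injective
  apply Subtype.ext
  funext j
  rw [Φ.φ_d, AddEquiv.apply_symm_apply]
  exact hyd j

/-- A cocycle `c` of the cobar complex is not a coboundary in `E_1` if its image in a finite
stage of the tower is not a coboundary. -/
theorem not_isCobdy {s : ℕ} {m : ℤ} (hm : m + ((s + 1 : ℕ) : ℤ) = 2 * w)
    (c : P⟦2 * w⟧ ⟶ F.obj (U.cobar.Q (s + 2) Y)) (hc : c ≫ F.map (U.cobar.d (s + 2) Y) = 0)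
    (j : ℕ) (hj : ∀ y : Tw.C s j, Tw.d s j y ≠ (Φ.φ (s + 1) c).1 j) :
    ¬ (((U.tow Y).map F).couple P).IsCobdy (U.qE Y F P hm c) := by
  intro hb
  obtain ⟨c', rfl⟩ := U.exists_of_isCobdy Y F P hm c hc hb
  exact hj _ (Φ.φ_d s c' j).symm

end CobModel

end UnitCof

end Vale.Agent.P251.S
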