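import Vale.Agent.P251.S.ModP
import Vale.Agent.P251.S.AmitsurCobar
import Vale.Agent.P251.I.M
import Vale.Agent.P251.F.F3Laz

/-!
# P251: the cobar complex of `MU` in terms of `Cob Laz`

For `D : MUData T` and a cofibre `U : UnitCof D.R` of the unit:

* `D.evw s w : (Cob Laz s)_w →+ Hom (S^{2w}, R^{⊗ (s+1)})`, compatible with the cosimplicial maps;
* `D.phi U s w : (Cob Laz s)_w →+ Hom (S^{2w}, Q (s+1) 𝟙)`, compatible with the differentials
  (`phi_d`);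
* modulo `p`: `phi_red_surj`, `phi_red_ker`, `odd_red` describe `Hom (-, Q (s+1) 𝟙 ⊗ S/p)`;
* `exists_of_cocycle_red`: the vanishing line for the cobar complex of `S/p`.
-/

open CategoryTheory MonoidalCategory Limits Pretriangulated MonObj

universe v u

namespace Vale.Agent.P251.I.MUData

open Vale.Agent.P251.T Vale.Agent.P251.M Vale.Agent.P251.S Vale.Agent.P251.F

variable {T : Type u} [Category.{v} T] [Preadditive T] [HasZeroObject T]
    [HasShift T ℤ] [∀ n : ℤ, (shiftFunctor T n).Additive] [Pretriangulated T]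
    [MonoidalCategory T] [SymmetricCategory T] [TensorTriangulated T] [HasCoproducts.{0} T]
    (D : MUData T)

/-! ### the homogeneous parts of `ev` -/

omit [HasCoproducts.{0} T] in
lemma of_injective {X : T} {w : ℤ} {a b : (stdEven T).S w ⟶ X}
    (h : HRing.of (stdEven T) X w a = HRing.of (stdEven T) X w b) : a = b :=
  DirectSum.of_injective (β := (stdEven T).Gr X) w h

/-- The homogeneous parts of `ev`. -/
noncomputable def evw (s : ℕ) (w : ℤ) :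
    Cob.wt Laz s w →+ ((stdEven T).S w ⟶ Am D.R (s + 1)) :=
  AddMonoidHom.mk' (fun z => (D.ev_wt s w z.1 z.2).choose) fun z z' => by
    apply of_injective
    have h1 := (D.ev_wt s w (z + z').1 (z + z').2).choose_spec
    have h2 := (D.ev_wt s w z.1 z.2).choose_spec
    have h3 := (D.ev_wt s w z'.1 z'.2).choose_spec
    rw [← h1]
    refine Eq.trans ?_ ((DirectSum.of ((stdEven T).Gr (Am D.R (s + 1))) w).map_add _ _).symm
    exact (map_add (D.ev s) z.1 z'.1).trans (congrArg₂ (· + ·) h2 h3)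

lemma of_evw {s : ℕ} {w : ℤ} (z : Cob.wt Laz s w) :
    HRing.of (stdEven T) (Am D.R (s + 1)) w (D.evw s w z) = D.ev s z.1 :=
  (D.ev_wt s w z.1 z.2).choose_spec.symm

lemma evw_eq {s : ℕ} {w : ℤ} {z : Cob.wt Laz s w} {a : (stdEven T).S w ⟶ Am D.R (s + 1)}
    (h : D.ev s z.1 = HRing.of (stdEven T) (Am D.R (s + 1)) w a) : D.evw s w z = a :=
  of_injective ((D.of_evw z).trans h)

/-- Compatibility with the cosimplicial maps. -/
lemma evw_map {m n : ℕ} {w : ℤ} (α : Fin (m + 1) → Fin (n + 1)) (z : Cob.wt Laz m w) :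
    D.evw m w z ≫ Am.map D.R α = D.evw n w ⟨Cob.map α z.1, z.2.map α⟩ := by
  symm
  apply D.evw_eq
  change D.ev n (Cob.map α z.1) = _
  rw [← D.ev_map, ← D.of_evw, HRing.map_of]

/-- Compatibility with the differentials. -/
lemma evw_dwt {s : ℕ} {w : ℤ} (z : Cob.wt Laz s w) :
    D.evw (s + 1) w (Cob.dwt Laz s w z) =
      D.evw s w z ≫ ∑ i : Fin (s + 2), (-1 : ℤ) ^ (i : ℕ) •
        Am.map D.R (Fin.succAbove i : Fin (s + 1) → Fin (s + 2)) := by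
  have h : Cob.dwt Laz s w z = ∑ i : Fin (s + 2), (-1 : ℤ) ^ (i : ℕ) •
      (⟨Cob.map (Fin.succAbove i) z.1, z.2.map _⟩ : Cob.wt Laz (s + 1) w) := by
    apply Subtype.ext
    rw [Cob.coe_dwt, Cob.d_apply, AddSubgroup.val_finsetSum]
    rfl
  rw [h, map_sum, Preadditive.comp_sum]
  refine Finset.sum_congr rfl fun i _ => ?_
  rw [map_zsmul, Preadditive.comp_zsmul, evw_map]

/-! ### the cobar complex -/

variable (U : UnitCof D.R)

/-- `Q n 𝟙 ≅ R^{⊗ n}`. -/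
noncomputable def qAm (n : ℕ) : U.cobar.Q n (𝟙_ T) ≅ Am D.R n :=
  U.θ n (𝟙_ T) ≪≫ ρ_ (Am D.R n)

@[reassoc]
lemma d_qAm (n : ℕ) : U.cobar.d n (𝟙_ T) ≫ (D.qAm U (n + 1)).hom =
    (D.qAm U n).hom ≫ ∑ i : Fin (n + 1), (-1 : ℤ) ^ (i : ℕ) •
      Am.map D.R (Fin.succAbove i : Fin n → Fin (n + 1)) := by
  have h := U.d_θ n (𝟙_ T)
  rw [qAm, qAm, Iso.trans_hom, Iso.trans_hom, reassoc_of% h, Category.assoc]
  congr 1
  rw [Preadditive.sum_comp, Preadditive.comp_sum]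
  refine Finset.sum_congr rfl fun i _ => ?_
  rw [Preadditive.zsmul_comp, Preadditive.comp_zsmul, rightUnitor_naturality]

/-- `(Cob Laz s)_w →+ Hom (S^{2w}, Q (s+1) 𝟙)`. -/
noncomputable def phi (s : ℕ) (w : ℤ) :
    Cob.wt Laz s w →+ ((stdEven T).S w ⟶ U.cobar.Q (s + 1) (𝟙_ T)) :=
  AddMonoidHom.mk' (fun z => D.evw s w z ≫ (D.qAm U (s + 1)).inv) fun z z' => by
    rw [map_add, Preadditive.add_comp]

lemma phi_apply (s : ℕ) (w : ℤ) (z : Cob.wt Laz s w) :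
    D.phi U s w z = D.evw s w z ≫ (D.qAm U (s + 1)).inv := rfl

/-- `phi` is a morphism of complexes. -/
lemma phi_d (s : ℕ) (w : ℤ) (z : Cob.wt Laz s w) :
    D.phi U (s + 1) w (Cob.dwt Laz s w z) = D.phi U s w z ≫ U.cobar.d (s + 1) (𝟙_ T) := by
  rw [phi_apply, phi_apply, Iso.comp_inv_eq, Category.assoc, Category.assoc, d_qAm,
    Iso.inv_hom_id_assoc, evw_dwt]

/-! ### modulo `p` -/

section red

variable {p : ℕ} [Fact p.Prime] (hp : p ≠ 2) {C : T} {i : 𝟙_ T ⟶ C} {δ : C ⟶ (𝟙_ T)⟦(1 : ℤ)⟧}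
  (hC : Triangle.mk ((p : ℤ) • 𝟙 (𝟙_ T)) i δ ∈ distTriang T)

include hp hC

/-- `(Cob Laz s)_w → Hom (S^{2w}, Q (s+1) 𝟙 ⊗ S/p)` is onto. -/
theorem phi_red_surj (s : ℕ) (w : ℤ)
    (f : (stdEven T).S w ⟶ U.cobar.Q (s + 1) (𝟙_ T) ⊗ C) :
    ∃ z : Cob.wt Laz s w, f = D.phi U s w z ≫ (redC i).app _ := by
  obtain ⟨z, a, hz, ha, hf⟩ := D.surj p hp s C i δ hC w (f ≫ ((D.qAm U (s + 1)).hom ▷ C))
  refine ⟨⟨z, hz⟩, ?_⟩
  have h1 : D.evw s w ⟨z, hz⟩ = a := D.evw_eq ha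
  have h2 := (redC i).naturality (D.qAm U (s + 1)).inv
  change (D.qAm U (s + 1)).inv ≫ (redC i).app _ = (redC i).app _ ≫ ((D.qAm U (s + 1)).inv ▷ C)
    at h2
  rw [phi_apply, h1, Category.assoc, h2, redC_app, ← Category.assoc, ← hf, Category.assoc,
    ← comp_whiskerRight, Iso.hom_inv_id, id_whiskerRight, Category.comp_id]

/-- The kernel of `(Cob Laz s)_w → Hom (S^{2w}, Q (s+1) 𝟙 ⊗ S/p)` is `p (Cob Laz s)_w`. -/
theorem phi_red_ker (s : ℕ) (w : ℤ) (z : Cob.wt Laz s w)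
    (hz : D.phi U s w z ≫ (redC i).app _ = 0) :
    ∃ y : Cob.wt Laz s w, z = (p : ℤ) • y := by
  have h2 := (redC i).naturality (D.qAm U (s + 1)).inv
  change (D.qAm U (s + 1)).inv ≫ (redC i).app _ = (redC i).app _ ≫ ((D.qAm U (s + 1)).inv ▷ C)
    at h2
  rw [phi_apply, Category.assoc, h2, ← Category.assoc] at hz
  have h3 := congrArg (fun g => g ≫ ((D.qAm U (s + 1)).hom ▷ C)) hz
  simp only [Category.assoc, ← comp_whiskerRight, Iso.inv_hom_id, id_whiskerRight,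
    zero_comp] at h3
  have h4 : D.evw s w z ≫ (redC i).app (Am D.R (s + 1)) = 0 :=
    (congrArg _ (Category.comp_id _).symm).trans h3
  obtain ⟨y, hy, hzy⟩ := D.ker p hp s C i δ hC w z.1 z.2 (D.evw s w z) (D.of_evw z).symm h4
  exact ⟨⟨y, hy⟩, Subtype.ext hzy⟩

/-- The odd homotopy of `Q (s+1) 𝟙 ⊗ S/p` vanishes. -/
theorem odd_red (s : ℕ) (k : ℤ) (f : (𝟙_ T)⟦2 * k + 1⟧ ⟶ U.cobar.Q (s + 1) (𝟙_ T) ⊗ C) :
    f = 0 := by
  have h := D.odd p hp s C i δ hC k (f ≫ ((D.qAm U (s + 1)).hom ▷ C))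
  have h3 := congrArg (fun g => g ≫ ((D.qAm U (s + 1)).inv ▷ C)) h
  simp only [Category.assoc, ← comp_whiskerRight, Iso.hom_inv_id, id_whiskerRight,
    zero_comp] at h3
  rwa [Category.comp_id] at h3

/-- The vanishing line for the cobar complex of `S/p`. -/
theorem exists_of_cocycle_red (s : ℕ) (w : ℤ)
    (hw : ¬ (((p : ℤ) - 1) ∣ w ∧ ((p : ℤ) - 1) * (s + 1) ≤ w))
    (f : (stdEven T).S w ⟶ U.cobar.Q (s + 2) (𝟙_ T) ⊗ C)
    (hf : f ≫ (U.cobar.d (s + 2) (𝟙_ T) ▷ C) = 0) :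
    ∃ g : (stdEven T).S w ⟶ U.cobar.Q (s + 1) (𝟙_ T) ⊗ C,
      g ≫ (U.cobar.d (s + 1) (𝟙_ T) ▷ C) = f := by
  have hn : ∀ n : ℕ, U.cobar.d n (𝟙_ T) ≫ (redC i).app _ =
      (redC i).app _ ≫ (U.cobar.d n (𝟙_ T) ▷ C) := fun n => (redC i).naturality _
  obtain ⟨z, rfl⟩ := D.phi_red_surj U hp hC (s + 1) w f
  have h1 : D.phi U (s + 2) w (Cob.dwt Laz (s + 1) w z) ≫ (redC i).app _ = 0 := by
    rw [D.phi_d U (s + 1) w z, Category.assoc, hn, ← Category.assoc, hf]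
  obtain ⟨y, hy⟩ := D.phi_red_ker U hp hC (s + 2) w _ h1
  obtain ⟨x, u, hx, hu, hz⟩ := exists_of_cocycle_modP p hp hw z.2 (y := y.1)
    (congrArg Subtype.val hy)
  have h2 : z = Cob.dwt Laz s w ⟨x, hx⟩ + (p : ℤ) • (⟨u, hu⟩ : Cob.wt Laz (s + 1) w) :=
    Subtype.ext hz
  refine ⟨D.phi U s w ⟨x, hx⟩ ≫ (redC i).app _, ?_⟩
  rw [h2, map_add, map_zsmul, Preadditive.add_comp, zsmul_comp_red hC, add_zero, phi_d,
    Category.assoc, Category.assoc, hn]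

end red

end Vale.Agent.P251.I.MUData
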