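import Vale.Agent.P251.S.Tens
import Mathlib.Algebra.Module.End
import Mathlib.Algebra.Module.LinearMap.Defs

/-!
# P251, part S2: the ring of scalars

For a commutative monoid `R` of a tensor triangulated category, `Sc R = Hom(𝟙, R)` is a
commutative ring, which acts on all `R`-modules: `ModStr.smr : Sc R →+* End N`.

For a ring homomorphism `ρ : A →+* End Y` the group `HM ρ W = Hom(W, Y)` is an `A`-module.
-/

open CategoryTheory MonoidalCategory Limits MonObj Pretriangulated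

set_option linter.unusedSectionVars false

universe v u w

namespace Vale.Agent.P251.S

section Sc

variable {T : Type u} [Category.{v} T] [MonoidalCategory T]

/-- The scalars `𝟙 ⟶ R`. -/
def Sc (R : T) : Type v := (𝟙_ T ⟶ R)

/-- View a morphism as a scalar. -/
def Sc.of {R : T} (a : 𝟙_ T ⟶ R) : Sc R := a

/-- View a scalar as a morphism. -/
def Sc.hom {R : T} (a : Sc R) : 𝟙_ T ⟶ R := a

variable [Preadditive T]

instance (R : T) : AddCommGroup (Sc R) := inferInstanceAs (AddCommGroup (𝟙_ T ⟶ R))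

variable [MonoidalPreadditive T] [BraidedCategory T]

instance (R : T) [MonObj R] : Mul (Sc R) := ⟨fun a b => scMul a b⟩

instance (R : T) [MonObj R] : One (Sc R) := ⟨η[R]⟩

lemma Sc.mul_def {R : T} [MonObj R] (a b : Sc R) : a * b = scMul (R := R) a b := rfl

lemma Sc.one_def {R : T} [MonObj R] : (1 : Sc R) = η[R] := rfl

lemma scMul_eq_smul {R : T} [MonObj R] (a b : 𝟙_ T ⟶ R) :
    scMul a b = b ≫ (ModStr.self R).smul a := by
  unfold scMul ModStr.smul ModStr.self
  rw [leftUnitor_inv_naturality_assoc, tensorHom_def', Category.assoc]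

lemma scMul_assoc {R : T} [MonObj R] (a b c : 𝟙_ T ⟶ R) :
    scMul (scMul a b) c = scMul a (scMul b c) := by
  rw [scMul_eq_smul, ModStr.smul_mul, scMul_eq_smul a, scMul_eq_smul b, Category.assoc]

lemma scMul_one {R : T} [MonObj R] (a : 𝟙_ T ⟶ R) : scMul a η[R] = a := by
  unfold scMul
  rw [tensorHom_def, Category.assoc, MonObj.mul_one, rightUnitor_naturality]
  rw [← unitors_equal, Iso.inv_hom_id_assoc]

lemma one_scMul {R : T} [MonObj R] (a : 𝟙_ T ⟶ R) : scMul η[R] a = a := by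
  rw [scMul_eq_smul, ModStr.smul_one, Category.comp_id]

lemma scMul_add {R : T} [MonObj R] (a b c : 𝟙_ T ⟶ R) :
    scMul a (b + c) = scMul a b + scMul a c := by
  simp only [scMul_eq_smul, Preadditive.add_comp]

lemma add_scMul {R : T} [MonObj R] (a b c : 𝟙_ T ⟶ R) :
    scMul (a + b) c = scMul a c + scMul b c := by
  simp only [scMul_eq_smul, ModStr.smul_add, Preadditive.comp_add]

lemma zero_scMul {R : T} [MonObj R] (a : 𝟙_ T ⟶ R) : scMul 0 a = 0 := by
  rw [scMul_eq_smul, ModStr.smul_zero, comp_zero]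

lemma scMul_zero {R : T} [MonObj R] (a : 𝟙_ T ⟶ R) : scMul a 0 = 0 := by
  rw [scMul_eq_smul, zero_comp]

lemma scMul_comp {R R' : T} [MonObj R] [MonObj R'] (f : R ⟶ R') [IsMonHom f] (a b : 𝟙_ T ⟶ R) :
    scMul a b ≫ f = scMul (a ≫ f) (b ≫ f) := by
  unfold scMul
  rw [← tensorHom_comp_tensorHom]
  simp only [Category.assoc, IsMonHom.mul_hom]

instance (R : T) [MonObj R] [IsCommMonObj R] : CommRing (Sc R) :=
  { (inferInstance : AddCommGroup (Sc R)) with
    mul := fun a b => scMul (R := R) a b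
    one := η[R]
    mul_assoc := scMul_assoc
    one_mul := one_scMul
    mul_one := scMul_one
    left_distrib := scMul_add
    right_distrib := add_scMul
    mul_comm := scMul_comm
    zero_mul := zero_scMul
    mul_zero := scMul_zero }

/-- The action of the ring of scalars on a module. -/
def ModStr.smr {R : T} [MonObj R] [IsCommMonObj R] {N : T} (M : ModStr R N) : Sc R →+* End N where
  toFun a := M.sm a
  map_one' := M.smul_one
  map_mul' := M.smul_mul
  map_zero' := M.smul_zero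
  map_add' := M.smul_add

lemma ModStr.smr_apply {R : T} [MonObj R] [IsCommMonObj R] {N : T} (M : ModStr R N) (a : Sc R) :
    M.smr a = M.sm a := rfl

/-- Functoriality of the ring of scalars. -/
def Sc.map {R R' : T} [MonObj R] [IsCommMonObj R] [MonObj R'] [IsCommMonObj R'] (f : R ⟶ R')
    [IsMonHom f] : Sc R →+* Sc R' where
  toFun a := (show 𝟙_ T ⟶ R from a) ≫ f
  map_one' := IsMonHom.one_hom f
  map_mul' := scMul_comp f
  map_zero' := zero_comp
  map_add' a b := Preadditive.add_comp _ _ _ _ _ _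

end Sc

section HM

variable {T : Type u} [Category.{v} T] [Preadditive T] {A : Type w} [Ring A]

/-- The `A`-module `Hom(W, Y)` for a ring homomorphism `ρ : A →+* End Y`. -/
@[nolint unusedArguments]
def HM {Y : T} (_ρ : A →+* End Y) (W : T) : Type v := W ⟶ Y

/-- View a morphism as an element of the module `HM`. -/
def HM.of {Y : T} {ρ : A →+* End Y} {W : T} (x : W ⟶ Y) : HM ρ W := x

/-- View an element of the module `HM` as a morphism. -/
def HM.hom {Y : T} {ρ : A →+* End Y} {W : T} (x : HM ρ W) : W ⟶ Y := x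

theorem HM.of_hom {Y : T} {ρ : A →+* End Y} {W : T} (x : HM ρ W) : HM.of x.hom = x := rfl

theorem HM.hom_of {Y : T} {ρ : A →+* End Y} {W : T} (x : W ⟶ Y) :
    (HM.of x : HM ρ W).hom = x := rfl

theorem HM.hom_ext {Y : T} {ρ : A →+* End Y} {W : T} {x y : HM ρ W} (h : x.hom = y.hom) :
    x = y := h

instance {Y : T} (ρ : A →+* End Y) (W : T) : AddCommGroup (HM ρ W) :=
  inferInstanceAs (AddCommGroup (W ⟶ Y))

instance {Y : T} (ρ : A →+* End Y) (W : T) : Module A (HM ρ W) :=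
  Module.compHom (W ⟶ Y) ρ

lemma HM.smul_def {Y : T} (ρ : A →+* End Y) (W : T) (a : A) (x : HM ρ W) :
    a • x = (show W ⟶ Y from x) ≫ (ρ a : Y ⟶ Y) := rfl

lemma comp_smul_aux {Y Y' W : T} (f : Y ⟶ Y') (g : Y ⟶ Y) (g' : Y' ⟶ Y') (h : g ≫ f = f ≫ g')
    (x : W ⟶ Y) : (x ≫ g) ≫ f = (x ≫ f) ≫ g' := by
  rw [Category.assoc, h, Category.assoc]

/-- Maps commuting with the action of `A` induce linear maps. -/
def HM.map {Y Y' : T} {ρ : A →+* End Y} {ρ' : A →+* End Y'} (f : Y ⟶ Y')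
    (hf : ∀ a, (ρ a : Y ⟶ Y) ≫ f = f ≫ (ρ' a : Y' ⟶ Y')) (W : T) : HM ρ W →ₗ[A] HM ρ' W where
  toFun x := (show W ⟶ Y from x) ≫ f
  map_add' _ _ := Preadditive.add_comp _ _ _ _ _ _
  map_smul' a _ := comp_smul_aux f _ _ (hf a) _

lemma HM.map_apply {Y Y' : T} {ρ : A →+* End Y} {ρ' : A →+* End Y'} (f : Y ⟶ Y')
    (hf : ∀ a, (ρ a : Y ⟶ Y) ≫ f = f ≫ (ρ' a : Y' ⟶ Y')) (W : T) (x : HM ρ W) :
    HM.map f hf W x = (show W ⟶ Y from x) ≫ f := rfl

section homLemmas

variable {Y Y' : T} {ρ : A →+* End Y} {ρ' : A →+* End Y'} {W : T}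

@[simp] theorem HM.hom_map (f : Y ⟶ Y')
    (hf : ∀ a, (ρ a : Y ⟶ Y) ≫ f = f ≫ (ρ' a : Y' ⟶ Y')) (x : HM ρ W) :
    (HM.map f hf W x).hom = x.hom ≫ f := rfl

@[simp] theorem HM.hom_smul (a : A) (x : HM ρ W) : (a • x).hom = x.hom ≫ (ρ a : Y ⟶ Y) := rfl

@[simp] theorem HM.hom_add (x y : HM ρ W) : (x + y).hom = x.hom + y.hom := rfl

@[simp] theorem HM.hom_sub (x y : HM ρ W) : (x - y).hom = x.hom - y.hom := rfl

@[simp] theorem HM.hom_neg (x : HM ρ W) : (-x).hom = -x.hom := rfl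

@[simp] theorem HM.hom_zero : (0 : HM ρ W).hom = 0 := rfl

/-- `HM.hom` as an additive map. -/
def HM.homAdd : HM ρ W →+ (W ⟶ Y) where
  toFun := HM.hom
  map_zero' := rfl
  map_add' _ _ := rfl

theorem HM.hom_sum {ι : Type*} (s : Finset ι) (x : ι → HM ρ W) :
    (∑ i ∈ s, x i).hom = ∑ i ∈ s, (x i).hom :=
  map_sum (HM.homAdd (ρ := ρ)) x s

end homLemmas

end HM

end Vale.Agent.P251.S
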