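import Mathlib.RingTheory.AdicCompletion.Basic

/-!
# P251, part S (S2): the completion condition `C`

Pure algebra.  `φ : F →ₗ[A] E` satisfies `CompCond I v φ` if `E` is `I`-adically complete, `v` is
bijective on `E` and `v⁻¹(F / I^j F) → E / I^j E` is bijective for all `j`.
-/

namespace Vale.Agent.P251.S

universe u v w

variable {A : Type u} [CommRing A] (I : Ideal A) (v : A)
  {F : Type v} {E : Type w} [AddCommGroup F] [Module A F] [AddCommGroup E] [Module A E]

/-- Completeness in elementary form: every Cauchy sequence has a limit. -/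
def CauchyComplete (E : Type w) [AddCommGroup E] [Module A E] : Prop :=
  ∀ e : ℕ → E, (∀ k, e (k + 1) - e k ∈ (I ^ k • ⊤ : Submodule A E)) →
    ∃ l : E, ∀ k, l - e k ∈ (I ^ k • ⊤ : Submodule A E)

/-- The condition `C`. -/
structure CompCond (φ : F →ₗ[A] E) : Prop where
  haus : ∀ e : E, (∀ k, e ∈ (I ^ k • ⊤ : Submodule A E)) → e = 0
  complete : CauchyComplete I E
  inj : ∀ e : E, v • e = 0 → e = 0
  surj : ∀ e : E, ∃ e' : E, v • e' = e
  dense : ∀ (j : ℕ) (e : E), ∃ (k : ℕ) (f : F), v ^ k • e - φ f ∈ (I ^ j • ⊤ : Submodule A E)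
  closed : ∀ (j : ℕ) (f : F), φ f ∈ (I ^ j • ⊤ : Submodule A E) →
    ∃ k : ℕ, v ^ k • f ∈ (I ^ j • ⊤ : Submodule A F)

lemma map_mem_smul_top {M : Type v} {N : Type w} [AddCommGroup M] [Module A M]
    [AddCommGroup N] [Module A N] (J : Ideal A) (g : M →ₗ[A] N) {x : M}
    (hx : x ∈ (J • ⊤ : Submodule A M)) : g x ∈ (J • ⊤ : Submodule A N) := by
  have h : (J • ⊤ : Submodule A M).map g ≤ J • ⊤ := by
    rw [Submodule.map_smul'']
    exact Submodule.smul_mono le_rfl le_top
  exact h (Submodule.mem_map_of_mem hx)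

lemma exists_smul_top_lift {M : Type v} {N : Type w} [AddCommGroup M] [Module A M]
    [AddCommGroup N] [Module A N] (J : Ideal A) (g : M →ₗ[A] N) (hg : Function.Surjective g)
    {y : N} (hy : y ∈ (J • ⊤ : Submodule A N)) :
    ∃ x ∈ (J • ⊤ : Submodule A M), g x = y := by
  have h : (J • ⊤ : Submodule A N) = (J • ⊤ : Submodule A M).map g := by
    rw [Submodule.map_smul'', Submodule.map_top, LinearMap.range_eq_top.2 hg]
  rw [h] at hy
  exact (Submodule.mem_map).1 hy

namespace CompCond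

variable {I v}

/-- The condition passes to retracts. -/
theorem retract {F' : Type v} {E' : Type w} [AddCommGroup F'] [Module A F'] [AddCommGroup E']
    [Module A E'] {φ : F →ₗ[A] E} {φ' : F' →ₗ[A] E'} (h : CompCond I v φ')
    (iF : F →ₗ[A] F') (rF : F' →ₗ[A] F) (iE : E →ₗ[A] E') (rE : E' →ₗ[A] E)
    (hF : ∀ x, rF (iF x) = x) (hE : ∀ x, rE (iE x) = x)
    (hi : ∀ x, φ' (iF x) = iE (φ x)) (hr : ∀ x, φ (rF x) = rE (φ' x)) : CompCond I v φ where
  haus e he := by
    have := h.haus (iE e) (fun k => map_mem_smul_top _ iE (he k))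
    rw [← hE e, this, map_zero]
  complete e he := by
    obtain ⟨l, hl⟩ := h.complete (fun k => iE (e k)) (fun k => by
      rw [← map_sub]; exact map_mem_smul_top _ iE (he k))
    refine ⟨rE l, fun k => ?_⟩
    have := map_mem_smul_top _ rE (hl k)
    rwa [map_sub, hE] at this
  inj e he := by
    have := h.inj (iE e) (by rw [← map_smul, he, map_zero])
    rw [← hE e, this, map_zero]
  surj e := by
    obtain ⟨e', he'⟩ := h.surj (iE e)
    exact ⟨rE e', by rw [← map_smul, he', hE]⟩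
  dense j e := by
    obtain ⟨k, f, hf⟩ := h.dense j (iE e)
    refine ⟨k, rF f, ?_⟩
    have := map_mem_smul_top _ rE hf
    rwa [map_sub, map_smul, hE, ← hr] at this
  closed j f hf := by
    obtain ⟨k, hk⟩ := h.closed j (iF f) (by rw [hi]; exact map_mem_smul_top _ iE hf)
    refine ⟨k, ?_⟩
    have := map_mem_smul_top _ rF hk
    rwa [map_smul, hF] at this

/-- The condition can be checked modulo all powers of an endomorphism `w` for which `E` is
complete. -/
theorem of_quotients {φ : F →ₗ[A] E} (wF : F →ₗ[A] F) (wE : E →ₗ[A] E)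
    (Fq : ℕ → Type v) (Eq : ℕ → Type w) [∀ j, AddCommGroup (Fq j)] [∀ j, Module A (Fq j)]
    [∀ j, AddCommGroup (Eq j)] [∀ j, Module A (Eq j)] (φq : ∀ j, Fq j →ₗ[A] Eq j)
    (h : ∀ j, CompCond I v (φq j))
    (pF : ∀ j, F →ₗ[A] Fq j) (pE : ∀ j, E →ₗ[A] Eq j) (hp : ∀ j x, φq j (pF j x) = pE j (φ x))
    (pF_surj : ∀ j, Function.Surjective (pF j)) (pE_surj : ∀ j, Function.Surjective (pE j))
    (pF_ker : ∀ j x, pF j x = 0 → ∃ y, (wF ^ j) y = x)
    (pE_ker : ∀ j x, pE j x = 0 ↔ ∃ y, (wE ^ j) y = x)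
    (hwF : ∀ j x, (wF ^ j) x ∈ (I ^ j • ⊤ : Submodule A F))
    (hwE : ∀ j x, (wE ^ j) x ∈ (I ^ j • ⊤ : Submodule A E))
    (haus : ∀ x : E, (∀ j, ∃ y, (wE ^ j) y = x) → x = 0)
    (complete : ∀ e : ℕ → E, (∀ k, ∃ a, e (k + 1) - e k = (wE ^ k) a) →
      ∃ l : E, ∀ k, ∃ a, l - e k = (wE ^ k) a) : CompCond I v φ := by
  -- an element which is zero in all quotients is zero
  have hz : ∀ x : E, (∀ j, pE j x = 0) → x = 0 := fun x hx => haus x fun j => (pE_ker j x).1 (hx j)
  -- compatible families have limits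
  have hw_le : ∀ (j k : ℕ) (x : E), j ≤ k → (∃ a, x = (wE ^ k) a) → ∃ a, x = (wE ^ j) a := by
    rintro j k x hjk ⟨a, rfl⟩
    refine ⟨(wE ^ (k - j)) a, ?_⟩
    rw [← Module.End.mul_apply, ← pow_add, Nat.add_sub_cancel' hjk]
  have hlim : ∀ e : ∀ j, Eq j, (∀ j, ∀ x : E, pE (j + 1) x = e (j + 1) → pE j x = e j) →
      ∃ l : E, ∀ j, pE j l = e j := by
    intro e he
    choose g hg using fun j => pE_surj j (e j)
    obtain ⟨l, hl⟩ := complete g (fun k => by
      have h1 : pE k (g (k + 1) - g k) = 0 := by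
        rw [map_sub, he k _ (hg (k + 1)), hg k, sub_self]
      obtain ⟨y, hy⟩ := (pE_ker k _).1 h1
      exact ⟨y, hy.symm⟩)
    refine ⟨l, fun j => ?_⟩
    obtain ⟨a, ha⟩ := hl j
    have h1 : pE j (l - g j) = 0 := (pE_ker j _).2 ⟨a, ha.symm⟩
    rw [map_sub, sub_eq_zero] at h1
    rw [h1, hg]
  have pE_succ : ∀ j (x : E), pE (j + 1) x = 0 → pE j x = 0 := by
    intro j x hx
    obtain ⟨y, hy⟩ := (pE_ker _ _).1 hx
    obtain ⟨a, ha⟩ := hw_le j (j + 1) x (Nat.le_succ j) ⟨y, hy.symm⟩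
    exact (pE_ker _ _).2 ⟨a, ha.symm⟩
  refine ⟨?_, ?_, ?_, ?_, ?_, ?_⟩
  · intro e he
    refine hz e fun j => (h j).haus _ fun k => map_mem_smul_top _ (pE j) (he k)
  · intro e he
    -- limits in all quotients
    choose l hl using fun j => (h j).complete (fun k => pE j (e k)) (fun k => by
      rw [← map_sub]; exact map_mem_smul_top _ (pE j) (he k))
    obtain ⟨m, hm⟩ := hlim l (by
      intro j x hx
      rw [← sub_eq_zero]
      refine (h j).haus _ fun k => ?_
      have h1 : pE (j + 1) x - pE (j + 1) (e k) ∈ (I ^ k • ⊤ : Submodule A (Eq (j + 1))) := by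
        rw [hx]; exact hl (j + 1) k
      rw [← map_sub] at h1
      obtain ⟨y, hy, hy'⟩ := exists_smul_top_lift _ _ (pE_surj (j + 1)) h1
      have h2 : pE j (x - e k - y) = 0 := by
        apply pE_succ
        rw [map_sub, hy', sub_self]
      rw [map_sub, map_sub, sub_eq_zero] at h2
      have h3 : pE j x - l j = pE j y - (l j - pE j (e k)) := by
        rw [← h2]; abel
      rw [h3]
      exact sub_mem (map_mem_smul_top _ _ hy) (hl j k))
    refine ⟨m, fun k => ?_⟩
    have h1 : pE k (m - e k) ∈ (I ^ k • ⊤ : Submodule A (Eq k)) := by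
      rw [map_sub, hm]; exact hl k k
    obtain ⟨y, hy, hy'⟩ := exists_smul_top_lift _ _ (pE_surj k) h1
    have h2 : pE k (m - e k - y) = 0 := by rw [map_sub, hy', sub_self]
    obtain ⟨a, ha⟩ := (pE_ker k _).1 h2
    have h3 : m - e k = y + (wE ^ k) a := by rw [ha]; abel
    rw [h3]
    exact add_mem hy (hwE k a)
  · intro e he
    exact hz e fun j => (h j).inj _ (by rw [← map_smul, he, map_zero])
  · intro e
    choose g hg using fun j => (h j).surj (pE j e)
    obtain ⟨m, hm⟩ := hlim g (by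
      intro j x hx
      rw [← sub_eq_zero]
      apply (h j).inj
      rw [smul_sub, hg, ← map_smul, ← map_sub]
      apply pE_succ
      rw [map_sub, map_smul, hx, hg, sub_self])
    refine ⟨m, ?_⟩
    rw [← sub_eq_zero]
    refine hz _ fun j => ?_
    rw [map_sub, map_smul, hm, hg, sub_self]
  · intro j e
    obtain ⟨k, f, hf⟩ := (h j).dense j (pE j e)
    obtain ⟨f, rfl⟩ := pF_surj j f
    refine ⟨k, f, ?_⟩
    rw [hp, ← map_smul, ← map_sub] at hf
    obtain ⟨y, hy, hy'⟩ := exists_smul_top_lift _ _ (pE_surj j) hf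
    have h2 : pE j (v ^ k • e - φ f - y) = 0 := by rw [map_sub, hy', sub_self]
    obtain ⟨a, ha⟩ := (pE_ker j _).1 h2
    have h3 : v ^ k • e - φ f = y + (wE ^ j) a := by rw [ha]; abel
    rw [h3]
    exact add_mem hy (hwE j a)
  · intro j f hf
    obtain ⟨k, hk⟩ := (h j).closed j (pF j f) (by rw [hp]; exact map_mem_smul_top _ _ hf)
    refine ⟨k, ?_⟩
    rw [← map_smul] at hk
    obtain ⟨y, hy, hy'⟩ := exists_smul_top_lift _ _ (pF_surj j) hk
    have h2 : pF j (v ^ k • f - y) = 0 := by rw [map_sub, hy', sub_self]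
    obtain ⟨a, ha⟩ := pF_ker j _ h2
    have h3 : v ^ k • f = y + (wF ^ j) a := by rw [ha]; abel
    rw [h3]
    exact add_mem hy (hwF j a)

end CompCond

end Vale.Agent.P251.S
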