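import Mathlib.CategoryTheory.Preadditive.AdditiveFunctor
import Mathlib.Algebra.Category.Grp.Preadditive
import Mathlib.Tactic.Abel
import Mathlib.Tactic.Ring

/-!
# P251, part S (S3): the cobar complex of a monad and the `E_1`-complex of the Adams tower

`M` is a functor on a preadditive category with unital natural transformations `un`, `mu` (no
associativity is needed), `G` a functor with `ρ : M ⟶ G` (the cofibre of the unit).
All recursions are on the inner side: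

* `Q s Y = M^s Y`, `Q 0 Y = Y`, `Q (s+1) Y = Q s (M Y)` (functorial in `Y`: `Qm s f`);
* `d s Y : Q s Y ⟶ Q (s+1) Y`, alternating sum of the `s + 1` insertions of the unit;
* `B s Y = G^s Y`, `B 0 Y = Y`, `B (s+1) Y = B s (G Y)` (functorial in `Y`: `Bm s f`);
* `k s Y : M (B s Y) ⟶ B (s+1) Y` and `D s Y : M (B s Y) ⟶ M (B (s+1) Y)`, the first differential
  of the tower;
* `q s Y : Q (s+1) Y ⟶ M (B s Y)`, a morphism of complexes.

If `M Y → M M Y → M G Y` is split exact then `q` induces an isomorphism on cohomology, after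
applying any additive functor `F` to abelian groups: theorems `exists_cocycle` (surjectivity) and
`exists_cobdy` (injectivity).
-/

open CategoryTheory

universe v u w

namespace Vale.Agent.P251.S

/-- A unital functor `(M, un, mu)` together with a the cofibre of the unit `G`. -/
structure CobarData (C : Type u) [Category.{v} C] [Preadditive C] where
  /-- the functor -/
  M : C ⥤ C
  /-- the unit -/
  un : ∀ Y, Y ⟶ M.obj Y
  un_nat : ∀ {X Y : C} (f : X ⟶ Y), f ≫ un Y = un X ≫ M.map f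
  /-- the multiplication -/
  mu : ∀ Y, M.obj (M.obj Y) ⟶ M.obj Y
  mu_nat : ∀ {X Y : C} (f : X ⟶ Y), M.map (M.map f) ≫ mu Y = mu X ≫ M.map f
  left_unit : ∀ Y, un (M.obj Y) ≫ mu Y = 𝟙 (M.obj Y)
  right_unit : ∀ Y, M.map (un Y) ≫ mu Y = 𝟙 (M.obj Y)
  /-- the cofibre of the unit -/
  G : C ⥤ C
  /-- the projection -/
  ρ : ∀ Y, M.obj Y ⟶ G.obj Y
  ρ_nat : ∀ {X Y : C} (f : X ⟶ Y), M.map f ≫ ρ Y = ρ X ≫ G.map f
  additiveM : M.Additive
  additiveG : G.Additive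
  un_ρ : ∀ Y, un Y ≫ ρ Y = 0
  split : ∀ Y, ∃ σ : M.obj (G.obj Y) ⟶ M.obj (M.obj Y), σ ≫ M.map (ρ Y) = 𝟙 (M.obj (G.obj Y)) ∧
    M.map (ρ Y) ≫ σ = 𝟙 (M.obj (M.obj Y)) - mu Y ≫ M.map (un Y)

namespace CobarData

attribute [instance] CobarData.additiveM CobarData.additiveG
attribute [reassoc] CobarData.un_nat CobarData.mu_nat CobarData.ρ_nat
attribute [reassoc (attr := simp)] CobarData.left_unit CobarData.right_unit CobarData.un_ρ

variable {C : Type u} [Category.{v} C] [Preadditive C] (K : CobarData C)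

/-- The iterates of `M` (the innermost factor first). -/
@[reducible] def Q : ℕ → C → C
  | 0, Y => Y
  | s + 1, Y => Q s (K.M.obj Y)

/-- Functoriality of `Q s`. -/
def Qm : ∀ (s : ℕ) {X Y : C}, (X ⟶ Y) → (K.Q s X ⟶ K.Q s Y)
  | 0, _, _, f => f
  | s + 1, _, _, f => Qm s (K.M.map f)

/-- The iterates of the cofibre of the unit (the innermost factor first). -/
@[reducible] def B : ℕ → C → C
  | 0, Y => Y
  | s + 1, Y => B s (K.G.obj Y)

/-- Functoriality of `B s`. -/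
def Bm : ∀ (s : ℕ) {X Y : C}, (X ⟶ Y) → (K.B s X ⟶ K.B s Y)
  | 0, _, _, f => f
  | s + 1, _, _, f => Bm s (K.G.map f)

@[simp] lemma Qm_zero {X Y : C} (f : X ⟶ Y) : K.Qm 0 f = f := rfl

lemma Qm_succ (s : ℕ) {X Y : C} (f : X ⟶ Y) : K.Qm (s + 1) f = K.Qm s (K.M.map f) := rfl

@[simp] lemma Bm_zero {X Y : C} (f : X ⟶ Y) : K.Bm 0 f = f := rfl

lemma Bm_succ (s : ℕ) {X Y : C} (f : X ⟶ Y) : K.Bm (s + 1) f = K.Bm s (K.G.map f) := rfl

@[simp] lemma Qm_id (s : ℕ) (X : C) : K.Qm s (𝟙 X) = 𝟙 (K.Q s X) := by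
  induction s generalizing X with
  | zero => rfl
  | succ s ih => rw [Qm_succ, CategoryTheory.Functor.map_id, ih]

@[simp] lemma Bm_id (s : ℕ) (X : C) : K.Bm s (𝟙 X) = 𝟙 (K.B s X) := by
  induction s generalizing X with
  | zero => rfl
  | succ s ih => rw [Bm_succ, CategoryTheory.Functor.map_id, ih]

@[reassoc]
lemma Qm_comp (s : ℕ) {X Y Z : C} (f : X ⟶ Y) (g : Y ⟶ Z) :
    K.Qm s (f ≫ g) = K.Qm s f ≫ K.Qm s g := by
  induction s generalizing X Y Z with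
  | zero => rfl
  | succ s ih => rw [Qm_succ, Functor.map_comp, ih]; rfl

@[reassoc]
lemma Bm_comp (s : ℕ) {X Y Z : C} (f : X ⟶ Y) (g : Y ⟶ Z) :
    K.Bm s (f ≫ g) = K.Bm s f ≫ K.Bm s g := by
  induction s generalizing X Y Z with
  | zero => rfl
  | succ s ih => rw [Bm_succ, Functor.map_comp, ih]; rfl

lemma Qm_add (s : ℕ) {X Y : C} (f g : X ⟶ Y) : K.Qm s (f + g) = K.Qm s f + K.Qm s g := by
  induction s generalizing X Y with
  | zero => rfl
  | succ s ih => rw [Qm_succ, Functor.map_add, ih]; rfl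

@[simp] lemma Qm_zero' (s : ℕ) (X Y : C) : K.Qm s (0 : X ⟶ Y) = 0 := by
  induction s generalizing X Y with
  | zero => rfl
  | succ s ih => rw [Qm_succ, Functor.map_zero, ih]

lemma Qm_neg (s : ℕ) {X Y : C} (f : X ⟶ Y) : K.Qm s (-f) = -K.Qm s f := by
  rw [eq_neg_iff_add_eq_zero, ← Qm_add, neg_add_cancel, Qm_zero']

lemma Qm_sub (s : ℕ) {X Y : C} (f g : X ⟶ Y) : K.Qm s (f - g) = K.Qm s f - K.Qm s g := by
  rw [sub_eq_add_neg, Qm_add, Qm_neg, ← sub_eq_add_neg]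

lemma Bm_add (s : ℕ) {X Y : C} (f g : X ⟶ Y) : K.Bm s (f + g) = K.Bm s f + K.Bm s g := by
  induction s generalizing X Y with
  | zero => rfl
  | succ s ih => rw [Bm_succ, Functor.map_add, ih]; rfl

@[simp] lemma Bm_zero' (s : ℕ) (X Y : C) : K.Bm s (0 : X ⟶ Y) = 0 := by
  induction s generalizing X Y with
  | zero => rfl
  | succ s ih => rw [Bm_succ, Functor.map_zero, ih]

/-- The last coface: insertion of the innermost unit. -/
def lam (s : ℕ) (Y : C) : K.Q s Y ⟶ K.Q (s + 1) Y := K.Qm s (K.un Y)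

/-- The differential of the (augmented) cobar complex. -/
def d : ∀ (s : ℕ) (Y : C), K.Q s Y ⟶ K.Q (s + 1) Y
  | 0, Y => K.un Y
  | s + 1, Y => d s (K.M.obj Y) + (-1 : ℤ) ^ (s + 1) • K.lam (s + 1) Y

lemma d_zero (Y : C) : K.d 0 Y = K.un Y := rfl

lemma d_succ (s : ℕ) (Y : C) :
    K.d (s + 1) Y = K.d s (K.M.obj Y) + (-1 : ℤ) ^ (s + 1) • K.lam (s + 1) Y := rfl

@[reassoc]
lemma lam_naturality (s : ℕ) {X Y : C} (f : X ⟶ Y) :
    K.Qm s f ≫ K.lam s Y = K.lam s X ≫ K.Qm (s + 1) f := by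
  rw [lam, lam, Qm_succ, ← Qm_comp, ← Qm_comp, K.un_nat]

@[reassoc]
lemma d_naturality (s : ℕ) {X Y : C} (f : X ⟶ Y) :
    K.Qm s f ≫ K.d s Y = K.d s X ≫ K.Qm (s + 1) f := by
  induction s generalizing X Y with
  | zero => exact K.un_nat f
  | succ s ih =>
    rw [d_succ, d_succ, Preadditive.comp_add, Preadditive.add_comp, Preadditive.comp_zsmul,
      Preadditive.zsmul_comp, lam_naturality]
    congr 1
    exact ih (K.M.map f)

/-- `d ∘ λ = λ ∘ (d without the last coface)`. -/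
lemma lam_dM (s : ℕ) (Y : C) :
    K.lam s Y ≫ K.d s (K.M.obj Y) = K.d s Y ≫ K.lam (s + 1) Y :=
  K.d_naturality s (K.un Y)

lemma lam_d (s : ℕ) (Y : C) :
    K.lam (s + 1) Y ≫ K.d (s + 2) Y = K.d s (K.M.obj Y) ≫ K.lam (s + 2) Y := by
  rw [d_succ, Preadditive.comp_add, lam_dM, K.d_succ s Y, Preadditive.add_comp,
    Preadditive.comp_zsmul, Preadditive.zsmul_comp]
  rw [pow_succ _ (s + 1), mul_neg_one, neg_smul]
  abel

lemma lam_d_zero (Y : C) :
    K.lam 0 Y ≫ K.d 1 Y = 0 := by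
  have h2 : K.lam 0 Y = K.d 0 Y := rfl
  rw [K.d_succ 0 Y, Preadditive.comp_add, lam_dM, Preadditive.comp_zsmul, h2]
  simp

@[reassoc (attr := simp)]
lemma d_d (s : ℕ) (Y : C) : K.d s Y ≫ K.d (s + 1) Y = 0 := by
  induction s generalizing Y with
  | zero => exact K.lam_d_zero Y
  | succ s ih =>
    have ih' : K.d s (K.M.obj Y) ≫ K.d (s + 1) (K.M.obj Y) = 0 := ih (K.M.obj Y)
    rw [K.d_succ s Y, Preadditive.add_comp, Preadditive.zsmul_comp, K.lam_d s Y,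
      K.d_succ (s + 1) Y, Preadditive.comp_add, ih', Preadditive.comp_zsmul, zero_add,
      pow_succ _ (s + 1), mul_neg_one, neg_smul, neg_add_cancel]

/-- The contraction of the cobar complex of `M Y`. -/
def h (s : ℕ) (Y : C) : K.Q (s + 2) Y ⟶ K.Q (s + 1) Y := K.Qm s (K.mu Y)

lemma d_h_zero (Y : C) : K.d 0 (K.M.obj Y) ≫ K.h 0 Y = 𝟙 _ := K.left_unit Y

lemma d_h_succ (s : ℕ) (Y : C) :
    K.d (s + 1) (K.M.obj Y) ≫ K.h (s + 1) Y =
      K.h s Y ≫ K.d s (K.M.obj Y) + (-1 : ℤ) ^ (s + 1) • 𝟙 _ := by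
  have h1 : K.d s (K.M.obj (K.M.obj Y)) ≫ K.h (s + 1) Y = K.h s Y ≫ K.d s (K.M.obj Y) :=
    (K.d_naturality s (K.mu Y)).symm
  have h2 : K.lam (s + 1) (K.M.obj Y) ≫ K.h (s + 1) Y = 𝟙 _ := by
    rw [lam, h, ← Qm_comp, K.left_unit, Qm_id]
  rw [d_succ, Preadditive.add_comp, Preadditive.zsmul_comp, h1, h2]

lemma lam_h (s : ℕ) (Y : C) : K.lam (s + 1) Y ≫ K.h s Y = 𝟙 _ := by
  rw [lam, Qm_succ, CobarData.h, ← Qm_comp, K.right_unit, Qm_id]

/-! ### The `E_1`-complex of the tower -/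

/-- The maps `M (B s Y) ⟶ B (s + 1) Y`. -/
def k : ∀ (s : ℕ) (Y : C), K.M.obj (K.B s Y) ⟶ K.B (s + 1) Y
  | 0, Y => K.ρ Y
  | s + 1, Y => k s (K.G.obj Y)

/-- The differential of the `E_1`-complex of the tower. -/
def D (s : ℕ) (Y : C) : K.M.obj (K.B s Y) ⟶ K.M.obj (K.B (s + 1) Y) :=
  K.k s Y ≫ K.un _

@[simp] lemma k_zero (Y : C) : K.k 0 Y = K.ρ Y := rfl

lemma k_succ (s : ℕ) (Y : C) : K.k (s + 1) Y = K.k s (K.G.obj Y) := rfl

lemma D_succ (s : ℕ) (Y : C) : K.D (s + 1) Y = K.D s (K.G.obj Y) := rfl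

@[reassoc]
lemma k_naturality (s : ℕ) {X Y : C} (f : X ⟶ Y) :
    K.M.map (K.Bm s f) ≫ K.k s Y = K.k s X ≫ K.Bm (s + 1) f := by
  induction s generalizing X Y with
  | zero => exact K.ρ_nat f
  | succ s ih => exact ih (K.G.map f)

@[reassoc (attr := simp)]
lemma un_k (s : ℕ) (Y : C) : K.un (K.B s Y) ≫ K.k s Y = 0 := by
  induction s generalizing Y with
  | zero => exact K.un_ρ Y
  | succ s ih => exact ih (K.G.obj Y)

@[reassoc (attr := simp)]
lemma D_D (s : ℕ) (Y : C) : K.D s Y ≫ K.D (s + 1) Y = 0 := by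
  have h1 : K.un (K.B (s + 1) Y) ≫ K.k (s + 1) Y = 0 := K.un_k (s + 1) Y
  rw [D, D, Category.assoc, reassoc_of% h1]
  simp

@[reassoc]
lemma D_naturality (s : ℕ) {X Y : C} (f : X ⟶ Y) :
    K.M.map (K.Bm s f) ≫ K.D s Y = K.D s X ≫ K.M.map (K.Bm (s + 1) f) := by
  rw [D, D, k_naturality_assoc, Category.assoc, K.un_nat]

/-- The projection from the cobar complex to the `E_1`-complex. -/
def q : ∀ (s : ℕ) (Y : C), K.Q (s + 1) Y ⟶ K.M.obj (K.B s Y)
  | 0, _ => 𝟙 _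
  | s + 1, Y => K.Qm (s + 1) (K.ρ Y) ≫ q s (K.G.obj Y)

@[simp] lemma q_zero (Y : C) : K.q 0 Y = 𝟙 _ := rfl

lemma q_succ (s : ℕ) (Y : C) : K.q (s + 1) Y = K.Qm (s + 1) (K.ρ Y) ≫ K.q s (K.G.obj Y) := rfl

@[reassoc]
lemma q_naturality (s : ℕ) {X Y : C} (f : X ⟶ Y) :
    K.Qm (s + 1) f ≫ K.q s Y = K.q s X ≫ K.M.map (K.Bm s f) := by
  induction s generalizing X Y with
  | zero =>
    rw [q_zero, q_zero, Category.comp_id, Category.id_comp]
    rfl
  | succ s ih =>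
    rw [q_succ, q_succ, Category.assoc]
    have h1 : K.Qm (s + 2) f ≫ K.Qm (s + 1) (K.ρ Y) =
        K.Qm (s + 1) (K.ρ X) ≫ K.Qm (s + 1) (K.G.map f) := by
      rw [K.Qm_succ (s + 1), ← Qm_comp, ← Qm_comp, K.ρ_nat]
    rw [← Category.assoc, h1, Category.assoc, ih]
    rfl

@[reassoc]
lemma lam_Qρ (s : ℕ) (Y : C) : K.lam s Y ≫ K.Qm s (K.ρ Y) = 0 := by
  rw [lam, ← Qm_comp, un_ρ, Qm_zero']

/-- The projection `ρ` is a morphism from the cobar complex of `Y` to the shifted augmented cobar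
complex of `G Y`. -/
@[reassoc]
lemma d_Qρ (s : ℕ) (Y : C) :
    K.d (s + 1) Y ≫ K.Qm (s + 1) (K.ρ Y) = K.Qm s (K.ρ Y) ≫ K.d s (K.G.obj Y) := by
  rw [d_succ, Preadditive.add_comp, Preadditive.zsmul_comp, lam_Qρ, smul_zero, add_zero]
  exact (K.d_naturality s (K.ρ Y)).symm

@[reassoc]
lemma d_q (s : ℕ) (Y : C) : K.d (s + 1) Y ≫ K.q (s + 1) Y = K.q s Y ≫ K.D s Y := by
  induction s generalizing Y with
  | zero =>
    rw [q_succ, d_Qρ_assoc, q_zero, q_zero, Category.comp_id, Category.id_comp]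
    rfl
  | succ s ih =>
    rw [q_succ, d_Qρ_assoc, ih, K.q_succ s, Category.assoc]
    rfl

/-! ### Multiplication by a cochain of degree two -/

/-- The cup product (on the inner side) with a cochain `z : Y' ⟶ Q 3 Y = M M M Y` of degree `2`. -/
def cup {Y' Y : C} (z : Y' ⟶ K.Q 3 Y) (s : ℕ) : K.Q (s + 1) Y' ⟶ K.Q (s + 3) Y :=
  K.Qm s (K.M.map z ≫ K.mu (K.M.obj (K.M.obj Y)))

lemma q_two (Y : C) : K.q 2 Y = K.M.map (K.M.map (K.ρ Y) ≫ K.ρ (K.G.obj Y)) := by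
  rw [q_succ, q_succ, q_zero, Category.comp_id, Qm_succ, Qm_succ, Qm_succ, Qm_zero, Qm_zero,
    Functor.map_comp]

/-- If the image of the cochain `z` in the `E_1`-complex is the image of `x : Y' ⟶ G G Y`, then the
cup product with `z` induces the map `M (B s x)` of the tower. -/
lemma cup_q {Y' Y : C} (z : Y' ⟶ K.Q 3 Y) (x : Y' ⟶ K.B 2 Y)
    (hz : z ≫ K.q 2 Y = x ≫ K.un (K.B 2 Y)) (s : ℕ) :
    K.cup z s ≫ K.q (s + 2) Y = K.q s Y' ≫ K.M.map (K.Bm s x) := by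
  have h1 : (K.M.map z ≫ K.mu (K.M.obj (K.M.obj Y))) ≫ K.q 2 Y = K.M.map x := by
    rw [q_two, Category.assoc, ← K.mu_nat, ← Functor.map_comp_assoc, ← q_two, hz,
      Functor.map_comp, Category.assoc, K.right_unit, Category.comp_id]
  have h2 : K.q (s + 2) Y = K.Qm s (K.q 2 Y) ≫ K.q s (K.G.obj (K.G.obj Y)) := by
    rw [q_succ, q_succ, q_two, Functor.map_comp, Qm_comp, Category.assoc]
    rfl
  rw [h2, cup, ← Category.assoc, ← Qm_comp, h1, ← q_naturality]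
  rfl

/-- The sum of the last three cofaces of `M M M Y` (up to sign), without the outermost `M`. -/
def e3 (Y : C) : K.Q 2 Y ⟶ K.Q 3 Y :=
  K.un (K.M.obj (K.M.obj Y)) - K.M.map (K.un (K.M.obj Y)) + K.M.map (K.M.map (K.un Y))

lemma d_add_three (s : ℕ) (Y : C) :
    K.d (s + 3) Y = K.d s (K.Q 3 Y) + (-1 : ℤ) ^ (s + 1) • K.Qm s (K.M.map (K.e3 Y)) := by
  rw [d_succ, d_succ, d_succ, e3, Functor.map_add, Functor.map_sub, Qm_add, Qm_sub, smul_add,
    smul_sub]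
  change _ + (-1 : ℤ) ^ (s + 1) • K.Qm s (K.M.map (K.un (K.M.obj (K.M.obj Y)))) +
    (-1 : ℤ) ^ (s + 1 + 1) • K.Qm s (K.M.map (K.M.map (K.un (K.M.obj Y)))) +
    (-1 : ℤ) ^ (s + 2 + 1) • K.Qm s (K.M.map (K.M.map (K.M.map (K.un Y)))) = _
  rw [pow_succ _ (s + 2), pow_succ _ (s + 1), mul_neg_one, mul_neg_one, neg_neg, neg_smul]
  abel

/-- The Leibniz rule for the cup product with a cocycle. -/
lemma cup_d {Y' Y : C} (z : Y' ⟶ K.Q 3 Y) (hz : z ≫ K.d 3 Y = 0) (s : ℕ) :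
    K.cup z s ≫ K.d (s + 3) Y = K.d (s + 1) Y' ≫ K.cup z (s + 1) := by
  have hz' : z ≫ K.M.map (K.e3 Y) = z ≫ K.un (K.Q 3 Y) := by
    rw [K.d_add_three 0 Y] at hz
    simp only [Preadditive.comp_add, zero_add, pow_one, neg_smul, one_smul,
      Preadditive.comp_neg] at hz
    exact (add_neg_eq_zero.1 hz).symm
  have h1 : (K.M.map z ≫ K.mu (K.M.obj (K.M.obj Y))) ≫ K.M.map (K.e3 Y) = K.M.map z := by
    rw [Category.assoc, ← K.mu_nat, ← Functor.map_comp_assoc, hz', Functor.map_comp,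
      Category.assoc, K.right_unit, Category.comp_id]
  have h2 : K.un Y' ≫ K.M.map z ≫ K.mu (K.M.obj (K.M.obj Y)) = z := by
    rw [← K.un_nat_assoc, K.left_unit, Category.comp_id]
  rw [d_add_three, Preadditive.comp_add, Preadditive.comp_zsmul, cup, ← Qm_comp, h1,
    d_naturality, d_succ, Preadditive.add_comp, Preadditive.zsmul_comp]
  congr 2
  rw [lam, cup, ← Qm_comp, Qm_succ, h2]

/-! ### Comparison of the cohomologies, after applying an additive functor -/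

/-- The action of `F.map f` on elements. -/
abbrev ev {C : Type u} [Category.{v} C] (F : C ⥤ AddCommGrpCat.{w}) {X Y : C} (f : X ⟶ Y) :
    F.obj X →+ F.obj Y := (F.map f).hom

@[simp] lemma ev_id {C : Type u} [Category.{v} C] (F : C ⥤ AddCommGrpCat.{w})
    (X : C) (c : F.obj X) : ev F (𝟙 X) c = c := by simp [ev]

lemma ev_comp {C : Type u} [Category.{v} C] (F : C ⥤ AddCommGrpCat.{w})
    {X Y Z : C} (f : X ⟶ Y) (g : Y ⟶ Z) (c : F.obj X) :
    ev F (f ≫ g) c = ev F g (ev F f c) := by simp [ev]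

lemma ev_eq {C : Type u} [Category.{v} C] {F : C ⥤ AddCommGrpCat.{w}}
    {X Y : C} {f g : X ⟶ Y} (h : f = g) (c : F.obj X) : ev F f c = ev F g c := by rw [h]

section Compare

variable (F : C ⥤ AddCommGrpCat.{w}) [F.Additive]

lemma ev_add {X Y : C} (f g : X ⟶ Y) (c : F.obj X) : ev F (f + g) c = ev F f c + ev F g c := by
  simp [ev, Functor.map_add]

@[simp] lemma ev_zero {X Y : C} (c : F.obj X) : ev F (0 : X ⟶ Y) c = 0 := by
  simp [ev]

lemma ev_sub {X Y : C} (f g : X ⟶ Y) (c : F.obj X) : ev F (f - g) c = ev F f c - ev F g c := by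
  simp [ev, Functor.map_sub]

lemma ev_zsmul {X Y : C} (n : ℤ) (f : X ⟶ Y) (c : F.obj X) : ev F (n • f) c = n • ev F f c := by
  simp [ev, Functor.map_zsmul]

variable {F}

include K

omit [F.Additive] in
/-- `λ` is injective in positive degrees. -/
lemma lam_injective (s : ℕ) (Y : C) (f : F.obj (K.Q (s + 1) Y))
    (h : ev F (K.lam (s + 1) Y) f = 0) : f = 0 := by
  have h2 := ev_comp F (K.lam (s + 1) Y) (K.h s Y) f
  rw [K.lam_h, h, map_zero, ev_id] at h2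
  exact h2

omit [F.Additive] in
/-- Surjectivity of `ρ` in positive degrees. -/
lemma Qρ_surjective (s : ℕ) (Y : C) (c : F.obj (K.Q (s + 1) (K.G.obj Y))) :
    ∃ c' : F.obj (K.Q (s + 2) Y), ev F (K.Qm (s + 1) (K.ρ Y)) c' = c := by
  obtain ⟨σ, hσ, -⟩ := K.split Y
  refine ⟨ev F (K.Qm s σ) c, ?_⟩
  rw [← ev_comp, Qm_succ, ← Qm_comp, hσ, Qm_id, ev_id]

/-- Exactness in the middle, in positive degrees. -/
lemma exact_Qρ (s : ℕ) (Y : C) (c : F.obj (K.Q (s + 2) Y))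
    (h : ev F (K.Qm (s + 1) (K.ρ Y)) c = 0) :
    ∃ f : F.obj (K.Q (s + 1) Y), ev F (K.lam (s + 1) Y) f = c := by
  obtain ⟨σ, -, hσ⟩ := K.split Y
  refine ⟨ev F (K.h s Y) c, ?_⟩
  have h1 := congrArg (ev F (K.Qm s σ)) h
  rw [← ev_comp, Qm_succ, ← Qm_comp, hσ, map_zero, Qm_sub, ev_sub, Qm_id, ev_id, sub_eq_zero] at h1
  rw [← ev_comp, lam, Qm_succ, CobarData.h, ← Qm_comp]
  exact h1.symm

/-- The cobar complex of `M Y` is exact. -/
lemma exact_M (s : ℕ) (Y : C) (f : F.obj (K.Q (s + 2) Y))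
    (hf : ev F (K.d (s + 1) (K.M.obj Y)) f = 0) :
    ∃ g : F.obj (K.Q (s + 1) Y), ev F (K.d s (K.M.obj Y)) g = f := by
  have h1 := ev_eq (F := F) (K.d_h_succ s Y) f
  rw [ev_comp, hf, map_zero, ev_add, ev_comp, ev_zsmul, ev_id] at h1
  refine ⟨-((-1 : ℤ) ^ (s + 1) • ev F (K.h s Y) f), ?_⟩
  rw [map_neg, map_zsmul, eq_neg_of_add_eq_zero_left h1.symm, smul_neg, neg_neg, smul_smul,
    ← pow_add, ← two_mul, pow_mul]
  simp

omit [F.Additive] in
lemma exact_M_zero (Y : C) (f : F.obj (K.Q 1 Y))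
    (hf : ev F (K.d 0 (K.M.obj Y)) f = 0) : f = 0 := by
  have h1 := ev_eq (F := F) (K.d_h_zero Y) f
  rw [ev_comp, hf, map_zero, ev_id] at h1
  exact h1.symm

/-- A cocycle of the cobar complex which is in the kernel of `ρ` is the coboundary of an element
of this kernel. -/
lemma exists_of_ker (s : ℕ) (Y : C) (c : F.obj (K.Q (s + 2) Y))
    (h : ev F (K.Qm (s + 1) (K.ρ Y)) c = 0) (hc : ev F (K.d (s + 2) Y) c = 0) :
    ∃ g : F.obj (K.Q (s + 1) Y), ev F (K.d (s + 1) Y) g = c ∧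
      ev F (K.Qm s (K.ρ Y)) g = 0 ∧ ev F (K.q s Y) g = 0 := by
  obtain ⟨f, rfl⟩ := K.exact_Qρ s Y c h
  have h1 : ev F (K.d s (K.M.obj Y)) f = 0 := by
    apply K.lam_injective (s + 1) Y
    rw [← ev_comp, ← K.lam_d, ev_comp, hc]
  cases s with
  | zero =>
    obtain rfl := K.exact_M_zero Y f h1
    exact ⟨0, by rw [map_zero, map_zero], map_zero _, map_zero _⟩
  | succ t =>
    obtain ⟨g, rfl⟩ := K.exact_M t Y f h1
    have h2 : ev F (K.Qm (t + 1) (K.ρ Y)) (ev F (K.lam (t + 1) Y) g) = 0 := by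
      rw [← ev_comp, K.lam_Qρ, ev_zero]
    refine ⟨ev F (K.lam (t + 1) Y) g, ?_, h2, ?_⟩
    · rw [← ev_comp, K.lam_d, ev_comp]
    · rw [q_succ, ev_comp, h2, map_zero]

/-- Surjectivity of `q` on cohomology: every cocycle of the `E_1`-complex is the image of a
cocycle of the cobar complex. -/
theorem exists_cocycle (s : ℕ) (Y : C) (e : F.obj (K.M.obj (K.B s Y)))
    (he : ev F (K.D s Y) e = 0) :
    ∃ c : F.obj (K.Q (s + 1) Y), ev F (K.d (s + 1) Y) c = 0 ∧ ev F (K.q s Y) c = e := by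
  induction s generalizing Y with
  | zero =>
    refine ⟨e, ?_, by rw [q_zero, ev_id]⟩
    have h1 : ev F (K.Qm 1 (K.ρ Y)) (ev F (K.d 1 Y) e) = 0 := by
      rw [← ev_comp, K.d_Qρ]
      exact he
    have h2 : ev F (K.d 2 Y) (ev F (K.d 1 Y) e) = 0 := by
      rw [← ev_comp, K.d_d, ev_zero]
    obtain ⟨g, hg, hg', -⟩ := K.exists_of_ker 0 Y _ h1 h2
    obtain ⟨f, hf⟩ := K.exact_Qρ 0 Y _ h1
    have h3 : f = 0 := by
      apply K.exact_M_zero Y f
      apply K.lam_injective 1 Y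
      rw [← ev_comp, ← K.lam_d, ev_comp, hf, h2]
    rw [← hf, h3, map_zero]
  | succ s ih =>
    obtain ⟨c₁, hc₁, hq⟩ := ih (K.G.obj Y) e he
    obtain ⟨c, rfl⟩ := K.Qρ_surjective s Y c₁
    have h1 : ev F (K.Qm (s + 2) (K.ρ Y)) (ev F (K.d (s + 2) Y) c) = 0 := by
      rw [← ev_comp, K.d_Qρ, ev_comp, hc₁]
    have h2 : ev F (K.d (s + 3) Y) (ev F (K.d (s + 2) Y) c) = 0 := by
      rw [← ev_comp, K.d_d, ev_zero]
    obtain ⟨g, hg, hg', -⟩ := K.exists_of_ker (s + 1) Y _ h1 h2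
    refine ⟨c - g, by rw [map_sub, hg, sub_self], ?_⟩
    rw [q_succ, ev_comp, map_sub, hg', sub_zero, hq]

/-- Injectivity of `q` on cohomology: a cocycle of the cobar complex whose image is a coboundary is
a coboundary. -/
theorem exists_cobdy (s : ℕ) (Y : C) (c : F.obj (K.Q (s + 2) Y))
    (hc : ev F (K.d (s + 2) Y) c = 0) (e : F.obj (K.M.obj (K.B s Y)))
    (he : ev F (K.q (s + 1) Y) c = ev F (K.D s Y) e) :
    ∃ c' : F.obj (K.Q (s + 1) Y), ev F (K.d (s + 1) Y) c' = c ∧ ev F (K.q s Y) c' = e := by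
  induction s generalizing Y with
  | zero =>
    have h1 : ev F (K.Qm 1 (K.ρ Y)) (c - ev F (K.d 1 Y) e) = 0 := by
      rw [map_sub, ← ev_comp F (K.d 1 Y), K.d_Qρ, sub_eq_zero]
      rw [q_succ, q_zero, Category.comp_id] at he
      exact he
    obtain ⟨g, hg, hg', hg''⟩ := K.exists_of_ker 0 Y _ h1
      (by rw [map_sub, hc, ← ev_comp, K.d_d, ev_zero, sub_zero])
    refine ⟨e + g, by rw [map_add, hg, add_sub_cancel], ?_⟩
    rw [map_add, hg'', add_zero, q_zero, ev_id]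
  | succ s ih =>
    have hc₁ : ev F (K.d (s + 2) (K.G.obj Y)) (ev F (K.Qm (s + 2) (K.ρ Y)) c) = 0 := by
      rw [← ev_comp, ← K.d_Qρ, ev_comp, hc, map_zero]
    rw [q_succ, ev_comp] at he
    obtain ⟨c₁, h1, h1'⟩ := ih (K.G.obj Y) _ hc₁ e he
    obtain ⟨c', rfl⟩ := K.Qρ_surjective s Y c₁
    have h2 : ev F (K.Qm (s + 2) (K.ρ Y)) (c - ev F (K.d (s + 2) Y) c') = 0 := by
      rw [map_sub, ← h1, ← ev_comp, ← ev_comp, K.d_Qρ, sub_self]
    obtain ⟨g, hg, hg', hg''⟩ := K.exists_of_ker (s + 1) Y _ h2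
      (by rw [map_sub, hc, ← ev_comp, K.d_d, ev_zero, sub_zero])
    refine ⟨c' + g, by rw [map_add, hg, add_sub_cancel], ?_⟩
    rw [map_add, hg'', add_zero, q_succ, ev_comp, h1']

/-- The vanishing of the cohomology of the cobar complex in degree `s + 1` implies the exactness of
the `E_1`-complex. -/
theorem exact_E1 (s : ℕ) (Y : C)
    (hv : ∀ c : F.obj (K.Q (s + 2) Y), ev F (K.d (s + 2) Y) c = 0 →
      ∃ c' : F.obj (K.Q (s + 1) Y), ev F (K.d (s + 1) Y) c' = c)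
    (e : F.obj (K.M.obj (K.B (s + 1) Y))) (he : ev F (K.D (s + 1) Y) e = 0) :
    ∃ e' : F.obj (K.M.obj (K.B s Y)), ev F (K.D s Y) e' = e := by
  obtain ⟨c, hc, rfl⟩ := K.exists_cocycle (s + 1) Y e he
  obtain ⟨c', rfl⟩ := hv c hc
  exact ⟨ev F (K.q s Y) c', by rw [← ev_comp, ← ev_comp, K.d_q]⟩

end Compare

end CobarData

end Vale.Agent.P251.S
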