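import Vale.Agent.P251.S.Cobar
import Vale.Agent.P251.S.Defs

/-!
# P251, part S (S3): the cobar data of a monoid in a tensor triangulated category

For a monoid `R` of a tensor triangulated category with a cofibre `J` of its unit
(`UnitCof R`), the functor `R ⊗ -` together with `J ⊗ -` is a `CobarData` (`UnitCof.cobar`).
The triangles of the tower are `UnitCof.towerTriangle`.
-/

open CategoryTheory MonoidalCategory Limits Pretriangulated MonObj

universe v u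

namespace Vale.Agent.P251.S

open Vale.Agent.P251.T

section Split

variable {C : Type u} [Category.{v} C] [Preadditive C] [HasZeroObject C] [HasShift C ℤ]
  [∀ n : ℤ, (shiftFunctor C n).Additive] [Pretriangulated C]

/-- A distinguished triangle whose first map has a retraction is split. -/
lemma exists_section_of_retraction (Δ : Triangle C) (hΔ : Δ ∈ distTriang C)
    (r : Δ.obj₂ ⟶ Δ.obj₁) (hr : Δ.mor₁ ≫ r = 𝟙 _) :
    ∃ σ : Δ.obj₃ ⟶ Δ.obj₂, σ ≫ Δ.mor₂ = 𝟙 _ ∧ Δ.mor₂ ≫ σ = 𝟙 _ - r ≫ Δ.mor₁ := by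
  have h31 : Δ.mor₃ ≫ Δ.mor₁⟦(1 : ℤ)⟧' = 0 := comp_distTriang_mor_zero₃₁ Δ hΔ
  have h3 : Δ.mor₃ = 0 := by
    have h := congrArg (fun f => f ≫ r⟦(1 : ℤ)⟧') h31
    simp only [Category.assoc, zero_comp, ← Functor.map_comp, hr,
      CategoryTheory.Functor.map_id, Category.comp_id] at h
    exact h
  obtain ⟨s, hs⟩ := Triangle.coyoneda_exact₃ Δ hΔ (𝟙 _) (by rw [h3, comp_zero])
  have h12 : Δ.mor₁ ≫ Δ.mor₂ = 0 := comp_distTriang_mor_zero₁₂ Δ hΔ
  refine ⟨s - s ≫ r ≫ Δ.mor₁, ?_, ?_⟩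
  · rw [Preadditive.sub_comp, Category.assoc, Category.assoc, h12, comp_zero, comp_zero,
      sub_zero, ← hs]
  · obtain ⟨t, ht⟩ := Triangle.coyoneda_exact₂ Δ hΔ
      (𝟙 _ - r ≫ Δ.mor₁ - Δ.mor₂ ≫ (s - s ≫ r ≫ Δ.mor₁)) (by
        simp only [Preadditive.sub_comp, Preadditive.comp_sub, Category.assoc, h12, comp_zero,
          sub_zero, Category.id_comp, ← hs, Category.comp_id, sub_self])
    have h2 : t = 0 := by
      have h := congrArg (fun f => f ≫ r) ht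
      simp only [Preadditive.sub_comp, Preadditive.comp_sub, Category.assoc, hr,
        Category.comp_id, Category.id_comp, sub_self] at h
      exact h.symm
    rw [h2, zero_comp] at ht
    exact (sub_eq_zero.1 ht).symm

end Split

section Monoid

variable {T : Type u} [Category.{v} T] [MonoidalCategory T]

/-- The unit `Y ⟶ R ⊗ Y`. -/
def unitMap (R : T) [MonObj R] (Y : T) : Y ⟶ R ⊗ Y := (λ_ Y).inv ≫ (η[R] ▷ Y)

/-- The multiplication `R ⊗ R ⊗ Y ⟶ R ⊗ Y`. -/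
def mulMap (R : T) [MonObj R] (Y : T) : R ⊗ R ⊗ Y ⟶ R ⊗ Y := (α_ R R Y).inv ≫ (μ[R] ▷ Y)

variable {R : T} [MonObj R]

@[reassoc]
lemma unitMap_nat {X Y : T} (f : X ⟶ Y) : f ≫ unitMap R Y = unitMap R X ≫ (R ◁ f) := by
  simp only [unitMap, Category.assoc]
  rw [← whisker_exchange, leftUnitor_inv_naturality_assoc]

@[reassoc]
lemma mulMap_nat {X Y : T} (f : X ⟶ Y) :
    (R ◁ (R ◁ f)) ≫ mulMap R Y = mulMap R X ≫ (R ◁ f) := by
  simp only [mulMap, Category.assoc]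
  rw [← whisker_exchange, associator_inv_naturality_right_assoc]

@[reassoc (attr := simp)]
lemma unitMap_mulMap (Y : T) : unitMap R (R ⊗ Y) ≫ mulMap R Y = 𝟙 (R ⊗ Y) := by
  simp only [mulMap, unitMap, Category.assoc]
  rw [associator_inv_naturality_left_assoc, ← comp_whiskerRight, MonObj.one_mul]
  simp

@[reassoc (attr := simp)]
lemma whiskerLeft_unitMap_mulMap (Y : T) : (R ◁ unitMap R Y) ≫ mulMap R Y = 𝟙 (R ⊗ Y) := by
  simp only [mulMap, unitMap, whiskerLeft_comp, Category.assoc]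
  rw [associator_inv_naturality_middle_assoc, ← comp_whiskerRight, MonObj.mul_one]
  simp

/-- The functor `X ⊗ -` (a reducible form of `tensorLeft X`). -/
@[reducible] def tL (X : T) : T ⥤ T where
  obj Y := X ⊗ Y
  map f := X ◁ f
  map_id _ := MonoidalCategory.whiskerLeft_id _ _
  map_comp _ _ := MonoidalCategory.whiskerLeft_comp _ _ _

instance additive_tL [Preadditive T] [MonoidalPreadditive T] (X : T) : (tL X).Additive where
  map_add := MonoidalPreadditive.whiskerLeft_add _ _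

end Monoid

variable {T : Type u} [Category.{v} T] [Preadditive T] [HasZeroObject T] [HasShift T ℤ]
  [∀ n : ℤ, (shiftFunctor T n).Additive] [Pretriangulated T] [MonoidalCategory T]

/-- A cofibre of the unit of a monoid. -/
structure UnitCof (R : T) [MonObj R] where
  /-- the cofibre of the unit -/
  J : T
  /-- the projection -/
  ρ : R ⟶ J
  /-- the boundary map -/
  δ : J ⟶ (𝟙_ T)⟦(1 : ℤ)⟧
  dist : Triangle.mk η[R] ρ δ ∈ distTriang T

lemma exists_unitCof (R : T) [MonObj R] : Nonempty (UnitCof R) := by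
  obtain ⟨J, ρ, δ, h⟩ := distinguished_cocone_triangle (η[R])
  exact ⟨⟨J, ρ, δ, h⟩⟩

variable [SymmetricCategory T] [TensorTriangulated T]

/-- Tensoring a distinguished triangle on the left. -/
def tensorLeftTriangle (X : T) (Δ : Triangle T) : Triangle T :=
  Triangle.mk (X ◁ Δ.mor₁) (X ◁ Δ.mor₂)
      ((X ◁ Δ.mor₃) ≫ (X ◁ (TensorTriangulated.e Δ.obj₁).inv) ≫
        (α_ X Δ.obj₁ ((𝟙_ T)⟦(1 : ℤ)⟧)).inv ≫ (TensorTriangulated.e (X ⊗ Δ.obj₁)).hom)

lemma tensorLeftTriangle_distinguished (X : T) (Δ : Triangle T) (hΔ : Δ ∈ distTriang T) :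
    tensorLeftTriangle X Δ ∈ distTriang T :=
  TensorTriangulated.distinguished X Δ hΔ

namespace UnitCof

variable {R : T} [MonObj R] (U : UnitCof R)

/-- The boundary map `J ⊗ Y ⟶ Y⟦1⟧`. -/
def bdry (Y : T) : U.J ⊗ Y ⟶ Y⟦(1 : ℤ)⟧ :=
  (β_ U.J Y).hom ≫ (Y ◁ U.δ) ≫ (Y ◁ (TensorTriangulated.e (𝟙_ T)).inv) ≫
    (α_ Y (𝟙_ T) ((𝟙_ T)⟦(1 : ℤ)⟧)).inv ≫ (TensorTriangulated.e (Y ⊗ 𝟙_ T)).hom ≫
      ((ρ_ Y).hom)⟦(1 : ℤ)⟧'

/-- The boundary map is natural. -/
@[reassoc]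
lemma bdry_nat {X Y : T} (f : X ⟶ Y) : (U.J ◁ f) ≫ U.bdry Y = U.bdry X ≫ f⟦(1 : ℤ)⟧' := by
  have h := TensorTriangulated.e_naturality (f ▷ 𝟙_ T)
  simp only [bdry, Category.assoc]
  rw [← Functor.map_comp, ← rightUnitor_naturality, Functor.map_comp, ← reassoc_of% h,
    ← associator_inv_naturality_left_assoc, whisker_exchange_assoc, whisker_exchange_assoc,
    BraidedCategory.braiding_naturality_right_assoc]

/-- The triangle `Y ⟶ R ⊗ Y ⟶ J ⊗ Y ⟶ Y⟦1⟧`. -/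
def triangle (Y : T) : Triangle T := Triangle.mk (unitMap R Y) (U.ρ ▷ Y) (U.bdry Y)

lemma triangle_distinguished (Y : T) : U.triangle Y ∈ distTriang T := by
  refine isomorphic_distinguished _ (tensorLeftTriangle_distinguished Y _ U.dist) _ ?_
  refine Triangle.isoMk _ _ (ρ_ Y).symm (β_ R Y) (β_ U.J Y) ?_ ?_ ?_
  · change ((λ_ Y).inv ≫ (η[R] ▷ Y)) ≫ (β_ R Y).hom = (ρ_ Y).inv ≫ (Y ◁ η[R])
    rw [Category.assoc, BraidedCategory.braiding_naturality_left, braiding_tensorUnit_left]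
    simp
  · exact BraidedCategory.braiding_naturality_left _ _
  · change U.bdry Y ≫ ((ρ_ Y).inv)⟦(1 : ℤ)⟧' = (β_ U.J Y).hom ≫ (Y ◁ U.δ) ≫
      (Y ◁ (TensorTriangulated.e (𝟙_ T)).inv) ≫ (α_ Y (𝟙_ T) ((𝟙_ T)⟦(1 : ℤ)⟧)).inv ≫
        (TensorTriangulated.e (Y ⊗ 𝟙_ T)).hom
    simp only [bdry, Category.assoc, ← Functor.map_comp, Iso.hom_inv_id,
      CategoryTheory.Functor.map_id, Category.comp_id]

@[reassoc (attr := simp)]
lemma unitMap_ρ (Y : T) : unitMap R Y ≫ (U.ρ ▷ Y) = 0 :=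
  comp_distTriang_mor_zero₁₂ _ (U.triangle_distinguished Y)

/-- The `CobarData` of a monoid with a cofibre of the unit. -/
@[reducible] def cobar : CobarData T where
  M := tL R
  un Y := unitMap R Y
  un_nat f := unitMap_nat f
  mu Y := mulMap R Y
  mu_nat f := mulMap_nat f
  left_unit Y := unitMap_mulMap Y
  right_unit Y := whiskerLeft_unitMap_mulMap Y
  G := tL U.J
  ρ Y := U.ρ ▷ Y
  ρ_nat f := whisker_exchange _ _
  additiveM := inferInstance
  additiveG := inferInstance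
  un_ρ Y := U.unitMap_ρ Y
  split Y := by
    obtain ⟨σ, h1, h2⟩ := exists_section_of_retraction _
      (tensorLeftTriangle_distinguished R _ (U.triangle_distinguished Y)) (mulMap R Y)
      (whiskerLeft_unitMap_mulMap Y)
    exact ⟨σ, h1, h2⟩

/-- The boundary maps of the tower `B (s + 1) Y ⟶ (B s Y)⟦1⟧`. -/
def bd : ∀ (s : ℕ) (Y : T), U.cobar.B (s + 1) Y ⟶ (U.cobar.B s Y)⟦(1 : ℤ)⟧
  | 0, Y => U.bdry Y
  | s + 1, Y => bd s (U.J ⊗ Y)

lemma bd_succ (s : ℕ) (Y : T) : U.bd (s + 1) Y = U.bd s (U.J ⊗ Y) := rfl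

@[reassoc]
lemma bd_naturality (s : ℕ) {X Y : T} (f : X ⟶ Y) :
    U.cobar.Bm (s + 1) f ≫ U.bd s Y = U.bd s X ≫ (U.cobar.Bm s f)⟦(1 : ℤ)⟧' := by
  induction s generalizing X Y with
  | zero => exact U.bdry_nat f
  | succ s ih => exact ih (U.J ◁ f)

/-- The triangle `B s Y ⟶ R ⊗ B s Y ⟶ B (s + 1) Y ⟶ (B s Y)⟦1⟧` of the tower. -/
def towerTriangle (s : ℕ) (Y : T) : Triangle T :=
  Triangle.mk (unitMap R (U.cobar.B s Y)) (U.cobar.k s Y) (U.bd s Y)

lemma towerTriangle_distinguished (s : ℕ) (Y : T) : U.towerTriangle s Y ∈ distTriang T := by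
  induction s generalizing Y with
  | zero => exact U.triangle_distinguished Y
  | succ s ih => exact ih (U.J ⊗ Y)

end UnitCof

end Vale.Agent.P251.S
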