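import Vale.Agent.P251.S.Act
import Mathlib.Data.Nat.Choose.Sum
import Mathlib.Algebra.Ring.Commute
import Mathlib.Tactic.Ring

/-!
# P251, part S2: nilpotence on cofibres

If `x, y` are commuting endomorphisms of `M` and `y - x` is nilpotent, then `y` is nilpotent on
the cofibre of every power of `x`.
-/

open CategoryTheory MonoidalCategory Limits MonObj Pretriangulated

universe v u

namespace Vale.Agent.P251.S

/-- `(x + n)^N` is divisible by `x^j` for large `N`, if `n` is nilpotent -/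
theorem exists_pow_eq_mul {E : Type*} [Ring E] {x n : E} (hc : Commute x n) (hn : IsNilpotent n)
    (j : ℕ) : ∃ (N : ℕ) (g : E), (x + n) ^ N = x ^ j * g ∧ Commute x g := by
  obtain ⟨m, hm⟩ := hn
  refine ⟨j + m, ∑ i ∈ Finset.range (m + 1), x ^ i * n ^ (m - i) * ((j + m).choose (j + i) : E),
    ?_, ?_⟩
  · rw [hc.add_pow, Finset.mul_sum]
    rw [show j + m + 1 = j + (m + 1) by ring, Finset.sum_range_add]
    have h0 : ∑ i ∈ Finset.range j, x ^ i * n ^ (j + m - i) * ((j + m).choose i : E) = 0 := by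
      refine Finset.sum_eq_zero fun i hi => ?_
      rw [Finset.mem_range] at hi
      have : n ^ (j + m - i) = 0 := by
        rw [show j + m - i = m + (j - i) by omega, pow_add, hm, zero_mul]
      rw [this, mul_zero, zero_mul]
    rw [h0, zero_add]
    refine Finset.sum_congr rfl fun i hi => ?_
    rw [Finset.mem_range] at hi
    rw [show j + m - (j + i) = m - i by omega, pow_add]
    simp only [_root_.mul_assoc]
  · refine Commute.sum_right _ _ _ fun i _ => ?_
    exact (((Commute.refl x).pow_right i).mul_right (hc.pow_right _)).mul_right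
      (Nat.cast_commute _ x).symm

section

variable {T : Type u} [Category.{v} T]

theorem comp_pow_eq {M C : T} {q : M ⟶ C} {y : End M} {y' : End C} (hq : q ≫ y' = y ≫ q) :
    ∀ n : ℕ, q ≫ (y' ^ n : End C) = (y ^ n : End M) ≫ q
  | 0 => by
    rw [pow_zero, pow_zero]
    exact (Category.comp_id q).trans (Category.id_comp q).symm
  | n + 1 => by
    rw [pow_succ, pow_succ, End.mul_def, End.mul_def, ← Category.assoc, hq, Category.assoc,
      comp_pow_eq hq n, Category.assoc]

variable [Preadditive T] [HasZeroObject T] [HasShift T ℤ]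
  [∀ n : ℤ, (shiftFunctor T n).Additive] [Pretriangulated T]

/-- **Cofibre step.** Let `f : M ⟶ M` have cofibre `C`; let `y : M ⟶ M` and
`y' : C ⟶ C` be compatible; if some power of `y` is divisible by `f` then `y'` is
nilpotent. -/
theorem isNilpotent_cof {M C : T} {f : End M} {q : M ⟶ C} {δ : C ⟶ M⟦(1 : ℤ)⟧}
    (hΔ : Triangle.mk f q δ ∈ distTriang T) {y : End M} {y' : End C}
    (hq : q ≫ y' = y ≫ q) (hδ : y' ≫ δ = δ ≫ y⟦(1 : ℤ)⟧')
    {N : ℕ} {g : End M} (h : y ^ N = f * g) (hfg : Commute f g) :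
    IsNilpotent y' := by
  have h1 : q ≫ (y' ^ N : End C) = 0 := by
    rw [comp_pow_eq hq, h, End.mul_def, Category.assoc]
    have : f ≫ q = 0 := comp_distTriang_mor_zero₁₂ _ hΔ
    rw [this, comp_zero]
  obtain ⟨t, ht⟩ : ∃ t : M⟦(1 : ℤ)⟧ ⟶ C, (y' ^ N : End C) = δ ≫ t :=
    Triangle.yoneda_exact₃ _ hΔ (y' ^ N : End C) h1
  have h2 : (y' ^ N : End C) ≫ δ = 0 := by
    have h3 := comp_pow_eq (q := δ) (y := y') (y' := (shiftFunctor T (1 : ℤ)).mapEnd M y)
      hδ.symm N
    rw [← h3, ← map_pow, h, hfg.eq]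
    change δ ≫ (shiftFunctor T (1 : ℤ)).map (f ≫ g) = 0
    have : δ ≫ f⟦(1 : ℤ)⟧' = 0 := comp_distTriang_mor_zero₃₁ _ hΔ
    rw [Functor.map_comp, ← Category.assoc, this, zero_comp]
  refine ⟨N + N, ?_⟩
  rw [pow_add, End.mul_def]
  nth_rewrite 2 [ht]
  rw [← Category.assoc, h2, zero_comp]

end

end Vale.Agent.P251.S
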