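import Vale.Agent.P251.S.CompCond
import Mathlib.RingTheory.Ideal.Maps
import Mathlib.RingTheory.Finiteness.Ideal
import Mathlib.RingTheory.Noetherian.Basic

/-!
# P251, part S (S2): the condition `C` for localizations
-/

namespace Vale.Agent.P251.S

universe u v w

variable {A : Type u} [CommRing A] {I : Ideal A} {v : A}
  {F : Type v} {E : Type w} [AddCommGroup F] [Module A F] [AddCommGroup E] [Module A E]

/-- If `I` acts nilpotently on `E` and `E = F[v⁻¹]` then the condition `C` holds. -/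
theorem CompCond.of_localization {φ : F →ₗ[A] E} {m : ℕ}
    (hI : ∀ a ∈ I ^ m, ∀ e : E, a • e = 0)
    (inj : ∀ e : E, v • e = 0 → e = 0) (surj : ∀ e : E, ∃ e' : E, v • e' = e)
    (loc : ∀ e : E, ∃ (k : ℕ) (f : F), v ^ k • e = φ f)
    (ker : ∀ f : F, φ f = 0 → ∃ k : ℕ, v ^ k • f = 0) : CompCond I v φ := by
  have hbot : (I ^ m • ⊤ : Submodule A E) = ⊥ := by
    rw [eq_bot_iff, Submodule.smul_le]
    intro r hr n _
    rw [hI r hr n]
    exact Submodule.zero_mem _
  have hmono : ∀ {j k : ℕ}, j ≤ k → (I ^ k • ⊤ : Submodule A E) ≤ I ^ j • ⊤ := fun h =>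
    Submodule.smul_mono_left (Ideal.pow_le_pow_right h)
  refine ⟨?_, ?_, inj, surj, ?_, ?_⟩
  · intro e he
    have := he m
    rw [hbot] at this
    exact (Submodule.mem_bot A).1 this
  · intro e he
    have h1 : ∀ k n : ℕ, e (k + n) - e k ∈ (I ^ k • ⊤ : Submodule A E) := by
      intro k n
      induction n with
      | zero => rw [Nat.add_zero, sub_self]; exact Submodule.zero_mem _
      | succ n ih =>
        have h2 : e (k + (n + 1)) - e k = (e (k + n + 1) - e (k + n)) + (e (k + n) - e k) := by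
          rw [← Nat.add_assoc]; abel
        rw [h2]
        exact add_mem (hmono (Nat.le_add_right k n) (he (k + n))) ih
    refine ⟨e m, fun k => ?_⟩
    rcases le_total k m with hk | hk
    · obtain ⟨n, rfl⟩ := Nat.exists_eq_add_of_le hk
      exact h1 k n
    · obtain ⟨n, rfl⟩ := Nat.exists_eq_add_of_le hk
      have h2 := h1 m n
      rw [hbot, Submodule.mem_bot, sub_eq_zero] at h2
      rw [h2, sub_self]
      exact Submodule.zero_mem _
  · intro j e
    obtain ⟨k, f, hf⟩ := loc e
    exact ⟨k, f, by rw [hf, sub_self]; exact Submodule.zero_mem _⟩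
  · intro j f hf
    have h1 : ∀ y ∈ (I ^ j • ⊤ : Submodule A E), ∃ (k : ℕ), ∃ g ∈ (I ^ j • ⊤ : Submodule A F),
        v ^ k • y = φ g := by
      intro y hy
      induction hy using Submodule.smul_induction_on' with
      | smul r hr n hn =>
        obtain ⟨k, g, hg⟩ := loc n
        refine ⟨k, r • g, Submodule.smul_mem_smul hr trivial, ?_⟩
        rw [smul_comm, hg, map_smul]
      | add x hx y hy hx' hy' =>
        obtain ⟨k, g, hg, hg'⟩ := hx'
        obtain ⟨l, g₂, hg₂, hg₂'⟩ := hy'
        refine ⟨l + k, v ^ l • g + v ^ k • g₂, add_mem (Submodule.smul_mem _ _ hg)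
          (Submodule.smul_mem _ _ hg₂), ?_⟩
        rw [smul_add, map_add, map_smul, map_smul, ← hg', ← hg₂', smul_smul, smul_smul, ← pow_add,
          ← pow_add, add_comm k l]
    obtain ⟨k, g, hg, hg'⟩ := h1 _ hf
    obtain ⟨l, hl⟩ := ker (v ^ k • f - g) (by rw [map_sub, map_smul, hg', sub_self])
    refine ⟨l + k, ?_⟩
    rw [smul_sub, smul_smul, ← pow_add, sub_eq_zero] at hl
    rw [hl]
    exact Submodule.smul_mem _ _ hg

/-- A finitely generated ideal generated by elements which are nilpotent under a ring homomorphism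
has a power in the kernel. -/
theorem exists_pow_le_ker {S : Type*} [Ring S] (ρ : A →+* S) {ι : Type*} (s : Set ι)
    (hs : s.Finite) (a : ι → A) (h : ∀ i ∈ s, IsNilpotent (ρ (a i))) :
    ∃ m : ℕ, ∀ b ∈ (Ideal.span (a '' s)) ^ m, ρ b = 0 := by
  have h1 : Ideal.span (a '' s) ≤ (RingHom.ker ρ).radical := by
    rw [Ideal.span_le]
    rintro _ ⟨i, hi, rfl⟩
    obtain ⟨n, hn⟩ := h i hi
    exact ⟨n, by rw [RingHom.mem_ker, map_pow, hn]⟩
  have h2 : (Ideal.span (a '' s)).FG := Submodule.fg_span (hs.image a)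
  obtain ⟨m, hm⟩ := Ideal.exists_pow_le_of_le_radical_of_fg h1 h2
  exact ⟨m, fun b hb => (RingHom.mem_ker).1 (hm hb)⟩

end Vale.Agent.P251.S
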