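import Vale.Agent.P251.S.Coprod

/-!
# P251, part S5: homotopy groups of `Z ⊗ ∏ Y` for finite `Z`
-/

open CategoryTheory MonoidalCategory Limits Pretriangulated

set_option linter.unusedSectionVars false

universe v u

namespace Vale.Agent.P251.S

open Vale.Agent.P251.T

variable {T : Type u} [Category.{v} T] [Preadditive T] [HasZeroObject T]
    [HasShift T ℤ] [∀ n : ℤ, (shiftFunctor T n).Additive] [Pretriangulated T] [IsTriangulated T]
    [MonoidalCategory T] [SymmetricCategory T] [TensorTriangulated T] [MonoidalClosed T]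
    [HasCoproducts.{0} T] [HasProducts.{0} T] [StableCat T]

/-- The natural isomorphism `(Z ⊗ P)⟦1⟧ ≅ Z⟦1⟧ ⊗ P`. -/
def tshL (Z P : T) : (Z ⊗ P)⟦(1 : ℤ)⟧ ≅ Z⟦(1 : ℤ)⟧ ⊗ P :=
  (shiftFunctor T (1 : ℤ)).mapIso (β_ Z P) ≪≫ tsh P Z ≪≫ (β_ P (Z⟦(1 : ℤ)⟧))

@[reassoc]
lemma tshL_right (Z : T) {P P' : T} (f : P ⟶ P') :
    (Z ◁ f)⟦(1 : ℤ)⟧' ≫ (tshL Z P').hom = (tshL Z P).hom ≫ Z⟦(1 : ℤ)⟧ ◁ f := by
  simp only [tshL, Iso.trans_hom, Functor.mapIso_hom, Category.assoc]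
  rw [← Functor.map_comp_assoc, BraidedCategory.braiding_naturality_right, Functor.map_comp_assoc,
    tsh_left_assoc, BraidedCategory.braiding_naturality_left]

@[reassoc]
lemma tshL_left {Z Z' : T} (f : Z ⟶ Z') (P : T) :
    (f ▷ P)⟦(1 : ℤ)⟧' ≫ (tshL Z' P).hom = (tshL Z P).hom ≫ f⟦(1 : ℤ)⟧' ▷ P := by
  simp only [tshL, Iso.trans_hom, Functor.mapIso_hom, Category.assoc]
  rw [← Functor.map_comp_assoc, BraidedCategory.braiding_naturality_left, Functor.map_comp_assoc,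
    tsh_right_assoc, BraidedCategory.braiding_naturality_right]

/-- The homotopy groups of `Z ⊗ -` commute with countable products. -/
def ProdComm (Z : T) : Prop := ∀ (Y : ℕ → T) (A : T), IsSphere A →
  (∀ f : A ⟶ Z ⊗ ∏ᶜ Y, (∀ i, f ≫ Z ◁ Pi.π Y i = 0) → f = 0) ∧
  (∀ g : ∀ i, A ⟶ Z ⊗ Y i, ∃ f : A ⟶ Z ⊗ ∏ᶜ Y, ∀ i, f ≫ Z ◁ Pi.π Y i = g i)

lemma ProdComm.of_iso {Z Z' : T} (e : Z ≅ Z') (h : ProdComm Z) : ProdComm Z' := by
  intro Y A hA
  have key : ∀ (P P' : T) (p : P ⟶ P'), e.inv ▷ P ≫ Z ◁ p = Z' ◁ p ≫ e.inv ▷ P' := by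
    intro P P' p; rw [whisker_exchange]
  have key' : ∀ (P P' : T) (p : P ⟶ P'), e.hom ▷ P ≫ Z' ◁ p = Z ◁ p ≫ e.hom ▷ P' := by
    intro P P' p; rw [whisker_exchange]
  have i1 : ∀ P : T, e.hom ▷ P ≫ e.inv ▷ P = 𝟙 _ := by intro P; simp
  have i2 : ∀ P : T, e.inv ▷ P ≫ e.hom ▷ P = 𝟙 _ := by intro P; simp
  constructor
  · intro f hf
    have h1 : f ≫ e.inv ▷ (∏ᶜ Y) = 0 := by
      refine (h Y A hA).1 _ (fun i => ?_)
      rw [Category.assoc, key, ← Category.assoc, hf, zero_comp]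
    rw [← Category.comp_id f, ← i2, ← Category.assoc, h1, zero_comp]
  · intro g
    obtain ⟨f, hf⟩ := (h Y A hA).2 (fun i => g i ≫ e.inv ▷ Y i)
    refine ⟨f ≫ e.hom ▷ _, fun i => ?_⟩
    rw [Category.assoc, key', ← Category.assoc, hf, Category.assoc, i2, Category.comp_id]

lemma prodComm_one : ProdComm (𝟙_ T) := by
  intro Y A hA
  have key : ∀ (P P' : T) (p : P ⟶ P'), (𝟙_ T) ◁ p ≫ (λ_ P').hom = (λ_ P).hom ≫ p := by
    intro P P' p; simp
  constructor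
  · intro f hf
    have : f ≫ (λ_ _).hom = 0 := by
      apply Pi.hom_ext
      intro i
      rw [Category.assoc, ← key, ← Category.assoc, hf i, zero_comp, zero_comp]
    rw [← cancel_mono (λ_ _).hom, this, zero_comp]
  · intro g
    refine ⟨Pi.lift (fun i => g i ≫ (λ_ _).hom) ≫ (λ_ _).inv, fun i => ?_⟩
    rw [← cancel_mono (λ_ _).hom, Category.assoc, Category.assoc, key]
    simp

lemma ProdComm.shift_one {Z : T} (h : ProdComm Z) : ProdComm (Z⟦(1 : ℤ)⟧) := by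
  intro Y A hA
  constructor
  · intro f hf
    obtain ⟨e, f', hf'⟩ := exists_unshift 1 (f ≫ (tshL Z _).inv)
    have h0 : f' = 0 := by
      refine (h Y _ (hA.shift _)).1 f' (fun i => ?_)
      apply (shiftFunctor T (1 : ℤ)).map_injective
      rw [Functor.map_comp, Functor.map_zero, ← cancel_epi e.hom, comp_zero, ← Category.assoc,
        ← hf', ← cancel_mono (tshL Z _).hom, zero_comp, Category.assoc, Category.assoc,
        tshL_right, Iso.inv_hom_id_assoc, hf i]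
    rw [h0, Functor.map_zero, comp_zero] at hf'
    rw [← cancel_mono (tshL Z _).inv, hf', zero_comp]
  · intro g
    choose e g' hg' using fun i => exists_unshift 1 (g i ≫ (tshL Z _).inv)
    let e₀ : A ≅ A⟦-(1 : ℤ)⟧⟦(1 : ℤ)⟧ :=
      ((shiftFunctorCompIsoId T (-1 : ℤ) 1 (by simp)).app A).symm
    -- unshift with a common isomorphism
    have hex : ∀ i, ∃ g'' : A⟦-(1 : ℤ)⟧ ⟶ Z ⊗ Y i, g i ≫ (tshL Z _).inv = e₀.hom ≫ g''⟦(1 : ℤ)⟧' :=
      fun i => ⟨(shiftFunctor T (1 : ℤ)).preimage (e₀.inv ≫ g i ≫ (tshL Z _).inv), by simp⟩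
    choose g'' hg'' using hex
    obtain ⟨f, hf⟩ := (h Y _ (hA.shift _)).2 g''
    refine ⟨e₀.hom ≫ f⟦(1 : ℤ)⟧' ≫ (tshL Z _).hom, fun i => ?_⟩
    rw [Category.assoc, Category.assoc, ← tshL_right, ← Functor.map_comp_assoc, hf,
      ← Category.assoc, ← hg'', Category.assoc, Iso.inv_hom_id, Category.comp_id]

lemma ProdComm.of_shift_one {Z : T} (h : ProdComm (Z⟦(1 : ℤ)⟧)) : ProdComm Z := by
  intro Y A hA
  constructor
  · intro f hf
    apply (shiftFunctor T (1 : ℤ)).map_injective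
    rw [Functor.map_zero, ← cancel_mono (tshL Z _).hom, zero_comp]
    refine (h Y _ (hA.shift 1)).1 _ (fun i => ?_)
    rw [Category.assoc, ← tshL_right, ← Functor.map_comp_assoc, hf, Functor.map_zero, zero_comp]
  · intro g
    obtain ⟨f, hf⟩ := (h Y _ (hA.shift 1)).2 (fun i => (g i)⟦(1 : ℤ)⟧' ≫ (tshL Z _).hom)
    refine ⟨(shiftFunctor T (1 : ℤ)).preimage (f ≫ (tshL Z _).inv), fun i => ?_⟩
    apply (shiftFunctor T (1 : ℤ)).map_injective
    rw [Functor.map_comp, Functor.map_preimage, ← cancel_mono (tshL Z _).hom, ← hf i]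
    simp only [Category.assoc, tshL_right, Iso.inv_hom_id_assoc]

lemma ProdComm.shift_neg_one {Z : T} (h : ProdComm Z) : ProdComm (Z⟦(-1 : ℤ)⟧) :=
  ProdComm.of_shift_one
    (h.of_iso ((shiftFunctorCompIsoId T (-1 : ℤ) 1 (by simp)).app Z).symm)

lemma ProdComm.shift {Z : T} (h : ProdComm Z) (n : ℤ) : ProdComm (Z⟦n⟧) := by
  induction n using Int.induction_on with
  | zero => exact h.of_iso ((shiftFunctorZero T ℤ).symm.app Z)
  | succ n ih => exact ih.shift_one.of_iso ((shiftFunctorAdd T (n : ℤ) 1).symm.app Z)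
  | pred n ih => exact ih.shift_neg_one.of_iso ((shiftFunctorAdd T (-(n : ℤ)) (-1)).symm.app Z)

lemma exists_invRotate (Δ : Triangle T) (hΔ : Δ ∈ distTriang T) :
    ∃ (F : T) (d : F ⟶ Δ.obj₁) (h' : Δ.obj₂ ⟶ F⟦(1 : ℤ)⟧),
      Triangle.mk d Δ.mor₁ h' ∈ distTriang T ∧ Nonempty (F ≅ Δ.obj₃⟦(-1 : ℤ)⟧) :=
  ⟨_, Δ.invRotate.mor₁, Δ.invRotate.mor₃, inv_rot_of_distTriang _ hΔ, ⟨Iso.refl _⟩⟩

lemma ProdComm.triangle {Δ : Triangle T} (hΔ : Δ ∈ distTriang T) (h₁ : ProdComm Δ.obj₁)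
    (h₃ : ProdComm Δ.obj₃) : ProdComm Δ.obj₂ := by
  intro Y A hA
  obtain ⟨F, d, h', hF, ⟨eF⟩⟩ := exists_invRotate Δ hΔ
  have hFp : ProdComm F := h₃.shift_neg_one.of_iso eF.symm
  constructor
  · intro f hf
    -- image in obj₃ vanishes
    have hf3 : f ≫ Δ.mor₂ ▷ _ = 0 := by
      refine (h₃ Y A hA).1 _ (fun i => ?_)
      rw [Category.assoc, ← whisker_exchange, ← Category.assoc, hf, zero_comp]
    obtain ⟨g, rfl⟩ := exR _ Δ hΔ f hf3
    have hg : ∀ i, ∃ w : A ⟶ F ⊗ Y i, g ≫ Δ.obj₁ ◁ Pi.π Y i = w ≫ d ▷ _ := by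
      intro i
      refine exR (Y i) _ hF (g ≫ Δ.obj₁ ◁ Pi.π Y i) ?_
      have := hf i
      rw [Category.assoc, ← whisker_exchange, ← Category.assoc] at this
      exact this
    choose w hw using hg
    obtain ⟨w', hw'⟩ := (hFp Y A hA).2 w
    have h0 : g = w' ≫ d ▷ _ := by
      rw [← sub_eq_zero]
      refine (h₁ Y A hA).1 _ (fun i => ?_)
      rw [Preadditive.sub_comp, hw, ← hw' i, Category.assoc, Category.assoc, whisker_exchange,
        sub_self]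
    have h1 : d ≫ Δ.mor₁ = 0 := comp_distTriang_mor_zero₁₂ _ hF
    rw [h0, Category.assoc, ← comp_whiskerRight, h1, MonoidalPreadditive.zero_whiskerRight,
      comp_zero]
  · intro g
    obtain ⟨h, hh⟩ := (h₃ Y A hA).2 (fun i => g i ≫ Δ.mor₂ ▷ _)
    have hh3 : h ≫ Δ.mor₃ ▷ _ = 0 := by
      refine (h₁.shift_one Y A hA).1 _ (fun i => ?_)
      rw [Category.assoc, ← whisker_exchange, ← Category.assoc, hh, Category.assoc,
        ← comp_whiskerRight, comp_distTriang_mor_zero₂₃ _ hΔ,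
        MonoidalPreadditive.zero_whiskerRight, comp_zero]
    obtain ⟨f, hf⟩ := exR _ Δ.rotate (rot_of_distTriang _ hΔ) h hh3
    change A ⟶ Δ.obj₂ ⊗ ∏ᶜ Y at f
    change h = f ≫ Δ.mor₂ ▷ _ at hf
    have hd : ∀ i, ∃ u : A ⟶ Δ.obj₁ ⊗ Y i, g i - f ≫ Δ.obj₂ ◁ Pi.π Y i = u ≫ Δ.mor₁ ▷ _ := by
      intro i
      refine exR (Y i) Δ hΔ _ ?_
      rw [Preadditive.sub_comp, Category.assoc, whisker_exchange, ← Category.assoc f, ← hf, hh,
        sub_self]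
    choose u hu using hd
    obtain ⟨u', hu'⟩ := (h₁ Y A hA).2 u
    refine ⟨f + u' ≫ Δ.mor₁ ▷ _, fun i => ?_⟩
    rw [Preadditive.add_comp, Category.assoc, ← whisker_exchange, ← Category.assoc, hu', ← hu]
    abel

end Vale.Agent.P251.S
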