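import Vale.Agent.P251.S.Power
import Vale.Agent.P251.S.PartII

/-!
# P251, part S: the two halves of the witness

`X` is the tower `J^{⊗s}` over the unit, `ξ` the multiplication by `x : S^40 ⟶ J ⊗ J` and
`f = x^14 · u`, projected to filtration `0` (`Tow.powMap`).

* `partI`: for `F = L_{K(5)}(- ⊗ S/5)`, the image of `f` in `F (J 0)` vanishes.
* `partII`: for `F = L_{K(4)}(- ⊗ S/5)`, the image of `f` in `F (J 0)` does not vanish.
-/

open CategoryTheory Limits Pretriangulated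

universe v u w

namespace Vale.Agent.P251.S

namespace Tow

variable {T : Type u} [Category.{v} T] [Preadditive T] [HasZeroObject T] [HasShift T ℤ]
  [∀ n : ℤ, (shiftFunctor T n).Additive] [Pretriangulated T]

variable (X : Tow T) (P : T) {F : T ⥤ T} [F.CommShift ℤ] [F.IsTriangulated]
  (τ : 𝟭 T ⟶ F) [NatTrans.CommShift τ ℤ]
  (ξ : ∀ s, (X.J s)⟦(40 : ℤ)⟧ ⟶ X.J (s + 2))
  (hξ : ∀ s, ξ (s + 1) ≫ X.c (s + 2) =
    (X.c s)⟦(40 : ℤ)⟧' ≫ (shiftFunctorComm T (1 : ℤ) 40).hom.app (X.J s) ≫ (ξ s)⟦(1 : ℤ)⟧')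
  (u : (X.couple P).D 0 0)

/-- The first half: the element dies if `E_2` vanishes in filtrations `≥ 28` and the limit of the
tower is zero. -/
theorem partI
    (hv : ∀ s ≥ 27, ((X.map F).couple P).Van s (Couple.Mul2.deg 38 0 14))
    (hlim : ∀ z : ∀ r : ℕ, ((X.map F).couple P).D (27 + r) (Couple.Mul2.deg 38 0 14),
      (∀ r, ((X.map F).couple P).i (27 + r) _ (z (r + 1)) = z r) → z 0 = 0) :
    (X.unitDMor P τ).f 0 _ (X.powMap P 40 38 (by norm_num) ξ hξ u 14) = 0 := by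
  rw [unitDMor_powMap]
  have h := ((X.map F).couple P).i_eq_zero hv hlim
    ((X.mapMul2 P F 40 38 (by norm_num) ξ hξ).pow ((X.unitDMor P τ).f 0 0 u) 14)
  have h2 := ((X.map F).couple P).proj_succ (Couple.Mul2.deg 38 0 14) (Nat.zero_le 27)
    ((X.mapMul2 P F 40 38 (by norm_num) ξ hξ).pow ((X.unitDMor P τ).f 0 0 u) 14)
  refine Eq.trans h2 ?_
  rw [h, Couple.proj_zero']

/-- The second half. -/
theorem partII
    (hodd : ∀ (s : ℕ) (n : ℤ), Odd (n + s) → ∀ z : ((X.map F).couple P).E s n, z = 0)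
    (Tw : ℤ → TowerCx.{w}) (Φ : ∀ w, ((X.map F).couple P).LimModel w (Tw w))
    (hsurj : ∀ w s j, Function.Surjective ((Tw w).r s j)) (s₀ : ℕ)
    (hpro : ∀ (w : ℤ) (s : ℕ), s₀ ≤ s →
      ¬ ((4 : ℤ) ∣ w ∧ ((5 : ℤ) ∣ w ∨ (5 : ℤ) ∣ w + 1)) → (Tw w).ProZero s)
    (hdet : ∀ K, ((X.map F).couple P).j _ _
      ((X.mapMul2 P F 40 38 (by norm_num) ξ hξ).pow ((X.unitDMor P τ).f 0 0 u) K) ≠ 0)
    (hdet' : ∀ K s, ∀ h : s + 1 = 2 * K,
      ¬ ((X.map F).couple P).IsCobdy (h ▸ ((X.map F).couple P).j _ _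
        ((X.mapMul2 P F 40 38 (by norm_num) ξ hξ).pow ((X.unitDMor P τ).f 0 0 u) K) :
          ((X.map F).couple P).E (s + 1) (Couple.Mul2.deg 38 0 K))) :
    (X.unitDMor P τ).f 0 _ (X.powMap P 40 38 (by norm_num) ξ hξ u 14) ≠ 0 := by
  rw [unitDMor_powMap]
  exact Couple.detection_five _ _ hodd Tw Φ hsurj s₀ hpro hdet hdet'

/-- The second half, from the vanishing of the `E_2`-term. -/
theorem partII_of_van
    (hodd : ∀ (s : ℕ) (n : ℤ), Odd (n + s) → ∀ z : ((X.map F).couple P).E s n, z = 0) (s₀ : ℕ)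
    (hvan : ∀ (s : ℕ) (m w : ℤ), m + ((s + 2 : ℕ) : ℤ) = 2 * w → s₀ ≤ s →
      ¬ ((4 : ℤ) ∣ w ∧ ((5 : ℤ) ∣ w ∨ (5 : ℤ) ∣ w + 1)) → ((X.map F).couple P).Van (s + 1) m)
    (hdet : ∀ K, ((X.map F).couple P).j _ _
      ((X.mapMul2 P F 40 38 (by norm_num) ξ hξ).pow ((X.unitDMor P τ).f 0 0 u) K) ≠ 0)
    (hdet' : ∀ K s, ∀ h : s + 1 = 2 * K,
      ¬ ((X.map F).couple P).IsCobdy (h ▸ ((X.map F).couple P).j _ _
        ((X.mapMul2 P F 40 38 (by norm_num) ξ hξ).pow ((X.unitDMor P τ).f 0 0 u) K) :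
          ((X.map F).couple P).E (s + 1) (Couple.Mul2.deg 38 0 K))) :
    (X.unitDMor P τ).f 0 _ (X.powMap P 40 38 (by norm_num) ξ hξ u 14) ≠ 0 := by
  rw [unitDMor_powMap]
  exact Couple.detection_five_of_van _ _ hodd s₀ hvan hdet hdet'

end Tow

end Vale.Agent.P251.S
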