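import Vale.Agent.P251.S.Conv9
import Vale.Agent.P251.S.Witness

/-!
# P251, part S6(I): the first half of the witness

* `Tow.map_map`: `(X.map F).map G = X.map (F ⋙ G)`;
* `Tow.converge_coeff`: the convergence theorem for the functor `X ↦ L (X ⊗ M)`;
* `Tow.partI_loc`: `Tow.partI` for `X ↦ L (X ⊗ M)`, with the limit condition discharged: if in the
  couple of the tower `L (X ⊗ M)` the groups `E^s_n`, `n + s` odd, vanish and `Van s n` holds for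
  all `s ≥ 26`, then the image of `x^14 u` in `L (J 0 ⊗ M)` is zero.
-/

open CategoryTheory MonoidalCategory Limits Pretriangulated

open scoped ZeroObject

set_option linter.unusedSectionVars false

universe v u

namespace Vale.Agent.P251.S

open Vale.Agent.P251.T

variable {T : Type u} [Category.{v} T] [Preadditive T] [HasZeroObject T]
    [HasShift T ℤ] [∀ n : ℤ, (shiftFunctor T n).Additive] [Pretriangulated T] [IsTriangulated T]
    [MonoidalCategory T] [SymmetricCategory T] [TensorTriangulated T] [MonoidalClosed T]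
    [HasCoproducts.{0} T] [HasProducts.{0} T] [StableCat T]

namespace Tow

lemma map_map (X : Tow T) (F : T ⥤ T) [F.CommShift ℤ] [F.IsTriangulated] (G : T ⥤ T)
    [G.CommShift ℤ] [G.IsTriangulated] : (X.map F).map G = X.map (F ⋙ G) := by
  have h : ∀ s, ((X.map F).map G).c s = (X.map (F ⋙ G)).c s := by
    intro s
    change G.map (F.map (X.c s) ≫ (F.commShiftIso (1 : ℤ)).hom.app (X.J s)) ≫
      (G.commShiftIso (1 : ℤ)).hom.app (F.obj (X.J s)) =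
      G.map (F.map (X.c s)) ≫ ((F ⋙ G).commShiftIso (1 : ℤ)).hom.app (X.J s)
    rw [Functor.commShiftIso_comp_hom_app, G.map_comp, Category.assoc]
  unfold Tow.map at h ⊢
  congr 1
  funext s
  exact h s

lemma whisker_map_tensorRight_c (X : Tow T) {R : T} (hR : ∀ s, R ◁ X.c s = 0) (M : T) (s : ℕ) :
    R ◁ (X.map (tensorRight M)).c s = 0 := by
  change R ◁ ((X.c s ▷ M) ≫ ((tensorRight M).commShiftIso (1 : ℤ)).hom.app (X.J s)) = 0
  have h : R ◁ (X.c s ▷ M) = 0 := by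
    rw [MonoidalCategory.whisker_assoc_symm, hR s]
    simp
  rw [MonoidalCategory.whiskerLeft_comp, h, zero_comp]

/-- The convergence theorem for the functor `X ↦ L (X ⊗ M)`. -/
theorem converge_coeff (X : Tow T) (M : T) {K R : T} (F : LocFunctor K)
    (hR : ∀ s, R ◁ X.c s = 0) {a : ℕ} (hKR : Built (IsRMul R) a K) {b : ℕ}
    (hKF : Built FinEven b K)
    (hodd : ∀ (s : ℕ) (n : ℤ), (n + s) % 2 = 1 →
      ∀ z : ((X.map (tensorRight M ⋙ F.L)).couple (𝟙_ T)).E s n, z = 0)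
    (s₁ : ℕ) (hvan : ∀ s, s₁ ≤ s → ∀ n : ℤ,
      ((X.map (tensorRight M ⋙ F.L)).couple (𝟙_ T)).Van s n)
    (s : ℕ) (hs : s₁ + 1 ≤ s) (n : ℤ)
    (y : ((X.map (tensorRight M ⋙ F.L)).couple (𝟙_ T)).D (s + 1) n) :
    ((X.map (tensorRight M ⋙ F.L)).couple (𝟙_ T)).i s n y = 0 := by
  have e := X.map_map (tensorRight M) F.L
  generalize X.map (tensorRight M ⋙ F.L) = Z at e hodd hvan y ⊢
  subst e
  exact converge_couple (X.map (tensorRight M)) F (X.whisker_map_tensorRight_c hR M) hKR hKF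
    hodd s₁ hvan s hs n y

/-- **S6 (I)**, general form: `Tow.partI` for `X ↦ L (X ⊗ M)`. -/
theorem partI_loc (X : Tow T) (M : T) {K R : T} (F : LocFunctor K)
    (hR : ∀ s, R ◁ X.c s = 0) {a : ℕ} (hKR : Built (IsRMul R) a K) {b : ℕ}
    (hKF : Built FinEven b K)
    (τ : 𝟭 T ⟶ tensorRight M ⋙ F.L) [NatTrans.CommShift τ ℤ]
    (ξ : ∀ s, (X.J s)⟦(40 : ℤ)⟧ ⟶ X.J (s + 2))
    (hξ : ∀ s, ξ (s + 1) ≫ X.c (s + 2) =
      (X.c s)⟦(40 : ℤ)⟧' ≫ (shiftFunctorComm T (1 : ℤ) 40).hom.app (X.J s) ≫ (ξ s)⟦(1 : ℤ)⟧')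
    (u : (X.couple (𝟙_ T)).D 0 0)
    (hodd : ∀ (s : ℕ) (n : ℤ), Odd (n + s) →
      ∀ z : ((X.map (tensorRight M ⋙ F.L)).couple (𝟙_ T)).E s n, z = 0)
    (hvan : ∀ s, 26 ≤ s → ∀ n : ℤ, ((X.map (tensorRight M ⋙ F.L)).couple (𝟙_ T)).Van s n) :
    (X.unitDMor (𝟙_ T) τ).f 0 _ (X.powMap (𝟙_ T) 40 38 (by norm_num) ξ hξ u 14) = 0 := by
  refine X.partI (𝟙_ T) τ ξ hξ u (fun s hs => hvan s (by omega) _) ?_
  intro z hz
  rw [← hz 0]
  exact X.converge_coeff M F hR hKR hKF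
    (fun s n h => hodd s n (Int.odd_iff.2 h)) 26 hvan _ (by omega) _ _

end Tow

/-- **S6 (I)** for the tower of a monoid `R` and the localization at the Koszul object of `P`
(`= R ⊗ ∐ S n` for a telescope `R` of finite even complexes and finite even `S n`): the image of
`x^14 u` in `L M` is zero, if `E^s_n` is zero for `n + s` odd and `Van s n` holds for `s ≥ 26`. -/
theorem partI_kos {R : T} [MonObj R] (U : UnitCof R) (M : T) {P : T} [MonObj P] {p : ℤ}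
    {h : ℕ} {v : ℕ → (𝟙_ T ⟶ P)} (D : KosData P p h v) (F : LocFunctor D.K)
    {c : ℕ} (hPR : Built (IsRMul R) c P) {c' : ℕ} (hPF : Built FinEven c' P)
    (τ : 𝟭 T ⟶ tensorRight M ⋙ F.L) [NatTrans.CommShift τ ℤ]
    (ξ : ∀ s, ((U.tow (𝟙_ T)).J s)⟦(40 : ℤ)⟧ ⟶ (U.tow (𝟙_ T)).J (s + 2))
    (hξ : ∀ s, ξ (s + 1) ≫ (U.tow (𝟙_ T)).c (s + 2) =
      ((U.tow (𝟙_ T)).c s)⟦(40 : ℤ)⟧' ≫
        (shiftFunctorComm T (1 : ℤ) 40).hom.app ((U.tow (𝟙_ T)).J s) ≫ (ξ s)⟦(1 : ℤ)⟧')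
    (u : ((U.tow (𝟙_ T)).couple (𝟙_ T)).D 0 0)
    (hodd : ∀ (s : ℕ) (n : ℤ), Odd (n + s) →
      ∀ z : (((U.tow (𝟙_ T)).map (tensorRight M ⋙ F.L)).couple (𝟙_ T)).E s n, z = 0)
    (hvan : ∀ s, 26 ≤ s → ∀ n : ℤ,
      (((U.tow (𝟙_ T)).map (tensorRight M ⋙ F.L)).couple (𝟙_ T)).Van s n) :
    ((U.tow (𝟙_ T)).unitDMor (𝟙_ T) τ).f 0 _
      ((U.tow (𝟙_ T)).powMap (𝟙_ T) 40 38 (by norm_num) ξ hξ u 14) = 0 := by
  obtain ⟨b, hb⟩ := D.built_finEven hPF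
  exact (U.tow (𝟙_ T)).partI_loc M F (U.whisker_tow_c _) (D.built_isRMul hPR) hb τ ξ hξ u
    hodd hvan

end Vale.Agent.P251.S
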