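import Vale.Agent.P251.S.Conv1
import Vale.Agent.P251.S.Defs
import Mathlib.CategoryTheory.Functor.OfSequence

/-!
# P251, part S5: towers, Mittag-Leffler, comparison of a tower with its homotopy limit
-/

open CategoryTheory MonoidalCategory Limits Pretriangulated

set_option linter.unusedSectionVars false

universe v u

namespace Vale.Agent.P251.S

open Vale.Agent.P251.T

/-- Mittag-Leffler: if the images of `M (s+1)` and `M (s+2)` in `M s` agree for `s ≥ s₀`, then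
`lim¹ = 0`. -/
lemma mittagLeffler {M : ℕ → Type*} [∀ n, AddCommGroup (M n)] (p : ∀ n, M (n + 1) →+ M n)
    (s₀ : ℕ) (h : ∀ s, s₀ ≤ s → ∀ x : M (s + 1), ∃ y : M (s + 2), p s (p (s + 1) y) = p s x)
    (g : ∀ n, M n) : ∃ f : ∀ n, M n, ∀ n, f n - p n (f (n + 1)) = g n := by
  induction s₀ generalizing M with
  | zero =>
    choose y hy using fun s => h s (Nat.zero_le s)
    let a : ∀ n, M (n + 1) := fun n => Nat.rec (motive := fun n => M (n + 1)) 0
      (fun n an => y n (an - g (n + 1))) n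
    have ha : ∀ n, p n (p (n + 1) (a (n + 1))) = p n (a n - g (n + 1)) := fun n => hy n _
    refine ⟨fun n => g n + p n (a n), fun n => ?_⟩
    simp only [map_add]
    rw [ha n, map_sub]
    abel
  | succ s₀ ih =>
    obtain ⟨f, hf⟩ := ih (M := fun n => M (n + 1)) (fun n => p (n + 1))
      (fun s hs x => h (s + 1) (by omega) x) (fun n => g (n + 1))
    refine ⟨fun n => Nat.casesOn (motive := fun n => M n) n (g 0 + p 0 (f 0)) f, fun n => ?_⟩
    cases n with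
    | zero => simp
    | succ n => exact hf n

section Tower

variable {C : Type u} [Category.{v} C]

/-- The transition maps of a tower. -/
def twr {X : ℕ → C} (i : ∀ s, X (s + 1) ⟶ X s) (s t : ℕ) (h : s ≤ t) : X t ⟶ X s :=
  (Functor.ofOpSequence i).map (homOfLE h).op

variable {X : ℕ → C} (i : ∀ s, X (s + 1) ⟶ X s)

lemma twr_self (s : ℕ) : twr i s s le_rfl = 𝟙 _ :=
  (Functor.ofOpSequence i).map_id _

lemma twr_succ (s : ℕ) : twr i s (s + 1) (Nat.le_succ s) = i s := by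
  simp [twr]

@[reassoc]
lemma twr_comp (s t r : ℕ) (h : s ≤ t) (h' : t ≤ r) :
    twr i t r h' ≫ twr i s t h = twr i s r (h.trans h') := by
  exact ((Functor.ofOpSequence i).map_comp (homOfLE h').op (homOfLE h).op).symm

@[reassoc]
lemma twr_i (s t : ℕ) (h : s + 1 ≤ t) : twr i (s + 1) t h ≫ i s = twr i s t (Nat.le_of_succ_le h) := by
  rw [← twr_succ i s, twr_comp]

@[reassoc]
lemma i_twr (s t : ℕ) (h : s ≤ t) : i t ≫ twr i s t h = twr i s (t + 1) (Nat.le_succ_of_le h) := by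
  rw [← twr_succ i t, twr_comp]

end Tower

variable {T : Type u} [Category.{v} T] [Preadditive T] [HasZeroObject T]
    [HasShift T ℤ] [∀ n : ℤ, (shiftFunctor T n).Additive] [Pretriangulated T] [IsTriangulated T]
    [MonoidalCategory T] [SymmetricCategory T] [TensorTriangulated T] [MonoidalClosed T]
    [HasCoproducts.{0} T] [HasProducts.{0} T] [StableCat T]

/-- For a composable pair `U ⟶ V ⟶ W`: the image of `π_* (Z ⊗ V)` in `π_* (Z ⊗ W)` is the image
of `π_* (Z ⊗ U)`. -/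
def PairSurj (Z : T) {U V W : T} (a : U ⟶ V) (b : V ⟶ W) : Prop :=
  ∀ A : T, IsSphere A → ∀ x : A ⟶ Z ⊗ V, ∃ y : A ⟶ Z ⊗ U, (y ≫ Z ◁ a) ≫ Z ◁ b = x ≫ Z ◁ b

/-- For a composable pair `U ⟶ V ⟶ W`: the image of `π_* (Z ⊗ U)` in `π_* (Z ⊗ V)` injects
to `π_* (Z ⊗ W)`. -/
def PairInj (Z : T) {U V W : T} (a : U ⟶ V) (b : V ⟶ W) : Prop :=
  ∀ A : T, IsSphere A → ∀ y : A ⟶ Z ⊗ U, (y ≫ Z ◁ a) ≫ Z ◁ b = 0 → y ≫ Z ◁ a = 0

/-- `Z` is good for the tower from stage `s₀` on. -/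
structure GoodFor {X : ℕ → T} (i : ∀ s, X (s + 1) ⟶ X s) (s₀ : ℕ) (Z : T) : Prop where
  prod : ProdComm Z
  surj : ∀ s, s₀ ≤ s → PairSurj Z (i (s + 1)) (i s)
  inj : ∀ s, s₀ ≤ s → PairInj Z (i (s + 1)) (i s)

lemma IsHol.compat {X : ℕ → T} {i : ∀ s, X (s + 1) ⟶ X s} {H : T} {π : ∀ s, H ⟶ X s}
    (hH : IsHol i π) (s : ℕ) : π (s + 1) ≫ i s = π s := by
  obtain ⟨w, hw⟩ := hH
  have h := comp_distTriang_mor_zero₁₂ _ hw
  have h' : Pi.lift π ≫ (𝟙 (∏ᶜ X) - holShift i) = 0 := h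
  have h2 := congrArg (fun f => f ≫ Pi.π X s) h'
  simp only [Category.assoc, zero_comp, Preadditive.sub_comp, Preadditive.comp_sub,
    Category.id_comp, holShift, limit.lift_π, Fan.mk_π_app, limit.lift_π_assoc] at h2
  exact (sub_eq_zero.1 h2).symm

lemma IsHol.compat_twr {X : ℕ → T} {i : ∀ s, X (s + 1) ⟶ X s} {H : T} {π : ∀ s, H ⟶ X s}
    (hH : IsHol i π) (s t : ℕ) (h : s ≤ t) : π t ≫ twr i s t h = π s := by
  induction t, h using Nat.le_induction with
  | base => rw [twr_self, Category.comp_id]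
  | succ t h ih => rw [← i_twr i s t h, ← Category.assoc, hH.compat, ih]

section GoodFor

variable {X : ℕ → T} {i : ∀ s, X (s + 1) ⟶ X s} {s₀ : ℕ} {Z : T} (hZ : GoodFor i s₀ Z)
  {H : T} {π : ∀ s, H ⟶ X s} (hH : IsHol i π)

include hZ in
/-- `lim¹` vanishes for a good tower -/
lemma GoodFor.lim1 {A : T} (hA : IsSphere A) (w : A ⟶ Z ⊗ ∏ᶜ X) :
    ∃ v : A ⟶ Z ⊗ ∏ᶜ X, v ≫ Z ◁ (𝟙 (∏ᶜ X) - holShift i) = w := by
  obtain ⟨f, hf⟩ := mittagLeffler (M := fun n => (A ⟶ Z ⊗ X n))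
    (fun n => AddMonoidHom.mk' (fun x => x ≫ Z ◁ i n) (fun a b => Preadditive.add_comp _ _ _ _ _ _))
    s₀ (fun s hs x => hZ.surj s hs A hA x) (fun n => w ≫ Z ◁ Pi.π X n)
  obtain ⟨v, hv⟩ := (hZ.prod X A hA).2 f
  refine ⟨v, ?_⟩
  rw [← sub_eq_zero]
  refine (hZ.prod X A hA).1 _ (fun n => ?_)
  rw [Preadditive.sub_comp, ← hf n, Category.assoc, ← whiskerLeft_comp, Preadditive.sub_comp,
    Category.id_comp, holShift, Pi.lift_π, wl_sub,
    Preadditive.comp_sub, hv n, whiskerLeft_comp, ← Category.assoc, hv (n + 1)]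
  simp

include hZ hH in
/-- `π_* (Z ⊗ H) → π_* (Z ⊗ X s)` is injective for `s ≥ s₀`. -/
lemma GoodFor.injective {s : ℕ} (hs : s₀ ≤ s) {A : T} (hA : IsSphere A) (x : A ⟶ Z ⊗ H)
    (hx : x ≫ Z ◁ π s = 0) : x = 0 := by
  -- all components vanish
  have hall : ∀ n, x ≫ Z ◁ π n = 0 := by
    have h1 : ∀ n, s ≤ n → x ≫ Z ◁ π n = 0 := by
      intro n hn
      induction n, hn using Nat.le_induction with
      | base => exact hx
      | succ n hn ih =>
        have h2 := hZ.inj n (hs.trans hn) A hA (x ≫ Z ◁ π (n + 2)) (by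
          rw [Category.assoc, Category.assoc, ← whiskerLeft_comp, ← whiskerLeft_comp, ← Category.assoc (π (n + 2)), hH.compat,
            hH.compat, ih])
        rwa [Category.assoc, ← whiskerLeft_comp, hH.compat] at h2
    intro n
    rw [← hH.compat_twr n (n + s) (by omega), whiskerLeft_comp, ← Category.assoc,
      h1 _ (by omega), zero_comp]
  obtain ⟨w, hw⟩ := hH
  have hprod : x ≫ Z ◁ Pi.lift π = 0 := by
    refine (hZ.prod X A hA).1 _ (fun n => ?_)
    rw [Category.assoc, ← whiskerLeft_comp, Pi.lift_π, hall]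
  -- shift by one
  apply (shiftFunctor T (1 : ℤ)).map_injective
  rw [Functor.map_zero, ← cancel_mono (tsh Z H).hom, zero_comp]
  obtain ⟨g, hg⟩ := exL₁ hw Z (x⟦(1 : ℤ)⟧' ≫ (tsh Z H).hom) (by
    rw [Category.assoc, ← tsh_right,
      ← Functor.map_comp_assoc, hprod, Functor.map_zero, zero_comp])
  obtain ⟨v, hv⟩ := hZ.lim1 (hA.shift 1) g
  have h4 : (𝟙 (∏ᶜ X) - holShift i) ≫ w = 0 := comp_distTriang_mor_zero₂₃ _ hw
  rw [hg, ← hv, Category.assoc, ← whiskerLeft_comp, h4, MonoidalPreadditive.whiskerLeft_zero,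
    comp_zero]

include hZ hH in
/-- every element of `π_* (Z ⊗ X s)` which comes from `π_* (Z ⊗ X (s+1))` comes from
`π_* (Z ⊗ H)`, for `s ≥ s₀`. -/
lemma GoodFor.lift {s : ℕ} (hs : s₀ ≤ s) {A : T} (hA : IsSphere A) (y : A ⟶ Z ⊗ X (s + 1)) :
    ∃ x : A ⟶ Z ⊗ H, x ≫ Z ◁ π s = y ≫ Z ◁ i s := by
  choose c hc using fun (n : ℕ) (x : A ⟶ Z ⊗ X (s + n + 1)) =>
    hZ.surj (s + n) (by omega) A hA x
  let yy : ∀ n, (A ⟶ Z ⊗ X (s + n + 1)) := fun n =>
    Nat.rec (motive := fun n => (A ⟶ Z ⊗ X (s + n + 1))) y (fun n yn => c n yn) n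
  have hyy : ∀ n, (yy (n + 1) ≫ Z ◁ i (s + n + 1)) ≫ Z ◁ i (s + n) = yy n ≫ Z ◁ i (s + n) :=
    fun n => hc n _
  -- compatible family
  let z : ∀ n, (A ⟶ Z ⊗ X n) := fun n => yy n ≫ Z ◁ twr i n (s + n + 1) (by omega)
  have hz : ∀ n, z (n + 1) ≫ Z ◁ i n = z n := by
    intro n
    simp only [z]
    rw [Category.assoc, ← whiskerLeft_comp, twr_i]
    have e1 : twr i n (s + (n + 1) + 1) (by omega) =
        i (s + n + 1) ≫ i (s + n) ≫ twr i n (s + n) (by omega) := by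
      rw [i_twr, i_twr]
      rfl
    have e2 : twr i n (s + n + 1) (by omega) = i (s + n) ≫ twr i n (s + n) (by omega) := by
      rw [i_twr]
    rw [e1, e2]
    simp only [whiskerLeft_comp, ← Category.assoc]
    rw [hyy n]
  have hz0 : ∀ n, yy n ≫ Z ◁ twr i s (s + n + 1) (by omega) = y ≫ Z ◁ i s := by
    intro n
    induction n with
    | zero => simp only [Nat.add_zero, twr_succ]; rfl
    | succ n ih =>
      rw [← ih]
      have e1 : twr i s (s + (n + 1) + 1) (by omega) =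
          i (s + n + 1) ≫ i (s + n) ≫ twr i s (s + n) (by omega) := by
        rw [i_twr, i_twr]
        rfl
      have e2 : twr i s (s + n + 1) (by omega) = i (s + n) ≫ twr i s (s + n) (by omega) := by
        rw [i_twr]
      rw [e1, e2]
      simp only [whiskerLeft_comp, ← Category.assoc]
      rw [hyy n]
  obtain ⟨f, hf⟩ := (hZ.prod X A hA).2 z
  have hf0 : f ≫ Z ◁ (𝟙 (∏ᶜ X) - holShift i) = 0 := by
    refine (hZ.prod X A hA).1 _ (fun n => ?_)
    rw [Category.assoc, ← whiskerLeft_comp, Preadditive.sub_comp, Category.id_comp, holShift,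
      Pi.lift_π, wl_sub, Preadditive.comp_sub, hf, whiskerLeft_comp,
      ← Category.assoc, hf, hz, sub_self]
  obtain ⟨w, hw⟩ := hH
  obtain ⟨x, hx⟩ := exL₂ hw Z f hf0
  refine ⟨x, ?_⟩
  have h5 : x ≫ Z ◁ π s = f ≫ Z ◁ Pi.π X s := by
    rw [hx, Category.assoc, ← whiskerLeft_comp, Pi.lift_π]
  rw [h5, hf s]
  exact hz0 s

end GoodFor

end Vale.Agent.P251.S
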