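import Vale.Agent.P251.S.Conv2

/-!
# P251, part S5: the homotopy limit of a tower with vanishing lines is zero
-/

open CategoryTheory MonoidalCategory Limits Pretriangulated

set_option linter.unusedSectionVars false

universe v u

namespace Vale.Agent.P251.S

open Vale.Agent.P251.T

variable {T : Type u} [Category.{v} T] [Preadditive T] [HasZeroObject T]
    [HasShift T ℤ] [∀ n : ℤ, (shiftFunctor T n).Additive] [Pretriangulated T] [IsTriangulated T]
    [MonoidalCategory T] [SymmetricCategory T] [TensorTriangulated T] [MonoidalClosed T]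
    [HasCoproducts.{0} T] [HasProducts.{0} T] [StableCat T]

/-- Objects built from the (shifts of the) objects in the class `P` by at most `a` steps
(counted by extensions; small coproducts are free). -/
inductive Built (P : T → Prop) : ℕ → T → Prop
  | base {Z : T} (h : P Z) : Built P 1 Z
  | iso {a : ℕ} {Z Z' : T} (e : Z ≅ Z') (h : Built P a Z) : Built P a Z'
  | up {a : ℕ} {Z : T} (h : Built P a Z) : Built P a (Z⟦(1 : ℤ)⟧)
  | down {a : ℕ} {Z : T} (h : Built P a Z) : Built P a (Z⟦(-1 : ℤ)⟧)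
  | ext {a b : ℕ} (Δ : Triangle T) (hΔ : Δ ∈ distTriang T) (h₁ : Built P a Δ.obj₁)
      (h₃ : Built P b Δ.obj₃) : Built P (a + b) Δ.obj₂
  | coprod {a : ℕ} {I : Type} (X : I → T) (h : ∀ i, Built P a (X i)) : Built P a (∐ X)

/-- The cofibre of a map between built objects is built. -/
lemma Built.cofibre {P : T → Prop} {a b : ℕ} {X Y C : T} {f : X ⟶ Y} {g : Y ⟶ C}
    {h : C ⟶ X⟦(1 : ℤ)⟧} (hΔ : Triangle.mk f g h ∈ distTriang T) (hX : Built P a X)
    (hY : Built P b Y) : Built P (b + a) C :=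
  Built.ext _ (rot_of_distTriang _ hΔ) hY hX.up

/-- A telescope of built objects is built. -/
lemma Built.tel {P : T → Prop} {a : ℕ} {X : ℕ → T} {f : ∀ n, X n ⟶ X (n + 1)} {Z : T}
    {ι : ∀ n, X n ⟶ Z} (hZ : IsTel f ι) (h : ∀ i, Built P a (X i)) : Built P (a + a) Z := by
  obtain ⟨w, hw⟩ := hZ
  exact Built.cofibre hw (Built.coprod X h) (Built.coprod X h)

section PropClosure

/-- ghosts in a tower: closure under extensions. -/
lemma ghost_ext (Δ : Triangle T) (hΔ : Δ ∈ distTriang T) {Q₂ Q₁ Q₀ : T} (p : Q₂ ⟶ Q₁) (q : Q₁ ⟶ Q₀)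
    (h₃ : Ghost (Δ.obj₃ ◁ p)) (h₁ : Ghost (Δ.obj₁ ◁ q)) : Ghost (Δ.obj₂ ◁ (p ≫ q)) := by
  intro A hA f
  have h : (f ≫ Δ.obj₂ ◁ p) ≫ Δ.mor₂ ▷ Q₁ = 0 := by
    rw [Category.assoc, whisker_exchange, ← Category.assoc]
    exact h₃ A hA _
  obtain ⟨g, hg⟩ := exR Q₁ Δ hΔ _ h
  rw [whiskerLeft_comp, ← Category.assoc, hg, Category.assoc, ← whisker_exchange,
    ← Category.assoc, h₁ A hA, zero_comp]

lemma ghost_shift_left {Z : T} {Q Q' : T} (q : Q ⟶ Q') (h : Ghost (Z ◁ q)) :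
    Ghost (Z⟦(1 : ℤ)⟧ ◁ q) := by
  refine (h.shift 1).of_square (tshL Z Q).inv (tshL Z Q').inv ?_
  rw [Iso.comp_inv_eq, Category.assoc, tshL_right, Iso.inv_hom_id_assoc]

lemma ghost_of_iso_left {Z Z' : T} (e : Z ≅ Z') {Q Q' : T} (q : Q ⟶ Q') (h : Ghost (Z ◁ q)) :
    Ghost (Z' ◁ q) := by
  have : Mono (e.inv ▷ Q') := by
    change Mono ((tensorRight Q').map e.inv); infer_instance
  exact h.of_square (e.inv ▷ Q) (e.inv ▷ Q') (by rw [whisker_exchange])

lemma ghost_of_shift_left {Z : T} {Q Q' : T} (q : Q ⟶ Q') (h : Ghost (Z⟦(1 : ℤ)⟧ ◁ q)) :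
    Ghost (Z ◁ q) := by
  apply Ghost.of_shift 1
  exact h.of_square (tshL Z Q).hom (tshL Z Q').hom (tshL_right Z q)

lemma ghost_unshift_left {Z : T} {Q Q' : T} (q : Q ⟶ Q') (h : Ghost (Z ◁ q)) :
    Ghost (Z⟦(-1 : ℤ)⟧ ◁ q) :=
  ghost_of_shift_left q
    (ghost_of_iso_left ((shiftFunctorCompIsoId T (-1 : ℤ) 1 (by simp)).app Z).symm q h)

/-- If the transition maps of a tower are ghosts after tensoring with the objects in `P`
(from stage `s₀` on), then `a`-fold transition maps are ghosts after tensoring with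
objects `a`-built from `P`. -/
lemma Built.ghost {P : T → Prop} {Q : ℕ → T} (i : ∀ s, Q (s + 1) ⟶ Q s) (s₀ : ℕ)
    (hP : ∀ Z, P Z → ∀ s, s₀ ≤ s → Ghost (Z ◁ i s)) {a : ℕ} {K : T} (hK : Built P a K) :
    ∀ s t (h : s ≤ t), s₀ ≤ s → s + a ≤ t → Ghost (K ◁ twr i s t h) := by
  induction hK with
  | @base Z h =>
    intro s t hst hs ht
    have : twr i s t hst = twr i (s + 1) t ht ≫ i s := by rw [twr_i]
    rw [this, whiskerLeft_comp]
    exact (hP _ h s hs).comp_left _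
  | iso e _ ih => exact fun s t hst hs ht => ghost_of_iso_left e _ (ih s t hst hs ht)
  | up _ ih => exact fun s t hst hs ht => ghost_shift_left _ (ih s t hst hs ht)
  | down _ ih => exact fun s t hst hs ht => ghost_unshift_left _ (ih s t hst hs ht)
  | @ext a b Δ hΔ _ _ ih₁ ih₃ =>
    intro s t hst hs ht
    rw [← twr_comp i s (s + a) t (by omega) (by omega)]
    exact ghost_ext Δ hΔ _ _ (ih₃ _ _ _ (by omega) (by omega)) (ih₁ _ _ _ hs le_rfl)
  | coprod X _ ih => exact fun s t hst hs ht => ghost_coprod _ X (fun i => ih i s t hst hs ht)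

end PropClosure

section Main

variable {X : ℕ → T} {i : ∀ s, X (s + 1) ⟶ X s} {H : T} {π : ∀ s, H ⟶ X s} (hH : IsHol i π)

include hH in
/-- The tower of cofibres of `H ⟶ X s`. -/
lemma exists_cofibre_tower : ∃ (Q : ℕ → T) (q : ∀ s, Q (s + 1) ⟶ Q s) (p : ∀ s, X s ⟶ Q s)
    (δ : ∀ s, Q s ⟶ H⟦(1 : ℤ)⟧), (∀ s, Triangle.mk (π s) (p s) (δ s) ∈ distTriang T) ∧
      (∀ s, p (s + 1) ≫ q s = i s ≫ p s) ∧ (∀ s, q s ≫ δ s = δ (s + 1)) := by
  choose Q p δ h using fun s => distinguished_cocone_triangle (π s)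
  have hq : ∀ s, ∃ q : Q (s + 1) ⟶ Q s, p (s + 1) ≫ q = i s ≫ p s ∧ q ≫ δ s = δ (s + 1) := by
    intro s
    obtain ⟨c, hc1, hc2⟩ := complete₃ (h (s + 1)) (h s) (𝟙 H) (i s) (by
      rw [hH.compat, Category.id_comp])
    refine ⟨c, hc1, ?_⟩
    rw [← hc2]
    simp
  choose q hq1 hq2 using hq
  exact ⟨Q, q, p, δ, h, hq1, hq2⟩

/-- In the tower of cofibres the transition maps are ghosts after tensoring with a good object. -/
lemma GoodFor.ghost {s₀ : ℕ} {Z : T} (hZ : GoodFor i s₀ Z) {Q : ℕ → T} {q : ∀ s, Q (s + 1) ⟶ Q s}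
    {p : ∀ s, X s ⟶ Q s} {δ : ∀ s, Q s ⟶ H⟦(1 : ℤ)⟧} (hH : IsHol i π)
    (h : ∀ s, Triangle.mk (π s) (p s) (δ s) ∈ distTriang T)
    (hq1 : ∀ s, p (s + 1) ≫ q s = i s ≫ p s) (s : ℕ) (hs : s₀ ≤ s) : Ghost (Z ◁ q s) := by
  intro A hA f
  -- the image of `f` in `π_* (Z ⊗ H⟦1⟧)` is zero
  have h1 : f ≫ Z ◁ δ (s + 1) = 0 := by
    have h2 : (f ≫ Z ◁ δ (s + 1)) ≫ Z ◁ (π (s + 1))⟦(1 : ℤ)⟧' = 0 := by
      have h3 : δ (s + 1) ≫ (π (s + 1))⟦(1 : ℤ)⟧' = 0 :=
        comp_distTriang_mor_zero₃₁ _ (h (s + 1))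
      rw [Category.assoc, ← whiskerLeft_comp, h3, MonoidalPreadditive.whiskerLeft_zero, comp_zero]
    obtain ⟨e, g, hg⟩ := exists_unshift 1 ((f ≫ Z ◁ δ (s + 1)) ≫ (tsh Z H).inv)
    have h4 : g = 0 := by
      refine hZ.injective hH (s := s + 1) (by omega) (hA.shift _) g ?_
      apply (shiftFunctor T (1 : ℤ)).map_injective
      rw [Functor.map_comp, Functor.map_zero, ← cancel_epi e.hom, comp_zero, ← Category.assoc,
        ← hg, ← cancel_mono (tsh Z _).hom, zero_comp, Category.assoc, Category.assoc,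
        tsh_right, Iso.inv_hom_id_assoc, h2]
    rw [h4, Functor.map_zero, comp_zero] at hg
    rw [← cancel_mono (tsh Z H).inv, hg, zero_comp]
  obtain ⟨y, hy⟩ := exL₃ (h (s + 1)) Z f h1
  obtain ⟨x, hx⟩ := hZ.lift hH hs hA y
  have h5 : π s ≫ p s = 0 := comp_distTriang_mor_zero₁₂ _ (h s)
  rw [hy, Category.assoc, ← whiskerLeft_comp, hq1, whiskerLeft_comp, ← Category.assoc, ← hx,
    Category.assoc, ← whiskerLeft_comp, h5, MonoidalPreadditive.whiskerLeft_zero, comp_zero]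

include hH in
lemma IsHol.isLocal {K : T} (hloc : ∀ s, IsLocal K (X s)) : IsLocal K H := by
  intro W hW f
  have hH' := hH
  obtain ⟨w, hw⟩ := hH
  -- acyclicity of the shift
  have hW' : Acyclic K (W⟦(1 : ℤ)⟧) := by
    have : IsZero ((K ⊗ W)⟦(1 : ℤ)⟧) := by
      exact (shiftFunctor T (1 : ℤ)).map_isZero hW
    exact this.of_iso (tsh K W).symm
  have h1 : f ≫ Pi.lift π = 0 := by
    apply Pi.hom_ext
    intro s
    rw [Category.assoc, Pi.lift_π, zero_comp]
    exact hloc s hW _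
  apply (shiftFunctor T (1 : ℤ)).map_injective
  rw [Functor.map_zero]
  obtain ⟨g, hg⟩ := ex₁ hw (f⟦(1 : ℤ)⟧') (by
    rw [← Functor.map_comp, h1, Functor.map_zero])
  have h2 : g = 0 := by
    apply Pi.hom_ext
    intro s
    exact (hloc s hW' _).trans zero_comp.symm
  rw [hg, h2, zero_comp]

include hH in
/-- **Convergence.** Let `H` be the homotopy limit of the tower `X`. If the tower is stably
constant from stage `s₀` on after tensoring with objects in the class `P`, if `K` is built from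
objects of `P`, if all `m`-fold transition maps are ghosts after tensoring with `K`, and if all
`X s` are `K`-local, then `H` is zero. -/
theorem hol_isZero {s₀ : ℕ} {P : T → Prop} (hP : ∀ Z, P Z → GoodFor i s₀ Z) {K : T} {a : ℕ}
    (hK : Built P a K) {m : ℕ}
    (hnull : ∀ s, Ghost (K ◁ twr i s (s + m) (Nat.le_add_right s m)))
    (hloc : ∀ s, IsLocal K (X s)) : IsZero H := by
  obtain ⟨Q, q, p, δ, h, hq1, hq2⟩ := exists_cofibre_tower hH
  have hδ : ∀ s t (hst : s ≤ t), twr q s t hst ≫ δ s = δ t := by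
    intro s t hst
    induction t, hst using Nat.le_induction with
    | base => rw [twr_self, Category.id_comp]
    | succ t hst ih => rw [← i_twr q s t hst, Category.assoc, ih, hq2]
  have hgh := Built.ghost (P := P) q s₀ (fun Z hZ s hs => (hP Z hZ).ghost hH h hq1 s hs) hK
  -- homotopy of K ⊗ H vanishes
  have hKH : ∀ A : T, IsSphere A → ∀ f : A ⟶ K ⊗ H, f = 0 := by
    intro A hA f
    have h0 : ∀ s, f ≫ K ◁ π s = 0 := by
      intro s
      rw [← hH.compat_twr s (s + m) (Nat.le_add_right s m), whiskerLeft_comp, ← Category.assoc]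
      exact hnull s A hA _
    apply (shiftFunctor T (1 : ℤ)).map_injective
    rw [Functor.map_zero, ← cancel_mono (tsh K H).hom, zero_comp]
    obtain ⟨g, hg⟩ := exL₁ (h (s₀ + a)) K (f⟦(1 : ℤ)⟧' ≫ (tsh K H).hom) (by
      rw [Category.assoc, ← tsh_right, ← Functor.map_comp_assoc, h0, Functor.map_zero,
        zero_comp])
    rw [hg, ← hδ s₀ (s₀ + a) (Nat.le_add_right _ _), whiskerLeft_comp, ← Category.assoc,
      hgh s₀ (s₀ + a) _ le_rfl le_rfl _ (hA.shift _), zero_comp]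
  have hac : Acyclic K H :=
    StableCat.generator _ (fun n f => hKH _ (isSphere_one_shift n) f)
  rw [IsZero.iff_id_eq_zero]
  exact hH.isLocal hloc hac (𝟙 H)

include hH in
/-- Convergence, conclusion for the tower: the transition maps are ghosts. -/
theorem ghost_of_conv {s₀ : ℕ} {P : T → Prop} (hP : ∀ Z, P Z → GoodFor i s₀ Z) (h1 : P (𝟙_ T)) {K : T}
    {a : ℕ} (hK : Built P a K) {m : ℕ}
    (hnull : ∀ s, Ghost (K ◁ twr i s (s + m) (Nat.le_add_right s m)))
    (hloc : ∀ s, IsLocal K (X s)) {s : ℕ} (hs : s₀ ≤ s) : Ghost (i s) := by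
  have hz := hol_isZero hH hP hK hnull hloc
  have : Ghost ((𝟙_ T) ◁ i s) := by
    intro A hA y
    obtain ⟨x, hx⟩ := (hP _ h1).lift hH hs hA y
    rw [← hx, hz.eq_of_src (π s) 0, MonoidalPreadditive.whiskerLeft_zero, comp_zero]
  exact this.of_square (λ_ _).inv (λ_ _).inv (by simp)

end Main

end Vale.Agent.P251.S
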