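import Vale.Agent.P251.S.Conv3

/-!
# P251, part S5: finite even complexes, parity, vanishing of cohomology for finite even complexes
-/

open CategoryTheory MonoidalCategory Limits Pretriangulated

open scoped ZeroObject

set_option linter.unusedSectionVars false

universe v u

namespace Vale.Agent.P251.S

open Vale.Agent.P251.T

variable {T : Type u} [Category.{v} T] [Preadditive T] [HasZeroObject T]
    [HasShift T ℤ] [∀ n : ℤ, (shiftFunctor T n).Additive] [Pretriangulated T] [IsTriangulated T]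
    [MonoidalCategory T] [SymmetricCategory T] [TensorTriangulated T] [MonoidalClosed T]
    [HasCoproducts.{0} T] [HasProducts.{0} T] [StableCat T]

/-- Finite even complexes: the smallest class of objects which contains zero objects and the even
spheres and is closed under extensions. -/
inductive FinEven : T → Prop
  | zero {Z : T} (h : IsZero Z) : FinEven Z
  | sphere (k : ℤ) : FinEven ((𝟙_ T)⟦2 * k⟧)
  | ext (Δ : Triangle T) (hΔ : Δ ∈ distTriang T) (h₁ : FinEven Δ.obj₁) (h₃ : FinEven Δ.obj₃) :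
      FinEven Δ.obj₂

lemma FinEven.of_iso {X Y : T} (e : X ≅ Y) (h : FinEven X) : FinEven Y := by
  have h0 : Triangle.mk e.hom (0 : Y ⟶ (0 : T)) 0 ∈ distTriang T := by
    have h1 := (Triangle.distinguished_iff_of_isZero₃ (Triangle.mk e.hom (0 : Y ⟶ (0 : T)) 0)
      (isZero_zero T)).2
    exact h1 (inferInstanceAs (IsIso e.hom))
  exact FinEven.ext _ h0 h (FinEven.zero (isZero_zero T))

lemma FinEven.one : FinEven (𝟙_ T) :=
  (FinEven.sphere 0).of_iso ((shiftFunctorZero T ℤ).app _)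

lemma FinEven.shift {X : T} (h : FinEven X) (k : ℤ) : FinEven (X⟦2 * k⟧) := by
  induction h with
  | zero h => exact FinEven.zero ((shiftFunctor T (2 * k)).map_isZero h)
  | sphere l =>
    have e : (𝟙_ T)⟦2 * (l + k)⟧ ≅ (𝟙_ T)⟦2 * l⟧⟦2 * k⟧ :=
      (shiftFunctorAdd' T (2 * l) (2 * k) (2 * (l + k)) (by omega)).app _
    exact (FinEven.sphere (l + k)).of_iso e
  | ext Δ hΔ _ _ ih₁ ih₃ =>
    exact FinEven.ext _ (Triangle.shift_distinguished Δ hΔ (2 * k)) ih₁ ih₃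

/-- the iso `𝟙⟦n⟧ ⊗ W ≅ W⟦n⟧` for all `n`, by induction (only its existence is needed) -/
lemma exists_sphere_tensor (W : T) (n : ℤ) : Nonempty ((𝟙_ T)⟦n⟧ ⊗ W ≅ W⟦n⟧) := by
  induction n using Int.induction_on with
  | zero =>
    exact ⟨whiskerRightIso ((shiftFunctorZero T ℤ).app _) W ≪≫ λ_ W ≪≫
      ((shiftFunctorZero T ℤ).app W).symm⟩
  | succ n ih =>
    obtain ⟨e⟩ := ih
    exact ⟨whiskerRightIso ((shiftFunctorAdd T (n : ℤ) 1).app _) W ≪≫
      (tshL ((𝟙_ T)⟦(n : ℤ)⟧) W).symm ≪≫ (shiftFunctor T (1 : ℤ)).mapIso e ≪≫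
      ((shiftFunctorAdd T (n : ℤ) 1).app W).symm⟩
  | pred n ih =>
    obtain ⟨e⟩ := ih
    -- `𝟙⟦-n⟧ ≅ 𝟙⟦-n-1⟧⟦1⟧`
    let a : (𝟙_ T)⟦-(n : ℤ)⟧ ≅ (𝟙_ T)⟦-(n : ℤ) - 1⟧⟦(1 : ℤ)⟧ :=
      (shiftFunctorAdd' T (-(n : ℤ) - 1) 1 (-(n : ℤ)) (by omega)).app _
    let b : W⟦-(n : ℤ)⟧ ≅ W⟦-(n : ℤ) - 1⟧⟦(1 : ℤ)⟧ :=
      (shiftFunctorAdd' T (-(n : ℤ) - 1) 1 (-(n : ℤ)) (by omega)).app _
    let c : ((𝟙_ T)⟦-(n : ℤ) - 1⟧ ⊗ W)⟦(1 : ℤ)⟧ ≅ (W⟦-(n : ℤ) - 1⟧)⟦(1 : ℤ)⟧ :=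
      tshL _ W ≪≫ whiskerRightIso a.symm W ≪≫ e ≪≫ b
    exact ⟨(shiftFunctor T (1 : ℤ)).preimageIso c⟩

lemma FinEven.tensor {Z W : T} (hZ : FinEven Z) (hW : FinEven W) : FinEven (Z ⊗ W) := by
  induction hZ with
  | zero h =>
    exact FinEven.zero ((tensorRight W).map_isZero h)
  | sphere k =>
    obtain ⟨e⟩ := exists_sphere_tensor W (2 * k)
    exact (hW.shift k).of_iso e.symm
  | ext Δ hΔ _ _ ih₁ ih₃ =>
    obtain ⟨h, -, hh⟩ := triL W Δ hΔ
    have h2 := FinEven.ext _ hh (ih₁.of_iso (β_ _ _)) (ih₃.of_iso (β_ _ _))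
    exact h2.of_iso (β_ W Δ.obj₂)

lemma FinEven.prodComm {Z : T} (h : FinEven Z) : ProdComm Z := by
  induction h with
  | zero h =>
    intro Y A hA
    have hz : ∀ W : T, IsZero (_ ⊗ W) := fun W => (tensorRight W).map_isZero h
    exact ⟨fun f _ => (hz _).eq_of_tgt _ _, fun g => ⟨0, fun i => (hz _).eq_of_tgt _ _⟩⟩
  | sphere k => exact prodComm_one.shift _
  | ext Δ hΔ _ _ ih₁ ih₃ => exact ProdComm.triangle hΔ ih₁ ih₃

lemma Built.tensor {P : T → Prop} (hP : ∀ Z W, P Z → P W → P (Z ⊗ W)) {a b : ℕ} {K W : T}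
    (hK : Built P a K) (hW : Built P b W) : Built P (a * b) (K ⊗ W) := by
  -- first the case of a base object
  have base : ∀ Z, P Z → Built P b (Z ⊗ W) := by
    intro Z hZ
    induction hW with
    | base h => exact Built.base (hP _ _ hZ h)
    | iso e _ ih => exact Built.iso (whiskerLeftIso Z e) ih
    | up _ ih => exact Built.iso (tsh _ _) ih.up
    | @down a W _ ih =>
      refine Built.iso ?_ ih.down
      exact (shiftFunctor T (-1 : ℤ)).mapIso (whiskerLeftIso Z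
        ((shiftFunctorCompIsoId T (-1 : ℤ) 1 (by simp)).symm.app W) ≪≫ (tsh Z _).symm) ≪≫
        (shiftFunctorCompIsoId T (1 : ℤ) (-1) (by simp)).app _
    | ext Δ hΔ _ _ ih₁ ih₃ =>
      obtain ⟨h, -, hh⟩ := triL Z Δ hΔ
      exact Built.ext _ hh ih₁ ih₃
    | coprod X _ ih =>
      have : (tensorLeft Z).IsLeftAdjoint := ⟨_, ⟨ihom.adjunction Z⟩⟩
      exact Built.iso (asIso (sigmaComparison (tensorLeft Z) X)) (Built.coprod _ ih)
  induction hK with
  | base h => simpa using base _ h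
  | iso e _ ih => exact Built.iso (whiskerRightIso e W) ih
  | up _ ih => exact Built.iso (tshL _ _) ih.up
  | @down a Z _ ih =>
    refine Built.iso ?_ ih.down
    exact (shiftFunctor T (-1 : ℤ)).mapIso (whiskerRightIso
      ((shiftFunctorCompIsoId T (-1 : ℤ) 1 (by simp)).symm.app Z) W ≪≫ (tshL _ _).symm) ≪≫
      (shiftFunctorCompIsoId T (1 : ℤ) (-1) (by simp)).app _
  | ext Δ hΔ _ _ ih₁ ih₃ =>
    obtain ⟨h, -, hh⟩ := triL W Δ hΔ
    rw [Nat.add_mul]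
    exact Built.iso (β_ W Δ.obj₂)
      (Built.ext _ hh (Built.iso (β_ _ _) ih₁) (Built.iso (β_ _ _) ih₃))
  | coprod X _ ih =>
    have : (tensorLeft W).IsLeftAdjoint := ⟨_, ⟨ihom.adjunction W⟩⟩
    refine Built.iso (asIso (sigmaComparison (tensorLeft W) X) ≪≫ β_ _ _) (Built.coprod _ ?_)
    exact fun i => Built.iso (β_ _ _) (ih i)

end Vale.Agent.P251.S
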