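import Vale.Agent.P251.S.Conv4
import Mathlib.Tactic.Abel

/-!
# P251, part S5: vanishing of the cohomology of the `E₁`-complex for finite even complexes
-/

open CategoryTheory MonoidalCategory Limits Pretriangulated

open scoped ZeroObject

set_option linter.unusedSectionVars false

universe v u

namespace Vale.Agent.P251.S

open Vale.Agent.P251.T

variable {T : Type u} [Category.{v} T] [Preadditive T] [HasZeroObject T]
    [HasShift T ℤ] [∀ n : ℤ, (shiftFunctor T n).Additive] [Pretriangulated T] [IsTriangulated T]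
    [MonoidalCategory T] [SymmetricCategory T] [TensorTriangulated T] [MonoidalClosed T]
    [HasCoproducts.{0} T] [HasProducts.{0} T] [StableCat T]

/-- `π_n W = 0` for all `n` with `n + b` odd. -/
def ParZero (b : ℤ) (W : T) : Prop :=
  ∀ (A : T) (n : ℤ), Nonempty (A ≅ (𝟙_ T)⟦n⟧) → (n + b) % 2 = 1 → ∀ f : A ⟶ W, f = 0

lemma ParZero.of_iso {b : ℤ} {W W' : T} (e : W ≅ W') (h : ParZero b W) : ParZero b W' :=
  fun A n hA hn f => by
    rw [← cancel_mono e.inv, zero_comp]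
    exact h A n hA hn _

lemma ParZero.congr {b b' : ℤ} {W : T} (h : ParZero b W) (hb : (b - b') % 2 = 0) : ParZero b' W :=
  fun A n hA hn f => h A n hA (by omega) f

lemma ParZero.shift {b : ℤ} {W : T} (h : ParZero b W) (m : ℤ) : ParZero (b - m) (W⟦m⟧) := by
  rintro A n ⟨i⟩ hn f
  obtain ⟨e, f', rfl⟩ := exists_unshift m f
  have : f' = 0 := h _ (n - m) ⟨(shiftFunctor T (-m)).mapIso i ≪≫
    ((shiftFunctorAdd' T n (-m) (n - m) (by omega)).symm.app _)⟩ (by omega) f'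
  rw [this, Functor.map_zero, comp_zero]

lemma ParZero.ext {b : ℤ} (Δ : Triangle T) (hΔ : Δ ∈ distTriang T) (W : T)
    (h₁ : ParZero b (Δ.obj₁ ⊗ W)) (h₃ : ParZero b (Δ.obj₃ ⊗ W)) : ParZero b (Δ.obj₂ ⊗ W) := by
  intro A n hA hn f
  obtain ⟨g, rfl⟩ := exR W Δ hΔ f (h₃ A n hA hn _)
  rw [h₁ A n hA hn g, zero_comp]

/-- the base case of the tensor product with spheres -/
lemma ParZero.sphere {W : T} (h : ParZero 0 W) (k : ℤ) : ParZero 0 ((𝟙_ T)⟦2 * k⟧ ⊗ W) := by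
  obtain ⟨e⟩ := exists_sphere_tensor W (2 * k)
  exact ((h.shift (2 * k)).congr (by omega)).of_iso e.symm

lemma FinEven.parZero {Z : T} (hZ : FinEven Z) {W : T} (h : ParZero 0 W) :
    ParZero 0 (Z ⊗ W) := by
  induction hZ with
  | zero hz =>
    intro A n _ _ f
    exact ((tensorRight W).map_isZero hz).eq_of_tgt _ _
  | sphere k => exact h.sphere k
  | ext Δ hΔ _ _ ih₁ ih₃ => exact ParZero.ext Δ hΔ W ih₁ ih₃

/-- For a composable pair `U ⟶ V ⟶ W`: exactness of `π_* (Z ⊗ U) ⟶ π_* (Z ⊗ V) ⟶ π_* (Z ⊗ W)`. -/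
def Ex (Z : T) {U V W : T} (a : U ⟶ V) (b : V ⟶ W) : Prop :=
  ∀ A : T, IsSphere A → ∀ x : A ⟶ Z ⊗ V, x ≫ Z ◁ b = 0 → ∃ y : A ⟶ Z ⊗ U, y ≫ Z ◁ a = x

lemma Ex.of_iso {Z Z' : T} (e : Z ≅ Z') {U V W : T} {a : U ⟶ V} {b : V ⟶ W} (h : Ex Z a b) :
    Ex Z' a b := by
  intro A hA x hx
  obtain ⟨y, hy⟩ := h A hA (x ≫ e.inv ▷ V) (by
    rw [Category.assoc, ← whisker_exchange, ← Category.assoc, hx, zero_comp])
  refine ⟨y ≫ e.hom ▷ U, ?_⟩
  rw [Category.assoc, ← whisker_exchange, ← Category.assoc, hy, Category.assoc,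
    ← comp_whiskerRight, Iso.inv_hom_id, id_whiskerRight, Category.comp_id]

lemma Ex.shift_one {Z : T} {U V W : T} {a : U ⟶ V} {b : V ⟶ W} (h : Ex Z a b) :
    Ex (Z⟦(1 : ℤ)⟧) a b := by
  intro A hA x hx
  obtain ⟨e, x', hx'⟩ := exists_unshift 1 (x ≫ (tshL Z V).inv)
  have h0 : x' ≫ Z ◁ b = 0 := by
    apply (shiftFunctor T (1 : ℤ)).map_injective
    rw [Functor.map_comp, Functor.map_zero, ← cancel_epi e.hom, comp_zero, ← Category.assoc,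
      ← hx', ← cancel_mono (tshL Z _).hom, zero_comp, Category.assoc, Category.assoc,
      tshL_right, Iso.inv_hom_id_assoc, hx]
  obtain ⟨y, hy⟩ := h _ (hA.shift _) x' h0
  refine ⟨e.hom ≫ y⟦(1 : ℤ)⟧' ≫ (tshL Z U).hom, ?_⟩
  rw [Category.assoc, Category.assoc, ← tshL_right, ← Functor.map_comp_assoc, hy,
    ← Category.assoc, ← hx', Category.assoc, Iso.inv_hom_id, Category.comp_id]

lemma Ex.of_shift_one {Z : T} {U V W : T} {a : U ⟶ V} {b : V ⟶ W} (h : Ex (Z⟦(1 : ℤ)⟧) a b) :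
    Ex Z a b := by
  intro A hA x hx
  obtain ⟨y, hy⟩ := h _ (hA.shift 1) (x⟦(1 : ℤ)⟧' ≫ (tshL Z V).hom) (by
    rw [Category.assoc, ← tshL_right, ← Functor.map_comp_assoc, hx, Functor.map_zero, zero_comp])
  refine ⟨(shiftFunctor T (1 : ℤ)).preimage (y ≫ (tshL Z U).inv), ?_⟩
  apply (shiftFunctor T (1 : ℤ)).map_injective
  rw [Functor.map_comp, Functor.map_preimage, ← cancel_mono (tshL Z V).hom, ← hy]
  simp only [Category.assoc, tshL_right, Iso.inv_hom_id_assoc]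

lemma Ex.shift {Z : T} {U V W : T} {a : U ⟶ V} {b : V ⟶ W} (h : Ex Z a b) (n : ℤ) :
    Ex (Z⟦n⟧) a b := by
  induction n using Int.induction_on with
  | zero => exact h.of_iso ((shiftFunctorZero T ℤ).symm.app Z)
  | succ n ih => exact ih.shift_one.of_iso ((shiftFunctorAdd T (n : ℤ) 1).symm.app Z)
  | pred n ih =>
    refine Ex.of_shift_one (ih.of_iso ?_)
    exact (shiftFunctorAdd' T (-(n : ℤ) - 1) 1 (-(n : ℤ)) (by omega)).app _

/-- Exactness passes to extensions, if all odd homotopy groups vanish. -/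
lemma Ex.ext {U V W : T} {a : U ⟶ V} {b : V ⟶ W} (hab : a ≫ b = 0) (Δ : Triangle T)
    (hΔ : Δ ∈ distTriang T)
    (h₁U : ParZero 0 (Δ.obj₁ ⊗ U)) (h₁V : ParZero 0 (Δ.obj₁ ⊗ V))
    (h₃V : ParZero 0 (Δ.obj₃ ⊗ V)) (h₃W : ParZero 0 (Δ.obj₃ ⊗ W))
    (h₁ : Ex Δ.obj₁ a b) (h₃ : Ex Δ.obj₃ a b) : Ex Δ.obj₂ a b := by
  intro A hA x hx
  obtain ⟨n, ⟨i⟩⟩ := hA
  by_cases hn : n % 2 = 0
  swap
  · refine ⟨0, ?_⟩
    rw [zero_comp]
    exact (ParZero.ext Δ hΔ V h₁V h₃V A n ⟨i⟩ (by omega) x).symm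
  -- push to the third term
  obtain ⟨c₃, hc₃⟩ := h₃ A ⟨n, ⟨i⟩⟩ (x ≫ Δ.mor₂ ▷ V) (by
    rw [Category.assoc, ← whisker_exchange, ← Category.assoc, hx, zero_comp])
  -- lift to the second term
  have hl : c₃ ≫ Δ.mor₃ ▷ U = 0 :=
    ((h₁U.shift 1).of_iso (tshL Δ.obj₁ U)) A n ⟨i⟩ (by omega) _
  obtain ⟨c, hc⟩ := exR _ Δ.rotate (rot_of_distTriang _ hΔ) c₃ hl
  change A ⟶ Δ.obj₂ ⊗ U at c
  change c₃ = c ≫ Δ.mor₂ ▷ U at hc
  have hd : (x - c ≫ Δ.obj₂ ◁ a) ≫ Δ.mor₂ ▷ V = 0 := by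
    rw [Preadditive.sub_comp, Category.assoc, whisker_exchange, ← Category.assoc, ← hc, hc₃,
      sub_self]
  have hdb : (x - c ≫ Δ.obj₂ ◁ a) ≫ Δ.obj₂ ◁ b = 0 := by
    rw [Preadditive.sub_comp, hx, Category.assoc, ← whiskerLeft_comp, hab,
      MonoidalPreadditive.whiskerLeft_zero, comp_zero, sub_zero]
  obtain ⟨x₁, hx₁⟩ := exR V Δ hΔ _ hd
  have hx₁b : x₁ ≫ Δ.obj₁ ◁ b = 0 := by
    obtain ⟨F, d, h', hF, ⟨eF⟩⟩ := exists_invRotate Δ hΔ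
    obtain ⟨y, hy⟩ := exR₂ hF W (x₁ ≫ Δ.obj₁ ◁ b) (by
      rw [Category.assoc, whisker_exchange, ← Category.assoc, ← hx₁, hdb])
    -- `F ⊗ W` has no homotopy in even degrees
    have hFW : ParZero 1 (F ⊗ W) := by
      have e1 : (F ⊗ W)⟦(1 : ℤ)⟧ ≅ Δ.obj₃ ⊗ W :=
        tshL F W ≪≫ whiskerRightIso ((shiftFunctor T (1 : ℤ)).mapIso eF ≪≫
          (shiftFunctorCompIsoId T (-1 : ℤ) 1 (by omega)).app _) W
      have e2 : F ⊗ W ≅ (Δ.obj₃ ⊗ W)⟦(-1 : ℤ)⟧ :=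
        ((shiftFunctorCompIsoId T (1 : ℤ) (-1) (by omega)).symm.app _) ≪≫
          (shiftFunctor T (-1 : ℤ)).mapIso e1
      exact ((h₃W.shift (-1)).congr (by omega)).of_iso e2.symm
    rw [hy, hFW A n ⟨i⟩ (by omega) y, zero_comp]
  obtain ⟨c₁, hc₁⟩ := h₁ A ⟨n, ⟨i⟩⟩ x₁ hx₁b
  refine ⟨c + c₁ ≫ Δ.mor₁ ▷ U, ?_⟩
  rw [Preadditive.add_comp, Category.assoc, ← whisker_exchange, ← Category.assoc, hc₁, ← hx₁]
  abel

/-- Exactness for a finite even complex, from exactness for the unit. -/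
lemma FinEven.ex {Z : T} (hZ : FinEven Z) {U V W : T} {a : U ⟶ V} {b : V ⟶ W} (hab : a ≫ b = 0)
    (hU : ParZero 0 U) (hV : ParZero 0 V) (hW : ParZero 0 W) (h : Ex (𝟙_ T) a b) : Ex Z a b := by
  induction hZ with
  | zero hz =>
    intro A hA x _
    exact ⟨0, ((tensorRight V).map_isZero hz).eq_of_tgt _ _⟩
  | sphere k => exact h.shift _
  | ext Δ hΔ h₁ h₃ ih₁ ih₃ =>
    exact Ex.ext hab Δ hΔ (h₁.parZero hU) (h₁.parZero hV) (h₃.parZero hV) (h₃.parZero hW) ih₁ ih₃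

end Vale.Agent.P251.S
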