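import Vale.Agent.P251.S.Conv5
import Vale.Agent.P251.S.TowerCouple

/-!
# P251, part S5: the tower attached to triangles `Y s ⟶ G s ⟶ Y (s+1) ⟶ (Y s)⟦1⟧`
-/

open CategoryTheory MonoidalCategory Limits Pretriangulated

open scoped ZeroObject

set_option linter.unusedSectionVars false

universe v u

namespace Vale.Agent.P251.S

open Vale.Agent.P251.T

section Iso

variable {T : Type u} [Category.{v} T] [Preadditive T] [HasZeroObject T]
    [HasShift T ℤ] [∀ n : ℤ, (shiftFunctor T n).Additive] [Pretriangulated T]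
    [MonoidalCategory T] [SymmetricCategory T] [TensorTriangulated T]

/-- the natural isomorphism `tsh` -/
def tshNat (Z : T) :
    tensorLeft Z ⋙ shiftFunctor T (1 : ℤ) ≅ shiftFunctor T (1 : ℤ) ⋙ tensorLeft Z :=
  NatIso.ofComponents (fun W => tsh Z W) (fun f => tsh_right Z f)

lemma exists_tshN (Z : T) (n : ℤ) :
    Nonempty (tensorLeft Z ⋙ shiftFunctor T n ≅ shiftFunctor T n ⋙ tensorLeft Z) := by
  induction n using Int.induction_on with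
  | zero =>
    exact ⟨Functor.isoWhiskerLeft _ (shiftFunctorZero T ℤ) ≪≫ Functor.rightUnitor _ ≪≫
      (Functor.leftUnitor _).symm ≪≫ Functor.isoWhiskerRight (shiftFunctorZero T ℤ).symm _⟩
  | succ n ih =>
    obtain ⟨e⟩ := ih
    exact ⟨Functor.isoWhiskerLeft _ (shiftFunctorAdd T (n : ℤ) 1) ≪≫
      (Functor.associator _ _ _).symm ≪≫ Functor.isoWhiskerRight e _ ≪≫
      Functor.associator _ _ _ ≪≫ Functor.isoWhiskerLeft _ (tshNat Z) ≪≫
      (Functor.associator _ _ _).symm ≪≫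
      Functor.isoWhiskerRight (shiftFunctorAdd T (n : ℤ) 1).symm _⟩
  | pred n ih =>
    obtain ⟨e⟩ := ih
    let a : shiftFunctor T (-(n : ℤ)) ≅ shiftFunctor T (-(n : ℤ) - 1) ⋙ shiftFunctor T (1 : ℤ) :=
      shiftFunctorAdd' T (-(n : ℤ) - 1) 1 (-(n : ℤ)) (by omega)
    let b : (tensorLeft Z ⋙ shiftFunctor T (-(n : ℤ) - 1)) ⋙ shiftFunctor T (1 : ℤ) ≅
        (shiftFunctor T (-(n : ℤ) - 1) ⋙ tensorLeft Z) ⋙ shiftFunctor T (1 : ℤ) :=
      Functor.associator _ _ _ ≪≫ Functor.isoWhiskerLeft _ a.symm ≪≫ e ≪≫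
        Functor.isoWhiskerRight a _ ≪≫ Functor.associator _ _ _ ≪≫
        Functor.isoWhiskerLeft _ (tshNat Z).symm ≪≫ (Functor.associator _ _ _).symm
    exact ⟨NatIso.ofComponents (fun W => (shiftFunctor T (1 : ℤ)).preimageIso (b.app W))
      (fun {W W'} f => by
        apply (shiftFunctor T (1 : ℤ)).map_injective
        simp only [Functor.map_comp, Functor.preimageIso_hom, Functor.map_preimage]
        exact b.hom.naturality f)⟩

/-- A natural isomorphism `(Z ⊗ W)⟦n⟧ ≅ Z ⊗ W⟦n⟧`. -/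
noncomputable def tshN (Z : T) (n : ℤ) :
    tensorLeft Z ⋙ shiftFunctor T n ≅ shiftFunctor T n ⋙ tensorLeft Z :=
  (exists_tshN Z n).some

/-- A natural isomorphism `(Z ⊗ W)⟦n⟧ ≅ Z ⊗ W⟦n⟧`. -/
noncomputable def tshI (Z W : T) (n : ℤ) : (Z ⊗ W)⟦n⟧ ≅ Z ⊗ W⟦n⟧ := (tshN Z n).app W

@[reassoc]
lemma tshI_nat (Z : T) {W W' : T} (f : W ⟶ W') (n : ℤ) :
    (Z ◁ f)⟦n⟧' ≫ (tshI Z W' n).hom = (tshI Z W n).hom ≫ Z ◁ (f⟦n⟧') :=
  (tshN Z n).hom.naturality f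

@[reassoc]
lemma tshI_nat' (Z : T) {W W' : T} (f : W ⟶ W') (n : ℤ) :
    (tshI Z W n).inv ≫ (Z ◁ f)⟦n⟧' = Z ◁ (f⟦n⟧') ≫ (tshI Z W' n).inv := by
  rw [Iso.inv_comp_eq, ← Category.assoc, ← tshI_nat, Category.assoc, Iso.hom_inv_id,
    Category.comp_id]

/-- every map into `Z ⊗ W⟦n⟧` is the shift of a map into `Z ⊗ W` -/
lemma exists_tunshift {A Z W : T} (n : ℤ) (x : A ⟶ Z ⊗ W⟦n⟧) :
    ∃ x' : A⟦-n⟧ ⟶ Z ⊗ W,
      x = ((shiftFunctorCompIsoId T (-n) n (by omega)).app A).inv ≫ x'⟦n⟧' ≫ (tshI Z W n).hom := by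
  refine ⟨(shiftFunctor T n).preimage
    (((shiftFunctorCompIsoId T (-n) n (by omega)).app A).hom ≫ x ≫ (tshI Z W n).inv), ?_⟩
  simp

end Iso

variable {T : Type u} [Category.{v} T] [Preadditive T] [HasZeroObject T]
    [HasShift T ℤ] [∀ n : ℤ, (shiftFunctor T n).Additive] [Pretriangulated T] [IsTriangulated T]
    [MonoidalCategory T] [SymmetricCategory T] [TensorTriangulated T] [MonoidalClosed T]
    [HasCoproducts.{0} T] [HasProducts.{0} T] [StableCat T]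

section Pairs

variable {Z : T} {U V W : T} {a : U ⟶ V} {b : V ⟶ W}

lemma PairSurj.of_iso (h : PairSurj Z a b) {U' V' W' : T} {a' : U' ⟶ V'} {b' : V' ⟶ W'}
    (e₁ : U ≅ U') (e₂ : V ≅ V') (e₃ : W ≅ W') (ha : a ≫ e₂.hom = e₁.hom ≫ a')
    (hb : b ≫ e₃.hom = e₂.hom ≫ b') : PairSurj Z a' b' := by
  intro A hA x
  obtain ⟨y, hy⟩ := h A hA (x ≫ Z ◁ e₂.inv)
  refine ⟨y ≫ Z ◁ e₁.hom, ?_⟩
  have e : Z ◁ e₂.inv ≫ Z ◁ b ≫ Z ◁ e₃.hom = Z ◁ b' := by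
    rw [← whiskerLeft_comp, hb, ← whiskerLeft_comp, Iso.inv_hom_id_assoc]
  have e' : Z ◁ e₁.hom ≫ Z ◁ a' ≫ Z ◁ b' = Z ◁ a ≫ Z ◁ b ≫ Z ◁ e₃.hom := by
    rw [← whiskerLeft_comp, ← whiskerLeft_comp, ← whiskerLeft_comp, ← whiskerLeft_comp, hb,
      reassoc_of% ha]
  rw [Category.assoc, Category.assoc, e', ← Category.assoc (Z ◁ a), ← Category.assoc,
    ← Category.assoc y, hy, Category.assoc, Category.assoc, e]

lemma PairInj.of_iso (h : PairInj Z a b) {U' V' W' : T} {a' : U' ⟶ V'} {b' : V' ⟶ W'}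
    (e₁ : U ≅ U') (e₂ : V ≅ V') (e₃ : W ≅ W') (ha : a ≫ e₂.hom = e₁.hom ≫ a')
    (hb : b ≫ e₃.hom = e₂.hom ≫ b') : PairInj Z a' b' := by
  intro A hA y hy
  have e : Z ◁ e₁.inv ≫ Z ◁ a ≫ Z ◁ e₂.hom = Z ◁ a' := by
    rw [← whiskerLeft_comp, ha, ← whiskerLeft_comp, Iso.inv_hom_id_assoc]
  have hb' : b = e₂.hom ≫ b' ≫ e₃.inv := by
    rw [← Category.assoc, ← hb, Category.assoc, Iso.hom_inv_id, Category.comp_id]
  have h0 := h A hA (y ≫ Z ◁ e₁.inv) (by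
    rw [hb', whiskerLeft_comp, whiskerLeft_comp, Category.assoc, Category.assoc,
      ← Category.assoc (Z ◁ a), ← Category.assoc (Z ◁ e₁.inv), e, ← Category.assoc,
      ← Category.assoc, hy, zero_comp])
  rw [← e, ← Category.assoc, ← Category.assoc, h0, zero_comp]

lemma PairSurj.shift (h : PairSurj Z a b) (n : ℤ) : PairSurj Z (a⟦n⟧') (b⟦n⟧') := by
  intro A hA x
  obtain ⟨x', rfl⟩ := exists_tunshift n x
  obtain ⟨y, hy⟩ := h _ (hA.shift (-n)) x'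
  refine ⟨((shiftFunctorCompIsoId T (-n) n (by omega)).app A).inv ≫ y⟦n⟧' ≫ (tshI Z U n).hom, ?_⟩
  simp only [Category.assoc]
  rw [← tshI_nat_assoc, ← tshI_nat, ← Functor.map_comp_assoc, ← Functor.map_comp_assoc,
    ← Functor.map_comp_assoc, hy]

lemma PairInj.shift (h : PairInj Z a b) (n : ℤ) : PairInj Z (a⟦n⟧') (b⟦n⟧') := by
  intro A hA y hy
  obtain ⟨y', rfl⟩ := exists_tunshift n y
  have h0 := h _ (hA.shift (-n)) y' (by
    apply (shiftFunctor T n).map_injective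
    simp only [Category.assoc] at hy
    rw [← tshI_nat_assoc, ← tshI_nat, ← Functor.map_comp_assoc, ← Functor.map_comp_assoc,
      ← cancel_epi ((shiftFunctorCompIsoId T (-n) n (by omega)).app A).hom, Iso.hom_inv_id_assoc,
      comp_zero, ← cancel_mono (tshI Z W n).inv, Category.assoc, Iso.hom_inv_id, Category.comp_id,
      zero_comp] at hy
    rw [hy, Functor.map_zero])
  rw [Category.assoc, Category.assoc, ← tshI_nat, ← Functor.map_comp_assoc, h0, Functor.map_zero,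
    zero_comp, comp_zero]

end Pairs

namespace Tow

variable (J : Tow T)

/-- The differential of the `E₁`-complex. -/
def d (s : ℕ) : J.W s ⟶ J.W (s + 1) := J.b s ≫ J.a (s + 1)

lemma d_d (s : ℕ) : J.d s ≫ J.d (s + 1) = 0 := by
  simp only [d, Category.assoc]
  rw [← Category.assoc (J.a (s + 1)), J.a_b, zero_comp, comp_zero]

/-- The terms of the desuspended tower. -/
def X (s : ℕ) : T := (J.J s)⟦-(s : ℤ)⟧

/-- The isomorphism `(Y s)⟦1⟧⟦-(s+1)⟧ ≅ (Y s)⟦-s⟧`. -/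
def shN (s : ℕ) : shiftFunctor T (-(s : ℤ)) ≅
    shiftFunctor T (1 : ℤ) ⋙ shiftFunctor T (-((s + 1 : ℕ) : ℤ)) :=
  shiftFunctorAdd' T 1 (-((s + 1 : ℕ) : ℤ)) (-(s : ℤ)) (by push_cast; omega)

/-- The transition maps of the desuspended tower. -/
def i (s : ℕ) : J.X (s + 1) ⟶ J.X s :=
  (J.c s)⟦-((s + 1 : ℕ) : ℤ)⟧' ≫ (shN s).inv.app (J.J s)

lemma pairSurj_t {Z : T} {s : ℕ} (h : Ex Z (J.d s) (J.d (s + 1))) :
    PairSurj Z (J.c (s + 1)) ((J.c s)⟦(1 : ℤ)⟧') := by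
  intro A hA x
  obtain ⟨x', rfl⟩ := exists_tunshift 1 x
  obtain ⟨e', he'⟩ := h _ (hA.shift (-1)) (x' ≫ Z ◁ J.a (s + 1)) (by
    rw [d, Category.assoc, ← whiskerLeft_comp, ← Category.assoc (J.a (s + 1)), J.a_b, zero_comp,
      MonoidalPreadditive.whiskerLeft_zero, comp_zero])
  -- `z = x' - e' q` is killed by `u`
  have hz : (x' - e' ≫ Z ◁ J.b s) ≫ Z ◁ J.a (s + 1) = 0 := by
    rw [Preadditive.sub_comp, ← he', d, Category.assoc, ← whiskerLeft_comp, sub_self]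
  have hz' : ((x' - e' ≫ Z ◁ J.b s)⟦(1 : ℤ)⟧' ≫ (tshI Z _ 1).hom) ≫
      Z ◁ ((J.a (s + 1))⟦(1 : ℤ)⟧') = 0 := by
    rw [Category.assoc, ← tshI_nat, ← Functor.map_comp_assoc, hz, Functor.map_zero, zero_comp]
  obtain ⟨y, hy⟩ := exL₁ (J.dist (s + 1)) Z _ hz'
  refine ⟨((shiftFunctorCompIsoId T (-1 : ℤ) 1 (by omega)).app A).inv ≫ y, ?_⟩
  rw [Category.assoc, Category.assoc, Category.assoc, ← Category.assoc y, ← hy, Category.assoc,
    Category.assoc, ← tshI_nat, ← Functor.map_comp_assoc, ← Functor.map_comp_assoc,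
    Preadditive.sub_comp, Category.assoc e', ← whiskerLeft_comp, J.b_c,
    MonoidalPreadditive.whiskerLeft_zero, comp_zero, sub_zero]

lemma pairInj_t {Z : T} {s : ℕ} (h : Ex Z (J.d s) (J.d (s + 1))) :
    PairInj Z (J.c (s + 2)) ((J.c (s + 1))⟦(1 : ℤ)⟧') := by
  intro A hA y hy
  obtain ⟨w, hw⟩ := exists_tunshift 1 (y ≫ Z ◁ J.c (s + 2))
  rw [hw, Category.assoc, Category.assoc, ← tshI_nat, ← Functor.map_comp_assoc,
    ← cancel_epi ((shiftFunctorCompIsoId T (-1 : ℤ) 1 (by omega)).app A).hom, Iso.hom_inv_id_assoc,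
    comp_zero, ← cancel_mono (tshI Z _ 1).inv, Category.assoc, Iso.hom_inv_id, Category.comp_id,
    zero_comp] at hy
  have hwt : w ≫ Z ◁ J.c (s + 1) = 0 := by
    apply (shiftFunctor T (1 : ℤ)).map_injective
    rw [hy, Functor.map_zero]
  obtain ⟨e, he⟩ := exL₃ (J.dist (s + 1)) Z w hwt
  have hwu : w ≫ Z ◁ J.a (s + 2) = 0 := by
    apply (shiftFunctor T (1 : ℤ)).map_injective
    have h1 : (y ≫ Z ◁ J.c (s + 2)) ≫ Z ◁ ((J.a (s + 2))⟦(1 : ℤ)⟧') = 0 := by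
      rw [Category.assoc, ← whiskerLeft_comp, J.c_a, MonoidalPreadditive.whiskerLeft_zero,
        comp_zero]
    rw [hw, Category.assoc, Category.assoc, ← tshI_nat, ← Functor.map_comp_assoc,
      ← cancel_epi ((shiftFunctorCompIsoId T (-1 : ℤ) 1 (by omega)).app A).hom,
      Iso.hom_inv_id_assoc, comp_zero, ← cancel_mono (tshI Z _ 1).inv, Category.assoc,
      Iso.hom_inv_id, Category.comp_id, zero_comp] at h1
    rw [h1, Functor.map_zero]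
  obtain ⟨e', he'⟩ := h _ (hA.shift (-1)) e (by
    rw [d, whiskerLeft_comp, ← Category.assoc, ← he, hwu])
  have hw0 : w = 0 := by
    rw [he, ← he', d, Category.assoc, ← whiskerLeft_comp, Category.assoc, J.a_b, comp_zero,
      MonoidalPreadditive.whiskerLeft_zero, comp_zero]
  rw [hw, hw0, Functor.map_zero, zero_comp, comp_zero]

/-- GoodFor objects for the desuspended tower. -/
lemma good {Z : T} (hZ : ProdComm Z) (s₁ : ℕ)
    (h : ∀ s, s₁ ≤ s → Ex Z (J.d s) (J.d (s + 1))) : GoodFor J.i (s₁ + 1) Z := by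
  -- the isomorphisms of pairs
  have key : ∀ s : ℕ, ∃ (e₁ : (J.J (s + 2))⟦-((s + 2 : ℕ) : ℤ)⟧ ≅ J.X (s + 2))
      (e₂ : ((J.J (s + 1))⟦(1 : ℤ)⟧)⟦-((s + 2 : ℕ) : ℤ)⟧ ≅ J.X (s + 1))
      (e₃ : (((J.J s)⟦(1 : ℤ)⟧)⟦(1 : ℤ)⟧)⟦-((s + 2 : ℕ) : ℤ)⟧ ≅ J.X s),
      (J.c (s + 1))⟦-((s + 2 : ℕ) : ℤ)⟧' ≫ e₂.hom = e₁.hom ≫ J.i (s + 1) ∧
      (((J.c s)⟦(1 : ℤ)⟧')⟦-((s + 2 : ℕ) : ℤ)⟧') ≫ e₃.hom = e₂.hom ≫ J.i s := by
    intro s
    refine ⟨Iso.refl _, (shN (s + 1)).symm.app (J.J (s + 1)),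
      (shN (s + 1)).symm.app ((J.J s)⟦(1 : ℤ)⟧) ≪≫ (shN s).symm.app (J.J s), ?_, ?_⟩
    · exact (Category.id_comp (J.i (s + 1))).symm
    · have := (shN (T := T) (s + 1)).inv.naturality (J.c s)
      exact (Category.assoc _ _ _).symm.trans
        ((congrArg (· ≫ (shN s).inv.app (J.J s)) this).trans (Category.assoc _ _ _))
  refine ⟨hZ, fun s hs => ?_, fun s hs => ?_⟩
  · obtain ⟨e₁, e₂, e₃, h₁, h₂⟩ := key s
    exact ((J.pairSurj_t (h s (by omega))).shift _).of_iso e₁ e₂ e₃ h₁ h₂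
  · obtain ⟨s, rfl⟩ : ∃ r, s = r + 1 := ⟨s - 1, by omega⟩
    obtain ⟨e₁, e₂, e₃, h₁, h₂⟩ := key (s + 1)
    exact ((J.pairInj_t (h s (by omega))).shift _).of_iso e₁ e₂ e₃ h₁ h₂

end Tow

end Vale.Agent.P251.S
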