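import Vale.Agent.P251.S.Conv6

/-!
# P251, part S5: convergence, final form

`converge`: if `J ⟶ J'` is a `K`-equivalence of towers, `J'` is `K`-local, `R ⊗ -` kills the
transition maps of `J`, the odd homotopy of the terms `J'.W s` vanishes and the `E₁`-complex of `J'`
is exact in degrees `> s₁`, and if `K` is built from finite even complexes and also from objects
`R ⊗ W`, then the transition maps of `J'` are zero on homotopy from stage `s₁ + 1` on.
-/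

open CategoryTheory MonoidalCategory Limits Pretriangulated

open scoped ZeroObject

set_option linter.unusedSectionVars false

universe v u

namespace Vale.Agent.P251.S

open Vale.Agent.P251.T

variable {T : Type u} [Category.{v} T] [Preadditive T] [HasZeroObject T]
    [HasShift T ℤ] [∀ n : ℤ, (shiftFunctor T n).Additive] [Pretriangulated T] [IsTriangulated T]
    [MonoidalCategory T] [SymmetricCategory T] [TensorTriangulated T] [MonoidalClosed T]
    [HasCoproducts.{0} T] [HasProducts.{0} T] [StableCat T]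

lemma ghost_tensor_shift {K : T} {U V : T} {φ : U ⟶ V} (h : Ghost (K ◁ φ)) (n : ℤ) :
    Ghost (K ◁ (φ⟦n⟧')) :=
  (h.shift n).of_square (tshI K U n).inv (tshI K V n).inv (tshI_nat' K φ n).symm

namespace Tow

variable (J J' : Tow T)

lemma ghost_i {K : T} {s : ℕ} (h : Ghost (K ◁ J.c s)) : Ghost (K ◁ J.i s) := by
  have h1 : K ◁ J.i s = K ◁ ((J.c s)⟦-((s + 1 : ℕ) : ℤ)⟧') ≫ K ◁ ((shN s).inv.app (J.J s)) :=
    whiskerLeft_comp _ _ _
  rw [h1]
  exact (ghost_tensor_shift h _).comp_right _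

lemma ghost_i_one {s : ℕ} (h : Ghost (J.c s)) : Ghost (J.i s) := by
  unfold i
  exact (h.shift _).comp_right _

variable {J J'} (φ : Mor J J')

/-- the map on the desuspended towers -/
def Mor.X (s : ℕ) : J.X s ⟶ J'.X s := (φ.f s)⟦-(s : ℤ)⟧'

lemma Mor.X_comm (s : ℕ) : φ.X (s + 1) ≫ J'.i s = J.i s ≫ φ.X s := by
  have h1 := (shN (T := T) s).inv.naturality (φ.f s)
  have h2 := congrArg (fun f => f⟦-((s + 1 : ℕ) : ℤ)⟧') (φ.comm_c s).symm
  simp only [Functor.map_comp] at h2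
  have h3 : φ.X (s + 1) ≫ J'.i s = ((φ.f (s + 1))⟦-((s + 1 : ℕ) : ℤ)⟧' ≫
    (J'.c s)⟦-((s + 1 : ℕ) : ℤ)⟧') ≫ (shN s).inv.app (J'.J s) := (Category.assoc _ _ _).symm
  have h4 : J.i s ≫ φ.X s = (J.c s)⟦-((s + 1 : ℕ) : ℤ)⟧' ≫ ((shN s).inv.app (J.J s) ≫
    (φ.f s)⟦-(s : ℤ)⟧') := Category.assoc _ _ _
  rw [h3, h2, h4]
  exact (Category.assoc _ _ _).trans (congrArg ((J.c s)⟦-((s + 1 : ℕ) : ℤ)⟧' ≫ ·) h1)

lemma Mor.X_twr (s t : ℕ) (h : s ≤ t) : φ.X t ≫ twr J'.i s t h = twr J.i s t h ≫ φ.X s := by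
  induction t, h using Nat.le_induction with
  | base => rw [twr_self, twr_self, Category.comp_id, Category.id_comp]
  | succ t h ih =>
    rw [← i_twr J'.i s t h, ← Category.assoc, φ.X_comm, Category.assoc, ih, ← Category.assoc,
      i_twr]

lemma Mor.isIso_X {K : T} (hη : ∀ s, IsIso (K ◁ φ.f s)) (s : ℕ) : IsIso (K ◁ φ.X s) := by
  have h := tshI_nat K (φ.f s) (-(s : ℤ))
  have h' : K ◁ ((φ.f s)⟦-(s : ℤ)⟧') = (tshI K (J.J s) (-(s : ℤ))).inv ≫
      (K ◁ φ.f s)⟦-(s : ℤ)⟧' ≫ (tshI K (J'.J s) (-(s : ℤ))).hom := by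
    rw [h, Iso.inv_hom_id_assoc]
  change IsIso (K ◁ ((φ.f s)⟦-(s : ℤ)⟧'))
  rw [h']
  have := hη s
  infer_instance

lemma Mor.ghost {K : T} (hη : ∀ s, IsIso (K ◁ φ.f s)) {s t : ℕ} (h : s ≤ t)
    (hg : Ghost (K ◁ twr J.i s t h)) : Ghost (K ◁ twr J'.i s t h) := by
  have := φ.isIso_X hη t
  have h1 : K ◁ twr J'.i s t h = inv (K ◁ φ.X t) ≫ K ◁ twr J.i s t h ≫ K ◁ φ.X s := by
    rw [IsIso.eq_inv_comp, ← whiskerLeft_comp, ← whiskerLeft_comp, φ.X_twr]
  rw [h1]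
  exact (hg.comp_right _).comp_left _

/-- nullity of the transition maps after tensoring with objects built from `R ⊗ W` -/
lemma ghost_of_built {R : T} (hR : ∀ s, R ◁ J.c s = 0) {K : T} {a : ℕ}
    (hK : Built (fun Z : T => ∃ W : T, Nonempty (Z ≅ R ⊗ W)) a K) (s : ℕ) :
    Ghost (K ◁ twr J.i s (s + a) (Nat.le_add_right s a)) := by
  refine Built.ghost J.i 0 ?_ hK s (s + a) _ (Nat.zero_le _) le_rfl
  rintro Z ⟨W, ⟨e⟩⟩ s _
  apply ghost_of_iso_left (β_ W R ≪≫ e.symm)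
  apply ghost_i
  rw [tensor_whiskerLeft, hR, MonoidalPreadditive.whiskerLeft_zero, zero_comp, comp_zero]
  exact ghost_zero

include φ in
/-- **Convergence theorem (S5).** -/
theorem converge {K R : T} (hη : ∀ s, IsIso (K ◁ φ.f s)) (hloc : ∀ s, IsLocal K (J'.J s))
    (hR : ∀ s, R ◁ J.c s = 0) {a : ℕ}
    (hKR : Built (fun Z : T => ∃ W : T, Nonempty (Z ≅ R ⊗ W)) a K) {b : ℕ}
    (hKF : Built FinEven b K) (hodd : ∀ s, ParZero 0 (J'.W s)) (s₁ : ℕ)
    (hvan : ∀ s, s₁ ≤ s → Ex (𝟙_ T) (J'.d s) (J'.d (s + 1))) (s : ℕ) (hs : s₁ + 1 ≤ s) :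
    Ghost (J'.i s) := by
  -- the homotopy limit
  obtain ⟨H, π₀, w, hw⟩ := distinguished_cocone_triangle₁ (𝟙 (∏ᶜ J'.X) - holShift J'.i)
  have hH : IsHol J'.i (fun s => π₀ ≫ Pi.π J'.X s) := by
    refine ⟨w, ?_⟩
    have : Pi.lift (fun s => π₀ ≫ Pi.π J'.X s) = π₀ := by
      apply Pi.hom_ext
      intro s
      simp
    rw [this]
    exact hw
  refine ghost_of_conv hH (P := FinEven) (s₀ := s₁ + 1) (fun Z hZ => ?_) FinEven.one hKF
    (m := a) (fun s => ?_) (fun s => ?_) hs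
  · refine J'.good hZ.prodComm s₁ (fun s hs => ?_)
    exact hZ.ex (J'.d_d s) (hodd s) (hodd (s + 1)) (hodd (s + 2)) (hvan s hs)
  · exact φ.ghost hη _ (ghost_of_built hR hKR s)
  · -- localness of the shifts
    intro W hW f
    obtain ⟨e, f', rfl⟩ := exists_unshift (-(s : ℤ)) f
    have hW' : Acyclic K (W⟦-(-(s : ℤ))⟧) :=
      ((shiftFunctor T (-(-(s : ℤ)))).map_isZero hW).of_iso (tshI K W (-(-(s : ℤ)))).symm
    rw [hloc s hW' f', Functor.map_zero]
    exact comp_zero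

end Tow

end Vale.Agent.P251.S
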