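import Vale.Agent.P251.S.Conv7
import Vale.Agent.P251.B.Main

/-!
# P251, part S5: convergence in the language of exact couples

`converge_couple`: `F` a functorial `K`-localization, `X` a tower with `R ⊗ c s = 0`, `K` built from
finite even complexes and from objects `R ⊗ W`. If in the couple of the tower `F.L X` (with test
object the unit) `E^s_n = 0` for `n + s` odd and `Van s n` holds for `s ≥ s₁`, then
`i : D^{s+1}_n → D^s_n` is zero for `s ≥ s₁ + 1`.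
-/

open CategoryTheory MonoidalCategory Limits Pretriangulated

open scoped ZeroObject

set_option linter.unusedSectionVars false

universe v u

namespace Vale.Agent.P251.S

open Vale.Agent.P251.T

variable {T : Type u} [Category.{v} T] [Preadditive T] [HasZeroObject T]
    [HasShift T ℤ] [∀ n : ℤ, (shiftFunctor T n).Additive] [Pretriangulated T] [IsTriangulated T]
    [MonoidalCategory T] [SymmetricCategory T] [TensorTriangulated T] [MonoidalClosed T]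
    [HasCoproducts.{0} T] [HasProducts.{0} T] [StableCat T]

/-- If `Z ◁ f` is a monomorphism for the first map of a triangle, then `Z ◁ h = 0` for the third. -/
lemma whisker_eq_zero_of_mono {X Y C : T} {f : X ⟶ Y} {g : Y ⟶ C} {h : C ⟶ X⟦(1 : ℤ)⟧}
    (hΔ : Triangle.mk f g h ∈ distTriang T) (Z : T) (hm : Mono (Z ◁ f)) : Z ◁ h = 0 := by
  obtain ⟨h', hh', hd⟩ := triL Z _ hΔ
  have h0 : h' = 0 := Triangle.mor₃_eq_zero_of_mono₁ _ hd hm
  rw [h0] at hh'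
  exact hh'.symm.trans zero_comp

namespace Tow

variable (X : Tow T)

/-- the transition maps `c s` are ghosts if the desuspended ones are -/
lemma ghost_c_of_i {s : ℕ} (h : Ghost (X.i s)) : Ghost (X.c s) := by
  apply Ghost.of_shift (-((s + 1 : ℕ) : ℤ))
  let e : ((X.J s)⟦(1 : ℤ)⟧)⟦-((s + 1 : ℕ) : ℤ)⟧ ≅ X.X s := (shN s).symm.app (X.J s)
  have h1 : (X.c s)⟦-((s + 1 : ℕ) : ℤ)⟧' ≫ e.hom = 𝟙 _ ≫ X.i s :=
    (Category.id_comp _).symm
  exact h.of_square (𝟙 _) e.hom h1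

lemma couple_i_eq_zero {s : ℕ} (h : Ghost (X.c s)) (n : ℤ) (y : (X.couple (𝟙_ T)).D (s + 1) n) :
    (X.couple (𝟙_ T)).i s n y = 0 := by
  change (sh _ _ _ _).symm ((y : (𝟙_ T)⟦n + ((s + 1 : ℕ) : ℤ)⟧ ⟶ X.J (s + 1)) ≫ X.c s) = 0
  rw [h _ (isSphere_one_shift _) y, map_zero]

lemma parZero_of_couple {s : ℕ}
    (h : ∀ n : ℤ, (n + s) % 2 = 1 → ∀ z : (X.couple (𝟙_ T)).E s n, z = 0) :
    ParZero 0 (X.W s) := by
  rintro A n ⟨e⟩ hn f
  have h1 : (n - s) + (s : ℤ) = n := by omega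
  have h2 := h (n - s) (by omega) ((X.eE (𝟙_ T) h1).symm (e.inv ≫ f))
  rw [AddEquiv.map_eq_zero_iff] at h2
  rw [← cancel_epi e.inv, h2, comp_zero]

lemma ex_of_van {s : ℕ} (h : ∀ n : ℤ, (X.couple (𝟙_ T)).Van s n) :
    Ex (𝟙_ T) (X.d s) (X.d (s + 1)) := by
  rintro A ⟨t, ⟨e⟩⟩ x hx
  -- the corresponding element of `E^{s+1}`
  have key : ∀ (U V : T) (p : U ⟶ V), (𝟙_ T) ◁ p ≫ (λ_ V).hom = (λ_ U).hom ≫ p := by
    intro U V p; simp
  let x' : (𝟙_ T)⟦t⟧ ⟶ X.W (s + 1) := e.inv ≫ x ≫ (λ_ _).hom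
  have hx' : x' ≫ X.d (s + 1) = 0 := by
    simp only [x', Category.assoc]
    rw [← key, ← Category.assoc x, hx, zero_comp, comp_zero]
  have h1 : (t - ((s + 1 : ℕ) : ℤ)) + ((s + 1 : ℕ) : ℤ) = t := by omega
  have h1' : (t - ((s + 1 : ℕ) : ℤ) + 1) + (s : ℤ) = t := by push_cast; omega
  obtain ⟨z, hz⟩ := h (t - ((s + 1 : ℕ) : ℤ)) ((X.eE (𝟙_ T) h1).symm x') (by
    intro m hm
    have h2 : m + ((s + 1 + 1 : ℕ) : ℤ) = t := by push_cast at *; omega
    apply (X.eE (𝟙_ T) h2).injective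
    rw [X.eE_d (𝟙_ T) hm h1 h2, map_zero, AddEquiv.apply_symm_apply]
    exact hx')
  have hz' := congrArg (X.eE (𝟙_ T) h1) hz
  rw [X.eE_d (𝟙_ T) rfl h1' h1, AddEquiv.apply_symm_apply] at hz'
  refine ⟨e.hom ≫ X.eE (𝟙_ T) h1' z ≫ (λ_ _).inv, ?_⟩
  have hk : (λ_ (X.W s)).inv ≫ (𝟙_ T) ◁ X.d s = X.d s ≫ (λ_ (X.W (s + 1))).inv := by
    rw [Iso.inv_comp_eq, ← Category.assoc, ← key, Category.assoc, Iso.hom_inv_id,
      Category.comp_id]
  rw [Category.assoc, Category.assoc, hk, ← Category.assoc (X.eE (𝟙_ T) h1' z)]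
  have hz'' : X.eE (𝟙_ T) h1' z ≫ X.d s = x' := hz'
  rw [hz'']
  simp [x']

/-- **Convergence theorem (S5), couple form.** -/
theorem converge_couple {K R : T} (F : LocFunctor K) (hR : ∀ s, R ◁ X.c s = 0) {a : ℕ}
    (hKR : Built (fun Z : T => ∃ W : T, Nonempty (Z ≅ R ⊗ W)) a K) {b : ℕ}
    (hKF : Built FinEven b K)
    (hodd : ∀ (s : ℕ) (n : ℤ), (n + s) % 2 = 1 → ∀ z : ((X.map F.L).couple (𝟙_ T)).E s n, z = 0)
    (s₁ : ℕ) (hvan : ∀ s, s₁ ≤ s → ∀ n : ℤ, ((X.map F.L).couple (𝟙_ T)).Van s n)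
    (s : ℕ) (hs : s₁ + 1 ≤ s) (n : ℤ) (y : ((X.map F.L).couple (𝟙_ T)).D (s + 1) n) :
    ((X.map F.L).couple (𝟙_ T)).i s n y = 0 := by
  apply couple_i_eq_zero
  apply ghost_c_of_i
  exact converge (Vale.Agent.P251.B.mapUnit X F.unit) (fun s => F.isIso _) (fun s => F.isLocal _)
    hR hKR hKF (fun s => (X.map F.L).parZero_of_couple (hodd s)) s₁
    (fun s hs => (X.map F.L).ex_of_van (hvan s hs)) s hs

end Tow

end Vale.Agent.P251.S
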