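import Vale.Agent.P251.S.Conv8
import Vale.Agent.P251.S.KosData
import Vale.Agent.P251.S.TowerR
import Vale.Agent.P251.M.EvenCell

/-!
# P251, part S5: the Koszul object is built from finite even complexes and from objects `R ⊗ W`;
the tower of a monoid
-/

open CategoryTheory MonoidalCategory Limits Pretriangulated MonObj

open scoped ZeroObject

set_option linter.unusedSectionVars false

universe v u

namespace Vale.Agent.P251.S

open Vale.Agent.P251.T

variable {T : Type u} [Category.{v} T] [Preadditive T] [HasZeroObject T]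
    [HasShift T ℤ] [∀ n : ℤ, (shiftFunctor T n).Additive] [Pretriangulated T] [IsTriangulated T]
    [MonoidalCategory T] [SymmetricCategory T] [TensorTriangulated T] [MonoidalClosed T]
    [HasCoproducts.{0} T] [HasProducts.{0} T] [StableCat T]

/-- finite complexes with even cells are finite even complexes -/
lemma FinEven.of_evenCell {d : ℤ} {Z : T} (h : Vale.Agent.P251.M.EvenCell T d Z) : FinEven Z := by
  induction h with
  | zero X hX => exact FinEven.zero hX
  | sphere k _ => exact FinEven.sphere k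
  | ext Δ hΔ _ _ ih₁ ih₃ => exact FinEven.ext Δ hΔ ih₁ ih₃

/-- monotonicity in the class of base objects -/
lemma Built.mono {P P' : T → Prop} (hP : ∀ Z, P Z → P' Z) {a : ℕ} {K : T} (h : Built P a K) :
    Built P' a K := by
  induction h with
  | base h => exact Built.base (hP _ h)
  | iso e _ ih => exact Built.iso e ih
  | up _ ih => exact ih.up
  | down _ ih => exact ih.down
  | ext Δ hΔ _ _ ih₁ ih₃ => exact Built.ext Δ hΔ ih₁ ih₃
  | coprod X _ ih => exact Built.coprod X ih

/-- A class which is stable under `Z ⊗ -`. -/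
lemma Built.tensorLeft {P : T → Prop} {Z : T} (hP : ∀ W, P W → P (Z ⊗ W)) {b : ℕ} {W : T}
    (hW : Built P b W) : Built P b (Z ⊗ W) := by
  induction hW with
  | base h => exact Built.base (hP _ h)
  | iso e _ ih => exact Built.iso (whiskerLeftIso Z e) ih
  | up _ ih => exact Built.iso (tsh _ _) ih.up
  | @down a W _ ih =>
    refine Built.iso ?_ ih.down
    exact (shiftFunctor T (-1 : ℤ)).mapIso (whiskerLeftIso Z
      ((shiftFunctorCompIsoId T (-1 : ℤ) 1 (by simp)).symm.app W) ≪≫ (tsh Z _).symm) ≪≫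
      (shiftFunctorCompIsoId T (1 : ℤ) (-1) (by simp)).app _
  | ext Δ hΔ _ _ ih₁ ih₃ =>
    obtain ⟨h, -, hh⟩ := triL Z Δ hΔ
    exact Built.ext _ hh ih₁ ih₃
  | coprod X _ ih =>
    have : (MonoidalCategory.tensorLeft Z).IsLeftAdjoint := ⟨_, ⟨ihom.adjunction Z⟩⟩
    exact Built.iso (asIso (sigmaComparison (MonoidalCategory.tensorLeft Z) X))
      (Built.coprod _ ih)

/-- the class of objects `R ⊗ W` -/
def IsRMul (R : T) (Z : T) : Prop := ∃ W : T, Nonempty (Z ≅ R ⊗ W)

lemma IsRMul.tensor {R Z : T} (X : T) (h : IsRMul R Z) : IsRMul R (X ⊗ Z) := by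
  obtain ⟨W, ⟨e⟩⟩ := h
  exact ⟨X ⊗ W, ⟨whiskerLeftIso X e ≪≫ (α_ X R W).symm ≪≫ whiskerRightIso (β_ X R) W ≪≫ α_ R X W⟩⟩

namespace KosData

variable {P : T} [MonObj P] {p : ℤ} {h : ℕ} {v : ℕ → (𝟙_ T ⟶ P)} (D : KosData P p h v)

include D in
/-- the Koszul object is built from objects `R ⊗ W`, if `P` is -/
lemma built_isRMul {R : T} {c : ℕ} (hP : Built (IsRMul R) c P) :
    Built (IsRMul R) (c + c) D.K := by
  have hT : Built (IsRMul R) (c + c) D.Tl := Built.tel D.isTel (fun _ => hP)
  exact hT.tensorLeft (fun W hW => hW.tensor _)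

include D in
/-- the Koszul object is built from finite even complexes, if `P` is -/
lemma built_finEven {c : ℕ} (hP : Built FinEven c P) : ∃ b, Built FinEven b D.K := by
  have hT : Built FinEven (c + c) D.Tl := Built.tel D.isTel (fun _ => hP)
  have hQ : ∀ i, ∃ b, Built FinEven b (D.Q i) := by
    intro i
    match i with
    | 0 => exact ⟨_, Built.cofibre D.dist0 (Built.base FinEven.one) (Built.base FinEven.one)⟩
    | i + 1 => exact ⟨_, Built.cofibre (D.dist i) hP hP⟩
  have hk : ∀ i, ∃ b, Built FinEven b (D.kos i) := by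
    intro i
    induction i with
    | zero => exact ⟨1, Built.base FinEven.one⟩
    | succ i ih =>
      obtain ⟨b, hb⟩ := ih
      obtain ⟨b', hb'⟩ := hQ i
      exact ⟨_, Built.tensor (fun _ _ h h' => h.tensor h') hb hb'⟩
  obtain ⟨b, hb⟩ := hk h
  exact ⟨_, Built.tensor (fun _ _ h h' => h.tensor h') hb hT⟩

end KosData

/-- `P = R ⊗ ∐ S n` with finite even complexes `S n` is built from finite even complexes, if `R` is
a telescope of finite even complexes. -/
lemma built_finEven_of_tel {R : T} {Z : ℕ → T} {f : ∀ n, Z n ⟶ Z (n + 1)} {ι : ∀ n, Z n ⟶ R}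
    (hR : IsTel f ι) (hZ : ∀ n, FinEven (Z n)) {I : Type} (S : I → T) (hS : ∀ i, FinEven (S i)) :
    Built FinEven ((1 + 1) * 1) (R ⊗ ∐ S) :=
  Built.tensor (fun _ _ h h' => h.tensor h') (Built.tel hR (fun n => Built.base (hZ n)))
    (Built.coprod S (fun i => Built.base (hS i)))

namespace UnitCof

variable {R : T} [MonObj R] (U : UnitCof R)

/-- `R ⊗ -` kills the connecting maps of the tower. -/
lemma whisker_tow_c (Y : T) (s : ℕ) : R ◁ (U.tow Y).c s = 0 := by
  refine whisker_eq_zero_of_mono (U.towerTriangle_distinguished s Y) R ?_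
  have : IsSplitMono (R ◁ unitMap R (U.cobar.B s Y)) :=
    ⟨⟨⟨mulMap R _, whiskerLeft_unitMap_mulMap _⟩⟩⟩
  infer_instance

end UnitCof

/-- **S5 for the tower of a monoid `R`** with coefficients in `Y` (`= S/p`), localized at the Koszul
object. -/
theorem converge_monoid {R : T} [MonObj R] (U : UnitCof R) (Y : T) {P : T} [MonObj P] {p : ℤ}
    {h : ℕ} {v : ℕ → (𝟙_ T ⟶ P)} (D : KosData P p h v) (F : LocFunctor D.K)
    {c : ℕ} (hPR : Built (IsRMul R) c P) {c' : ℕ} (hPF : Built FinEven c' P)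
    (hodd : ∀ (s : ℕ) (n : ℤ), (n + s) % 2 = 1 →
      ∀ z : (((U.tow Y).map F.L).couple (𝟙_ T)).E s n, z = 0)
    (s₁ : ℕ) (hvan : ∀ s, s₁ ≤ s → ∀ n : ℤ, (((U.tow Y).map F.L).couple (𝟙_ T)).Van s n)
    (s : ℕ) (hs : s₁ + 1 ≤ s) (n : ℤ)
    (y : (((U.tow Y).map F.L).couple (𝟙_ T)).D (s + 1) n) :
    (((U.tow Y).map F.L).couple (𝟙_ T)).i s n y = 0 := by
  obtain ⟨b, hb⟩ := D.built_finEven hPF
  exact (U.tow Y).converge_couple F (U.whisker_tow_c Y) (D.built_isRMul hPR) hb hodd s₁ hvan
    s hs n y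

end Vale.Agent.P251.S
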