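import Vale.Agent.P251.S.Detect
import Vale.Agent.P251.S.Conv10
import Vale.Agent.P251.S.ModP

/-!
# P251, part S: assembly of the witness

`exists_witness`: from the element `x` of filtration two, the vanishing results at the heights `5`
and `4` and the non-triviality of the powers of the cochain `z` at height `4`, an element
`f : 𝟙⟦m⟧ ⟶ 𝟙` whose image in `L_{K(5)}(S/p)` is zero and whose image in `L_{K(4)}(S/p)` is not zero.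
-/

open CategoryTheory MonoidalCategory Limits Pretriangulated MonObj

open scoped ZeroObject

set_option linter.unusedSectionVars false

universe v u

namespace Vale.Agent.P251.S

open Vale.Agent.P251.T

variable {T : Type u} [Category.{v} T] [Preadditive T] [HasZeroObject T]
    [HasShift T ℤ] [∀ n : ℤ, (shiftFunctor T n).Additive] [Pretriangulated T]
    [MonoidalCategory T] [SymmetricCategory T] [TensorTriangulated T]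

/-- The reduction modulo `p` followed by the localization. -/
noncomputable def locRed {C : T} (i : 𝟙_ T ⟶ C) {K : T} (F : LocFunctor K) :
    𝟭 T ⟶ tensorRight C ⋙ F.L :=
  redC i ≫ Functor.whiskerLeft (tensorRight C) F.unit

lemma locRed_app {C : T} (i : 𝟙_ T ⟶ C) {K : T} (F : LocFunctor K) (Y : T) :
    (locRed i F).app Y = (redC i).app Y ≫ F.unit.app (Y ⊗ C) := rfl

instance locRed_commShift {C : T} (i : 𝟙_ T ⟶ C) {K : T} (F : LocFunctor K) :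
    NatTrans.CommShift (locRed i F) ℤ := by
  have h : NatTrans.CommShift ((Functor.rightUnitor (tensorRight C)).inv ≫
      Functor.whiskerLeft (tensorRight C) F.unit) ℤ := inferInstance
  have e : locRed i F = redC i ≫ (Functor.rightUnitor (tensorRight C)).inv ≫
      Functor.whiskerLeft (tensorRight C) F.unit := by
    ext Y
    change _ = _ ≫ 𝟙 _ ≫ _
    rw [Category.id_comp]
    rfl
  rw [e]
  infer_instance

/-- The image of `f : A ⟶ 𝟙` in `L C`, in terms of `locRed`. -/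
lemma locRed_unit {C : T} (i : 𝟙_ T ⟶ C) {K : T} (F : LocFunctor K) {A : T} (f : A ⟶ 𝟙_ T) :
    f ≫ i ≫ F.unit.app C = (f ≫ (locRed i F).app (𝟙_ T)) ≫ F.L.map (λ_ C).hom := by
  have h1 : (redC i).app (𝟙_ T) ≫ (λ_ C).hom = i := by
    change ((ρ_ (𝟙_ T)).inv ≫ (𝟙_ T ◁ i)) ≫ (λ_ C).hom = i
    rw [Category.assoc, leftUnitor_naturality, unitors_equal, Iso.inv_hom_id_assoc]
  have h2 : (λ_ C).hom ≫ F.unit.app C = F.unit.app (𝟙_ T ⊗ C) ≫ F.L.map (λ_ C).hom :=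
    F.unit.naturality _
  rw [locRed_app, Category.assoc, Category.assoc, ← h2, ← Category.assoc ((redC i).app _), h1]

lemma locRed_unit_eq_zero_iff {C : T} (i : 𝟙_ T ⟶ C) {K : T} (F : LocFunctor K) {A : T}
    (f : A ⟶ 𝟙_ T) : f ≫ i ≫ F.unit.app C = 0 ↔ f ≫ (locRed i F).app (𝟙_ T) = 0 := by
  rw [locRed_unit]
  constructor
  · intro h
    rw [← cancel_mono (F.L.map (λ_ C).hom), h, zero_comp]
  · intro h
    rw [h, zero_comp]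

section Witness

variable [IsTriangulated T] [MonoidalClosed T] [HasCoproducts.{0} T] [HasProducts.{0} T]
  [StableCat T]

/-- The unit `𝟙⟦0⟧ ⟶ 𝟙`. -/
noncomputable def uOne (T : Type u) [Category.{v} T] [HasShift T ℤ] [MonoidalCategory T] :
    (𝟙_ T)⟦(0 : ℤ)⟧ ⟶ 𝟙_ T := (shiftFunctorZero T ℤ).hom.app (𝟙_ T)

/-- **Assembly of the witness.** -/
theorem exists_witness {R : T} [MonObj R] (U : UnitCof R) {C : T} (i : 𝟙_ T ⟶ C)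
    {K₅ K₄ : T} (F₅ : LocFunctor K₅) (F₄ : LocFunctor K₄)
    {a : ℕ} (hKR : Built (IsRMul R) a K₅) {b : ℕ} (hKF : Built FinEven b K₅)
    (x : (𝟙_ T)⟦(40 : ℤ)⟧ ⟶ U.cobar.B 2 (𝟙_ T)) (z : (𝟙_ T)⟦(40 : ℤ)⟧ ⟶ U.cobar.Q 3 (𝟙_ T))
    (hz : z ≫ U.cobar.q 2 (𝟙_ T) = x ≫ unitMap R (U.cobar.B 2 (𝟙_ T)))
    (hdz : z ≫ U.cobar.d 3 (𝟙_ T) = 0)
    (hodd₅ : ∀ (s : ℕ) (n : ℤ), Odd (n + s) →
      ∀ z : (((U.tow (𝟙_ T)).map (tensorRight C ⋙ F₅.L)).couple (𝟙_ T)).E s n, z = 0)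
    (hvan₅ : ∀ s, 26 ≤ s → ∀ n : ℤ,
      (((U.tow (𝟙_ T)).map (tensorRight C ⋙ F₅.L)).couple (𝟙_ T)).Van s n)
    (hodd₄ : ∀ (s : ℕ) (n : ℤ), Odd (n + s) →
      ∀ z : (((U.tow (𝟙_ T)).map (tensorRight C ⋙ F₄.L)).couple (𝟙_ T)).E s n, z = 0)
    (s₀ : ℕ)
    (hvan₄ : ∀ (s : ℕ) (m w : ℤ), m + ((s + 2 : ℕ) : ℤ) = 2 * w → s₀ ≤ s →
      ¬ ((4 : ℤ) ∣ w ∧ ((5 : ℤ) ∣ w ∨ (5 : ℤ) ∣ w + 1)) →
      (((U.tow (𝟙_ T)).map (tensorRight C ⋙ F₄.L)).couple (𝟙_ T)).Van (s + 1) m)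
    (hND : ∀ K : ℕ, ¬ ∃ c' : (𝟙_ T)⟦Couple.Mul2.deg 40 0 (K + 1)⟧ ⟶
      (tensorRight C ⋙ F₄.L).obj (U.cobar.Q (2 * K + 2) (𝟙_ T)),
        c' ≫ (tensorRight C ⋙ F₄.L).map (U.cobar.d (2 * K + 2) (𝟙_ T)) =
          U.zpow (𝟙_ T) z (uOne T ≫ unitMap R (𝟙_ T)) (K + 1) ≫
            (locRed i F₄).app (U.cobar.Q (2 * K + 3) (𝟙_ T))) :
    ∃ (m : ℤ) (f : (𝟙_ T)⟦m⟧ ⟶ 𝟙_ T), f ≫ i ≫ F₅.unit.app C = 0 ∧
      f ≫ i ≫ F₄.unit.app C ≠ 0 := by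
  have hξ : ∀ s, U.ξ 40 x (s + 1) ≫ (U.tow (𝟙_ T)).c (s + 2) =
      ((U.tow (𝟙_ T)).c s)⟦(40 : ℤ)⟧' ≫
        (shiftFunctorComm T (1 : ℤ) 40).hom.app ((U.tow (𝟙_ T)).J s) ≫
        (U.ξ 40 x s)⟦(1 : ℤ)⟧' := fun s => U.ξ_comm_of_even 20 (by norm_num) x s
  let f : ((U.tow (𝟙_ T)).couple (𝟙_ T)).D 0 (Couple.Mul2.deg 38 0 14) :=
    (U.tow (𝟙_ T)).powMap (𝟙_ T) 40 38 (by norm_num) (U.ξ 40 x) hξ (U.uD (𝟙_ T) (uOne T)) 14
  have h₅ : ((U.tow (𝟙_ T)).unitDMor (𝟙_ T) (locRed i F₅)).f 0 _ f = 0 :=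
    (U.tow (𝟙_ T)).partI_loc C F₅ (U.whisker_tow_c _) hKR hKF (locRed i F₅) (U.ξ 40 x) hξ
      (U.uD (𝟙_ T) (uOne T)) hodd₅ hvan₅
  have h₄ : ((U.tow (𝟙_ T)).unitDMor (𝟙_ T) (locRed i F₄)).f 0 _ f ≠ 0 :=
    (U.tow (𝟙_ T)).partII_of_van (𝟙_ T) (locRed i F₄) (U.ξ 40 x) hξ (U.uD (𝟙_ T) (uOne T))
      hodd₄ s₀ hvan₄
      (U.j_pow_ne_zero (𝟙_ T) (by norm_num) x hξ z hz (uOne T) (locRed i F₄) hdz hND)
      (U.not_isCobdy_pow (𝟙_ T) (by norm_num) x hξ z hz (uOne T) (locRed i F₄) hdz hND)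
  refine ⟨Couple.Mul2.deg 38 0 14 + ((0 : ℕ) : ℤ), f, ?_, ?_⟩
  · exact (locRed_unit_eq_zero_iff i F₅ _).2 h₅
  · exact fun h => h₄ ((locRed_unit_eq_zero_iff i F₄ _).1 h)

end Witness

end Vale.Agent.P251.S
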