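import Vale.Agent.P251.S.CupRing
import Vale.Agent.P251.S.MUCobar
import Vale.Agent.P251.S.Final

/-!
# P251, part S (S3): the iterated products of `z` are the cup powers of `b`

If `z : 𝟙⟦k⟧ ⟶ Q 3 𝟙` is the image of `b : Cob Laz 2` under `MUData.phi`, then the iterated
products `U.zpow z K : 𝟙⟦k K⟧ ⟶ Q (2 K + 1) 𝟙` are the images of `cupPow b K`.
-/

open CategoryTheory MonoidalCategory Limits Pretriangulated MonObj

universe v u

namespace Vale.Agent.P251.S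

open Vale.Agent.P251.T Vale.Agent.P251.M Vale.Agent.P251.F Vale.Agent.P251.I

variable {T : Type u} [Category.{v} T] [Preadditive T] [HasZeroObject T] [HasShift T ℤ]
  [∀ n : ℤ, (shiftFunctor T n).Additive] [Pretriangulated T] [MonoidalCategory T]
  [SymmetricCategory T] [TensorTriangulated T] [HasCoproducts.{0} T]

variable {M : MUData T} {U : UnitCof M.R}

/-- `Realizes` in terms of `phi`. -/
lemma realizes_iff {s : ℕ} {w t : ℤ} (α : (stdEven T).S w ≅ (𝟙_ T)⟦t⟧) (c : Cob.wt Laz s w)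
    (f : (𝟙_ T)⟦t⟧ ⟶ U.cobar.Q (s + 1) (𝟙_ T)) :
    Realizes M U α c.1 f ↔ f = α.inv ≫ M.phi U s w c := by
  have h1 : M.phi U s w c = M.evw s w c ≫ (U.θU (s + 1)).inv := rfl
  rw [h1]
  constructor
  · intro h
    rw [M.evw_eq h]
    simp
  · rintro rfl
    rw [Realizes, ← M.of_evw c]
    simp

lemma cupPow_isWt {b : Cob Laz 2} {w : ℤ} (hb : Cob.IsWt w b) (K : ℕ) :
    Cob.IsWt (w * K) (cupPow b K) := by
  induction K with
  | zero =>
    have e : w * ((0 : ℕ) : ℤ) = 0 := by rw [Nat.cast_zero, mul_zero]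
    rw [e]
    exact Cob.isWt_one
  | succ K ih =>
    have h := ih.cup hb
    rwa [show w * ((K + 1 : ℕ) : ℤ) = w * K + w by push_cast; ring]

/-- The iterated products of `z` are the images of the cup powers of `b`. -/
theorem zpow_realizes {w k : ℤ} {b : Cob Laz 2} {β : (stdEven T).S w ≅ (𝟙_ T)⟦k⟧}
    {z : (𝟙_ T)⟦k⟧ ⟶ U.cobar.Q 3 (𝟙_ T)} (hz : Realizes M U β b z)
    (u : (𝟙_ T)⟦(0 : ℤ)⟧ ≅ 𝟙_ T) (K : ℕ) (wK : ℤ) (hK : wK = w * K) :
    ∃ α : (stdEven T).S wK ≅ (𝟙_ T)⟦Couple.Mul2.deg k 0 K⟧,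
      Realizes M U α (cupPow b K) (U.zpow (𝟙_ T) z (u.hom ≫ unitMap M.R (𝟙_ T)) K) := by
  induction K generalizing wK with
  | zero =>
    obtain rfl : wK = 0 := by rw [hK, Nat.cast_zero, mul_zero]
    exact ⟨(stdEven T).zero.symm ≪≫ u.symm, realizes_one u⟩
  | succ K ih =>
    obtain ⟨α, hα⟩ := ih (w * K) rfl
    have hw : w * K + w = wK := by rw [hK]; push_cast; ring
    exact ⟨prodSph α β hw rfl, hα.cup hz hw rfl⟩

/-- The iterated products of `z` are the images of the cup powers of `b`, in terms of `phi`. -/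
theorem zpow_eq_phi {w k : ℤ} {b : Cob Laz 2} (hb : Cob.IsWt w b)
    (e : (𝟙_ T)⟦k⟧ ≅ (stdEven T).S w) (K : ℕ) (wK : ℤ) (hK : wK = w * K)
    (hbK : Cob.IsWt wK (cupPow b K)) :
    ∃ eK : (𝟙_ T)⟦Couple.Mul2.deg k 0 K⟧ ≅ (stdEven T).S wK,
      U.zpow (𝟙_ T) (e.hom ≫ M.phi U 2 w ⟨b, hb⟩) (uOne T ≫ unitMap M.R (𝟙_ T)) K =
        eK.hom ≫ M.phi U (2 * K) wK ⟨cupPow b K, hbK⟩ := by
  obtain ⟨α, hα⟩ := zpow_realizes (M := M) (U := U) (β := e.symm)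
    ((realizes_iff e.symm ⟨b, hb⟩ (e.hom ≫ M.phi U 2 w ⟨b, hb⟩)).2 rfl)
    ((shiftFunctorZero T ℤ).app (𝟙_ T)) K wK hK
  exact ⟨α.symm, (realizes_iff α ⟨cupPow b K, hbK⟩ _).1 hα⟩

end Vale.Agent.P251.S
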