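import Vale.Agent.P251.S.AmitsurCup
import Vale.Agent.P251.I.M
import Vale.Agent.P251.I.F

/-!
# P251, part S (S3): cochains of the cobar complex realizing elements of `Cob Laz s`

`Realizes M U α c f`: the map `f : 𝟙⟦t⟧ ⟶ Q (s+1) 𝟙` is the value of `M.ev s` on the cochain
`c : Cob Laz s`.  Compatibility with differentials and cup products.
-/

open CategoryTheory MonoidalCategory Limits Pretriangulated MonObj

universe v u

namespace Vale.Agent.P251.S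

open Vale.Agent.P251.T Vale.Agent.P251.M Vale.Agent.P251.F Vale.Agent.P251.I

section

variable {T : Type u} [Category.{v} T] [MonoidalCategory T] [SymmetricCategory T]

/-- The product of the front face of `a` with the back face of `b`. -/
lemma gmul_conc (E : EvenSpheres T) (R : T) [MonObj R] [IsCommMonObj R] {w v u : ℤ}
    (h : w + v = u) (s : ℕ) (a : E.S w ⟶ Am R (s + 1)) (b : E.S v ⟶ Am R 3) :
    EvenSpheres.gmul h (a ≫ Am.map R (frontF s)) (b ≫ Am.map R (backF s)) =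
      E.ext h a b ≫ conc R s := by
  rw [conc_eq, descM, EvenSpheres.gmul, EvenSpheres.ext_comp, Category.assoc]

end

variable {T : Type u} [Category.{v} T] [Preadditive T] [HasZeroObject T] [HasShift T ℤ]
  [∀ n : ℤ, (shiftFunctor T n).Additive] [Pretriangulated T] [MonoidalCategory T]
  [SymmetricCategory T] [TensorTriangulated T]

namespace UnitCof

variable {R : T} [MonObj R] [IsCommMonObj R] (U : UnitCof R)

/-- The differential in terms of the cofaces of `n ↦ R^{⊗ n}`. -/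
@[reassoc]
lemma d_θU (n : ℕ) : U.cobar.d n (𝟙_ T) ≫ (U.θU (n + 1)).hom =
    (U.θU n).hom ≫ ∑ i : Fin (n + 1), (-1 : ℤ) ^ (i : ℕ) •
      Am.map R (Fin.succAbove i : Fin n → Fin (n + 1)) := by
  rw [θU, θU, Iso.trans_hom, Iso.trans_hom, Category.assoc, ← Category.assoc, d_θ]
  simp only [Category.assoc]
  congr 1
  rw [Preadditive.sum_comp, Preadditive.comp_sum]
  refine Finset.sum_congr rfl fun i _ => ?_
  rw [Preadditive.zsmul_comp, Preadditive.comp_zsmul, rightUnitor_naturality]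

omit [IsCommMonObj R] in
lemma unitMap_θU : unitMap R (𝟙_ T) ≫ (U.θU 1).hom = η[Am R 1] := by
  have h1 := U.lam_θ 0 (𝟙_ T)
  have h2 : U.cobar.lam 0 (𝟙_ T) = unitMap R (𝟙_ T) := rfl
  rw [h2] at h1
  rw [θU, Iso.trans_hom, reassoc_of% h1, rightUnitor_naturality]
  have h3 : (U.θ 0 (𝟙_ T)).hom = (λ_ (𝟙_ T)).inv := rfl
  have h4 : η[Am R 1] = (λ_ (𝟙_ T)).inv ≫ (η[𝟙_ T] ⊗ₘ η[R]) := rfl
  have h5 : η[(𝟙_ T)] = 𝟙 (𝟙_ T) := rfl
  rw [h3, h4, h5, id_tensorHom, inlM, unitors_inv_equal, Iso.inv_hom_id_assoc]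

end UnitCof

variable [HasCoproducts.{0} T]

/-- The isomorphism `S^{2w'} ≅ 𝟙⟦t'⟧` obtained from `S^{2w} ≅ 𝟙⟦t⟧` and `S^{2v} ≅ 𝟙⟦k⟧`. -/
noncomputable def prodSph {w v w' t k t' : ℤ} (α : (stdEven T).S w ≅ (𝟙_ T)⟦t⟧)
    (β : (stdEven T).S v ≅ (𝟙_ T)⟦k⟧) (hw : w + v = w') (ht : t + k = t') :
    (stdEven T).S w' ≅ (𝟙_ T)⟦t'⟧ :=
  ((stdEven T).mu w v w' hw).symm ≪≫ (α ⊗ᵢ β) ≪≫ tensorSph k ((𝟙_ T)⟦t⟧) ≪≫
    ((shiftFunctorAdd' T t k t' ht).app (𝟙_ T)).symm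

variable (M : MUData T) (U : UnitCof M.R)

/-- `f : 𝟙⟦t⟧ ⟶ Q (s+1) 𝟙` realizes the cochain `c`. -/
def Realizes {s : ℕ} {w t : ℤ} (α : (stdEven T).S w ≅ (𝟙_ T)⟦t⟧) (c : Cob Laz s)
    (f : (𝟙_ T)⟦t⟧ ⟶ U.cobar.Q (s + 1) (𝟙_ T)) : Prop :=
  M.ev s c = HRing.of (stdEven T) (Am M.R (s + 1)) w (α.hom ≫ f ≫ (U.θU (s + 1)).hom)

variable {M U}

lemma exists_realizes {s : ℕ} {w t : ℤ} (α : (stdEven T).S w ≅ (𝟙_ T)⟦t⟧) {c : Cob Laz s}
    (hc : Cob.IsWt w c) :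
    ∃ f : (𝟙_ T)⟦t⟧ ⟶ U.cobar.Q (s + 1) (𝟙_ T), Realizes M U α c f := by
  obtain ⟨a, ha⟩ := M.ev_wt s w c hc
  refine ⟨α.inv ≫ a ≫ (U.θU (s + 1)).inv, ?_⟩
  rw [Realizes, ha]
  simp

lemma Realizes.unique {s : ℕ} {w t : ℤ} {α : (stdEven T).S w ≅ (𝟙_ T)⟦t⟧} {c : Cob Laz s}
    {f g : (𝟙_ T)⟦t⟧ ⟶ U.cobar.Q (s + 1) (𝟙_ T)} (hf : Realizes M U α c f)
    (hg : Realizes M U α c g) : f = g := by
  have h : HRing.of (stdEven T) (Am M.R (s + 1)) w (α.hom ≫ f ≫ (U.θU (s + 1)).hom) =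
      HRing.of (stdEven T) (Am M.R (s + 1)) w (α.hom ≫ g ≫ (U.θU (s + 1)).hom) :=
    hf.symm.trans hg
  have h' := DirectSum.of_injective _ h
  rwa [cancel_epi, cancel_mono] at h'

lemma Realizes.add {s : ℕ} {w t : ℤ} {α : (stdEven T).S w ≅ (𝟙_ T)⟦t⟧} {c d : Cob Laz s}
    {f g : (𝟙_ T)⟦t⟧ ⟶ U.cobar.Q (s + 1) (𝟙_ T)} (hf : Realizes M U α c f)
    (hg : Realizes M U α d g) : Realizes M U α (c + d) (f + g) := by
  rw [Realizes, map_add, hf, hg, Preadditive.add_comp, Preadditive.comp_add, ← map_add]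

lemma Realizes.zsmul {s : ℕ} {w t : ℤ} {α : (stdEven T).S w ≅ (𝟙_ T)⟦t⟧} {c : Cob Laz s}
    {f : (𝟙_ T)⟦t⟧ ⟶ U.cobar.Q (s + 1) (𝟙_ T)} (n : ℤ) (hf : Realizes M U α c f) :
    Realizes M U α (n • c) (n • f) := by
  rw [Realizes, map_zsmul, hf, Preadditive.zsmul_comp, Preadditive.comp_zsmul, ← map_zsmul]

lemma Realizes.neg {s : ℕ} {w t : ℤ} {α : (stdEven T).S w ≅ (𝟙_ T)⟦t⟧} {c : Cob Laz s}
    {f : (𝟙_ T)⟦t⟧ ⟶ U.cobar.Q (s + 1) (𝟙_ T)} (hf : Realizes M U α c f) :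
    Realizes M U α (-c) (-f) := by
  rw [Realizes, map_neg, hf, Preadditive.neg_comp, Preadditive.comp_neg, ← map_neg]

lemma realizes_zero {s : ℕ} {w t : ℤ} (α : (stdEven T).S w ≅ (𝟙_ T)⟦t⟧) :
    Realizes M U α (0 : Cob Laz s) 0 := by
  rw [Realizes, map_zero, zero_comp, comp_zero]
  exact (map_zero (DirectSum.of ((stdEven T).Gr (Am M.R (s + 1))) w)).symm

/-- Change of the identification of the spheres. -/
lemma Realizes.precomp {s : ℕ} {w t : ℤ} {α β : (stdEven T).S w ≅ (𝟙_ T)⟦t⟧} {c : Cob Laz s}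
    {f : (𝟙_ T)⟦t⟧ ⟶ U.cobar.Q (s + 1) (𝟙_ T)} (hf : Realizes M U α c f) :
    Realizes M U β c ((β.inv ≫ α.hom) ≫ f) := by
  rw [Realizes, hf]
  simp

/-- The unit cochain. -/
lemma realizes_one {t : ℤ} (u : (𝟙_ T)⟦t⟧ ≅ 𝟙_ T) :
    Realizes M U ((stdEven T).zero.symm ≪≫ u.symm) (1 : Cob Laz 0)
      (u.hom ≫ unitMap M.R (𝟙_ T)) := by
  rw [Realizes, map_one, ← of_one, Category.assoc, UnitCof.unitMap_θU, Iso.trans_hom,
    Category.assoc, Iso.symm_hom, Iso.symm_hom, Iso.inv_hom_id_assoc]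

/-- Compatibility with the differentials. -/
lemma Realizes.d {s : ℕ} {w t : ℤ} {α : (stdEven T).S w ≅ (𝟙_ T)⟦t⟧} {c : Cob Laz s}
    {f : (𝟙_ T)⟦t⟧ ⟶ U.cobar.Q (s + 1) (𝟙_ T)} (hf : Realizes M U α c f) :
    Realizes M U α (Cob.d s c) (f ≫ U.cobar.d (s + 1) (𝟙_ T)) := by
  rw [Realizes, Cob.d_apply, map_sum, Category.assoc, UnitCof.d_θU, Preadditive.comp_sum,
    Preadditive.comp_sum, Preadditive.comp_sum]
  refine Eq.trans ?_ (map_sum (DirectSum.of ((stdEven T).Gr (Am M.R (s + 1 + 1))) w) _ _).symm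
  refine Finset.sum_congr rfl fun i _ => ?_
  rw [map_zsmul, ← M.ev_map, hf, HRing.map_of, Preadditive.comp_zsmul, Preadditive.comp_zsmul,
    Preadditive.comp_zsmul, map_zsmul]
  simp only [Category.assoc]

/-- Compatibility with the cup product. -/
lemma Realizes.cup {s : ℕ} {w v w' t k t' : ℤ} {α : (stdEven T).S w ≅ (𝟙_ T)⟦t⟧}
    {β : (stdEven T).S v ≅ (𝟙_ T)⟦k⟧} {c : Cob Laz s} {b : Cob Laz 2}
    {f : (𝟙_ T)⟦t⟧ ⟶ U.cobar.Q (s + 1) (𝟙_ T)} {z : (𝟙_ T)⟦k⟧ ⟶ U.cobar.Q 3 (𝟙_ T)}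
    (hf : Realizes M U α c f) (hz : Realizes M U β b z) (hw : w + v = w') (ht : t + k = t') :
    Realizes M U (prodSph α β hw ht) (Cob.cup c b) (sh t k t' ht f ≫ U.cupQ k z s) := by
  have h1 : M.ev (s + 2) (Cob.map (Cob.front s 2) c) =
      HRing.of (stdEven T) (Am M.R (s + 3)) w
        ((α.hom ≫ f ≫ (U.θU (s + 1)).hom) ≫ Am.map M.R (frontF s)) := by
    rw [← M.ev_map, hf, HRing.map_of]
    rfl
  have h2 : M.ev (s + 2) (Cob.map (Cob.back s 2) b) =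
      HRing.of (stdEven T) (Am M.R (s + 3)) v
        ((β.hom ≫ z ≫ (U.θU 3).hom) ≫ Am.map M.R (backF s)) := by
    rw [← M.ev_map, hz, HRing.map_of]
    rfl
  have h3 : (prodSph α β hw ht).hom ≫ (sh t k t' ht f ≫ U.cupQ k z s) ≫ (U.θU (s + 3)).hom =
      (stdEven T).ext hw (α.hom ≫ f ≫ (U.θU (s + 1)).hom) (β.hom ≫ z ≫ (U.θU 3).hom) ≫
        conc M.R s := by
    have h4 := U.cupQ_conc k s f z
    simp only [prodSph, Iso.trans_hom, Iso.symm_hom, Iso.app_inv, sh, AddEquiv.coe_mk,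
      Equiv.coe_fn_mk, Category.assoc, Iso.inv_hom_id_app_assoc]
    rw [h4, Iso.hom_inv_id_assoc, EvenSpheres.ext, tensorIso_hom,
      tensorHom_comp_tensorHom_assoc, Category.assoc]
  rw [Realizes, Cob.cup, map_mul]
  refine (congrArg₂ (· * ·) h1 h2).trans ?_
  refine (of_mul_of hw _ _).trans ?_
  rw [gmul_conc, ← h3]

end Vale.Agent.P251.S
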