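import Vale.Agent.P251.S.CobarE1
import Vale.Agent.P251.S.Witness

/-!
# P251, part S6(II): from the tower to the cobar complex

`U : UnitCof R`, `X = U.tow 𝟙`, `x : 𝟙⟦k⟧ ⟶ B 2 𝟙`, `k = a + 2`, with a cochain
`z : 𝟙⟦k⟧ ⟶ Q 3 𝟙` such that `z ≫ q 2 = x ≫ unit`.

* `U.zpow` : the iterated cup products `z_K : P⟦k K⟧ ⟶ Q (2 K + 1) 𝟙` of `z`;
* `U.eD_pow` : the image in `E_1` of the power `x^K u` is the image of `z_K`;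
* `U.detect` : if, after applying `F`, no `z_K` (`K ≥ 1`) is a coboundary in the cobar complex, then
  the hypotheses `hdet`, `hdet'` of the detection theorem hold.
-/

open CategoryTheory MonoidalCategory Limits Pretriangulated MonObj Opposite

set_option linter.unusedSectionVars false

universe v u

namespace Vale.Agent.P251.S

open Vale.Agent.P251.T

variable {T : Type u} [Category.{v} T] [Preadditive T] [HasZeroObject T] [HasShift T ℤ]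
  [∀ n : ℤ, (shiftFunctor T n).Additive] [Pretriangulated T] [MonoidalCategory T]
  [SymmetricCategory T] [TensorTriangulated T]

lemma nat_aux_detect {F : T ⥤ T} (τ : 𝟭 T ⟶ F) {A J W Q : T} (y : A ⟶ J) (c : A ⟶ Q) (a : J ⟶ W)
    (q : Q ⟶ W) (hy : y ≫ a = c ≫ q) :
    (y ≫ τ.app J) ≫ F.map a = (c ≫ τ.app Q) ≫ F.map q := by
  have h3 : a ≫ τ.app W = τ.app J ≫ F.map a := τ.naturality a
  have h4 : q ≫ τ.app W = τ.app Q ≫ F.map q := τ.naturality q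
  rw [Category.assoc, ← h3, Category.assoc, ← h4, reassoc_of% hy]

namespace UnitCof

variable {R : T} [MonObj R] (U : UnitCof R) (P : T)

/-- The iterated cup products with a cochain `z` of degree two. -/
noncomputable def zpow {k : ℤ} (z : (𝟙_ T)⟦k⟧ ⟶ U.cobar.Q 3 (𝟙_ T))
    (z₀ : P⟦(0 : ℤ)⟧ ⟶ U.cobar.Q 1 (𝟙_ T)) :
    ∀ K : ℕ, P⟦Couple.Mul2.deg k 0 K⟧ ⟶ U.cobar.Q (2 * K + 1) (𝟙_ T)
  | 0 => z₀
  | K + 1 => sh (Couple.Mul2.deg k 0 K) k (Couple.Mul2.deg k 0 (K + 1)) rfl (zpow z z₀ K) ≫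
      U.cupQ k z (2 * K)

lemma zpow_succ {k : ℤ} (z : (𝟙_ T)⟦k⟧ ⟶ U.cobar.Q 3 (𝟙_ T))
    (z₀ : P⟦(0 : ℤ)⟧ ⟶ U.cobar.Q 1 (𝟙_ T)) (K : ℕ) :
    U.zpow P z z₀ (K + 1) =
      sh (Couple.Mul2.deg k 0 K) k (Couple.Mul2.deg k 0 (K + 1)) rfl (U.zpow P z z₀ K) ≫
        U.cupQ k z (2 * K) := rfl

lemma deg_add {k a : ℤ} (hk : k = a + 2) (K : ℕ) :
    Couple.Mul2.deg a 0 K + ((2 * K : ℕ) : ℤ) = Couple.Mul2.deg k 0 K := by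
  rw [Couple.Mul2.deg_eq, Couple.Mul2.deg_eq, hk]
  push_cast
  ring

/-- The connecting maps and the multiplication, for an even `k`. -/
lemma ξ_comm_of_even {k : ℤ} (n : ℕ) (hn : k = 2 * (n : ℤ)) {Y Z : T}
    (x : Y⟦k⟧ ⟶ U.cobar.B 2 Z) (s : ℕ) :
    U.ξ k x (s + 1) ≫ U.bd (s + 2) Z = (U.bd s Y)⟦k⟧' ≫
      (shiftFunctorComm T (1 : ℤ) k).hom.app (U.cobar.B s Y) ≫ (U.ξ k x s)⟦(1 : ℤ)⟧' := by
  subst hn
  exact U.ξ_comm n x s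

/-- One multiplication. -/
lemma step_pow {k : ℤ} {Y : T} (x : Y⟦k⟧ ⟶ U.cobar.B 2 Y) (z : Y⟦k⟧ ⟶ U.cobar.Q 3 Y)
    (hz : z ≫ U.cobar.q 2 Y = x ≫ unitMap R (U.cobar.B 2 Y)) (s : ℕ) {t t' : ℤ}
    (h : t + k = t') (y : P⟦t⟧ ⟶ U.cobar.B s Y) (c : P⟦t⟧ ⟶ U.cobar.Q (s + 1) Y)
    (hy : y ≫ unitMap R (U.cobar.B s Y) = c ≫ U.cobar.q s Y) :
    (sh t k t' h y ≫ U.ξ k x s) ≫ unitMap R (U.cobar.B (s + 2) Y) =
      (sh t k t' h c ≫ U.cupQ k z s) ≫ U.cobar.q (s + 2) Y := by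
  have h3 := U.unitMap_ξW k x s
  have h4 := U.cupQ_q k z x hz s
  have h5 := congrArg (fun y => sh t k t' h y ≫ U.ξW k x s) hy
  simp only [sh_comp, Category.assoc] at h5
  rw [Category.assoc, Category.assoc, ← h3, h4]
  exact h5

section

variable {k a : ℤ} (hk : k = a + 2) (x : (𝟙_ T)⟦k⟧ ⟶ U.cobar.B 2 (𝟙_ T))
  (hξ : ∀ s, U.ξ k x (s + 1) ≫ (U.tow (𝟙_ T)).c (s + 2) =
      ((U.tow (𝟙_ T)).c s)⟦k⟧' ≫ (shiftFunctorComm T (1 : ℤ) k).hom.app ((U.tow (𝟙_ T)).J s) ≫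
        (U.ξ k x s)⟦(1 : ℤ)⟧')
  (z : (𝟙_ T)⟦k⟧ ⟶ U.cobar.Q 3 (𝟙_ T))
  (hz : z ≫ U.cobar.q 2 (𝟙_ T) = x ≫ unitMap R (U.cobar.B 2 (𝟙_ T)))
  (u₀ : P⟦(0 : ℤ)⟧ ⟶ 𝟙_ T)

/-- The element of `D^0_0` given by a map `P⟦0⟧ ⟶ 𝟙`. -/
noncomputable def uD (u₀ : P⟦(0 : ℤ)⟧ ⟶ 𝟙_ T) : ((U.tow (𝟙_ T)).couple P).D 0 0 :=
  ((U.tow (𝟙_ T)).eD P (s := 0) (n := 0) (t := 0) (by norm_num)).symm u₀

include hz in
/-- The image in `E_1` of the power `x^K u` is the image of the cochain `z_K`. -/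
theorem eD_pow (K : ℕ) :
    (U.tow (𝟙_ T)).eD P (deg_add hk K)
        (((U.tow (𝟙_ T)).mul2 P k a hk (U.ξ k x) hξ).pow (U.uD P u₀) K) ≫
      unitMap R (U.cobar.B (2 * K) (𝟙_ T)) =
      U.zpow P z (u₀ ≫ unitMap R (𝟙_ T)) K ≫ U.cobar.q (2 * K) (𝟙_ T) := by
  induction K with
  | zero =>
    have h : (U.tow (𝟙_ T)).eD P (deg_add hk 0)
        (((U.tow (𝟙_ T)).mul2 P k a hk (U.ξ k x) hξ).pow (U.uD P u₀) 0) = u₀ :=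
      AddEquiv.apply_symm_apply _ u₀
    rw [h]
    exact (Category.comp_id _).symm
  | succ K ih =>
    have h1 := (U.tow (𝟙_ T)).eD_μ P k a hk (U.ξ k x) hξ (deg_add hk K)
      (deg_add hk (K + 1)) (t' := Couple.Mul2.deg k 0 (K + 1)) rfl
      (((U.tow (𝟙_ T)).mul2 P k a hk (U.ξ k x) hξ).pow (U.uD P u₀) K)
    have h2 : (U.tow (𝟙_ T)).eD P (deg_add hk (K + 1))
        (((U.tow (𝟙_ T)).mul2 P k a hk (U.ξ k x) hξ).pow (U.uD P u₀) (K + 1)) =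
        sh (Couple.Mul2.deg k 0 K) k (Couple.Mul2.deg k 0 (K + 1)) rfl
          ((U.tow (𝟙_ T)).eD P (deg_add hk K)
            (((U.tow (𝟙_ T)).mul2 P k a hk (U.ξ k x) hξ).pow (U.uD P u₀) K)) ≫
          U.ξ k x (2 * K) := h1
    exact (congrArg (fun y => y ≫ unitMap R (U.cobar.B (2 * (K + 1)) (𝟙_ T))) h2).trans
      (U.step_pow P x z hz (2 * K) rfl _ _ ih)

lemma z₀_d : (u₀ ≫ unitMap R (𝟙_ T)) ≫ U.cobar.d 1 (𝟙_ T) = 0 := by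
  have h : unitMap R (𝟙_ T) ≫ U.cobar.d 1 (𝟙_ T) = 0 := U.cobar.d_d 0 (𝟙_ T)
  rw [Category.assoc, h, comp_zero]

/-- The products of cocycles are cocycles. -/
lemma zpow_d (hdz : z ≫ U.cobar.d 3 (𝟙_ T) = 0) (z₀ : P⟦(0 : ℤ)⟧ ⟶ U.cobar.Q 1 (𝟙_ T))
    (h₀ : z₀ ≫ U.cobar.d 1 (𝟙_ T) = 0) (K : ℕ) :
    U.zpow P z z₀ K ≫ U.cobar.d (2 * K + 1) (𝟙_ T) = 0 := by
  induction K with
  | zero => exact h₀
  | succ K ih =>
    have h1 := U.cupQ_d k z hdz (2 * K)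
    have h2 : sh (Couple.Mul2.deg k 0 K) k (Couple.Mul2.deg k 0 (K + 1)) rfl
        (U.zpow P z z₀ K) ≫ (U.cobar.d (2 * K + 1) (𝟙_ T))⟦k⟧' = 0 := by
      have := congrArg (sh (P := P) (Couple.Mul2.deg k 0 K) k (Couple.Mul2.deg k 0 (K + 1)) rfl) ih
      rw [map_zero] at this
      exact (sh_comp _ _ _ _ _ _).symm.trans this
    calc U.zpow P z z₀ (K + 1) ≫ U.cobar.d (2 * K + 3) (𝟙_ T)
        = sh (Couple.Mul2.deg k 0 K) k (Couple.Mul2.deg k 0 (K + 1)) rfl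
          (U.zpow P z z₀ K) ≫ U.cupQ k z (2 * K) ≫ U.cobar.d (2 * K + 3) (𝟙_ T) :=
          Category.assoc _ _ _
      _ = (sh (Couple.Mul2.deg k 0 K) k (Couple.Mul2.deg k 0 (K + 1)) rfl
          (U.zpow P z z₀ K) ≫ (U.cobar.d (2 * K + 1) (𝟙_ T))⟦k⟧') ≫ U.cupQ k z (2 * K + 1) := by
          rw [Category.assoc]
          exact congrArg _ h1
      _ = 0 := by rw [h2, zero_comp]

variable {F : T ⥤ T} [F.CommShift ℤ] [F.IsTriangulated] (τ : 𝟭 T ⟶ F) [NatTrans.CommShift τ ℤ]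

/-- the powers in the tower `F X` -/
lemma map_pow (K : ℕ) :
    ((U.tow (𝟙_ T)).mapMul2 P F k a hk (U.ξ k x) hξ).pow
        (((U.tow (𝟙_ T)).unitDMor P τ).f 0 0 (U.uD P u₀)) K =
      ((U.tow (𝟙_ T)).unitDMor P τ).f (2 * K) (Couple.Mul2.deg a 0 K)
        (((U.tow (𝟙_ T)).mul2 P k a hk (U.ξ k x) hξ).pow (U.uD P u₀) K) :=
  Couple.DMor.pow_comm ((U.tow (𝟙_ T)).unitDMor P τ) ((U.tow (𝟙_ T)).mul2 P k a hk (U.ξ k x) hξ)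
    ((U.tow (𝟙_ T)).mapMul2 P F k a hk (U.ξ k x) hξ)
    (fun s n y => (U.tow (𝟙_ T)).muMap_unitMor P τ k a hk (U.ξ k x) s n y) _ K

include hz in
/-- The image in `E_1` of the powers, after applying `F`. -/
lemma eE_j_pow (K : ℕ) :
    ((U.tow (𝟙_ T)).map F).eE P (deg_add hk K) ((((U.tow (𝟙_ T)).map F).couple P).j _ _
      (((U.tow (𝟙_ T)).mapMul2 P F k a hk (U.ξ k x) hξ).pow
        (((U.tow (𝟙_ T)).unitDMor P τ).f 0 0 (U.uD P u₀)) K)) =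
      (U.zpow P z (u₀ ≫ unitMap R (𝟙_ T)) K ≫ τ.app (U.cobar.Q (2 * K + 1) (𝟙_ T))) ≫
        F.map (U.cobar.q (2 * K) (𝟙_ T)) := by
  rw [U.map_pow P hk x hξ u₀ τ K]
  refine (((U.tow (𝟙_ T)).map F).eE_j P (deg_add hk K) _).trans ?_
  have h1 := ((U.tow (𝟙_ T)).unitMor τ).eD_fD P (deg_add hk K)
    (((U.tow (𝟙_ T)).mul2 P k a hk (U.ξ k x) hξ).pow (U.uD P u₀) K)
  refine (congrArg (fun y => y ≫ F.map (unitMap R (U.cobar.B (2 * K) (𝟙_ T)))) h1).trans ?_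
  exact nat_aux_detect τ _ _ _ _ (U.eD_pow P hk x hξ z hz u₀ K)

include hz in
/-- From the cobar complex to the `E_1`-term: no power is a coboundary. -/
theorem not_isCobdy_pow (hdz : z ≫ U.cobar.d 3 (𝟙_ T) = 0)
    (hND : ∀ K : ℕ, ¬ ∃ c' : P⟦Couple.Mul2.deg k 0 (K + 1)⟧ ⟶
      F.obj (U.cobar.Q (2 * K + 2) (𝟙_ T)), c' ≫ F.map (U.cobar.d (2 * K + 2) (𝟙_ T)) =
        U.zpow P z (u₀ ≫ unitMap R (𝟙_ T)) (K + 1) ≫ τ.app (U.cobar.Q (2 * K + 3) (𝟙_ T)))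
    (K s : ℕ) (h : s + 1 = 2 * K) :
    ¬ (((U.tow (𝟙_ T)).map F).couple P).IsCobdy (h ▸ (((U.tow (𝟙_ T)).map F).couple P).j _ _
      (((U.tow (𝟙_ T)).mapMul2 P F k a hk (U.ξ k x) hξ).pow
        (((U.tow (𝟙_ T)).unitDMor P τ).f 0 0 (U.uD P u₀)) K) :
          (((U.tow (𝟙_ T)).map F).couple P).E (s + 1) (Couple.Mul2.deg a 0 K)) := by
  obtain ⟨K, rfl⟩ : ∃ K', K = K' + 1 := ⟨K - 1, by omega⟩
  obtain rfl : s = 2 * K + 1 := by omega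
  intro hb
  change (((U.tow (𝟙_ T)).map F).couple P).IsCobdy ((((U.tow (𝟙_ T)).map F).couple P).j
    (2 * K + 2) (Couple.Mul2.deg a 0 (K + 1))
      (((U.tow (𝟙_ T)).mapMul2 P F k a hk (U.ξ k x) hξ).pow
        (((U.tow (𝟙_ T)).unitDMor P τ).f 0 0 (U.uD P u₀)) (K + 1))) at hb
  obtain ⟨e, he⟩ := hb
  have h1 : (Couple.Mul2.deg a 0 (K + 1) + 1) + ((2 * K + 1 : ℕ) : ℤ) =
      Couple.Mul2.deg k 0 (K + 1) := by
    rw [← deg_add hk (K + 1)]; push_cast; ring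
  have h2 := ((U.tow (𝟙_ T)).map F).eE_d P rfl h1 (deg_add hk (K + 1)) e
  have h3 := U.eE_j_pow P hk x hξ z hz u₀ τ (K + 1)
  apply hND K
  have hc : CobarData.ev (homF F P (Couple.Mul2.deg k 0 (K + 1)))
      (U.cobar.d (2 * K + 3) (𝟙_ T)) (U.zpow P z (u₀ ≫ unitMap R (𝟙_ T)) (K + 1) ≫
        τ.app (U.cobar.Q (2 * K + 3) (𝟙_ T))) = 0 := by
    have h5 := U.zpow_d P z hdz (u₀ ≫ unitMap R (𝟙_ T)) (U.z₀_d P u₀) (K + 1)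
    have h6 : (U.zpow P z (u₀ ≫ unitMap R (𝟙_ T)) (K + 1)) ≫ U.cobar.d (2 * K + 3) (𝟙_ T) =
      (0 : P⟦Couple.Mul2.deg k 0 (K + 1)⟧ ⟶ U.cobar.Q (2 * K + 3) (𝟙_ T)) ≫
        U.cobar.d (2 * K + 3) (𝟙_ T) := h5.trans zero_comp.symm
    have h7 := nat_aux_detect τ (U.zpow P z (u₀ ≫ unitMap R (𝟙_ T)) (K + 1))
      (0 : P⟦Couple.Mul2.deg k 0 (K + 1)⟧ ⟶ U.cobar.Q (2 * K + 3) (𝟙_ T)) _ _ h6
    exact h7.trans (by rw [zero_comp, zero_comp]; rfl)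
  have he' : CobarData.ev (homF F P (Couple.Mul2.deg k 0 (K + 1)))
      (U.cobar.q (2 * K + 2) (𝟙_ T)) (U.zpow P z (u₀ ≫ unitMap R (𝟙_ T)) (K + 1) ≫
        τ.app (U.cobar.Q (2 * K + 3) (𝟙_ T))) =
      CobarData.ev (homF F P (Couple.Mul2.deg k 0 (K + 1))) (U.cobar.D (2 * K + 1) (𝟙_ T))
        (((U.tow (𝟙_ T)).map F).eE P h1 e) := by
    refine h3.symm.trans ?_
    have h7 := congrArg (((U.tow (𝟙_ T)).map F).eE P (deg_add hk (K + 1))) he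
    refine h7.symm.trans (h2.trans ?_)
    exact congrArg _ (F.map_comp _ _).symm
  obtain ⟨c', hc', -⟩ := U.cobar.exists_cobdy (F := homF F P (Couple.Mul2.deg k 0 (K + 1)))
    (2 * K + 1) (𝟙_ T) _ hc _ he'
  exact ⟨c', hc'⟩

include hz in
/-- No power has zero image in the `E_1`-term. -/
theorem j_pow_ne_zero (hdz : z ≫ U.cobar.d 3 (𝟙_ T) = 0)
    (hND : ∀ K : ℕ, ¬ ∃ c' : P⟦Couple.Mul2.deg k 0 (K + 1)⟧ ⟶
      F.obj (U.cobar.Q (2 * K + 2) (𝟙_ T)), c' ≫ F.map (U.cobar.d (2 * K + 2) (𝟙_ T)) =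
        U.zpow P z (u₀ ≫ unitMap R (𝟙_ T)) (K + 1) ≫ τ.app (U.cobar.Q (2 * K + 3) (𝟙_ T)))
    (K : ℕ) :
    (((U.tow (𝟙_ T)).map F).couple P).j _ _
      (((U.tow (𝟙_ T)).mapMul2 P F k a hk (U.ξ k x) hξ).pow
        (((U.tow (𝟙_ T)).unitDMor P τ).f 0 0 (U.uD P u₀)) K) ≠ 0 := by
  intro h0
  obtain ⟨w, hw⟩ := (((U.tow (𝟙_ T)).map F).couple P).exact_j _ _ _ h0
  have h1 := ((U.tow (𝟙_ T)).mapMul2 P F k a hk (U.ξ k x) hξ).i_μ _ _ w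
  rw [hw] at h1
  apply U.not_isCobdy_pow P hk x hξ z hz u₀ τ hdz hND (K + 1) (2 * K + 1) rfl
  refine ⟨0, ?_⟩
  rw [map_zero]
  change 0 = (((U.tow (𝟙_ T)).map F).couple P).j (2 * K + 2) _
    (((U.tow (𝟙_ T)).mapMul2 P F k a hk (U.ξ k x) hξ).μ (2 * K) _
      (((U.tow (𝟙_ T)).mapMul2 P F k a hk (U.ξ k x) hξ).pow
        (((U.tow (𝟙_ T)).unitDMor P τ).f 0 0 (U.uD P u₀)) K))
  rw [← h1, Couple.j_i]

end

end UnitCof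

end Vale.Agent.P251.S
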