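import Vale.Agent.P251.S.E1a

/-!
# P251, part S2: the odd vanishing `Good` follows from regularity

If `π_*(N ⊗ P^{⊗m})` is even and `v_i, …, v_{h-1}` is a regular sequence on it, `v_0, …, v_{i-1}`
acting by zero, then `Good P v i (h - i) N`.
-/

open CategoryTheory MonoidalCategory Limits MonObj Pretriangulated

set_option linter.unusedSectionVars false

universe v u

namespace Vale.Agent.P251.S

open T

section rp

variable {T : Type u} [Category.{v} T] [MonoidalCategory T] (P : T)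

/-- `N ⊗ P ⊗ ⋯ ⊗ P` (`m` factors `P`). -/
def rp : ℕ → T → T
  | 0, N => N
  | m + 1, N => rp m (N ⊗ P)

/-- The functoriality of `rp`. -/
def rmap : ∀ (m : ℕ) {N N' : T} (_ : N ⟶ N'), rp P m N ⟶ rp P m N'
  | 0, _, _, f => f
  | m + 1, _, _, f => rmap m (f ▷ P)

theorem rmap_id (m : ℕ) : ∀ (N : T), rmap P m (𝟙 N) = 𝟙 (rp P m N) := by
  induction m with
  | zero => intro N; rfl
  | succ m ih => intro N; unfold rmap; rw [id_whiskerRight, ih]; rfl

theorem rmap_comp (m : ℕ) : ∀ {N N' N'' : T} (f : N ⟶ N') (g : N' ⟶ N''),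
    rmap P m (f ≫ g) = rmap P m f ≫ rmap P m g := by
  induction m with
  | zero => intros; rfl
  | succ m ih =>
    intro N N' N'' f g
    unfold rmap
    rw [comp_whiskerRight, ih]
    rfl

variable {P}

/-- The module structure on `N ⊗ P ⊗ ⋯ ⊗ P` coming from `N`. -/
def ModStr.rp {R : T} [MonObj R] (P : T) : ∀ (m : ℕ) {N : T} (_ : ModStr R N),
    ModStr R (Vale.Agent.P251.S.rp P m N)
  | 0, _, M => M
  | m + 1, _, M => ModStr.rp P m (M.tensorRight P)

theorem ModStr.rp_smul {R : T} [MonObj R] (m : ℕ) : ∀ {N : T} (M : ModStr R N) (a : 𝟙_ T ⟶ R),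
    (M.rp P m).smul a = rmap P m (M.smul a) := by
  induction m with
  | zero => intros; rfl
  | succ m ih =>
    intro N M a
    refine (ih (M.tensorRight P) a).trans ?_
    rw [ModStr.tensorRight_smul]
    rfl

end rp

variable {T : Type u} [Category.{v} T] [Preadditive T] [HasZeroObject T] [HasShift T ℤ]
  [∀ n : ℤ, (shiftFunctor T n).Additive] [Pretriangulated T]
  [MonoidalCategory T] [SymmetricCategory T] [TensorTriangulated T]

theorem rp_dist (P : T) (m : ℕ) : ∀ {X Y Z : T} {f : X ⟶ Y} {g : Y ⟶ Z} {h : Z ⟶ X⟦(1 : ℤ)⟧}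
    (_ : Triangle.mk f g h ∈ distTriang T),
    ∃ h' : rp P m Z ⟶ (rp P m X)⟦(1 : ℤ)⟧,
      Triangle.mk (rmap P m f) (rmap P m g) h' ∈ distTriang T := by
  induction m with
  | zero => intro X Y Z f g h hT; exact ⟨h, hT⟩
  | succ m ih => intro X Y Z f g h hT; exact ih (tensR_dist P hT)

variable {P : T} [MonObj P] [IsCommMonObj P] (v : ℕ → (𝟙_ T ⟶ P)) (h : ℕ) {N : T}

/-- Evenness and regularity of `π_*(N ⊗ P^{⊗m})`. -/
structure RegC (i : ℕ) (M : ModStr P N) : Prop where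
  odd : ∀ m : ℕ, OddZero (rp P (m + 1) N)
  kill : ∀ (m : ℕ) (n : ℤ), Even n → ∀ k < i, ∀ x : HM (M.rp P (m + 1)).smr (Sph T n),
    Sc.of (v k) • x = 0
  reg : ∀ (m : ℕ) (n : ℤ), Even n → ∀ j, i ≤ j → j < h →
    ∀ x : HM (M.rp P (m + 1)).smr (Sph T n),
      Sc.of (v j) • x ∈ (Iv P v j • ⊤ : Submodule (Sc P) (HM (M.rp P (m + 1)).smr (Sph T n))) →
        x ∈ (Iv P v j • ⊤ : Submodule (Sc P) (HM (M.rp P (m + 1)).smr (Sph T n)))

variable {v h}

theorem smul_top_eq_bot_of_kill {A : Type*} [CommRing A] {G : Type*} [AddCommGroup G] [Module A G]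
    (s : Set A) (hs : ∀ a ∈ s, ∀ x : G, a • x = 0) :
    (Ideal.span s • ⊤ : Submodule A G) = ⊥ := by
  rw [eq_bot_iff, Submodule.smul_le]
  intro r hr n _
  induction hr using Submodule.span_induction with
  | mem x hx => rw [hs x hx n]; exact Submodule.zero_mem _
  | zero => rw [zero_smul]; exact Submodule.zero_mem _
  | add x y _ _ hx hy => rw [add_smul]; exact add_mem hx hy
  | smul a x _ hx => rw [smul_eq_mul, mul_smul]; exact Submodule.smul_mem _ _ hx

theorem RegC.bot {i : ℕ} {M : ModStr P N} (hM : RegC v h i M) (m : ℕ) {n : ℤ} (hn : Even n) :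
    (Iv P v i • ⊤ : Submodule (Sc P) (HM (M.rp P (m + 1)).smr (Sph T n))) = ⊥ := by
  refine smul_top_eq_bot_of_kill _ ?_
  rintro _ ⟨k, hk, rfl⟩ x
  exact hM.kill m n hn k hk x

/-- The map `P ⟶ Q_i[j]`. -/
noncomputable def qcπ (v : ℕ → (𝟙_ T ⟶ P)) (i j : ℕ) : P ⟶ Qc P v i j :=
  cofπ (((ModStr.self P).sm (v i)) ^ j : End P)

theorem qc_dist (v : ℕ → (𝟙_ T ⟶ P)) (i j : ℕ) : ∃ δ : Qc P v i j ⟶ P⟦(1 : ℤ)⟧,
    Triangle.mk (((ModStr.self P).sm (v i)) ^ j : End P) (qcπ v i j) δ ∈ distTriang T :=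
  ⟨cofδ _, cof_dist _⟩

section step

variable {i : ℕ} (M : ModStr P N)

/-- The triangle `N ⊗ P ⟶ N ⊗ P ⟶ N ⊗ Q_i` tensored with powers of `P`. -/
theorem exists_rp_dist (v : ℕ → (𝟙_ T ⟶ P)) (i m : ℕ) :
    ∃ δ : rp P m (N ⊗ Qc P v i 1) ⟶ (rp P m (N ⊗ P))⟦(1 : ℤ)⟧,
      Triangle.mk (rmap P m (N ◁ (ModStr.self P).smul (v i)))
        (rmap P m (N ◁ qcπ v i 1)) δ ∈ distTriang T := by
  obtain ⟨δ, hδ⟩ := qc_dist v i 1
  rw [pow_one] at hδ
  have hd := tens_dist N hδ
  exact rp_dist P m hd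

/-- On `Hom(W, rp m (N ⊗ P))`, the action of `v_i` of the last factor is a unit times the action of
`v_i` of `N`, if `v_k`, `k < i`, acts by zero. -/
theorem exists_unit_rp (hinv : InvRel P v i) (m : ℕ) {W : T}
    (hk : ∀ k < i, ∀ x : W ⟶ rp P m (N ⊗ P), x ≫ ((M.tensorRight P).rp P m).smul (v k) = 0) :
    ∃ U U' : rp P m (N ⊗ P) ⟶ rp P m (N ⊗ P), U ≫ U' = 𝟙 _ ∧ U' ≫ U = 𝟙 _ ∧
      (∀ a, ((M.tensorRight P).rp P m).smul a ≫ U = U ≫ ((M.tensorRight P).rp P m).smul a) ∧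
      ∀ x : W ⟶ rp P m (N ⊗ P), x ≫ rmap P m (N ◁ (ModStr.self P).smul (v i)) =
        (x ≫ ((M.tensorRight P).rp P m).smul (v i)) ≫ U := by
  obtain ⟨u, u', c, huu, hc⟩ := hinv
  set MB := (M.tens (ModStr.self P)).rp P m with hMB
  have hR : rmap P m (N ◁ (ModStr.self P).smul (v i)) = MB.smul (scR P (v i)) := by
    rw [hMB, ModStr.rp_smul, ModStr.tens_smul_right]
  have hL : ∀ a : 𝟙_ T ⟶ P, ((M.tensorRight P).rp P m).smul a = MB.smul (scL P a) := fun a => by
    rw [hMB, ModStr.rp_smul, ModStr.rp_smul, ModStr.tensorRight_smul, ModStr.tens_smul_left]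
  have h1 : MB.smul u ≫ MB.smul u' = 𝟙 _ := by rw [← MB.smul_mul', huu, MB.smul_one]
  have h2 : MB.smul u' ≫ MB.smul u = 𝟙 _ := by rw [MB.smul_comm, h1]
  refine ⟨MB.smul u, MB.smul u', h1, h2, fun a => ?_, fun x => ?_⟩
  · rw [hL, MB.smul_comm]
  · rw [hR, hc, ModStr.smul_add, ModStr.smul_sum, Preadditive.comp_add, Preadditive.comp_sum,
      Finset.sum_eq_zero, add_zero]
    · rw [MB.smul_mul, ← Category.assoc, hL, Category.assoc, MB.smul_comm, ← Category.assoc]
    · intro k hk'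
      rw [MB.smul_mul', ← Category.assoc, ← hL, hk k (Finset.mem_range.1 hk') x, zero_comp]

end step

theorem RegC.ext_zero {i : ℕ} {M : ModStr P N} (hM : RegC v h i M) (m : ℕ) {n : ℤ}
    (hn : Even n) (k : ℕ) (hk : k < i) (x : Sph T n ⟶ rp P (m + 1) N) :
    x ≫ (M.rp P (m + 1)).smul (v k) = 0 :=
  congrArg HM.hom (hM.kill m n hn k hk (HM.of x))

/-- The step: from `N` to `N ⊗ Q_i`. -/
theorem RegC.step {i : ℕ} {M : ModStr P N} (hM : RegC v h i M) (hi : i < h)
    (hinv : InvRel P v i) : RegC v h (i + 1) (M.tensorRight (Qc P v i 1)) := by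
  -- facts for fixed `m`, `n`
  have hinj : ∀ (m : ℕ) (n : ℤ), Even n → ∀ x : Sph T n ⟶ rp P (m + 1) (N ⊗ P),
      x ≫ rmap P (m + 1) (N ◁ (ModStr.self P).smul (v i)) = 0 → x = 0 := by
    intro m n hn x hx
    obtain ⟨U, U', h1, h2, h3, h4⟩ := exists_unit_rp M hinv (m + 1) (W := Sph T n)
      (fun k hk x => hM.ext_zero (m + 1) hn k hk x)
    rw [h4] at hx
    have h5 : x ≫ ((M.tensorRight P).rp P (m + 1)).smul (v i) = 0 := by
      have h6 := congrArg (· ≫ U') hx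
      simpa [Category.assoc, h1] using h6
    have h7 : (HM.of x : HM (M.rp P (m + 1 + 1)).smr (Sph T n)) = 0 := by
      have h8 := hM.reg (m + 1) n hn i le_rfl hi (HM.of x) (by
        have h9 : Sc.of (v i) • (HM.of x : HM (M.rp P (m + 1 + 1)).smr (Sph T n)) = 0 :=
          HM.hom_ext h5
        rw [h9]
        exact Submodule.zero_mem _)
      rw [hM.bot (m + 1) hn, Submodule.mem_bot] at h8
      exact h8
    exact congrArg HM.hom h7
  -- the surjection
  have hcomp : ∀ (m : ℕ) (a : 𝟙_ T ⟶ P), ((M.tensorRight P).rp P (m + 1)).smul a ≫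
      rmap P (m + 1) (N ◁ qcπ v i 1) =
      rmap P (m + 1) (N ◁ qcπ v i 1) ≫
        ((M.tensorRight (Qc P v i 1)).rp P (m + 1)).smul a := by
    intro m a
    rw [ModStr.rp_smul, ModStr.rp_smul, ← rmap_comp, ModStr.tensorRight_smul, ← rmap_comp,
      ModStr.tensorRight_smul]
    congr 1
    exact (whisker_exchange _ _).symm
  have hsurj : ∀ (m : ℕ) (n : ℤ), Even n →
      ∀ y : HM ((M.tensorRight (Qc P v i 1)).rp P (m + 1)).smr (Sph T n),
      ∃ x : HM ((M.tensorRight P).rp P (m + 1)).smr (Sph T n), scMap _ (hcomp m) _ x = y := by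
    intro m n hn y
    obtain ⟨δ, hδ⟩ := exists_rp_dist (N := N) v i (m + 1)
    obtain ⟨x, hx⟩ := surjective_even hδ (hM.odd (m + 1)) hn y.hom
    exact ⟨HM.of x, HM.hom_ext hx⟩
  have hker : ∀ (m : ℕ) (n : ℤ), Even n →
      ∀ x : HM ((M.tensorRight P).rp P (m + 1)).smr (Sph T n),
        scMap _ (hcomp m) (Sph T n) x = 0 ↔
          ∃ y : HM ((M.tensorRight P).rp P (m + 1)).smr (Sph T n), Sc.of (v i) • y = x := by
    intro m n hn x
    obtain ⟨δ, hδ⟩ := exists_rp_dist (N := N) v i (m + 1)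
    obtain ⟨U, U', h1, h2, h3, h4⟩ := exists_unit_rp M hinv (m + 1) (W := Sph T n)
      (fun k hk x => hM.ext_zero (m + 1) hn k hk x)
    constructor
    · intro hx
      obtain ⟨y, hy⟩ := (eq_zero_iff_even hδ x.hom).1 (congrArg HM.hom hx)
      refine ⟨HM.of (y ≫ U), HM.hom_ext ?_⟩
      rw [← hy, h4, Category.assoc, h3, ← Category.assoc]
      rfl
    · rintro ⟨y, rfl⟩
      apply HM.hom_ext
      refine (eq_zero_iff_even hδ _).2 ⟨y.hom ≫ U', ?_⟩
      rw [h4]
      have h3' : U' ≫ ((M.tensorRight P).rp P (m + 1)).smul (v i) =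
          ((M.tensorRight P).rp P (m + 1)).smul (v i) ≫ U' := by
        have h5 := congrArg (fun z => U' ≫ z ≫ U') (h3 (v i))
        simp only [Category.assoc, h1, Category.comp_id] at h5
        rw [h5, ← Category.assoc, h2, Category.id_comp]
      rw [Category.assoc y.hom, h3', Category.assoc, Category.assoc, h2, Category.comp_id]
      rfl
  refine ⟨fun m => ?_, fun m n hn k hk x => ?_, fun m n hn j hj hjh x hx => ?_⟩
  · obtain ⟨δ, hδ⟩ := exists_rp_dist (N := N) v i (m + 1)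
    exact OddZero.cofibre hδ (hM.odd (m + 1)) (fun n hn => hinj m n hn)
  · obtain ⟨y, rfl⟩ := hsurj m n hn x
    rw [← map_smul]
    rcases Nat.lt_succ_iff_lt_or_eq.1 hk with hk | rfl
    · have h1 : Sc.of (v k) • y = 0 := hM.kill (m + 1) n hn k hk y
      rw [h1, map_zero]
    · exact (hker m n hn _).2 ⟨y, rfl⟩
  · obtain ⟨y, rfl⟩ := hsurj m n hn x
    rw [← map_smul] at hx
    obtain ⟨z, hz, hz'⟩ := exists_smul_top_lift _ _ (hsurj m n hn) hx
    obtain ⟨t, ht⟩ := (hker m n hn (Sc.of (v j) • y - z)).1 (by rw [map_sub, hz', sub_self])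
    have h1 : Sc.of (v j) • y = z + Sc.of (v i) • t := by rw [ht]; abel
    have h2 : y ∈ (Iv P v j • ⊤ :
        Submodule (Sc P) (HM ((M.tensorRight P).rp P (m + 1)).smr (Sph T n))) := by
      refine hM.reg (m + 1) n hn j (by omega) hjh y ?_
      have h3 : Sc.of (v j) • y ∈ (Iv P v j • ⊤ :
        Submodule (Sc P) (HM ((M.tensorRight P).rp P (m + 1)).smr (Sph T n))) := by
        rw [h1]
        exact add_mem hz (Submodule.smul_mem_smul (mem_Iv (by omega)) trivial)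
      exact h3
    exact map_mem_smul_top _ _ h2

/-- Regularity implies the odd vanishing. -/
theorem RegC.good (m : ℕ) : ∀ {i : ℕ} {N : T} {M : ModStr P N}, RegC v h i M → i + m ≤ h →
    (∀ j, i ≤ j → j < h → InvRel P v j) → Good P v i m N := by
  induction m with
  | zero =>
    intro i N M hM him hinv
    exact hM.odd 0
  | succ m ih =>
    intro i N M hM him hinv
    exact ⟨hM.odd 0, ih (hM.step (by omega) (hinv i le_rfl (by omega))) (by omega)
      (fun j hj hjh => hinv j (by omega) hjh)⟩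

end Vale.Agent.P251.S
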