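import Vale.Agent.P251.S.E1c
import Vale.Agent.P251.S.Reg

/-!
# P251, part S2: theorem E1 under the regularity hypothesis
-/

open CategoryTheory MonoidalCategory Limits MonObj Pretriangulated

set_option linter.unusedSectionVars false

universe v u

namespace Vale.Agent.P251.S

open T

variable {T : Type u} [Category.{v} T] [Preadditive T] [HasZeroObject T] [HasShift T ℤ]
  [∀ n : ℤ, (shiftFunctor T n).Additive] [Pretriangulated T]
  [MonoidalCategory T] [SymmetricCategory T] [TensorTriangulated T] [MonoidalClosed T]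
  [HasCoproducts.{0} T]
  {P : T} [MonObj P] [IsCommMonObj P] {p : ℤ} {h : ℕ} {v : ℕ → (𝟙_ T ⟶ P)}
  (D : KosData P p h v) (F : LocFunctor D.K) {N : T} (M : ModStr P N)

/-- **Theorem E1**, regular form: if `π_*(N ⊗ P^{⊗m})`, `m ≥ 1`, is even, `p` acts by zero on it and
`v_1, …, v_{h-1}` is a regular sequence on it, then the odd homotopy of `L N` vanishes and its even
homotopy is the `I`-adic completion of `v_h⁻¹ π_* N`. -/
theorem theoremE1_of_regC (hv : InvData P p h v) (hh : 1 ≤ h) (hcpt : ∀ n : ℤ, IsCpt (Sph T n))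
    (hp : IsNilpotent (M.sm (v 0))) (hr : RegC v h 1 M) : E1C F v h M :=
  theoremE1 D F M hv hh hcpt hp
    (hr.good (h - 1) (by omega) (fun j hj hjh => hv.inv j hj hjh.le))

end Vale.Agent.P251.S
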