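import Vale.Agent.P251.S.RegMU
import Vale.Agent.P251.S.E1

/-!
# P251, part S2: theorem E1 for the modules `N_s`
-/

open CategoryTheory MonoidalCategory MonObj Limits Pretriangulated

set_option linter.unusedSectionVars false

universe v u

namespace Vale.Agent.P251.S.GD

open Vale.Agent.P251.M Vale.Agent.P251.M.EvenSpheres Vale.Agent.P251.F Vale.Agent.P251.T

variable {T : Type u} [Category.{v} T] [Preadditive T] [HasZeroObject T]
    [HasShift T ℤ] [∀ n : ℤ, (shiftFunctor T n).Additive] [Pretriangulated T] [IsTriangulated T]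
    [MonoidalCategory T] [SymmetricCategory T] [TensorTriangulated T] [MonoidalClosed T]
    [HasCoproducts.{0} T] [HasProducts.{0} T] [StableCat T]

variable (D : I.MUData T) {C : T} {i : 𝟙_ T ⟶ C} {p : ℕ} [Fact p.Prime] (hp : p ≠ 2)
  {δ : C ⟶ (𝟙_ T)⟦(1 : ℤ)⟧} (hC : Triangle.mk ((p : ℤ) • 𝟙 (𝟙_ T)) i δ ∈ distTriang T)

include hC in
/-- `v_0` is nilpotent on `N_s`. -/
theorem nil_MP (s : ℕ) : IsNilpotent ((MP D C s).sm (D.vs p 0)) := by
  have h0 : D.vs p 0 = (p : ℤ) • η[D.R ⊗ (stdEven T).PS] := (D.invData p 0).v0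
  have h1 : IsNilpotent (((ModStr.self (Am D.R (s + 1))).tensorRight C).sm
      ((p : ℤ) • η[Am D.R (s + 1)])) := isNilpotent_mod (ModStr.self (Am D.R (s + 1))) (p : ℤ) hC
  have h2 : ((ModStr.self (Am D.R (s + 1))).tensorRight C).sm ((p : ℤ) • η[Am D.R (s + 1)]) =
      ((p : ℤ) • (1 : End (Am D.R (s + 1) ⊗ C))) := by
    have := map_zsmul ((ModStr.self (Am D.R (s + 1))).tensorRight C).smulHom (p : ℤ)
      η[Am D.R (s + 1)]
    refine this.trans ?_
    congr 1
    exact ModStr.smul_one _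
  have h3 : (MP D C s).sm (D.vs p 0) =
      endR (Am D.R (s + 1) ⊗ C) (stdEven T).PS ((p : ℤ) • (1 : End (Am D.R (s + 1) ⊗ C))) := by
    rw [h0]
    have h4 := map_zsmul (MP D C s).smulHom (p : ℤ) η[D.R ⊗ (stdEven T).PS]
    have h5 := map_zsmul ((tensorRight (stdEven T).PS).mapAddHom (X := Am D.R (s + 1) ⊗ C)
      (Y := Am D.R (s + 1) ⊗ C)) (p : ℤ) (𝟙 _)
    refine h4.trans (Eq.trans ?_ h5.symm)
    congr 1
    exact (ModStr.smul_one _).trans (id_whiskerRight _ _).symm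
  rw [h3]
  rw [h2] at h1
  exact isNilpotent_endR _ h1

include hp hC in
/-- **Theorem E1** for `N_s`: the odd homotopy of `L N_s` vanishes and its even homotopy is the
`I`-adic completion of `v_h⁻¹ (Cob Laz s / p)`. -/
theorem e1C_MP {h : ℕ} (hh : 1 ≤ h) (Dk : KosData D.P (p : ℤ) h (D.vs p)) (F : LocFunctor Dk.K)
    (s : ℕ) : E1C F (D.vs p) h (MP D C s) :=
  theoremE1_of_regC Dk F (MP D C s) (D.invData p h) hh
    (fun _ _ X f => compact_sum X (isSphere_sph _) f) (nil_MP D hC s) (regC_MP D hp hC h s)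

end Vale.Agent.P251.S.GD
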