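import Vale.Agent.P251.S.CofStep

/-!
# P251, part S2: tensoring triangles, cofibres, nilpotence on Koszul objects
-/

open CategoryTheory MonoidalCategory Limits MonObj Pretriangulated

set_option linter.unusedSectionVars false

universe v u

namespace Vale.Agent.P251.S

open T

section cof

variable {T : Type u} [Category.{v} T] [Preadditive T] [HasZeroObject T] [HasShift T ℤ]
  [∀ n : ℤ, (shiftFunctor T n).Additive] [Pretriangulated T]

/-- a chosen cofibre of `f` -/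
noncomputable def cof {X Y : T} (f : X ⟶ Y) : T :=
  (distinguished_cocone_triangle f).choose

/-- the map to the cofibre -/
noncomputable def cofπ {X Y : T} (f : X ⟶ Y) : Y ⟶ cof f :=
  (distinguished_cocone_triangle f).choose_spec.choose

/-- the connecting map of the cofibre -/
noncomputable def cofδ {X Y : T} (f : X ⟶ Y) : cof f ⟶ X⟦(1 : ℤ)⟧ :=
  (distinguished_cocone_triangle f).choose_spec.choose_spec.choose

theorem cof_dist {X Y : T} (f : X ⟶ Y) :
    Triangle.mk f (cofπ f) (cofδ f) ∈ distTriang T :=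
  (distinguished_cocone_triangle f).choose_spec.choose_spec.choose_spec

end cof

section tens

variable {T : Type u} [Category.{v} T] [Preadditive T] [HasZeroObject T] [HasShift T ℤ]
  [∀ n : ℤ, (shiftFunctor T n).Additive] [Pretriangulated T]
  [MonoidalCategory T] [SymmetricCategory T] [TensorTriangulated T]

/-- the connecting map of a tensored triangle -/
noncomputable def tensδ (Y : T) {C X : T} (δ : C ⟶ X⟦(1 : ℤ)⟧) : Y ⊗ C ⟶ (Y ⊗ X)⟦(1 : ℤ)⟧ :=
  (Y ◁ δ) ≫ (Y ◁ (TensorTriangulated.e X).inv) ≫ (α_ Y X ((𝟙_ T)⟦(1 : ℤ)⟧)).inv ≫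
    (TensorTriangulated.e (Y ⊗ X)).hom

theorem tens_dist (Y : T) {X X' C : T} {f : X ⟶ X'} {q : X' ⟶ C} {δ : C ⟶ X⟦(1 : ℤ)⟧}
    (h : Triangle.mk f q δ ∈ distTriang T) :
    Triangle.mk (Y ◁ f) (Y ◁ q) (tensδ Y δ) ∈ distTriang T :=
  TensorTriangulated.distinguished Y _ h

theorem tensδ_natural {Y Y' : T} (φ : Y ⟶ Y') {C X : T} (δ : C ⟶ X⟦(1 : ℤ)⟧) :
    (φ ▷ C) ≫ tensδ Y' δ = tensδ Y δ ≫ (φ ▷ X)⟦(1 : ℤ)⟧' := by
  unfold tensδ
  rw [← whisker_exchange_assoc, ← whisker_exchange_assoc]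
  simp only [Category.assoc]
  rw [← TensorTriangulated.e_naturality, ← associator_inv_naturality_left_assoc]

end tens

section sm

variable {T : Type u} [Category.{v} T] [MonoidalCategory T]

/-- the scalar `a` as an element of the endomorphism ring -/
def ModStr.sm {R : T} [MonObj R] {N : T} (M : ModStr R N) (a : 𝟙_ T ⟶ R) : End N := M.smul a

end sm

section koszul

variable {T : Type u} [Category.{v} T] [Preadditive T] [HasZeroObject T] [HasShift T ℤ]
  [∀ n : ℤ, (shiftFunctor T n).Additive] [Pretriangulated T]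
  [MonoidalCategory T] [SymmetricCategory T] [TensorTriangulated T]
  {R : T} [MonObj R] [IsCommMonObj R] {Y : T}

theorem ModStr.sm_comm (M : ModStr R Y) (a b : 𝟙_ T ⟶ R) : Commute (M.sm a) (M.sm b) :=
  M.smul_comm b a

theorem ModStr.sm_mul (M : ModStr R Y) (a b : 𝟙_ T ⟶ R) : M.sm (scMul a b) = M.sm a * M.sm b :=
  M.smul_mul a b

theorem ModStr.sm_sum (M : ModStr R Y) {ι : Type*} (s : Finset ι) (a : ι → (𝟙_ T ⟶ R)) :
    M.sm (∑ i ∈ s, a i) = ∑ i ∈ s, M.sm (a i) :=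
  M.smul_sum s a

theorem ModStr.sm_add (M : ModStr R Y) (a b : 𝟙_ T ⟶ R) : M.sm (a + b) = M.sm a + M.sm b :=
  M.smul_add a b

/-- `Y ◁ -` on endomorphism rings -/
def endL (Y : T) (X : T) : End X →* End (Y ⊗ X) := (tensorLeft Y).mapEnd X

/-- `- ▷ Y` on endomorphism rings -/
def endR (X : T) (Y : T) : End X →* End (X ⊗ Y) := (tensorRight Y).mapEnd X

theorem endL_apply (Y X : T) (f : End X) : endL Y X f = Y ◁ (f : X ⟶ X) := rfl

theorem endR_apply (X Y : T) (f : End X) : endR X Y f = (f : X ⟶ X) ▷ Y := rfl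

theorem isNilpotent_map {E E' : Type*} [MonoidWithZero E] [MonoidWithZero E'] (φ : E →* E')
    (h0 : φ 0 = 0) {x : E} (h : IsNilpotent x) : IsNilpotent (φ x) := by
  obtain ⟨n, hn⟩ := h
  exact ⟨n, by rw [← map_pow, hn, h0]⟩

theorem isNilpotent_endR {X : T} (Y : T) {f : End X} (h : IsNilpotent f) :
    IsNilpotent (endR X Y f) :=
  isNilpotent_map (endR X Y) (MonoidalPreadditive.zero_whiskerRight) h

theorem isNilpotent_endL (Y : T) {X : T} {f : End X} (h : IsNilpotent f) :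
    IsNilpotent (endL Y X f) :=
  isNilpotent_map (endL Y X) (MonoidalPreadditive.whiskerLeft_zero) h

/-- if `v(2) = v(1) + ∑ b_k(1) c_k` with `b_k` nilpotent on `Y` then `v(2) - v(1)` is nilpotent on
`Y ⊗ R` -/
theorem isNilpotent_diff (M : ModStr R Y) {ι : Type*} (s : Finset ι) (b : ι → (𝟙_ T ⟶ R))
    (c : ι → (𝟙_ T ⟶ R ⊗ R)) (hb : ∀ i ∈ s, IsNilpotent (M.sm (b i))) :
    IsNilpotent ((M.tens (ModStr.self R)).sm (∑ i ∈ s, scMul (scL R (b i)) (c i))) := by
  rw [ModStr.sm_sum]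
  refine Commute.isNilpotent_sum ?_ ?_
  · intro i hi
    rw [ModStr.sm_mul]
    refine Commute.isNilpotent_mul_right ?_ ?_
    · exact (M.tens (ModStr.self R)).sm_comm _ _
    · have h1 : (M.tens (ModStr.self R)).sm (scL R (b i)) = endR Y R (M.sm (b i)) :=
        ModStr.tens_smul_left _ _ _
      rw [h1]
      exact isNilpotent_endR R (hb i hi)
  · intro i j _ _
    exact (M.tens (ModStr.self R)).sm_comm _ _

/-- **Koszul step (a).** Let `v(2) = v(1) + ∑ b_k(1) c_k` with `b_k` nilpotent on `Y`. Then `v` is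
nilpotent on `Y ⊗ C`, `C` the cofibre of `v ^ j : R ⟶ R`. -/
theorem isNilpotent_koszul (M : ModStr R Y) (v : 𝟙_ T ⟶ R) {ι : Type*} (s : Finset ι)
    (b : ι → (𝟙_ T ⟶ R)) (c : ι → (𝟙_ T ⟶ R ⊗ R))
    (hv : scR R v = scL R v + ∑ i ∈ s, scMul (scL R (b i)) (c i))
    (hb : ∀ i ∈ s, IsNilpotent (M.sm (b i))) (j : ℕ) {C : T} {q : R ⟶ C}
    {δ : C ⟶ R⟦(1 : ℤ)⟧}
    (hC : Triangle.mk (((ModStr.self R).sm v) ^ j : End R) q δ ∈ distTriang T) :
    IsNilpotent ((M.tensorRight C).sm v) := by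
  set MM := M.tens (ModStr.self R) with hMM
  have hx : MM.sm (scR R v) = endL Y R ((ModStr.self R).sm v) :=
    M.tens_smul_right (ModStr.self R) v
  have hy : MM.sm (scL R v) = endR Y R (M.sm v) :=
    M.tens_smul_left (ModStr.self R) v
  have hn := isNilpotent_diff M s b c hb
  rw [← hMM] at hn
  have hxy : MM.sm (scL R v) =
      MM.sm (scR R v) + (-(MM.sm (∑ i ∈ s, scMul (scL R (b i)) (c i)))) := by
    rw [hv, MM.sm_add, add_neg_cancel_right]
  have hcomm : Commute (MM.sm (scR R v)) (-(MM.sm (∑ i ∈ s, scMul (scL R (b i)) (c i)))) :=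
    Commute.neg_right (MM.sm_comm _ _)
  obtain ⟨N, g, hg, hgc⟩ := exists_pow_eq_mul hcomm hn.neg j
  rw [← hxy] at hg
  have hpow : endL Y R (((ModStr.self R).sm v) ^ j) = (MM.sm (scR R v)) ^ j := by
    rw [hx, map_pow]
  refine isNilpotent_cof (f := endL Y R (((ModStr.self R).sm v) ^ j)) (g := g)
    (N := N) (y := endR Y R (M.sm v)) (tens_dist Y hC) ?_ ?_ ?_ ?_
  · change (Y ◁ q) ≫ (M.tensorRight C).smul v = M.smul v ▷ R ≫ (Y ◁ q)
    rw [ModStr.tensorRight_smul]
    exact whisker_exchange _ _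
  · change (M.tensorRight C).smul v ≫ _ = _ ≫ (M.smul v ▷ R)⟦(1 : ℤ)⟧'
    rw [ModStr.tensorRight_smul]
    exact tensδ_natural _ _
  · rw [hpow, ← hg, hy]
  · rw [hpow]
    exact hgc.pow_left j

end koszul

end Vale.Agent.P251.S
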