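import Vale.Agent.P251.S.Loc
import Vale.Agent.P251.S.Tens

/-!
# P251, part S2L: properties of a localization functor; localization of modules

* `KEq K f` : `f` is a `K`-equivalence; closure properties;
* `LocFunctor` : universal property, `K`-equivalences are inverted, acyclics are killed;
* `LocFunctor.mod M : ModStr R (Λ.L.obj N)` for `M : ModStr R N`, linearity of the unit and of
  `Λ.L.map f`, scalars;
* objects `Z` with `Y ⊗ Z` local for all local `Y` (`TensLoc K Z`): closed under triangles,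
  contains the spheres; `L (X ⊗ Z) ≅ L X ⊗ Z`.
-/

set_option linter.unusedSectionVars false

open CategoryTheory MonoidalCategory Limits Pretriangulated Preadditive MonObj

universe v u

namespace Vale.Agent.P251.S

open T

variable {T : Type u} [Category.{v} T] [Preadditive T] [HasZeroObject T] [HasShift T ℤ]
  [∀ n : ℤ, (shiftFunctor T n).Additive] [Pretriangulated T]
  [MonoidalCategory T] [SymmetricCategory T] [TensorTriangulated T] {K : T}

/-- `K`-equivalences -/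
def KEq (K : T) {X Y : T} (f : X ⟶ Y) : Prop := IsIso (K ◁ f)

section keq

lemma KEq.of_isIso {X Y : T} (f : X ⟶ Y) [IsIso f] : KEq K f :=
  inferInstanceAs (IsIso (K ◁ f))

lemma KEq.comp {X Y Z : T} {f : X ⟶ Y} {g : Y ⟶ Z} (hf : KEq K f) (hg : KEq K g) :
    KEq K (f ≫ g) := by
  have h1 : IsIso (K ◁ f) := hf
  have h2 : IsIso (K ◁ g) := hg
  change IsIso (K ◁ (f ≫ g))
  rw [whiskerLeft_comp]
  infer_instance

lemma KEq.of_comp_left {X Y Z : T} {f : X ⟶ Y} {g : Y ⟶ Z} (hf : KEq K f)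
    (hfg : KEq K (f ≫ g)) : KEq K g := by
  have h1 : IsIso (K ◁ f) := hf
  have h2 : IsIso (K ◁ f ≫ K ◁ g) := by rw [← whiskerLeft_comp]; exact hfg
  exact IsIso.of_isIso_comp_left (K ◁ f) (K ◁ g)

lemma KEq.of_comp_right {X Y Z : T} {f : X ⟶ Y} {g : Y ⟶ Z} (hg : KEq K g)
    (hfg : KEq K (f ≫ g)) : KEq K f := by
  have h1 : IsIso (K ◁ g) := hg
  have h2 : IsIso (K ◁ f ≫ K ◁ g) := by rw [← whiskerLeft_comp]; exact hfg
  exact IsIso.of_isIso_comp_right (K ◁ f) (K ◁ g)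

/-- `f` is a `K`-equivalence iff its cofibre is acyclic -/
lemma keq_iff_acyclic {X Y Z : T} {f : X ⟶ Y} {g : Y ⟶ Z} {d : Z ⟶ X⟦(1 : ℤ)⟧}
    (h : Triangle.mk f g d ∈ distTriang T) : KEq K f ↔ Acyclic K Z :=
  (acyclic₃_iff_isIso₁ h).symm

lemma KEq.whiskerLeft {X Y : T} {f : X ⟶ Y} (hf : KEq K f) (P : T) : KEq K (P ◁ f) := by
  obtain ⟨Z, g, d, h⟩ := distinguished_cocone_triangle f
  have hZ := (keq_iff_acyclic h).1 hf
  exact (keq_iff_acyclic (dist_whiskerLeft P h)).2 (hZ.tensor_left P)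

lemma KEq.whiskerRight {X Y : T} {f : X ⟶ Y} (hf : KEq K f) (P : T) : KEq K (f ▷ P) := by
  obtain ⟨Z, g, d, h⟩ := distinguished_cocone_triangle f
  have hZ := (keq_iff_acyclic h).1 hf
  exact (keq_iff_acyclic (dist_whiskerRight P h)).2 (hZ.tensor_right P)

lemma KEq.shift {X Y : T} {f : X ⟶ Y} (hf : KEq K f) (n : ℤ) : KEq K (f⟦n⟧') := by
  obtain ⟨Z, g, d, h⟩ := distinguished_cocone_triangle f
  obtain ⟨w, hw⟩ := exists_dist_shift h n
  exact (keq_iff_acyclic hw).2 (((keq_iff_acyclic h).1 hf).shift n)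

/-- A map to a local object extends uniquely along a `K`-equivalence. -/
noncomputable def KEq.ext {X X' Y : T} {f : X ⟶ X'} (hf : KEq K f) (hY : IsLocal K Y)
    (g : X ⟶ Y) : X' ⟶ Y :=
  ((hY.precomp_bijective f hf).2 g).choose

@[reassoc (attr := simp)]
lemma KEq.comp_ext {X X' Y : T} {f : X ⟶ X'} (hf : KEq K f) (hY : IsLocal K Y)
    (g : X ⟶ Y) : f ≫ hf.ext hY g = g :=
  ((hY.precomp_bijective f hf).2 g).choose_spec

lemma KEq.hom_ext {X X' Y : T} {f : X ⟶ X'} (hf : KEq K f) (hY : IsLocal K Y)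
    {g g' : X' ⟶ Y} (h : f ≫ g = f ≫ g') : g = g' :=
  (hY.precomp_bijective f hf).1 h

end keq

namespace LocFunctor

variable (Λ : LocFunctor K)

/-- the localization map, with source `X` -/
def u (X : T) : X ⟶ Λ.L.obj X := Λ.unit.app X

lemma unit_app (X : T) : Λ.unit.app X = Λ.u X := rfl

lemma keq (X : T) : KEq K (Λ.u X) := Λ.isIso X

@[reassoc (attr := simp)]
lemma u_naturality {X Y : T} (f : X ⟶ Y) :
    Λ.u X ≫ Λ.L.map f = f ≫ Λ.u Y := (Λ.unit.naturality f).symm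

/-- compatibility of the localization map with shifts -/
lemma u_shift (X : T) (n : ℤ) :
    (Λ.u X)⟦n⟧' = Λ.u (X⟦n⟧) ≫ (Λ.L.commShiftIso n).hom.app X := by
  have h := NatTrans.shift_app_comm Λ.unit n X
  rw [Functor.commShiftIso_id_hom_app] at h
  erw [Category.id_comp] at h
  exact h

/-- `BLoc` -/
noncomputable def bloc (X : T) : BLoc K X where
  obj := Λ.L.obj X
  toLoc := Λ.u X
  isIso := Λ.isIso X
  isLocal := Λ.isLocal X

lemma hom_ext {X Y : T} (hY : IsLocal K Y) {f g : Λ.L.obj X ⟶ Y}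
    (h : Λ.u X ≫ f = Λ.u X ≫ g) : f = g :=
  (Λ.keq X).hom_ext hY h

/-- extension of a map to a local object -/
noncomputable def desc {X Y : T} (hY : IsLocal K Y) (f : X ⟶ Y) : Λ.L.obj X ⟶ Y :=
  (Λ.keq X).ext hY f

@[reassoc (attr := simp)]
lemma u_desc {X Y : T} (hY : IsLocal K Y) (f : X ⟶ Y) :
    Λ.u X ≫ Λ.desc hY f = f := KEq.comp_ext _ _ _

/-- the unit is an isomorphism on local objects -/
lemma isIso_u {X : T} (hX : IsLocal K X) : IsIso (Λ.u X) :=
  isIso_of_isLocal hX (Λ.isLocal X) _ (Λ.isIso X)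

/-- `L` inverts `K`-equivalences -/
lemma isIso_map {X Y : T} {f : X ⟶ Y} (hf : KEq K f) : IsIso (Λ.L.map f) := by
  apply isIso_of_isLocal (Λ.isLocal X) (Λ.isLocal Y)
  change KEq K _
  apply KEq.of_comp_left (Λ.keq X)
  rw [u_naturality]
  exact hf.comp (Λ.keq Y)

lemma keq_of_isIso_map {X Y : T} {f : X ⟶ Y} (hf : IsIso (Λ.L.map f)) : KEq K f := by
  apply KEq.of_comp_right (Λ.keq Y)
  rw [← u_naturality]
  exact (Λ.keq X).comp (KEq.of_isIso _)

lemma isZero_obj {X : T} (hX : Acyclic K X) : IsZero (Λ.L.obj X) := by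
  apply (Λ.isLocal X).isZero
  have h : IsIso (K ◁ Λ.u X) := Λ.isIso X
  exact IsZero.of_iso hX (asIso (K ◁ Λ.u X)).symm

lemma acyclic_of_isZero_obj {X : T} (hX : IsZero (Λ.L.obj X)) : Acyclic K X := by
  have h : IsIso (K ◁ Λ.u X) := Λ.isIso X
  have h2 : Acyclic K (Λ.L.obj X) := acyclic_of_isZero hX
  exact IsZero.of_iso h2 (asIso (K ◁ Λ.u X))

lemma isZero_obj_iff (X : T) : IsZero (Λ.L.obj X) ↔ Acyclic K X :=
  ⟨Λ.acyclic_of_isZero_obj, Λ.isZero_obj⟩

/-- comparison of a localization functor with any localization of an object -/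
noncomputable def isoBLoc {X : T} (B : BLoc K X) : Λ.L.obj X ≅ B.obj := (Λ.bloc X).iso B

@[reassoc (attr := simp)]
lemma u_isoBLoc {X : T} (B : BLoc K X) : Λ.u X ≫ (Λ.isoBLoc B).hom = B.toLoc :=
  (Λ.bloc X).toLoc_iso_hom B

/-- The localized triangle. -/
lemma map_dist {Δ : Triangle T} (h : Δ ∈ distTriang T) :
    Triangle.mk (Λ.L.map Δ.mor₁) (Λ.L.map Δ.mor₂)
      (Λ.L.map Δ.mor₃ ≫ (Λ.L.commShiftIso (1 : ℤ)).hom.app Δ.obj₁) ∈ distTriang T :=
  Λ.L.map_distinguished Δ h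

/-- If `X` is a telescope of a sequence, then maps out of `L X`... : the unit composed with the
stage maps; a `K`-equivalence from a telescope is local iff ... -/
lemma keq_desc {X Y : T} (hY : IsLocal K Y) {f : X ⟶ Y} (hf : KEq K f) :
    IsIso (Λ.desc hY f) := by
  apply isIso_of_isLocal (Λ.isLocal X) hY
  change KEq K _
  apply KEq.of_comp_left (Λ.keq X)
  rw [u_desc]
  exact hf

/-- a `K`-equivalence to a local object identifies it with the localization -/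
noncomputable def isoOfKEq {X Y : T} (hY : IsLocal K Y) (f : X ⟶ Y) (hf : KEq K f) :
    Λ.L.obj X ≅ Y :=
  letI := Λ.keq_desc hY hf
  asIso (Λ.desc hY f)

@[reassoc (attr := simp)]
lemma u_isoOfKEq {X Y : T} (hY : IsLocal K Y) (f : X ⟶ Y) (hf : KEq K f) :
    Λ.u X ≫ (Λ.isoOfKEq hY f hf).hom = f := Λ.u_desc hY f

section mod

variable {R : T} [MonObj R] {N : T} (M : ModStr R N)

/-- the localization of a module is a module -/
noncomputable def mod : ModStr R (Λ.L.obj N) where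
  act := ((Λ.keq N).whiskerLeft R).ext (Λ.isLocal N) (M.act ≫ Λ.u N)
  one_act := by
    apply ((Λ.keq N).whiskerLeft (𝟙_ T)).hom_ext (Λ.isLocal N)
    rw [whisker_exchange_assoc, KEq.comp_ext, leftUnitor_naturality, ← Category.assoc, M.one_act]
  mul_act := by
    apply ((Λ.keq N).whiskerLeft (R ⊗ R)).hom_ext (Λ.isLocal N)
    rw [whisker_exchange_assoc, KEq.comp_ext, associator_naturality_right_assoc,
      ← whiskerLeft_comp_assoc, KEq.comp_ext, whiskerLeft_comp_assoc, KEq.comp_ext,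
      ← Category.assoc, M.mul_act]
    simp only [Category.assoc]

@[reassoc (attr := simp)]
lemma whiskerLeft_u_mod_act : (R ◁ Λ.u N) ≫ (Λ.mod M).act = M.act ≫ Λ.u N :=
  KEq.comp_ext ((Λ.keq N).whiskerLeft R) (Λ.isLocal N) _

/-- the unit is linear -/
lemma isLinear_u : M.IsLinear (Λ.mod M) (Λ.u N) :=
  (Λ.whiskerLeft_u_mod_act M).symm

/-- a linear map localizes to a linear map -/
lemma isLinear_map {N' : T} {M' : ModStr R N'} {f : N ⟶ N'} (hf : M.IsLinear M' f) :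
    (Λ.mod M).IsLinear (Λ.mod M') (Λ.L.map f) := by
  apply ((Λ.keq N).whiskerLeft R).hom_ext (Λ.isLocal N')
  rw [whiskerLeft_u_mod_act_assoc, u_naturality, ← whiskerLeft_comp_assoc, u_naturality,
    whiskerLeft_comp_assoc, whiskerLeft_u_mod_act]
  have h : M.act ≫ f = (R ◁ f) ≫ M'.act := hf
  rw [reassoc_of% h]

/-- a linear map to a local module extends to a linear map -/
lemma isLinear_desc {N' : T} {M' : ModStr R N'} (hN' : IsLocal K N') {f : N ⟶ N'}
    (hf : M.IsLinear M' f) : (Λ.mod M).IsLinear M' (Λ.desc hN' f) := by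
  apply ((Λ.keq N).whiskerLeft R).hom_ext hN'
  rw [whiskerLeft_u_mod_act_assoc, u_desc, ← whiskerLeft_comp_assoc, u_desc]
  exact hf

/-- scalars on the localization -/
lemma mod_smul (a : 𝟙_ T ⟶ R) : (Λ.mod M).smul a = Λ.L.map (M.smul a) := by
  apply Λ.hom_ext (Λ.isLocal N)
  rw [u_naturality]
  unfold ModStr.smul
  rw [leftUnitor_inv_naturality_assoc, whisker_exchange_assoc, whiskerLeft_u_mod_act]
  simp only [Category.assoc]

lemma mod_sm (a : 𝟙_ T ⟶ R) : (Λ.mod M).sm a = Λ.L.mapEnd N (M.sm a) := Λ.mod_smul M a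

end mod

/-- uniqueness of the module structure making the unit linear -/
lemma mod_unique {R : T} [MonObj R] {N : T} (M : ModStr R N) (M' : ModStr R (Λ.L.obj N))
    (h : M.IsLinear M' (Λ.u N)) : M'.act = (Λ.mod M).act := by
  apply ((Λ.keq N).whiskerLeft R).hom_ext (Λ.isLocal N)
  rw [whiskerLeft_u_mod_act]
  exact h.symm

end LocFunctor

/-! ### Objects `Z` such that `- ⊗ Z` preserves local objects -/

section tensloc

/-- `Y ⊗ Z` is local for all local `Y`. -/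
def TensLoc (K Z : T) : Prop := ∀ ⦃Y : T⦄, IsLocal K Y → IsLocal K (Y ⊗ Z)

lemma TensLoc.of_iso {Z Z' : T} (h : TensLoc K Z) (e : Z ≅ Z') : TensLoc K Z' :=
  fun _ hY => (h hY).of_iso (whiskerLeftIso _ e)

lemma TensLoc.shift {Z : T} (h : TensLoc K Z) (n : ℤ) : TensLoc K (Z⟦n⟧) := fun Y hY =>
  ((h hY).shift n).of_iso (((tensorLeft Y).commShiftIso n).app Z).symm

lemma tensLoc_unit : TensLoc K (𝟙_ T) := fun _ hY => hY.of_iso (ρ_ _).symm

lemma tensLoc_sph (n : ℤ) : TensLoc K ((𝟙_ T)⟦n⟧) := tensLoc_unit.shift n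

lemma tensLoc_zero {Z : T} (h : IsZero Z) : TensLoc K Z := fun Y _ =>
  isLocal_of_isZero ((tensorLeft Y).map_isZero h)

lemma TensLoc.ext₁ {Δ : Triangle T} (hΔ : Δ ∈ distTriang T) (h2 : TensLoc K Δ.obj₂)
    (h3 : TensLoc K Δ.obj₃) : TensLoc K Δ.obj₁ := fun Y hY =>
  IsLocal.ext₁ (dist_whiskerLeft Y hΔ) (h2 hY) (h3 hY)

lemma TensLoc.ext₂ {Δ : Triangle T} (hΔ : Δ ∈ distTriang T) (h1 : TensLoc K Δ.obj₁)
    (h3 : TensLoc K Δ.obj₃) : TensLoc K Δ.obj₂ := fun Y hY =>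
  IsLocal.ext₂ (dist_whiskerLeft Y hΔ) (h1 hY) (h3 hY)

lemma TensLoc.ext₃ {Δ : Triangle T} (hΔ : Δ ∈ distTriang T) (h1 : TensLoc K Δ.obj₁)
    (h2 : TensLoc K Δ.obj₂) : TensLoc K Δ.obj₃ := fun Y hY =>
  IsLocal.ext₃ (dist_whiskerLeft Y hΔ) (h1 hY) (h2 hY)

lemma TensLoc.tensor {Z Z' : T} (h : TensLoc K Z) (h' : TensLoc K Z') : TensLoc K (Z ⊗ Z') :=
  fun Y hY => (h' (h hY)).of_iso (α_ Y Z Z')

lemma TensLoc.retract {Z Z' : T} (h : TensLoc K Z) (a : Z' ⟶ Z) (b : Z ⟶ Z')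
    (hab : a ≫ b = 𝟙 _) : TensLoc K Z' := fun Y hY =>
  (h hY).retract (Y ◁ a) (Y ◁ b) (by rw [← whiskerLeft_comp, hab, whiskerLeft_id])

/-- `L (X ⊗ Z) ≅ L X ⊗ Z` if `- ⊗ Z` preserves local objects -/
noncomputable def LocFunctor.tensIso (Λ : LocFunctor K) {Z : T} (hZ : TensLoc K Z) (X : T) :
    Λ.L.obj (X ⊗ Z) ≅ Λ.L.obj X ⊗ Z :=
  Λ.isoOfKEq (hZ (Λ.isLocal X)) (Λ.u X ▷ Z) ((Λ.keq X).whiskerRight Z)

@[reassoc (attr := simp)]
lemma LocFunctor.u_tensIso (Λ : LocFunctor K) {Z : T} (hZ : TensLoc K Z) (X : T) :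
    Λ.u (X ⊗ Z) ≫ (Λ.tensIso hZ X).hom = Λ.u X ▷ Z :=
  Λ.u_isoOfKEq _ _ _

@[reassoc]
lemma LocFunctor.tensIso_naturality (Λ : LocFunctor K) {Z : T} (hZ : TensLoc K Z) {X X' : T}
    (f : X ⟶ X') : Λ.L.map (f ▷ Z) ≫ (Λ.tensIso hZ X').hom =
      (Λ.tensIso hZ X).hom ≫ (Λ.L.map f ▷ Z) := by
  apply Λ.hom_ext (hZ (Λ.isLocal X'))
  rw [LocFunctor.u_naturality_assoc, LocFunctor.u_tensIso, LocFunctor.u_tensIso_assoc,
    ← comp_whiskerRight, ← comp_whiskerRight, LocFunctor.u_naturality]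

end tensloc

end Vale.Agent.P251.S
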