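import Vale.Agent.P251.S.Good
import Vale.Agent.P251.S.LocMod
import Vale.Agent.P251.S.Scal
import Vale.Agent.P251.S.CompCond

/-!
# P251, part S2: the condition `E1C` on modules and the induction step of theorem E1
-/

open CategoryTheory MonoidalCategory Limits MonObj Pretriangulated

set_option linter.unusedSectionVars false

universe v u

namespace Vale.Agent.P251.S

open T

section HMpow

variable {T : Type u} [Category.{v} T] [Preadditive T] {A : Type*} [Ring A]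

theorem HM.map_pow {Y : T} {ρ : A →+* End Y} (w : End Y)
    (hw : ∀ a, (ρ a : Y ⟶ Y) ≫ w = w ≫ (ρ a : Y ⟶ Y)) (W : T) (j : ℕ) (x : HM ρ W) :
    (((HM.map w hw W : HM ρ W →ₗ[A] HM ρ W) ^ j) x).hom = x.hom ≫ (w ^ j : End Y) := by
  induction j generalizing x with
  | zero => rw [pow_zero, comp_pow_zero]; rfl
  | succ j ih =>
    rw [pow_succ, Module.End.mul_apply, comp_pow_succ, ih]
    rfl

end HMpow

variable {T : Type u} [Category.{v} T] [Preadditive T] [HasZeroObject T] [HasShift T ℤ]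
  [∀ n : ℤ, (shiftFunctor T n).Additive] [Pretriangulated T]
  [MonoidalCategory T] [SymmetricCategory T] [TensorTriangulated T]
  {P : T} [MonObj P] [IsCommMonObj P] {K : T} (F : LocFunctor K)

/-- The ideal generated by `v_0, …, v_{h-1}`. -/
def Iv (P : T) [MonObj P] [IsCommMonObj P] (v : ℕ → (𝟙_ T ⟶ P)) (h : ℕ) : Ideal (Sc P) :=
  Ideal.span ((fun k => Sc.of (v k)) '' Set.Iio h)

theorem mem_Iv {v : ℕ → (𝟙_ T ⟶ P)} {h k : ℕ} (hk : k < h) : Sc.of (v k) ∈ Iv P v h :=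
  Ideal.subset_span ⟨k, hk, rfl⟩

/-- The linear map `Hom(W, N) → Hom(W, L N)`. -/
noncomputable def LocFunctor.homMap {N : T} (M : ModStr P N) (W : T) :
    HM M.smr W →ₗ[Sc P] HM (F.mod M).smr W :=
  HM.map (A := Sc P) (F.u N) (fun a => (F.isLinear_u M).smul a) W

/-- The linear map `Hom(W, N) → Hom(W, N')` induced by a map compatible with scalars. -/
noncomputable def scMap {N N' : T} {M : ModStr P N} {M' : ModStr P N'} (f : N ⟶ N')
    (hf : ∀ a, M.smul a ≫ f = f ≫ M'.smul a) (W : T) : HM M.smr W →ₗ[Sc P] HM M'.smr W :=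
  HM.map f hf W

theorem loc_compat {N N' : T} {M : ModStr P N} {M' : ModStr P N'} {f : N ⟶ N'}
    (hf : ∀ a, M.smul a ≫ f = f ≫ M'.smul a) (a : 𝟙_ T ⟶ P) :
    (F.mod M).smul a ≫ F.L.map f = F.L.map f ≫ (F.mod M').smul a := by
  rw [F.mod_smul M, F.mod_smul M', ← F.L.map_comp, ← F.L.map_comp, hf]

/-- The condition proved in theorem E1. -/
structure E1C (v : ℕ → (𝟙_ T ⟶ P)) (h : ℕ) {N : T} (M : ModStr P N) : Prop where
  odd : OddZero (F.L.obj N)
  even : ∀ n : ℤ, Even n → CompCond (Iv P v h) (Sc.of (v h)) (F.homMap M (Sph T n))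

variable {F}

/-- `E1C` passes to retracts. -/
theorem E1C.retract {v : ℕ → (𝟙_ T ⟶ P)} {h : ℕ} {N N' : T} {M : ModStr P N}
    {M' : ModStr P N'} (hM : E1C F v h M') (i : N ⟶ N') (r : N' ⟶ N) (hir : i ≫ r = 𝟙 N)
    (hi : ∀ a, M.smul a ≫ i = i ≫ M'.smul a) (hr : ∀ a, M'.smul a ≫ r = r ≫ M.smul a) :
    E1C F v h M where
  odd := hM.odd.retract (F.L.map i) (F.L.map r) (by rw [← F.L.map_comp, hir, F.L.map_id])
  even n hn := by
    have hir' : F.L.map i ≫ F.L.map r = 𝟙 _ := by rw [← F.L.map_comp, hir, F.L.map_id]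
    refine (hM.even n hn).retract (scMap i hi _) (scMap r hr _)
      (scMap (F.L.map i) (loc_compat F hi) _) (scMap (F.L.map r) (loc_compat F hr) _) ?_ ?_ ?_ ?_
    · intro x
      apply HM.hom_ext
      change (x.hom ≫ i) ≫ r = x.hom
      rw [Category.assoc, hir, Category.comp_id]
    · intro x
      apply HM.hom_ext
      change (x.hom ≫ F.L.map i) ≫ F.L.map r = x.hom
      rw [Category.assoc, hir', Category.comp_id]
    · intro x
      apply HM.hom_ext
      change (x.hom ≫ i) ≫ F.u N' = (x.hom ≫ F.u N) ≫ F.L.map i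
      rw [Category.assoc, Category.assoc, F.u_naturality]
    · intro x
      apply HM.hom_ext
      change (x.hom ≫ r) ≫ F.u N = (x.hom ≫ F.u N') ≫ F.L.map r
      rw [Category.assoc, Category.assoc, F.u_naturality]

section Ideal

variable {Z : T} (MA : ModStr P Z) (MB : ModStr (P ⊗ P) Z)
  (hAB : ∀ a : 𝟙_ T ⟶ P, MA.smul a = MB.smul (scL P a))

include hAB in
theorem actB_comm (b : 𝟙_ T ⟶ P ⊗ P) (a : 𝟙_ T ⟶ P) :
    MA.smul a ≫ MB.smul b = MB.smul b ≫ MA.smul a := by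
  rw [hAB, MB.smul_comm]

/-- The action of a scalar of `P ⊗ P` as a linear map. -/
noncomputable def actB (b : 𝟙_ T ⟶ P ⊗ P) (W : T) : HM MA.smr W →ₗ[Sc P] HM MA.smr W :=
  HM.map (MB.smul b) (actB_comm MA MB hAB b) W

/-- `1 ⊗ v_i` raises the `I`-adic filtration. -/
theorem actB_scR_mem {v : ℕ → (𝟙_ T ⟶ P)} {h i : ℕ} (hi : i < h) (hinv : InvRel P v i) (W : T)
    (j : ℕ) {x : HM MA.smr W} (hx : x ∈ (Iv P v h ^ j • ⊤ : Submodule (Sc P) (HM MA.smr W))) :
    actB MA MB hAB (scR P (v i)) W x ∈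
      (Iv P v h ^ (j + 1) • ⊤ : Submodule (Sc P) (HM MA.smr W)) := by
  obtain ⟨u, u', c, -, hc⟩ := hinv
  have h1 : actB MA MB hAB (scR P (v i)) W x = Sc.of (v i) • actB MA MB hAB u W x +
      ∑ k ∈ Finset.range i, Sc.of (v k) • actB MA MB hAB (c k) W x := by
    apply HM.hom_ext
    rw [HM.hom_add, HM.hom_sum]
    change x.hom ≫ MB.smul (scR P (v i)) = (x.hom ≫ MB.smul u) ≫ MA.smul (v i) +
        ∑ k ∈ Finset.range i, (x.hom ≫ MB.smul (c k)) ≫ MA.smul (v k)
    rw [hc, MB.smul_add, MB.smul_sum, Preadditive.comp_add, Preadditive.comp_sum]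
    congr 1
    · rw [MB.smul_mul', Category.assoc, hAB]
    · refine Finset.sum_congr rfl fun k _ => ?_
      rw [MB.smul_mul, Category.assoc, hAB]
  have h3 : ∀ k < h, ∀ y ∈ (Iv P v h ^ j • ⊤ : Submodule (Sc P) (HM MA.smr W)),
      Sc.of (v k) • y ∈ (Iv P v h ^ (j + 1) • ⊤ : Submodule (Sc P) (HM MA.smr W)) := by
    intro k hk y hy
    rw [pow_succ', Submodule.mul_smul]
    exact Submodule.smul_mem_smul (mem_Iv hk) hy
  rw [h1]
  refine add_mem (h3 i hi _ (map_mem_smul_top _ _ hx)) (sum_mem fun k hk => ?_)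
  exact h3 k (lt_trans (Finset.mem_range.1 hk) hi) _ (map_mem_smul_top _ _ hx)

end Ideal

end Vale.Agent.P251.S
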