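import Vale.Agent.P251.S.KosData

/-!
# P251, part S2: honest modules are local (b), unique solvability (c)
-/

open CategoryTheory MonoidalCategory Limits MonObj Pretriangulated

set_option linter.unusedSectionVars false

universe v u

namespace Vale.Agent.P251.S

open T

section gen

variable {T : Type u} [Category.{v} T] [Preadditive T]

/-- a nilpotent endomorphism which is injective on `Hom(X, N)` forces `Hom(X, N) = 0` -/
theorem eq_zero_of_nilpotent {X N : T} {w : End N} (hw : IsNilpotent w)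
    (h : ∀ g : X ⟶ N, g ≫ (w : N ⟶ N) = 0 → g = 0) (f : X ⟶ N) : f = 0 := by
  obtain ⟨n, hn⟩ := hw
  have key : ∀ (n : ℕ) (g : X ⟶ N), g ≫ (w ^ n : End N) = 0 → g = 0 := by
    intro n
    induction n with
    | zero => intro g hg; rwa [comp_pow_zero] at hg
    | succ n ih => intro g hg; rw [comp_pow_succ] at hg; exact h _ (ih _ hg)
  exact key n f (by rw [hn]; exact comp_zero)

end gen

section tel

variable {T : Type u} [Category.{v} T] [Preadditive T] [HasZeroObject T] [HasShift T ℤ]
  [∀ n : ℤ, (shiftFunctor T n).Additive] [Pretriangulated T]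
  [MonoidalCategory T] [SymmetricCategory T] [TensorTriangulated T]

/-- desuspensions of acyclic objects are acyclic -/
theorem acyclic_shift {K W : T} (hW : Acyclic K W) (n : ℤ) : Acyclic K (W⟦n⟧) := by
  unfold Acyclic at hW ⊢
  have e : K ⊗ (W⟦n⟧) ≅ (K ⊗ W)⟦n⟧ := ((tensorLeft K).commShiftIso n).app W
  exact ((shiftFunctor T n).map_isZero hW).of_iso e

theorem acyclic_tensor {K W : T} (hW : Acyclic K W) (X : T) : Acyclic K (X ⊗ W) := by
  unfold Acyclic at hW ⊢
  have e : K ⊗ (X ⊗ W) ≅ X ⊗ (K ⊗ W) :=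
    (α_ K X W).symm ≪≫ whiskerRightIso (β_ K X) W ≪≫ α_ X K W
  exact ((tensorLeft X).map_isZero hW).of_iso e

variable [HasCoproducts.{0} T]

/-- if the telescope of `w : X ⟶ X` is acyclic and `N` is local then compatible families are
zero -/
theorem IsLocal.eq_zero_of_compat {K N X : T} (hN : IsLocal K N) {w : X ⟶ X}
    (U : Tel (X := fun _ => X) (fun _ => w)) (hU : Acyclic K U.obj) (x : ℕ → (X ⟶ N))
    (hx : ∀ n, x n = w ≫ x (n + 1)) (n : ℕ) : x n = 0 := by
  obtain ⟨l, hl⟩ := U.exists_desc (Z := N) x (fun n => (hx n).symm)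
  rw [← hl n, hN hU l, comp_zero]

/-- if the telescope of `w : X ⟶ X` is acyclic and `N` is local then `x n - w x (n+1) = a n` can
be solved -/
theorem IsLocal.exists_solution {K N X : T} (hN : IsLocal K N) {w : X ⟶ X}
    (U : Tel (X := fun _ => X) (fun _ => w)) (hU : Acyclic K U.obj) (a : ℕ → (X ⟶ N)) :
    ∃ x : ℕ → (X ⟶ N), ∀ n, x n - w ≫ x (n + 1) = a n := by
  have hd := inv_rot_of_distTriang _ U.dist
  have h0 : (Triangle.mk (sigmaSub (X := fun _ => X) (fun _ => w)) (Sigma.desc U.ι)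
      U.δ).invRotate.mor₁ ≫ Sigma.desc a = 0 := by
    apply hN
    exact acyclic_shift hU (-1)
  obtain ⟨y, hy⟩ := Triangle.yoneda_exact₂ _ hd (Sigma.desc a) h0
  change (∐ fun _ : ℕ => X) ⟶ N at y
  replace hy : Sigma.desc a = sigmaSub (X := fun _ => X) (fun _ => w) ≫ y := hy
  refine ⟨fun n => Sigma.ι (fun _ : ℕ => X) n ≫ y, fun n => ?_⟩
  have h1 := congrArg (Sigma.ι (fun _ : ℕ => X) n ≫ ·) hy
  simp only [Sigma.ι_desc, ι_sigmaSub_assoc, Preadditive.sub_comp, Category.assoc] at h1
  exact h1.symm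

end tel

section main

variable {T : Type u} [Category.{v} T] [Preadditive T] [HasZeroObject T] [HasShift T ℤ]
  [∀ n : ℤ, (shiftFunctor T n).Additive] [Pretriangulated T]
  [MonoidalCategory T] [SymmetricCategory T] [TensorTriangulated T] [MonoidalClosed T]
  [HasCoproducts.{0} T]
  {P : T} [MonObj P] [IsCommMonObj P] {p : ℤ} {h : ℕ} {v : ℕ → (𝟙_ T ⟶ P)}
  (D : KosData P p h v) {N : T}

namespace KosData

/-- **(b)** A `P`-module on which `v 0, …, v (h-1)` are nilpotent and `v h` is invertible is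
`K`-local. -/
theorem isLocal_of_mod (M : ModStr P N) (hv : InvData P p h v)
    (hn : ∀ k < h, IsNilpotent (M.sm (v k))) (hi : IsIso (M.smul (v h))) : IsLocal D.K N := by
  intro W hW f
  have key : ∀ i ≤ h, ∀ g : W ⊗ D.kos i ⟶ N, g = 0 := by
    intro i hih
    induction hih using Nat.decreasingInduction with
    | self =>
      intro g
      apply M.eq_zero_of_extR
      let U := D.isTel.tel.tensL (W ⊗ D.kos h)
      obtain ⟨l, hl⟩ := U.exists_desc_const (M.smul (v h)) (M.extR g)
        (by rw [M.extR_smul]; exact M.self_smul_extR g (v h))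
      have e : U.obj ≅ D.K ⊗ W := α_ W (D.kos h) D.Tl ≪≫ β_ W D.K
      have hz : IsZero U.obj := hW.of_iso e
      rw [← hl, hz.eq_of_src l 0, comp_zero]
    | of_succ i hi' ih =>
      have ih' : ∀ g : (W ⊗ D.kos i) ⊗ D.Q i ⟶ N, g = 0 := by
        intro g
        have h9 := ih ((α_ W (D.kos i) (D.Q i)).inv ≫ g)
        rw [← cancel_epi (α_ W (D.kos i) (D.Q i)).inv, comp_zero]
        exact h9
      refine eq_zero_of_nilpotent (hn i hi') ?_
      intro g hg
      match i, g, hg, ih' with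
      | 0, g, hg, ih' =>
        have hg' : p • g = 0 := by
          have h2 : M.smul (v 0) = p • 𝟙 N := by
            rw [hv.v0]
            have := map_zsmul M.smulHom p η[P]
            change M.smul (p • η[P]) = p • M.smul η[P] at this
            rw [this, M.smul_one]
          have hg2 : g ≫ M.smul (v 0) = 0 := hg
          rw [h2, Preadditive.comp_zsmul, Category.comp_id] at hg2
          exact hg2
        obtain ⟨l, hl⟩ := Triangle.yoneda_exact₂ _ (tens_dist (W ⊗ D.kos 0) D.dist0)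
          ((ρ_ (W ⊗ D.kos 0)).hom ≫ g) (by
            change ((W ⊗ D.kos 0) ◁ (p • 𝟙 (𝟙_ T))) ≫ (ρ_ (W ⊗ D.kos 0)).hom ≫ g = 0
            have h3 : (W ⊗ D.kos 0) ◁ (p • 𝟙 (𝟙_ T)) = p • ((W ⊗ D.kos 0) ◁ (𝟙 (𝟙_ T))) :=
              map_zsmul ((tensorLeft (W ⊗ D.kos 0)).mapAddHom (X := 𝟙_ T) (Y := 𝟙_ T)) p (𝟙 _)
            rw [h3, MonoidalCategory.whiskerLeft_id, Preadditive.zsmul_comp, Category.id_comp,
              ← Preadditive.comp_zsmul, hg', comp_zero])
        change (W ⊗ D.kos 0) ⊗ D.Q 0 ⟶ N at l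
        replace hl : (ρ_ (W ⊗ D.kos 0)).hom ≫ g = ((W ⊗ D.kos 0) ◁ D.q0) ≫ l := hl
        rw [ih' l, comp_zero] at hl
        rw [← cancel_epi (ρ_ (W ⊗ D.kos 0)).hom, hl, comp_zero]
      | i + 1, g, hg, ih' =>
        apply M.eq_zero_of_extR
        obtain ⟨l, hl⟩ := Triangle.yoneda_exact₂ _ (tens_dist (W ⊗ D.kos (i + 1)) (D.dist i))
          (M.extR g) (by
            have h3 := M.self_smul_extR g (v (i + 1))
            rw [show g ≫ M.smul (v (i + 1)) = 0 from hg, M.extR_zero] at h3
            exact h3)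
        change (W ⊗ D.kos (i + 1)) ⊗ D.Q (i + 1) ⟶ N at l
        replace hl : M.extR g = ((W ⊗ D.kos (i + 1)) ◁ D.q i) ≫ l := hl
        rw [hl, ih' l, comp_zero]
  have h0 := key 0 (Nat.zero_le _) ((ρ_ W).hom ≫ f)
  have h1 : (ρ_ W).hom ≫ f = 0 := h0
  rw [← cancel_epi (ρ_ W).hom, comp_zero]
  exact h1

end KosData

/-- **(c)** for one self map: if the telescope of `a` on `P` is `K`-acyclic and `N` is a `K`-local
`P`-module, then the tower `(Hom(W, N), a)` has vanishing `lim` and `lim¹`. -/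
theorem ModStr.us_of_acyclic {K : T} (M : ModStr P N) (hN : IsLocal K N) (a : 𝟙_ T ⟶ P)
    (U : Tel (X := fun _ => P) (fun _ => (ModStr.self P).smul a))
    (hU : ∀ X : T, Acyclic K (X ⊗ U.obj)) (W : T) : US W (M.sm a) := by
  -- the telescope of `a ▷ W` on `P ⊗ W`
  let UW := U.tensR W
  have hUW : Acyclic K UW.obj := by
    have e : UW.obj ≅ W ⊗ U.obj := β_ U.obj W
    unfold Acyclic
    exact (hU W).of_iso (whiskerLeftIso K e)
  let MW := (ModStr.self P).tensorRight W
  have hMW : MW.smul a = (ModStr.self P).smul a ▷ W := ModStr.tensorRight_smul _ _ _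
  -- compatible families are zero
  have huniq : ∀ d : ℕ → (W ⟶ N), (∀ n, d n = d (n + 1) ≫ M.smul a) → ∀ n, d n = 0 := by
    intro d hd n
    apply M.eq_zero_of_ext
    refine hN.eq_zero_of_compat UW hUW (fun n => M.ext (d n)) (fun n => ?_) n
    rw [M.self_smul_ext, ← hd n]
  intro b
  -- existence
  obtain ⟨c, hc⟩ := hN.exists_solution UW hUW (fun n => M.ext (b n))
  replace hc : ∀ n, c n - ((ModStr.self P).smul a ▷ W) ≫ c (n + 1) = M.ext (b n) := hc
  have hlin : ∀ n, MW.IsLinear M (c n) := by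
    intro n
    let UP := UW.tensL P
    have hUP : Acyclic K UP.obj := acyclic_tensor hUW P
    have h1 := hN.eq_zero_of_compat UP hUP (fun n => (P ◁ c n) ≫ M.act - MW.act ≫ c n) (by
      intro n
      have h2 : (P ◁ ((ModStr.self P).smul a ▷ W)) ≫ MW.act =
          MW.act ≫ ((ModStr.self P).smul a ▷ W) := by
        have := MW.smul_linear a
        unfold ModStr.IsLinear at this
        rw [hMW] at this
        exact this.symm
      have h3 : ((ModStr.self P).smul a ▷ W) ≫ c (n + 1) = c n - M.ext (b n) := by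
        rw [← hc n]; abel
      have h4 : MW.act ≫ M.ext (b n) = (P ◁ M.ext (b n)) ≫ M.act := M.ext_linear (b n)
      rw [Preadditive.comp_sub, reassoc_of% h2, ← whiskerLeft_comp_assoc, h3,
        Preadditive.comp_sub, h4, show P ◁ (c n - M.ext (b n)) = P ◁ c n - P ◁ M.ext (b n) from
          (tensorLeft P).map_sub, Preadditive.sub_comp]
      abel) n
    exact (sub_eq_zero.1 h1).symm
  refine ⟨fun n => ModStr.unitMap P W ≫ c n, fun n => ?_, ?_⟩
  · change ModStr.unitMap P W ≫ c n - (ModStr.unitMap P W ≫ c (n + 1)) ≫ M.smul a = b n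
    have h5 := (hlin (n + 1)).smul a
    rw [hMW] at h5
    rw [Category.assoc, ← h5, ← Preadditive.comp_sub, hc n, M.unitMap_ext]
  · intro y hy
    funext n
    have h6 := huniq (fun n => y n - ModStr.unitMap P W ≫ c n) (fun n => by
      have h7 : y n - y (n + 1) ≫ M.smul a = b n := hy n
      have h8 : ModStr.unitMap P W ≫ c n - (ModStr.unitMap P W ≫ c (n + 1)) ≫ M.smul a = b n := by
        have h5 := (hlin (n + 1)).smul a
        rw [hMW] at h5
        rw [Category.assoc, ← h5, ← Preadditive.comp_sub, hc n, M.unitMap_ext]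
      rw [Preadditive.sub_comp]
      rw [sub_eq_iff_eq_add] at h7 h8
      rw [h7, h8]
      abel) n
    exact sub_eq_zero.1 h6

/-- **(c)** `N` a `K`-local `P`-module, `i < h`: the tower `(Hom(W, N), v i)` has vanishing `lim`
and `lim¹`. -/
theorem KosData.us (M : ModStr P N) (hv : InvData P p h v) (hN : IsLocal D.K N) (i : ℕ)
    (hi : i < h) (W : T) : US W (M.sm (v i)) := by
  obtain ⟨U⟩ := exists_tel (X := fun _ : ℕ => P) (fun _ => (ModStr.self P).smul (v i))
  exact M.us_of_acyclic hN (v i) U (fun X => D.tel_acyclic hv i hi X U) W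

end main

end Vale.Agent.P251.S
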