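import Vale.Agent.P251.S.E1a
import Vale.Agent.P251.S.Local

/-!
# P251, part S2: theorem E1

For a module `N` over `P` on which `p` is nilpotent, and such that the odd homotopy of
`N ⊗ Q_1 ⊗ ⋯ ⊗ Q_{k-1} ⊗ P` vanishes for `1 ≤ k ≤ h`, the even homotopy of the `K`-localization
`L N` is the `I`-adic completion of `v_h⁻¹ π_* N`, and the odd homotopy vanishes.
-/

open CategoryTheory MonoidalCategory Limits MonObj Pretriangulated

set_option linter.unusedSectionVars false

universe v u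

namespace Vale.Agent.P251.S

open T

variable {T : Type u} [Category.{v} T] [Preadditive T] [HasZeroObject T] [HasShift T ℤ]
  [∀ n : ℤ, (shiftFunctor T n).Additive] [Pretriangulated T]
  [MonoidalCategory T] [SymmetricCategory T] [TensorTriangulated T]
  {P : T} [MonObj P] [IsCommMonObj P] {N : T}

section structures

/-- Transport of a module structure along an isomorphism. -/
def ModStr.ofIso {N' : T} (M : ModStr P N) (e : N ≅ N') : ModStr P N' where
  act := (P ◁ e.inv) ≫ M.act ≫ e.hom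
  one_act := by
    rw [← whisker_exchange_assoc, ← Category.assoc (η[P] ▷ N), M.one_act,
      leftUnitor_naturality_assoc, Iso.inv_hom_id, Category.comp_id]
  mul_act := by
    rw [← whisker_exchange_assoc, ← Category.assoc (μ[P] ▷ N), M.mul_act]
    simp only [whiskerLeft_comp, Category.assoc]
    rw [associator_naturality_right_assoc, ← whiskerLeft_comp_assoc P e.hom, Iso.hom_inv_id,
      MonoidalCategory.whiskerLeft_id, Category.id_comp]

theorem ModStr.ofIso_smul {N' : T} (M : ModStr P N) (e : N ≅ N') (a : 𝟙_ T ⟶ P) :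
    (M.ofIso e).smul a = e.inv ≫ M.smul a ≫ e.hom := by
  unfold ModStr.smul ModStr.ofIso
  rw [← whisker_exchange_assoc]
  simp only [Category.assoc]
  rw [leftUnitor_inv_naturality_assoc]

/-- The module structure on `X ⊗ N` coming from `N`. -/
def ModStr.tensorLeft (M : ModStr P N) (X : T) : ModStr P (X ⊗ N) :=
  (M.tensorRight X).ofIso (β_ N X)

theorem ModStr.tensorLeft_smul (M : ModStr P N) (X : T) (a : 𝟙_ T ⟶ P) :
    (M.tensorLeft X).smul a = X ◁ M.smul a := by
  unfold ModStr.tensorLeft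
  rw [ModStr.ofIso_smul, ModStr.tensorRight_smul, BraidedCategory.braiding_naturality_left,
    Iso.inv_hom_id_assoc]

/-- `N ⟶ N ⊗ P`. -/
def modIn (P N : T) [MonObj P] : N ⟶ N ⊗ P := (ρ_ N).inv ≫ (N ◁ η[P])

/-- `N ⊗ P ⟶ N`. -/
def ModStr.modOut (M : ModStr P N) : N ⊗ P ⟶ N := (β_ N P).hom ≫ M.act

theorem ModStr.modIn_modOut (M : ModStr P N) : modIn P N ≫ M.modOut = 𝟙 N := by
  unfold modIn ModStr.modOut
  rw [Category.assoc, BraidedCategory.braiding_naturality_right_assoc, M.one_act,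
    braiding_leftUnitor, Iso.inv_hom_id]

theorem ModStr.modIn_smul (M : ModStr P N) (a : 𝟙_ T ⟶ P) :
    M.smul a ≫ modIn P N = modIn P N ≫ (M.tensorRight P).smul a := by
  unfold modIn
  rw [ModStr.tensorRight_smul, rightUnitor_inv_naturality_assoc, Category.assoc,
    whisker_exchange]

theorem ModStr.modOut_smul (M : ModStr P N) (a : 𝟙_ T ⟶ P) :
    (M.tensorRight P).smul a ≫ M.modOut = M.modOut ≫ M.smul a := by
  unfold ModStr.modOut
  have h := M.smul_linear a
  unfold ModStr.IsLinear at h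
  rw [ModStr.tensorRight_smul, BraidedCategory.braiding_naturality_left_assoc, ← h,
    Category.assoc]

end structures

section step

variable {K : T} (F : LocFunctor K) (M : ModStr P N) (v : ℕ → (𝟙_ T ⟶ P))

/-- The triangle `N ⊗ P ⟶ N ⊗ P ⟶ N ⊗ Q_i[j]`. -/
theorem dist_N (i j : ℕ) :
    Triangle.mk ((endL N P ((ModStr.self P).sm (v i))) ^ j : End (N ⊗ P))
      (N ◁ cofπ (((ModStr.self P).sm (v i)) ^ j : End P))
      (tensδ N (cofδ (((ModStr.self P).sm (v i)) ^ j : End P))) ∈ distTriang T := by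
  rw [← map_pow]
  exact tens_dist N (cof_dist (((ModStr.self P).sm (v i)) ^ j : End P))

/-- The localization of the triangle `N ⊗ P ⟶ N ⊗ P ⟶ N ⊗ Q_i[j]`. -/
theorem dist_LN (i j : ℕ) :
    Triangle.mk ((F.L.mapEnd (N ⊗ P) (endL N P ((ModStr.self P).sm (v i)))) ^ j :
        End (F.L.obj (N ⊗ P)))
      (F.L.map (N ◁ cofπ (((ModStr.self P).sm (v i)) ^ j : End P)))
      (F.L.map (tensδ N (cofδ (((ModStr.self P).sm (v i)) ^ j : End P))) ≫
        (F.L.commShiftIso (1 : ℤ)).hom.app (N ⊗ P)) ∈ distTriang T := by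
  rw [← map_pow]
  exact F.L.map_distinguished _ (dist_N (N := N) v i j)

/-- The two module structures on `N ⊗ P`. -/
theorem tensB_smul (a : 𝟙_ T ⟶ P) :
    (M.tensorRight P).smul a = (M.tens (ModStr.self P)).smul (scL P a) := by
  rw [ModStr.tensorRight_smul, ModStr.tens_smul_left]

theorem tensB_smul_loc (a : 𝟙_ T ⟶ P) :
    (F.mod (M.tensorRight P)).smul a = (F.mod (M.tens (ModStr.self P))).smul (scL P a) := by
  rw [F.mod_smul, F.mod_smul, tensB_smul]

theorem actB_pow_mem {Z : T} (MA : ModStr P Z) (MB : ModStr (P ⊗ P) Z)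
    (hAB : ∀ a : 𝟙_ T ⟶ P, MA.smul a = MB.smul (scL P a)) {v : ℕ → (𝟙_ T ⟶ P)} {h i : ℕ}
    (hi : i < h) (hinv : InvRel P v i) (W : T) (j : ℕ) (x : HM MA.smr W) :
    ((actB MA MB hAB (scR P (v i)) W) ^ j) x ∈
      (Iv P v h ^ j • ⊤ : Submodule (Sc P) (HM MA.smr W)) := by
  induction j with
  | zero => rw [pow_zero, pow_zero, Ideal.one_eq_top, Submodule.top_smul]; trivial
  | succ j ih =>
    have h1 : ((actB MA MB hAB (scR P (v i)) W) ^ (j + 1)) x =
        actB MA MB hAB (scR P (v i)) W (((actB MA MB hAB (scR P (v i)) W) ^ j) x) := by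
      rw [pow_succ', Module.End.mul_apply]
    rw [h1]
    exact actB_scR_mem MA MB hAB hi hinv W j ih

theorem hom_actB_pow {Z : T} (MA : ModStr P Z) (MB : ModStr (P ⊗ P) Z)
    (hAB : ∀ a : 𝟙_ T ⟶ P, MA.smul a = MB.smul (scL P a)) (b : 𝟙_ T ⟶ P ⊗ P) (W : T) (j : ℕ)
    (x : HM MA.smr W) :
    (((actB MA MB hAB b W) ^ j) x).hom = x.hom ≫ ((MB.sm b) ^ j : End Z) :=
  HM.map_pow _ _ _ _ _

variable {v} in
/-- The induction step of theorem E1. -/
theorem e1_step {h i : ℕ} (hi : i < h) (hinv : InvRel P v i)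
    (hus : ∀ n, US (Sph T n) (F.L.mapEnd (N ⊗ P) (endL N P ((ModStr.self P).sm (v i)))))
    (hP : OddZero (N ⊗ P)) (hQ : ∀ j, E1C F v h (M.tensorRight (Qc P v i j))) :
    E1C F v h (M.tensorRight P) := by
  set w : End (N ⊗ P) := endL N P ((ModStr.self P).sm (v i)) with hw
  have hd := fun j => dist_N (N := N) v i j
  have hLd := fun j => dist_LN F (N := N) v i j
  simp only [← hw] at hd hLd
  have hodd : OddZero (F.L.obj (N ⊗ P)) := key_oddZero hus hLd (hQ 1).odd
  have hwB : (M.tens (ModStr.self P)).sm (scR P (v i)) = w :=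
    ModStr.tens_smul_right _ _ _
  have hwBL : (F.mod (M.tens (ModStr.self P))).sm (scR P (v i)) = F.L.mapEnd (N ⊗ P) w := by
    rw [F.mod_sm, hwB]
  refine ⟨hodd, fun n hn => ?_⟩
  have hcq : ∀ (j : ℕ) (a : 𝟙_ T ⟶ P), (M.tensorRight P).smul a ≫
      (N ◁ cofπ (((ModStr.self P).sm (v i)) ^ j : End P)) =
      (N ◁ cofπ (((ModStr.self P).sm (v i)) ^ j : End P)) ≫
        (M.tensorRight (Qc P v i j)).smul a := by
    intro j a
    rw [ModStr.tensorRight_smul, ModStr.tensorRight_smul]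
    exact (whisker_exchange _ _).symm
  have hinj : ∀ x : Sph T n ⟶ F.L.obj (N ⊗ P), x ≫ (F.L.mapEnd (N ⊗ P) w) = 0 → x = 0 :=
    fun x hx => key_injective hLd (hQ 1).odd hn x hx
  refine CompCond.of_quotients
    (actB (M.tensorRight P) (M.tens (ModStr.self P)) (tensB_smul M) (scR P (v i)) (Sph T n))
    (actB (F.mod (M.tensorRight P)) (F.mod (M.tens (ModStr.self P))) (tensB_smul_loc F M)
      (scR P (v i)) (Sph T n))
    (fun j => HM (M.tensorRight (Qc P v i j)).smr (Sph T n))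
    (fun j => HM (F.mod (M.tensorRight (Qc P v i j))).smr (Sph T n))
    (fun j => F.homMap (M.tensorRight (Qc P v i j)) (Sph T n))
    (fun j => (hQ j).even n hn)
    (fun j => scMap _ (hcq j) _)
    (fun j => scMap _ (loc_compat F (hcq j)) _) ?_ ?_ ?_ ?_ ?_ ?_ ?_ ?_ ?_
  · intro j x
    apply HM.hom_ext
    change (x.hom ≫ N ◁ cofπ (((ModStr.self P).sm (v i)) ^ j : End P)) ≫ F.u _ =
      (x.hom ≫ F.u _) ≫ F.L.map (N ◁ cofπ (((ModStr.self P).sm (v i)) ^ j : End P))
    rw [Category.assoc, Category.assoc, F.u_naturality]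
  · intro j y
    obtain ⟨x, hx⟩ := surjective_even (hd j) hP hn y.hom
    exact ⟨HM.of x, HM.hom_ext hx⟩
  · intro j y
    obtain ⟨x, hx⟩ := surjective_even (hLd j) hodd hn y.hom
    exact ⟨HM.of x, HM.hom_ext hx⟩
  · intro j x hx
    obtain ⟨y, hy⟩ := (eq_zero_iff_even (hd j) x.hom).1 hx
    refine ⟨HM.of y, HM.hom_ext ?_⟩
    rw [hom_actB_pow, hwB]
    exact hy
  · intro j x
    constructor
    · intro hx
      obtain ⟨y, hy⟩ := (eq_zero_iff_even (hLd j) x.hom).1 hx
      refine ⟨HM.of y, HM.hom_ext ?_⟩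
      rw [hom_actB_pow, hwBL]
      exact hy
    · rintro ⟨y, hy⟩
      refine (eq_zero_iff_even (hLd j) x.hom).2 ⟨y.hom, ?_⟩
      rw [← hy, hom_actB_pow, hwBL]
  · intro j x
    exact actB_pow_mem _ _ _ hi hinv _ j x
  · intro j x
    exact actB_pow_mem _ _ _ hi hinv _ j x
  · intro x hx
    apply HM.hom_ext
    refine (hus n).haus hinj x.hom fun j => ?_
    obtain ⟨y, hy⟩ := hx j
    refine ⟨y.hom, ?_⟩
    rw [← hy, hom_actB_pow, hwBL]
  · intro e he
    obtain ⟨l, hl⟩ := (hus n).complete (fun k => (e k).hom) (fun k => by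
      obtain ⟨a, ha⟩ := he k
      refine ⟨a.hom, ?_⟩
      rw [← hwBL, ← hom_actB_pow _ _ (tensB_smul_loc F M), ← ha]
      rfl)
    refine ⟨HM.of l, fun k => ?_⟩
    obtain ⟨a, ha⟩ := hl k
    refine ⟨HM.of a, HM.hom_ext ?_⟩
    rw [hom_actB_pow, hwBL]
    exact ha

end step

end Vale.Agent.P251.S
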