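import Vale.Agent.P251.S.E1b
import Vale.Agent.P251.S.CompLoc

/-!
# P251, part S2: theorem E1 (base case and conclusion)
-/

open CategoryTheory MonoidalCategory Limits MonObj Pretriangulated

set_option linter.unusedSectionVars false

universe v u

namespace Vale.Agent.P251.S

open T

variable {T : Type u} [Category.{v} T] [Preadditive T] [HasZeroObject T] [HasShift T ℤ]
  [∀ n : ℤ, (shiftFunctor T n).Additive] [Pretriangulated T]
  [MonoidalCategory T] [SymmetricCategory T] [TensorTriangulated T] [MonoidalClosed T]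
  [HasCoproducts.{0} T]
  {P : T} [MonObj P] [IsCommMonObj P] {p : ℤ} {h : ℕ} {v : ℕ → (𝟙_ T ⟶ P)}
  (D : KosData P p h v) (F : LocFunctor D.K) {N : T} (M : ModStr P N)

/-- The localization of `N ⊗ P` is `N ⊗ Tl` if `v_0, …, v_{h-1}` are nilpotent on `N`. -/
theorem exists_theta (hv : InvData P p h v) (hh : 1 ≤ h)
    (hn : ∀ k < h, IsNilpotent (M.sm (v k))) :
    ∃ θ : F.L.obj (N ⊗ P) ≅ N ⊗ D.Tl, F.u (N ⊗ P) ≫ θ.hom = N ◁ D.ι 0 ∧
      F.L.map ((M.tensorRight P).smul (v h)) ≫ θ.hom =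
        θ.hom ≫ (M.tensorRight D.Tl).smul (v h) ∧
      IsIso ((M.tensorRight D.Tl).smul (v h)) := by
  have hiso : IsIso ((M.tensorRight D.Tl).smul (v h)) :=
    isIso_a2 M v h (hv.inv h hh le_rfl) hn D.isTel.tel
  have hY : IsLocal D.K (N ⊗ D.Tl) := D.isLocal_of_mod (M.tensorRight D.Tl) hv
    (fun k hk => isNilpotent_tensorRight M _ _ (hn k hk)) hiso
  have hf : KEq D.K (N ◁ D.ι 0) := D.isIso_K_ι hv hh N
  refine ⟨F.isoOfKEq hY _ hf, F.u_isoOfKEq hY _ hf, ?_, hiso⟩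
  apply F.hom_ext hY
  rw [F.u_naturality_assoc, F.u_isoOfKEq, ← Category.assoc (F.u _), F.u_isoOfKEq,
    ModStr.tensorRight_smul, ModStr.tensorRight_smul]
  exact (whisker_exchange _ _).symm

section telFacts

variable (N)

theorem tel_pow_ι (m : ℕ) :
    ((endL N P ((ModStr.self P).sm (v h))) ^ m : End (N ⊗ P)) ≫ (N ◁ D.ι m) = N ◁ D.ι 0 := by
  have := (D.isTel.tel.tensL N).itr_ι_const m
  rw [itr_eq_pow (N ◁ (ModStr.self P).smul (v h) : End (N ⊗ P))] at this
  exact this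

theorem tel_factor {W : T} (hW : IsCpt W) (y : W ⟶ N ⊗ D.Tl) :
    ∃ (m : ℕ) (a : W ⟶ N ⊗ P), a ≫ (N ◁ D.ι m) = y :=
  (D.isTel.tel.tensL N).exists_factor hW y

theorem tel_zero {W : T} (hW : IsCpt W) (f : W ⟶ N ⊗ P) (hf : f ≫ (N ◁ D.ι 0) = 0) :
    ∃ k : ℕ, f ≫ ((endL N P ((ModStr.self P).sm (v h))) ^ k : End (N ⊗ P)) = 0 := by
  obtain ⟨k, hk⟩ := (D.isTel.tel.tensL N).exists_eq_zero hW (n := 0) f hf
  refine ⟨k, ?_⟩
  rw [trT_const, itr_eq_pow (N ◁ (ModStr.self P).smul (v h) : End (N ⊗ P))] at hk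
  exact hk

end telFacts

/-- The base case of theorem E1. -/
theorem e1_base (hv : InvData P p h v) (hh : 1 ≤ h) (hcpt : ∀ n : ℤ, IsCpt (Sph T n))
    (hn : ∀ k < h, IsNilpotent (M.sm (v k))) (hodd : OddZero (N ⊗ P)) :
    E1C F v h (M.tensorRight P) := by
  obtain ⟨θ, hθ, hθl, hiso⟩ := exists_theta D F M hv hh hn
  have hinj : ∀ {W : T} (x : W ⟶ F.L.obj (N ⊗ P)), x ≫ θ.hom = 0 → x = 0 := by
    intro W x hx
    rw [← cancel_mono θ.hom, hx, zero_comp]
  have hdvd := fun j => (exists_dvd M v h (hv.inv h hh le_rfl) hn j).1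
  have hYs : (M.tensorRight P).smul (v h) = endR N P (M.sm (v h)) :=
    ModStr.tensorRight_smul _ _ _
  -- the action of `v h` on the localization
  have hact : ∀ (m : ℕ) {W : T} (x : W ⟶ F.L.obj (N ⊗ P)),
      (x ≫ (((F.mod (M.tensorRight P)).sm (v h)) ^ m : End (F.L.obj (N ⊗ P)))) ≫ θ.hom =
        (x ≫ θ.hom) ≫ (((M.tensorRight D.Tl).sm (v h)) ^ m : End (N ⊗ D.Tl)) := by
    intro m W x
    rw [Category.assoc, Category.assoc]
    congr 1
    refine (comp_pow_eq (q := θ.hom) (y := (F.mod (M.tensorRight P)).sm (v h))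
      (y' := (M.tensorRight D.Tl).sm (v h)) ?_ m).symm
    rw [F.mod_sm]
    exact hθl.symm
  have hact2 : ∀ (m k : ℕ) {W : T} (a : W ⟶ N ⊗ P),
      (a ≫ (N ◁ D.ι k)) ≫ (((M.tensorRight D.Tl).sm (v h)) ^ m : End (N ⊗ D.Tl)) =
        (a ≫ ((endR N P (M.sm (v h))) ^ m : End (N ⊗ P))) ≫ (N ◁ D.ι k) := by
    intro m k W a
    rw [Category.assoc, Category.assoc]
    congr 1
    refine comp_pow_eq (q := N ◁ D.ι k) (y := endR N P (M.sm (v h)))
      (y' := (M.tensorRight D.Tl).sm (v h)) ?_ m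
    change N ◁ D.ι k ≫ (M.tensorRight D.Tl).smul (v h) = (M.smul (v h) ▷ P) ≫ N ◁ D.ι k
    rw [ModStr.tensorRight_smul]
    exact whisker_exchange _ _
  have hisoL : IsIso (F.L.map ((M.tensorRight P).smul (v h))) := by
    have h1 : F.L.map ((M.tensorRight P).smul (v h)) =
        θ.hom ≫ (M.tensorRight D.Tl).smul (v h) ≫ θ.inv := by
      rw [← Category.assoc, ← hθl, Category.assoc, Iso.hom_inv_id, Category.comp_id]
    rw [h1]
    infer_instance
  refine ⟨?_, fun n hn' => ?_⟩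
  · intro n hn' x
    obtain ⟨m, a, ha⟩ := tel_factor D N (hcpt n) (x ≫ θ.hom)
    apply hinj
    rw [← ha, hodd n hn' a, zero_comp]
  obtain ⟨m, hm⟩ := exists_pow_le_ker (F.mod (M.tensorRight P)).smr (Set.Iio h)
    (Set.finite_Iio h) (fun k => Sc.of (v k)) (fun k hk => by
      change IsNilpotent ((F.mod (M.tensorRight P)).sm (v k))
      rw [F.mod_sm]
      exact isNilpotent_map (F.L.mapEnd _) (F.L.map_zero _ _)
        (isNilpotent_tensorRight M _ _ (hn k hk)))
  refine CompCond.of_localization (m := m) ?_ ?_ ?_ ?_ ?_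
  · intro a ha e
    apply HM.hom_ext
    rw [HM.hom_smul, hm a ha]
    exact comp_zero
  · intro e he
    apply HM.hom_ext
    have h1 : e.hom ≫ (F.mod (M.tensorRight P)).smul (v h) = 0 := congrArg HM.hom he
    rw [F.mod_smul] at h1
    rw [← cancel_mono (F.L.map ((M.tensorRight P).smul (v h))), h1]
    exact zero_comp.symm
  · intro e
    refine ⟨HM.of (e.hom ≫ inv (F.L.map ((M.tensorRight P).smul (v h)))), HM.hom_ext ?_⟩
    change (e.hom ≫ inv (F.L.map ((M.tensorRight P).smul (v h)))) ≫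
      (F.mod (M.tensorRight P)).smul (v h) = e.hom
    rw [F.mod_smul, Category.assoc, IsIso.inv_hom_id, Category.comp_id]
  · intro e
    obtain ⟨m, a, ha⟩ := tel_factor D N (hcpt n) (e.hom ≫ θ.hom)
    obtain ⟨m', g, hg, hgc⟩ := hdvd m
    refine ⟨m', HM.of (a ≫ g), HM.hom_ext ?_⟩
    have h1 : (Sc.of (v h) ^ m' • e).hom =
        e.hom ≫ (((F.mod (M.tensorRight P)).sm (v h)) ^ m' : End (F.L.obj (N ⊗ P))) := by
      rw [HM.hom_smul, map_pow]
      rfl
    rw [h1, ← cancel_mono θ.hom, hact, ← ha, hact2, hg]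
    change _ = ((a ≫ g) ≫ F.u (N ⊗ P)) ≫ θ.hom
    rw [Category.assoc _ (F.u (N ⊗ P)), hθ, ← tel_pow_ι D N m, End.mul_def]
    simp only [Category.assoc]
  · intro f hf
    have h1 : f.hom ≫ (N ◁ D.ι 0) = 0 := by
      have h2 : f.hom ≫ F.u (N ⊗ P) = 0 := congrArg HM.hom hf
      rw [← hθ, ← Category.assoc, h2, zero_comp]
    obtain ⟨k, hk⟩ := tel_zero D N (hcpt n) f.hom h1
    obtain ⟨m', g, hg, hgc⟩ := hdvd k
    refine ⟨m', HM.hom_ext ?_⟩
    have h3 : (Sc.of (v h) ^ m' • f).hom =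
        f.hom ≫ ((endR N P (M.sm (v h))) ^ m' : End (N ⊗ P)) := by
      rw [HM.hom_smul, map_pow]
      change f.hom ≫ ((M.tensorRight P).sm (v h) ^ m' : End (N ⊗ P)) = _
      rw [sm_tensorRight]
    rw [h3, hg, (hgc.pow_left k).eq, End.mul_def, ← Category.assoc, hk, zero_comp]
    rfl

/-- From `N ⊗ P` to `N`. -/
theorem E1C.of_tensorRight {F : LocFunctor D.K} {M : ModStr P N}
    (hM : E1C F v h (M.tensorRight P)) : E1C F v h M :=
  hM.retract (modIn P N) M.modOut M.modIn_modOut M.modIn_smul M.modOut_smul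

theorem e1_aux (hv : InvData P p h v) (hh : 1 ≤ h) (hcpt : ∀ n : ℤ, IsCpt (Sph T n)) (m : ℕ) :
    ∀ (i : ℕ) {N : T} (M : ModStr P N), i + m = h → 1 ≤ i →
      (∀ k < i, IsNilpotent (M.sm (v k))) → Good P v i m N → E1C F v h M := by
  induction m with
  | zero =>
    intro i N M him hi hn hg
    obtain rfl : i = h := by omega
    exact E1C.of_tensorRight D (e1_base D F M hv hh hcpt hn hg)
  | succ m ih =>
    intro i N M him hi hn hg
    have hih : i < h := by omega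
    apply E1C.of_tensorRight D
    refine e1_step F M hih (hv.inv i hi hih.le) (fun n => ?_) hg.1 (fun j => ?_)
    · have h1 := D.us (F.mod ((ModStr.self P).tensorLeft N)) hv (F.isLocal _) i hih (Sph T n)
      rw [F.mod_sm] at h1
      have h2 : ((ModStr.self P).tensorLeft N).sm (v i) = endL N P ((ModStr.self P).sm (v i)) :=
        ModStr.tensorLeft_smul _ _ _
      rwa [h2] at h1
    · refine ih (i + 1) (M.tensorRight (Qc P v i j)) (by omega) (by omega) (fun k hk => ?_)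
        (hg.2.qc j)
      rcases Nat.lt_succ_iff_lt_or_eq.1 hk with hk | rfl
      · exact isNilpotent_tensorRight M _ _ (hn k hk)
      · exact isNilpotent_step M v k (hv.inv k hi hih.le) hn j
          (cof_dist (((ModStr.self P).sm (v k)) ^ j : End P))

/-- **Theorem E1.** Let `N` be a `P`-module on which `p` is nilpotent, such that the odd homotopy of
`N ⊗ Q_1 ⊗ ⋯ ⊗ Q_{k-1} ⊗ P` vanishes for `1 ≤ k ≤ h`. Then the odd homotopy of the localization
`L N` vanishes, and its even homotopy is the `I`-adic completion of `v_h⁻¹ π_* N`. -/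
theorem theoremE1 (hv : InvData P p h v) (hh : 1 ≤ h) (hcpt : ∀ n : ℤ, IsCpt (Sph T n))
    (hp : IsNilpotent (M.sm (v 0))) (hg : Good P v 1 (h - 1) N) : E1C F v h M :=
  e1_aux D F hv hh hcpt (h - 1) 1 M (by omega) le_rfl (fun k hk => by
    obtain rfl : k = 0 := by omega
    exact hp) hg

end Vale.Agent.P251.S
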