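import Mathlib.Algebra.Group.Hom.Defs
import Mathlib.Algebra.Group.Subgroup.Ker
import Mathlib.Algebra.Module.LinearMap.Defs
import Mathlib.Tactic.Abel
import Mathlib.Tactic.Linarith
import Mathlib.Tactic.Ring
import Mathlib.Tactic.Push
import Mathlib.Order.Filter.AtTopBot.Basic

/-!
# P251, part S (S4): exact couples of Adams type

Pure algebra.  An (unrolled) exact couple of Adams type

`D (s+1) n → D s n → E s n → D (s+1) (n-1) → ...` (maps `i`, `j`, `k`)

with `s : ℕ` and `n : ℤ`; the map `k` is indexed by proofs of `n = m + 1`.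
-/

universe u v

namespace Vale.Agent.P251.S

/-- An (unrolled) exact couple of Adams type. -/
structure Couple where
  /-- the groups `D^s_n` (for a tower: `π_n (X_s)`) -/
  D : ℕ → ℤ → Type u
  /-- the groups `E^s_n` (for a tower: `π_n` of the cofibre of `X_{s+1} → X_s`) -/
  E : ℕ → ℤ → Type v
  [instD : ∀ s n, AddCommGroup (D s n)]
  [instE : ∀ s n, AddCommGroup (E s n)]
  /-- the map of the tower -/
  i : ∀ s n, D (s + 1) n →+ D s n
  /-- the map to the cofibre -/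
  j : ∀ s n, D s n →+ E s n
  /-- the boundary map -/
  k : ∀ s n m, n = m + 1 → (E s n →+ D (s + 1) m)
  j_i : ∀ s n y, j s n (i s n y) = 0
  exact_j : ∀ s n y, j s n y = 0 → ∃ y', i s n y' = y
  k_j : ∀ s n m (h : n = m + 1) y, k s n m h (j s n y) = 0
  exact_k : ∀ s n m (h : n = m + 1) z, k s n m h z = 0 → ∃ y, j s n y = z
  i_k : ∀ s n m (h : n = m + 1) z, i s m (k s n m h z) = 0
  exact_i : ∀ s n m (_ : n = m + 1) (y : D (s + 1) m), i s m y = 0 → ∃ z, k s n m ‹_› z = y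

attribute [instance] Couple.instD Couple.instE

namespace Couple

variable (C : Couple.{u, v})

/-- The differential `d_1 : E^s_n → E^{s+1}_{n-1}`. -/
def d (s : ℕ) (n m : ℤ) (h : n = m + 1) : C.E s n →+ C.E (s + 1) m :=
  (C.j (s + 1) m).comp (C.k s n m h)

lemma d_apply (s : ℕ) (n m : ℤ) (h : n = m + 1) (z : C.E s n) :
    C.d s n m h z = C.j (s + 1) m (C.k s n m h z) := rfl

lemma d_d (s : ℕ) (n m l : ℤ) (h : n = m + 1) (h' : m = l + 1) (z : C.E s n) :
    C.d (s + 1) m l h' (C.d s n m h z) = 0 := by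
  rw [d_apply, d_apply, C.k_j, map_zero]

/-- A cocycle in `E^s_n`. -/
def IsCocycle {s : ℕ} {n : ℤ} (z : C.E s n) : Prop :=
  ∀ (m : ℤ) (h : n = m + 1), C.d s n m h z = 0

/-- A coboundary in `E^{s+1}_m`. -/
def IsCobdy {s : ℕ} {m : ℤ} (b : C.E (s + 1) m) : Prop :=
  ∃ z : C.E s (m + 1), C.d s (m + 1) m rfl z = b

/-- Every cocycle in `E^{s+1}_m` is a coboundary. -/
def Van (s : ℕ) (m : ℤ) : Prop :=
  ∀ b : C.E (s + 1) m, C.IsCocycle b → C.IsCobdy b

lemma isCocycle_j {s : ℕ} {n : ℤ} (y : C.D s n) : C.IsCocycle (C.j s n y) := by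
  intro m h
  rw [d_apply, C.k_j, map_zero]

variable {C} in
lemma IsCobdy.k_eq_zero {s : ℕ} {m : ℤ} {b : C.E (s + 1) m} (hb : C.IsCobdy b) (l : ℤ)
    (h : m = l + 1) : C.k (s + 1) m l h b = 0 := by
  obtain ⟨z, rfl⟩ := hb
  rw [d_apply, C.k_j]

/-- The iterated map of the tower. -/
def iN (s : ℕ) (n : ℤ) : ∀ r : ℕ, C.D (s + r) n →+ C.D s n
  | 0 => AddMonoidHom.id _
  | r + 1 => (iN s n r).comp (C.i (s + r) n)

@[simp] lemma iN_zero (s : ℕ) (n : ℤ) (y : C.D (s + 0) n) : C.iN s n 0 y = y := rfl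

lemma iN_succ (s : ℕ) (n : ℤ) (r : ℕ) (y : C.D (s + (r + 1)) n) :
    C.iN s n (r + 1) y = C.iN s n r (C.i (s + r) n y) := rfl

/-- One step of the lifting procedure: an element of `D^{s+1}` may be changed without changing
its image in `D^s` such that it lifts to `D^{s+2}`. -/
lemma step {s : ℕ} {m : ℤ} (hv : C.Van s m) (y : C.D (s + 1) m) :
    ∃ y' : C.D (s + 2) m, C.i s m (C.i (s + 1) m y') = C.i s m y := by
  obtain ⟨z, hz⟩ := hv _ (C.isCocycle_j y)
  have h0 : C.j (s + 1) m (y - C.k s (m + 1) m rfl z) = 0 := by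
    rw [map_sub, sub_eq_zero]; exact hz.symm
  obtain ⟨y', hy'⟩ := C.exact_j _ _ _ h0
  refine ⟨y', ?_⟩
  rw [hy', map_sub, C.i_k, sub_zero]

/-- Statement (7) of MATH: if the cohomology of `E_1` vanishes from `s + 1` on (in degree `m`),
then the image in `D^s` of any element `y` of `D^{s+1}` is the bottom entry of a compatible
family. -/
theorem exists_compatible {s : ℕ} {m : ℤ} (hv : ∀ s' ≥ s, C.Van s' m) (y : C.D (s + 1) m) :
    ∃ u : ∀ r : ℕ, C.D (s + r) m, (∀ r, C.i (s + r) m (u (r + 1)) = u r) ∧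
      u 0 = C.i s m y := by
  have hstep : ∀ (r : ℕ) (y : C.D (s + r + 1) m), ∃ y' : C.D (s + (r + 1) + 1) m,
      C.i (s + r) m (C.i (s + r + 1) m y') = C.i (s + r) m y :=
    fun r y => C.step (hv _ (Nat.le_add_right _ _)) y
  choose f hf using hstep
  let w : ∀ r : ℕ, C.D (s + r + 1) m := fun r => Nat.rec (motive := fun r => C.D (s + r + 1) m)
    y (fun r y' => f r y') r
  refine ⟨fun r => C.i (s + r) m (w r), fun r => ?_, rfl⟩
  exact hf r (w r)

/-- If moreover the only compatible family is `0`, then `D^{s+1} → D^s` is zero (in degree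
`m`). -/
theorem i_eq_zero {s : ℕ} {m : ℤ} (hv : ∀ s' ≥ s, C.Van s' m)
    (hlim : ∀ u : ∀ r : ℕ, C.D (s + r) m, (∀ r, C.i (s + r) m (u (r + 1)) = u r) → u 0 = 0)
    (y : C.D (s + 1) m) : C.i s m y = 0 := by
  obtain ⟨u, hu, hu0⟩ := C.exists_compatible hv y
  rw [← hu0]
  exact hlim u hu

/-- Under vanishing, the image of `y ∈ D^{s+1}` in `D^s` comes from every `D^{s+r}`. -/
theorem exists_iN_eq {s : ℕ} {m : ℤ} (hv : ∀ s' ≥ s, C.Van s' m) (y : C.D (s + 1) m) (r : ℕ) :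
    ∃ y' : C.D (s + r) m, C.iN s m r y' = C.i s m y := by
  obtain ⟨u, hu, hu0⟩ := C.exists_compatible hv y
  refine ⟨u r, ?_⟩
  rw [← hu0]
  induction r with
  | zero => rfl
  | succ r ih => rw [iN_succ, hu, ih]

/-- The obstruction lemma: a cocycle `b ∈ E^s_n` lifts to `D^s_n` if the cohomology of `E_1`
vanishes in degree `n - 1` and filtrations `≥ s + 2`, and `D^{s+1+r}_{n-1} = 0` for some `r`. -/
theorem exists_lift {s : ℕ} {n m : ℤ} (h : n = m + 1) (b : C.E s n)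
    (hb : C.IsCocycle b) (hv : ∀ s' ≥ s + 1, C.Van s' m) (r : ℕ)
    (hD : ∀ y : C.D (s + 1 + r) m, y = 0) : ∃ x : C.D s n, C.j s n x = b := by
  apply C.exact_k s n m h
  have hj : C.j (s + 1) m (C.k s n m h b) = 0 := hb m h
  obtain ⟨y, hy⟩ := C.exact_j _ _ _ hj
  obtain ⟨y', hy'⟩ := C.exists_iN_eq (s := s + 1) hv y r
  rw [← hy, ← hy', hD y', map_zero]

/-! ### Pro-constancy (statement (6) of MATH) -/

/-- The image of `D^{s+1}` in `D^s`. -/
def img (s : ℕ) (m : ℤ) : AddSubgroup (C.D s m) := (C.i s m).range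

/-- Injectivity: if the cohomology vanishes at `E^{s+1}_{m+1}`, then `D^{s+2} → D^{s+1}` followed
by `D^{s+1} → D^s` ... an element of the image of `D^{s+3}_m` in `D^{s+2}_m` which dies in
`D^{s+1}_m` is zero. -/
theorem img_injective {s : ℕ} {m : ℤ} (hv : C.Van s (m + 1)) (w : C.D (s + 2) m)
    (hw : w ∈ C.img (s + 2) m) (h0 : C.i (s + 1) m w = 0) : w = 0 := by
  obtain ⟨w', rfl⟩ := hw
  obtain ⟨z, hz⟩ := C.exact_i (s + 1) (m + 1) m rfl _ h0
  have hcoc : C.IsCocycle z := by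
    intro l hl
    obtain rfl : l = m := by linarith
    rw [d_apply, hz, C.j_i]
  obtain ⟨z', hz'⟩ := hv z hcoc
  rw [← hz, ← hz', d_apply, C.k_j]

/-- Surjectivity: if the cohomology vanishes at `E^{s+1}_m`, then every element of the image of
`D^{s+1}_m → D^s_m` comes from the image of `D^{s+2}_m → D^{s+1}_m`. -/
theorem img_surjective {s : ℕ} {m : ℤ} (hv : C.Van s m) (w : C.D s m) (hw : w ∈ C.img s m) :
    ∃ w' ∈ C.img (s + 1) m, C.i s m w' = w := by
  obtain ⟨y, rfl⟩ := hw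
  obtain ⟨y', hy'⟩ := C.step hv y
  exact ⟨_, ⟨y', rfl⟩, hy'⟩

/-- Under vanishing from filtration `s` on, compatible families `(u_r)` with `u_r ∈ D^{s+1+r}`
correspond bijectively to elements of the image of `D^{s+2}` in `D^{s+1}`. -/
theorem compatible_bijective {s : ℕ} {m : ℤ} (hv : ∀ s' ≥ s, C.Van s' m)
    (hv1 : ∀ s' ≥ s, C.Van s' (m + 1)) (w : C.D (s + 1) m) (hw : w ∈ C.img (s + 1) m) :
    ∃! u : ∀ r : ℕ, C.D (s + 1 + r) m, (∀ r, C.i (s + 1 + r) m (u (r + 1)) = u r) ∧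
      u 0 = w := by
  obtain ⟨y, rfl⟩ := hw
  obtain ⟨u, hu, hu0⟩ := C.exists_compatible (s := s + 1) (fun s' h => hv s' (by omega)) y
  refine ⟨u, ⟨hu, hu0⟩, ?_⟩
  rintro u' ⟨hu', hu'0⟩
  funext r
  induction r with
  | zero => rw [hu'0, hu0]
  | succ r ih =>
    rw [← sub_eq_zero]
    have e : s + 1 + (r + 1) = (s + r) + 2 := by omega
    -- transport along `e`
    have key : ∀ (a b : ℕ) (_ : a = b + 2) (_ : s ≤ b) (w : C.D a m) (w' : C.D (a + 1) m),
        C.i a m w' = w → (∀ c (hc : c + 1 = a), C.i c m (hc ▸ w) = 0) → w = 0 := by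
      rintro a b rfl hb w w' hw' h0
      exact C.img_injective (hv1 b hb) w ⟨w', hw'⟩ (h0 (b + 1) rfl)
    refine key _ (s + r) e (by omega) _ (u' (r + 2) - u (r + 2)) ?_ ?_
    · rw [map_sub]
      exact congrArg₂ _ (hu' (r + 1)) (hu (r + 1))
    · intro c hc
      obtain rfl : c = s + 1 + r := by omega
      have : C.i (s + 1 + r) m (u' (r + 1) - u (r + 1)) = 0 := by
        rw [map_sub, hu', hu, ih, sub_self]
      exact this

/-! ### The detection argument (statement (9) of MATH) -/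

/-- The composite map `D^a_n → D^b_n` of the tower, for `b ≤ a`. -/
def proj (n : ℤ) {b a : ℕ} (h : b ≤ a) : C.D a n → C.D b n :=
  Nat.leRecOn (C := fun a => C.D a n → C.D b n) h (fun {_} f y => f (C.i _ n y)) id

lemma proj_self (n : ℤ) (a : ℕ) (y : C.D a n) : C.proj n (le_refl a) y = y := by
  unfold proj
  rw [Nat.leRecOn_self]
  rfl

lemma proj_succ (n : ℤ) {b a : ℕ} (h : b ≤ a) (y : C.D (a + 1) n) :
    C.proj n (Nat.le_succ_of_le h) y = C.proj n h (C.i a n y) := by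
  unfold proj
  rw [Nat.leRecOn_succ h]

lemma proj_zero' (n : ℤ) {b a : ℕ} (h : b ≤ a) : C.proj n h (0 : C.D a n) = 0 := by
  induction a, h using Nat.le_induction with
  | base => rw [proj_self]
  | succ a h ih => rw [C.proj_succ n h, map_zero, ih]

/-- Projecting one step further. -/
lemma i_proj (n : ℤ) {b a : ℕ} (h : b + 1 ≤ a) (y : C.D a n) :
    C.i b n (C.proj n h y) = C.proj n (Nat.le_of_succ_le h) y := by
  induction a, h using Nat.le_induction with
  | base =>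
    rw [proj_self]
    have := C.proj_succ n (le_refl b) y
    rw [proj_self] at this
    exact this.symm
  | succ a h ih =>
    rw [C.proj_succ n h, ih, ← C.proj_succ n]

/-- Multiplication by an element of filtration `2` and degree `a`: maps `D^s_n → D^{s+2}_{n+a}`
compatible with the maps of the tower. -/
structure Mul2 (a : ℤ) where
  /-- the maps -/
  μ : ∀ s n, C.D s n →+ C.D (s + 2) (n + a)
  i_μ : ∀ s n y, C.i (s + 2) (n + a) (μ (s + 1) n y) = μ s n (C.i s n y)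

namespace Mul2

variable {C} {a : ℤ} (M : C.Mul2 a)

lemma proj_μ (n : ℤ) {b c : ℕ} (h : b ≤ c) (y : C.D c n) :
    C.proj (n + a) (Nat.add_le_add_right h 2) (M.μ c n y) = M.μ b n (C.proj n h y) := by
  induction c, h using Nat.le_induction with
  | base => rw [proj_self, proj_self]
  | succ c h ih =>
    rw [C.proj_succ n h, ← ih, ← M.i_μ, ← proj_succ]

end Mul2

/-- Statement (9) of MATH: a family `x_K ∈ D^{2K}` (`K`-th powers of an element of filtration `2`)
such that `x_{K₀}` dies in `D^0` but no `j x_K` is a coboundary, contradicts the vanishing of the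
cohomology of `E_1` in filtration `2 K - r` (large), `2 ≤ r ≤ 2 K₀`, and degree one more than the
degree of `x_K`. -/
theorem detection {a : ℤ} (M : C.Mul2 a) (m : ℕ → ℤ) (hm : ∀ K, m (K + 1) = m K + a)
    (x : ∀ K, C.D (2 * K) (m K))
    (hx : ∀ K, HEq (x (K + 1)) (M.μ (2 * K) (m K) (x K)))
    (K₀ s₀ : ℕ) (h0 : C.proj (m K₀) (Nat.zero_le _) (x K₀) = 0)
    (hdet : ∀ K, C.j _ _ (x K) ≠ 0)
    (hdet' : ∀ K, ∀ s, ∀ h : s + 1 = 2 * K, ¬ C.IsCobdy (h ▸ C.j _ _ (x K) : C.E (s + 1) (m K)))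
    (hvan : ∀ K s r : ℕ, 2 ≤ r → r ≤ 2 * K₀ → s + 1 + r = 2 * K → s₀ ≤ s → C.Van s (m K + 1)) :
    False := by
  -- `P K r`: the image of `x_K` in `D^{2K-r}` vanishes
  let P : ℕ → ℕ → Prop := fun K r => ∃ b, ∃ h : b ≤ 2 * K, b + r = 2 * K ∧
    C.proj (m K) h (x K) = 0
  have hPmul : ∀ K r, P K r → P (K + 1) r := by
    rintro K r ⟨b, hb, hbr, h⟩
    refine ⟨b + 2, by omega, by omega, ?_⟩
    have hxK := hx K
    have hmK := hm K
    revert hxK
    generalize x (K + 1) = y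
    revert y
    rw [hmK]
    intro y hy
    obtain rfl := eq_of_heq hy
    have := M.proj_μ (m K) hb (x K)
    rw [h, map_zero] at this
    exact this
  have hPmono : ∀ K K' r, K ≤ K' → P K r → P K' r := by
    intro K K' r h hP
    induction K', h using Nat.le_induction with
    | base => exact hP
    | succ K' _ ih => exact hPmul _ _ ih
  have hex : ∃ r, ∃ K, P K r := ⟨2 * K₀, K₀, 0, Nat.zero_le _, by omega, h0⟩
  classical
  let r := Nat.find hex
  obtain ⟨K₁, hK₁⟩ : ∃ K, P K r := Nat.find_spec hex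
  have hmin : ∀ r' < r, ∀ K, ¬ P K r' := fun r' h K hP => Nat.find_min hex h ⟨K, hP⟩
  have hr : r ≤ 2 * K₀ := Nat.find_min' hex ⟨K₀, 0, Nat.zero_le _, by omega, h0⟩
  -- choose `K` large
  obtain ⟨K, hKK₁, hKs⟩ : ∃ K, K₁ ≤ K ∧ s₀ + 1 + r ≤ 2 * K ∧ 1 ≤ K :=
    ⟨K₁ + s₀ + 1 + r, by omega, by omega, by omega⟩
  obtain ⟨b, hb, hbr, hP⟩ := hPmono K₁ K r hKK₁ hK₁
  rcases Nat.lt_or_ge r 2 with hr2 | hr2
  · rcases Nat.lt_or_ge r 1 with hr1 | hr1
    · -- r = 0
      obtain rfl : b = 2 * K := by omega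
      rw [proj_self] at hP
      exact hdet K (by rw [hP, map_zero])
    · -- r = 1
      have hbK : b + 1 = 2 * K := by omega
      have := hdet' K b hbK
      apply this
      have key : ∀ (c : ℕ) (h : b + 1 = c) (hbc : b ≤ c) (y : C.D c (m K)),
          C.proj (m K) hbc y = 0 → C.IsCobdy (h ▸ C.j _ _ y : C.E (b + 1) (m K)) := by
        rintro c rfl hbc y hy
        rw [C.proj_succ (m K) (le_refl b), proj_self] at hy
        obtain ⟨z, hz⟩ := C.exact_i b (m K + 1) (m K) rfl y hy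
        exact ⟨z, by rw [d_apply, hz]⟩
      exact key _ hbK hb _ hP
  · -- r ≥ 2
    have hb1 : b + 1 ≤ 2 * K := by omega
    have hb2 : b + 2 ≤ 2 * K := by omega
    have hne : C.proj (m K) hb1 (x K) ≠ 0 := fun h =>
      hmin (r - 1) (by omega) K ⟨b + 1, hb1, by omega, h⟩
    have hi : C.i b (m K) (C.proj (m K) hb1 (x K)) = 0 := by rw [i_proj]; exact hP
    obtain ⟨y, hy⟩ := C.exact_i b (m K + 1) (m K) rfl _ hi
    have hj : C.j (b + 1) (m K) (C.proj (m K) hb1 (x K)) = 0 := by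
      rw [← C.i_proj (m K) hb2 (x K), C.j_i]
    obtain ⟨s, rfl⟩ : ∃ s, b = s + 1 := ⟨b - 1, by omega⟩
    have hcoc : C.IsCocycle y := by
      intro l hl
      obtain rfl : l = m K := by linarith
      rw [d_apply, hy, hj]
    have := (hvan K s r hr2 hr (by omega) (by omega) y hcoc).k_eq_zero (m K) rfl
    rw [hy] at this
    exact hne this

namespace Mul2

variable {C} {a : ℤ} (M : C.Mul2 a)

/-- The degree `n₀ + K a` of `x^K` (by recursion). -/
def deg (a n₀ : ℤ) : ℕ → ℤ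
  | 0 => n₀
  | K + 1 => deg a n₀ K + a

lemma deg_eq (a n₀ : ℤ) (K : ℕ) : deg a n₀ K = n₀ + K * a := by
  induction K with
  | zero => simp [deg]
  | succ K ih => rw [deg, ih]; push_cast; ring

/-- The iterated products `x^K · u ∈ D^{2K}` of an element `u ∈ D^0_{n₀}`. -/
def pow {n₀ : ℤ} (u : C.D 0 n₀) : ∀ K : ℕ, C.D (2 * K) (deg a n₀ K)
  | 0 => u
  | K + 1 => M.μ (2 * K) (deg a n₀ K) (pow u K)

/-- Statement (9) of MATH, for the powers `x^K · u`. -/
theorem detection {n₀ : ℤ} (u : C.D 0 n₀) (K₀ s₀ : ℕ)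
    (h0 : C.proj (deg a n₀ K₀) (Nat.zero_le _) (M.pow u K₀) = 0)
    (hdet : ∀ K, C.j _ _ (M.pow u K) ≠ 0)
    (hdet' : ∀ K s, ∀ h : s + 1 = 2 * K,
      ¬ C.IsCobdy (h ▸ C.j _ _ (M.pow u K) : C.E (s + 1) (deg a n₀ K)))
    (hvan : ∀ K s r : ℕ, 2 ≤ r → r ≤ 2 * K₀ → s + 1 + r = 2 * K → s₀ ≤ s →
      C.Van s (n₀ + K * a + 1)) :
    False :=
  C.detection M (deg a n₀) (fun _ => rfl) (M.pow u) (fun _ => HEq.rfl) K₀ s₀ h0 hdet hdet'
    (fun K s r h1 h2 h3 h4 => by rw [deg_eq]; exact hvan K s r h1 h2 h3 h4)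

end Mul2

end Couple

end Vale.Agent.P251.S
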