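import Vale.Agent.P251.S.CobLim
import Vale.Agent.P251.S.CobarE1

/-!
# P251, part S: the towers `towerN p h w`

* `towerN_r_surjective`: the transition maps are surjective;
* `towerN_proZero`: `ProZero` from `FV_statement`;
* `UnitCof.CobModel.van_of_FV`: vanishing of `E_2` in filtrations `≥ 27` at `p = 5`, height `5`.
-/

open CategoryTheory Limits Pretriangulated MonoidalCategory MonObj

set_option linter.unusedSectionVars false

universe v u v' u'

namespace Vale.Agent.P251.S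

open Vale.Agent.P251.T Vale.Agent.P251.F

/-- The transition maps of the tower `towerN` are surjective. -/
theorem towerN_r_surjective (p h : ℕ) [Fact p.Prime] (w : ℤ) (s j : ℕ) :
    Function.Surjective ((I.towerN p h w).r s j) := by
  rintro ⟨y, hy⟩
  obtain ⟨k, c, hc⟩ := exists_toNN p h (j + 1) s y
  obtain ⟨a, ha⟩ := (isUnit_toNN_vC p h (j + 2) s).pow k
  let x : Cob (NN p h (j + 2)) s := ((a⁻¹ : (Cob (NN p h (j + 2)) s)ˣ) : Cob (NN p h (j + 2)) s) *
    toNN p h (j + 2) s c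
  have hx : toNN p h (j + 2) s (vC p h s) ^ k * x = toNN p h (j + 2) s c := by
    rw [← ha]
    exact Units.mul_inv_cancel_left a _
  have h1 : Cob.mapRing (NN.red p h (Nat.le_succ (j + 1))) s x = y := by
    refine ((isUnit_toNN_vC p h (j + 1) s).pow k).mul_right_injective ?_
    change toNN p h (j + 1) s (vC p h s) ^ k * _ = toNN p h (j + 1) s (vC p h s) ^ k * y
    rw [hc, ← red_toNN p h s (Nat.le_succ (j + 1)) (vC p h s), ← map_pow, ← map_mul,
      ← red_toNN p h s (Nat.le_succ (j + 1)) c]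
    exact congrArg _ hx
  refine ⟨⟨Cob.proj w x, Cob.isWt_proj w x⟩, Subtype.ext ?_⟩
  change Cob.mapRing (NN.red p h (Nat.le_succ (j + 1))) s (Cob.proj w x) = y
  rw [← Cob.proj_mapRing (isLawHom_NN_red p h _), h1, Cob.proj_of_isWt hy, if_pos rfl]

/-- Vanishing at height `p` above `p ^ 2`. -/
theorem towerN_proZero (hFV : I.FV_statement) (p : ℕ) [Fact p.Prime] (hp : p ≠ 2) (w : ℤ)
    (s : ℕ) (hs : p ^ 2 ≤ s) : (I.towerN p p w).ProZero s := by
  intro j
  refine ⟨j, le_refl j, ?_⟩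
  rintro ⟨z, hz⟩ hdz
  obtain ⟨y, hy, hdy⟩ := hFV p hp j w s hs z hz (congrArg Subtype.val hdz)
  refine ⟨⟨y, hy⟩, Eq.trans ?_ ((I.towerN p p w).res_self (s + 1) j _).symm⟩
  exact Subtype.ext hdy

namespace UnitCof

variable {T : Type u} [Category.{v} T] [Preadditive T] [HasZeroObject T] [HasShift T ℤ]
  [∀ n : ℤ, (shiftFunctor T n).Additive] [Pretriangulated T] [MonoidalCategory T]
  [SymmetricCategory T] [TensorTriangulated T]
  {D : Type u'} [Category.{v'} D] [Preadditive D] [HasZeroObject D] [HasShift D ℤ]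
  [∀ n : ℤ, (shiftFunctor D n).Additive] [Pretriangulated D]
  {R : T} [MonObj R] {U : UnitCof R} {Y : T} {F : T ⥤ D} [F.CommShift ℤ]
  [F.IsTriangulated] {P : D}

/-- Odd vanishing of the `E_1`-term. -/
theorem E_eq_zero_of_odd (hodd : ∀ (s : ℕ) (t : ℤ), Odd t →
    ∀ x : P⟦t⟧ ⟶ F.obj (U.cobar.Q (s + 1) Y), x = 0) (s : ℕ) (n : ℤ) (hn : Odd (n + s))
    (z : (((U.tow Y).map F).couple P).E s n) : z = 0 :=
  U.E_eq_zero Y F P rfl (hodd s _ hn) z

/-- The vanishing line at height `p`. -/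
theorem van_of_FV (hFV : I.FV_statement) (p : ℕ) [Fact p.Prime] (hp : p ≠ 2)
    (Φ : ∀ w : ℤ, U.CobModel Y F P w (I.towerN p p w))
    (hodd : ∀ (s : ℕ) (t : ℤ), Odd t → ∀ x : P⟦t⟧ ⟶ F.obj (U.cobar.Q (s + 1) Y), x = 0)
    (s : ℕ) (hs : p ^ 2 + 1 ≤ s) (n : ℤ) : (((U.tow Y).map F).couple P).Van s n := by
  obtain ⟨s, rfl⟩ : ∃ t, s = t + 1 := ⟨s - 1, by omega⟩
  rcases Int.even_or_odd (n + ((s + 2 : ℕ) : ℤ)) with he | ho
  · obtain ⟨w, hw⟩ := he
    exact (Φ w).van (by rw [hw]; ring) (towerN_r_surjective p p w s)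
      (towerN_proZero hFV p hp w s (by omega)) (towerN_proZero hFV p hp w (s + 1) (by omega))
  · intro b _
    refine ⟨0, ?_⟩
    rw [map_zero]
    exact (E_eq_zero_of_odd hodd (s + 1 + 1) n ho b).symm

/-- The vanishing line at height `p - 1` away from the exceptional weights. -/
theorem CobModel.van_of_proZero (p h : ℕ) [Fact p.Prime] {w : ℤ}
    (Φ : U.CobModel Y F P w (I.towerN p h w)) {s : ℕ} {m : ℤ} (hm : m + (s + 2 : ℕ) = 2 * w)
    (h1 : (I.towerN p h w).ProZero s) (h2 : (I.towerN p h w).ProZero (s + 1)) :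
    (((U.tow Y).map F).couple P).Van (s + 1) m :=
  Φ.van hm (towerN_r_surjective p h w s) h1 h2

end UnitCof

end Vale.Agent.P251.S
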