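import Vale.Agent.P251.S.Conv10
import Vale.Agent.P251.S.TowerN
import Vale.Agent.P251.M.MUInv

/-!
# P251, part S6(I): assembly

* `IsTel.of_M`: telescopes of part M are telescopes of part S;
* `MUData.built_isRMul`, `MUData.built_finEven`: the cellular hypotheses of the convergence theorem
  for `P = R ⊗ PS`;
* `partI_final`: the image of `x^14 u` in `L_{K(5)} M` vanishes, from the identification of the
  cobar complex of `L_{K(5)}(- ⊗ M)` with the limit of `towerN 5 5` and `FV_statement`.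
-/

open CategoryTheory MonoidalCategory Limits Pretriangulated MonObj

open scoped ZeroObject

set_option linter.unusedSectionVars false

universe v u

namespace Vale.Agent.P251.S

open Vale.Agent.P251.T

variable {T : Type u} [Category.{v} T] [Preadditive T] [HasZeroObject T]
    [HasShift T ℤ] [∀ n : ℤ, (shiftFunctor T n).Additive] [Pretriangulated T]

/-- The telescopes of part M are telescopes in the sense of part S. -/
lemma isTel_of_M [HasCoproducts.{0} T] {F : ℕ ⥤ T} {L : T} {ι : ∀ n, F.obj n ⟶ L}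
    (h : M.IsTel F L ι) : IsTel (fun n => F.map (homOfLE (Nat.le_succ n))) ι := by
  obtain ⟨δ, hδ⟩ := h.exists_triangle
  refine ⟨δ, ?_⟩
  have h1 : 𝟙 (∐ F.obj) - telShift (fun n => F.map (homOfLE (Nat.le_succ n))) = M.telMap F := by
    apply Sigma.hom_ext
    intro n
    rw [M.ι_telMap, Preadditive.comp_sub, Category.comp_id]
    simp [telShift]
  rw [h1]
  exact hδ

variable [IsTriangulated T]
    [MonoidalCategory T] [SymmetricCategory T] [TensorTriangulated T] [MonoidalClosed T]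
    [HasCoproducts.{0} T] [HasProducts.{0} T] [StableCat T]

lemma FinEven.of_evenSphere (w : ℤ) : FinEven ((M.stdEven T).S w) :=
  (FinEven.sphere w).of_iso ((M.stdEven T).sphIso (Iso.refl _) w).symm

/-- `R ⊗ PS` is of the form `R ⊗ W`. -/
lemma built_isRMul_RPS (R : T) (E : M.EvenSpheres T) : Built (IsRMul R) 1 (R ⊗ E.PS) :=
  Built.base (P := IsRMul R) (show IsRMul R (R ⊗ E.PS) from ⟨E.PS, ⟨Iso.refl _⟩⟩)

/-- `R ⊗ PS` is built from finite even complexes. -/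
lemma built_finEven_RPS (𝓜 : I.MUData T) :
    ∃ c, Built FinEven c (𝓜.R ⊗ (M.stdEven T).PS) := by
  obtain ⟨F, ι, hF, hc⟩ := 𝓜.cells 1
  have h1 := isTel_of_M hF
  have h2 : Built FinEven ((1 + 1) * 1) (Am 𝓜.R 1 ⊗ (M.stdEven T).PS) :=
    built_finEven_of_tel h1 (fun n => FinEven.of_evenCell (hc n)) _ FinEven.of_evenSphere
  exact ⟨_, Built.iso (whiskerRightIso (λ_ 𝓜.R) _) h2⟩

/-- **S6 (I)**. -/
theorem partI_final {R : T} [MonObj R] (U : UnitCof R) (M : T) {P : T} [MonObj P] {p : ℤ}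
    {h : ℕ} {v : ℕ → (𝟙_ T ⟶ P)} (D : KosData P p h v) (F : LocFunctor D.K)
    {c : ℕ} (hPR : Built (IsRMul R) c P) {c' : ℕ} (hPF : Built FinEven c' P)
    (hFV : I.FV_statement)
    [Fact (Nat.Prime 5)]
    (Φ : ∀ w : ℤ, U.CobModel (𝟙_ T) (tensorRight M ⋙ F.L) (𝟙_ T) w (I.towerN 5 5 w))
    (hodd : ∀ (s : ℕ) (t : ℤ), Odd t →
      ∀ x : (𝟙_ T)⟦t⟧ ⟶ (tensorRight M ⋙ F.L).obj (U.cobar.Q (s + 1) (𝟙_ T)), x = 0)
    (τ : 𝟭 T ⟶ tensorRight M ⋙ F.L) [NatTrans.CommShift τ ℤ]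
    (ξ : ∀ s, ((U.tow (𝟙_ T)).J s)⟦(40 : ℤ)⟧ ⟶ (U.tow (𝟙_ T)).J (s + 2))
    (hξ : ∀ s, ξ (s + 1) ≫ (U.tow (𝟙_ T)).c (s + 2) =
      ((U.tow (𝟙_ T)).c s)⟦(40 : ℤ)⟧' ≫
        (shiftFunctorComm T (1 : ℤ) 40).hom.app ((U.tow (𝟙_ T)).J s) ≫ (ξ s)⟦(1 : ℤ)⟧')
    (u : ((U.tow (𝟙_ T)).couple (𝟙_ T)).D 0 0) :
    ((U.tow (𝟙_ T)).unitDMor (𝟙_ T) τ).f 0 _
      ((U.tow (𝟙_ T)).powMap (𝟙_ T) 40 38 (by norm_num) ξ hξ u 14) = 0 :=
  partI_kos U M D F hPR hPF τ ξ hξ u (fun s n hn => UnitCof.E_eq_zero_of_odd hodd s n hn)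
    (fun s hs n => UnitCof.van_of_FV hFV 5 (by norm_num) Φ hodd s (by omega) n)

/-- **S6 (I)** for `MU` and `p = 5`: the image of `x^14 u` in `L_{K(5)} M` vanishes. -/
theorem partI_MU (𝓜 : I.MUData T) (U : UnitCof 𝓜.R) (M : T) [Fact (Nat.Prime 5)]
    (D : KosData 𝓜.P ((5 : ℕ) : ℤ) 5 (𝓜.vs 5)) (F : LocFunctor D.K)
    (hFV : I.FV_statement)
    (Φ : ∀ w : ℤ, U.CobModel (𝟙_ T) (tensorRight M ⋙ F.L) (𝟙_ T) w (I.towerN 5 5 w))
    (hodd : ∀ (s : ℕ) (t : ℤ), Odd t →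
      ∀ x : (𝟙_ T)⟦t⟧ ⟶ (tensorRight M ⋙ F.L).obj (U.cobar.Q (s + 1) (𝟙_ T)), x = 0)
    (τ : 𝟭 T ⟶ tensorRight M ⋙ F.L) [NatTrans.CommShift τ ℤ]
    (ξ : ∀ s, ((U.tow (𝟙_ T)).J s)⟦(40 : ℤ)⟧ ⟶ (U.tow (𝟙_ T)).J (s + 2))
    (hξ : ∀ s, ξ (s + 1) ≫ (U.tow (𝟙_ T)).c (s + 2) =
      ((U.tow (𝟙_ T)).c s)⟦(40 : ℤ)⟧' ≫
        (shiftFunctorComm T (1 : ℤ) 40).hom.app ((U.tow (𝟙_ T)).J s) ≫ (ξ s)⟦(1 : ℤ)⟧')
    (u : ((U.tow (𝟙_ T)).couple (𝟙_ T)).D 0 0) :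
    ((U.tow (𝟙_ T)).unitDMor (𝟙_ T) τ).f 0 _
      ((U.tow (𝟙_ T)).powMap (𝟙_ T) 40 38 (by norm_num) ξ hξ u 14) = 0 := by
  obtain ⟨c, hc⟩ := built_finEven_RPS 𝓜
  exact partI_final U M D F (built_isRMul_RPS 𝓜.R _) hc hFV Φ hodd τ ξ hξ u

end Vale.Agent.P251.S
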