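import Vale.Agent.P251.S.Final
import Vale.Agent.P251.S.FinalI
import Vale.Agent.P251.B.Final

/-!
# P251, part S: assembly of the witness from `MUData`

* `GrOut D U p h i F` : the output of the comparison of the cobar complex of
  `L_{K(h)}(- ⊗ S/p)` with the towers `towerN p h w`: `odd`, `model`, `compat`;
* `GrOut.not_cobdy` : non-triviality of the cup powers of `bcls p t` (height `p - 1`);
* `exists_witness_MU` : the element `f : 𝟙⟦m⟧ ⟶ 𝟙` whose image in `L_{K(5)}(S/5)` is zero and whose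
  image in `L_{K(4)}(S/5)` is not zero.
-/

open CategoryTheory MonoidalCategory Limits Pretriangulated MonObj

open scoped ZeroObject

set_option linter.unusedSectionVars false

universe v u

namespace Vale.Agent.P251.S

open Vale.Agent.P251.T Vale.Agent.P251.M Vale.Agent.P251.F Vale.Agent.P251.I Vale.Agent.P251.B

variable {T : Type u} [Category.{v} T] [Preadditive T] [HasZeroObject T]
    [HasShift T ℤ] [∀ n : ℤ, (shiftFunctor T n).Additive] [Pretriangulated T]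
    [MonoidalCategory T] [SymmetricCategory T] [TensorTriangulated T] [HasCoproducts.{0} T]

/-- The comparison of the cobar complex of `L(- ⊗ C)` with the towers `towerN p h w`. -/
structure GrOut (D : MUData T) (U : UnitCof D.R) (p h : ℕ) [Fact p.Prime] {C : T}
    (i : 𝟙_ T ⟶ C) {K : T} (F : LocFunctor K) where
  odd : ∀ (s : ℕ) (t : ℤ), Odd t →
    ∀ x : (𝟙_ T)⟦t⟧ ⟶ (tensorRight C ⋙ F.L).obj (U.cobar.Q (s + 1) (𝟙_ T)), x = 0
  /-- the identification -/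
  model : ∀ w : ℤ, U.CobModel (𝟙_ T) (tensorRight C ⋙ F.L) (𝟙_ T) w (towerN p h w)
  compat : ∀ (w : ℤ) (s : ℕ) (z : Cob.wt Laz s w) (j : ℕ),
    (((model w).φ s (((sphE T w).inv ≫ D.phi U s w z) ≫
      (locRed i F).app (U.cobar.Q (s + 1) (𝟙_ T)))).1 j).1 =
      Cob.mapRing (LawRing.ofLaz (NN p h (j + 1))) s z.1

namespace GrOut

variable {D : MUData T} {U : UnitCof D.R} {C : T} {i : 𝟙_ T ⟶ C} {K : T} {F : LocFunctor K}

/-- Non-triviality of a cochain whose image in `NN p h 1` is not a coboundary. -/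
theorem not_cobdy {p h : ℕ} [Fact p.Prime] (G : GrOut D U p h i F) {w : ℤ} {s : ℕ}
    (b : Cob.wt Laz (s + 1) w)
    (hb : ¬ ∃ y : Cob (NN p h 1) s, Cob.d s y =
      Cob.mapRing (LawRing.ofLaz (NN p h 1)) (s + 1) b.1)
    {t : ℤ} (e : (𝟙_ T)⟦t⟧ ≅ (stdEven T).S w) :
    ¬ ∃ c' : (𝟙_ T)⟦t⟧ ⟶ (tensorRight C ⋙ F.L).obj (U.cobar.Q (s + 1) (𝟙_ T)),
      c' ≫ (tensorRight C ⋙ F.L).map (U.cobar.d (s + 1) (𝟙_ T)) =
        (e.hom ≫ D.phi U (s + 1) w b) ≫ (locRed i F).app (U.cobar.Q (s + 2) (𝟙_ T)) := by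
  rintro ⟨c', hc'⟩
  have h1 := (G.model w).φ_d s ((sphE T w).inv ≫ e.inv ≫ c') 0
  have h2 : ((sphE T w).inv ≫ e.inv ≫ c') ≫
      (tensorRight C ⋙ F.L).map (U.cobar.d (s + 1) (𝟙_ T)) =
      ((sphE T w).inv ≫ D.phi U (s + 1) w b) ≫ (locRed i F).app _ := by
    rw [Category.assoc, Category.assoc, hc', Category.assoc, Iso.inv_hom_id_assoc,
      Category.assoc]
  have h3 := G.compat w (s + 1) b 0
  rw [← h2] at h3
  exact hb ⟨_, (congrArg Subtype.val h1).symm.trans h3⟩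

end GrOut

section Witness

variable [IsTriangulated T] [MonoidalClosed T] [HasProducts.{0} T] [StableCat T]

/-- The cup powers: the iterated products of the cochain `phi (bcls 5 t)` are the images of
the cup powers of `bcls 5 t`. -/
def CupPow (D : MUData T) (U : UnitCof D.R) {k : ℤ} (t : Cob Laz 1)
    (z : (𝟙_ T)⟦k⟧ ⟶ U.cobar.Q 3 (𝟙_ T)) : Prop :=
  ∀ K : ℕ, ∃ (hb : Cob.IsWt (20 * (K : ℤ)) (cupPow (bcls 5 t) K))
    (e : (𝟙_ T)⟦Couple.Mul2.deg k 0 K⟧ ≅ (stdEven T).S (20 * (K : ℤ))),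
    U.zpow (𝟙_ T) z (uOne T ≫ unitMap D.R (𝟙_ T)) K =
      e.hom ≫ D.phi U (2 * K) (20 * (K : ℤ)) ⟨cupPow (bcls 5 t) K, hb⟩

/-- **The witness from `MUData`.** -/
theorem exists_witness_MU [Fact (Nat.Prime 5)] (D : MUData T) (U : UnitCof D.R)
    (hFV : FV_statement) (hFS : FS_statement) (hFD : FD_statement) {C : T} (i : 𝟙_ T ⟶ C)
    (D₅ : KosData D.P ((5 : ℕ) : ℤ) 5 (D.vs 5)) {K₄ : T}
    (F₅ : LocFunctor D₅.K) (F₄ : LocFunctor K₄)
    (G₅ : GrOut D U 5 5 i F₅) (G₄ : GrOut D U 5 4 i F₄)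
    (hcup : ∀ (t : Cob Laz 1) (_ : IsT1 5 t) (hb : Cob.IsWt 20 (bcls 5 t)),
      CupPow D U t (((sphE T 20).inv : (𝟙_ T)⟦(40 : ℤ)⟧ ⟶ (stdEven T).S 20) ≫
        D.phi U 2 20 ⟨bcls 5 t, hb⟩)) :
    ∃ (m : ℤ) (f : (𝟙_ T)⟦m⟧ ⟶ 𝟙_ T), f ≫ i ≫ F₅.unit.app C = 0 ∧
      f ≫ i ≫ F₄.unit.app C ≠ 0 := by
  obtain ⟨t, ht, hb, x, hdz, hz⟩ := exists_beta_five D U
  obtain ⟨c, hc⟩ := built_finEven_RPS D
  obtain ⟨b, hKF⟩ := D₅.built_finEven hc
  obtain ⟨s₀, hs₀⟩ := hFS 5 (by norm_num)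
  refine exists_witness U i F₅ F₄ (D₅.built_isRMul (built_isRMul_RPS D.R _)) hKF x _ hz hdz
    (fun s n hn => UnitCof.E_eq_zero_of_odd G₅.odd s n hn)
    (fun s hs n => UnitCof.van_of_FV hFV 5 (by norm_num) G₅.model G₅.odd s (by omega) n)
    (fun s n hn => UnitCof.E_eq_zero_of_odd G₄.odd s n hn) s₀ ?_ ?_
  · intro s m w hm hs hw
    have hw' : ¬ ((((5 : ℕ) : ℤ) - 1) ∣ w ∧ (((5 : ℕ) : ℤ) ∣ w ∨ ((5 : ℕ) : ℤ) ∣ w + 1)) := hw
    exact (G₄.model w).van_of_proZero 5 4 hm (hs₀ w hw' s hs) (hs₀ w hw' (s + 1) (by omega))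
  · intro K
    obtain ⟨hb', e, he⟩ := hcup t ht hb (K + 1)
    rw [he]
    exact G₄.not_cobdy (s := 2 * K + 1) ⟨cupPow (bcls 5 t) (K + 1), hb'⟩
      (hFD 5 (by norm_num) t ht K) e

end Witness

end Vale.Agent.P251.S
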