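import Vale.Agent.P251.S.Final2
import Vale.Agent.P251.S.CupPow
import Vale.Agent.P251.F.LTFinal
import Vale.Agent.P251.F.Detect
import Vale.Agent.P251.C.Main

/-!
# P251, part S: the witness from `MUData`, `FS_statement` and the comparison `GrOut`
-/

open CategoryTheory MonoidalCategory Limits Pretriangulated MonObj

set_option linter.unusedSectionVars false

universe v u

namespace Vale.Agent.P251.S

open Vale.Agent.P251.T Vale.Agent.P251.M Vale.Agent.P251.F Vale.Agent.P251.I Vale.Agent.P251.B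

variable {T : Type u} [Category.{v} T] [Preadditive T] [HasZeroObject T]
    [HasShift T ℤ] [∀ n : ℤ, (shiftFunctor T n).Additive] [Pretriangulated T] [IsTriangulated T]
    [MonoidalCategory T] [SymmetricCategory T] [TensorTriangulated T] [MonoidalClosed T]
    [HasCoproducts.{0} T] [HasProducts.{0} T] [StableCat T]

lemma cupPow_phi (D : MUData T) (U : UnitCof D.R) (t : Cob Laz 1)
    (hb : Cob.IsWt 20 (bcls 5 t)) :
    CupPow D U t (((sphE T 20).inv : (𝟙_ T)⟦(40 : ℤ)⟧ ⟶ (stdEven T).S 20) ≫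
        D.phi U 2 20 ⟨bcls 5 t, hb⟩) := by
  intro K
  obtain ⟨e, he⟩ := zpow_eq_phi (M := D) (U := U) hb
    ((sphE T 20).symm : (𝟙_ T)⟦(40 : ℤ)⟧ ≅ (stdEven T).S 20) K (20 * K) rfl (cupPow_isWt hb K)
  exact ⟨cupPow_isWt hb K, e, he⟩

/-- **The witness from `MUData`.** Inputs: sparseness at height `4` and the comparison of the cobar
complexes of `L_{K(5)} (- ⊗ C)` and `L_{K(4)} (- ⊗ C)` with the towers `towerN`. -/
theorem exists_witness_MU₃ [Fact (Nat.Prime 5)] (hFS : FS_statement) (D : MUData T)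
    (U : UnitCof D.R) {C : T} (i : 𝟙_ T ⟶ C)
    (D₅ : KosData D.P ((5 : ℕ) : ℤ) 5 (D.vs 5)) {K₄ : T}
    (F₅ : LocFunctor D₅.K) (F₄ : LocFunctor K₄)
    (G₅ : GrOut D U 5 5 i F₅) (G₄ : GrOut D U 5 4 i F₄) :
    ∃ (m : ℤ) (f : (𝟙_ T)⟦m⟧ ⟶ 𝟙_ T), f ≫ i ≫ F₅.unit.app C = 0 ∧
      f ≫ i ≫ F₄.unit.app C ≠ 0 :=
  exists_witness_MU D U (FV_of_CV Vale.Agent.P251.C.CV) hFS FD i D₅ F₅ F₄ G₅ G₄
    fun t _ hb => cupPow_phi D U t hb

end Vale.Agent.P251.S
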