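import Vale.Agent.P251.S.GrD
import Vale.Agent.P251.S.CobarE1
import Vale.Agent.P251.B.Final

/-!
# P251, part S2G: the cobar complex of `L_K (S/p)` as the limit of the tower `towerN`

`GD.cobModel`: for `D : MUData T`, `p` odd, `C = S/p` and a localization functor `F` for which
theorem E1 holds for the modules `N_s`, the cobar complex `Hom(𝟙⟦2w⟧, L (Q (s+1) 𝟙 ⊗ C))` is the
limit of the tower `towerN p h w`; `GD.odd_zero`: the odd groups vanish; `GD.cobModel_phi`: the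
classes coming from `Cob Laz s`.
-/

open CategoryTheory MonoidalCategory MonObj Limits

set_option linter.unusedSectionVars false

universe v u

namespace Vale.Agent.P251.S

open Vale.Agent.P251.M Vale.Agent.P251.M.EvenSpheres Vale.Agent.P251.F Vale.Agent.P251.T
open Pretriangulated

variable {T : Type u} [Category.{v} T] [Preadditive T] [HasZeroObject T]
    [HasShift T ℤ] [∀ n : ℤ, (shiftFunctor T n).Additive] [Pretriangulated T] [IsTriangulated T]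
    [MonoidalCategory T] [SymmetricCategory T] [TensorTriangulated T] [MonoidalClosed T]
    [HasCoproducts.{0} T] [HasProducts.{0} T] [StableCat T]

namespace GD

theorem tensLoc_S (K : T) (n : ℤ) : TensLoc K ((stdEven T).S n) :=
  (tensLoc_sph (2 * n)).of_iso (B.sphE T n).symm

variable (D : I.MUData T) (U : UnitCof D.R) (C : T) {K : T} (F : LocFunctor K)

/-- The functor `L (- ⊗ C)`. -/
noncomputable abbrev LC : T ⥤ T := tensorRight C ⋙ F.L

/-- `Hom(𝟙⟦2w⟧, L (Q (s+1) 𝟙 ⊗ C)) → Hom(𝟙, L N_s)`. -/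
noncomputable def iG (s : ℕ) (w : ℤ) :
    ((𝟙_ T)⟦2 * w⟧ ⟶ F.L.obj (U.cobar.Q (s + 1) (𝟙_ T) ⊗ C)) →+ Es D C F s :=
  AddMonoidHom.mk' (fun x => HM.of (sharpLAdd F (tensLoc_S K) (Am D.R (s + 1) ⊗ C) w
    ((B.sphE T w).hom ≫ x ≫ F.L.map ((D.qAm U (s + 1)).hom ▷ C)))) fun x y => by
      apply HM.hom_ext
      change sharpLAdd F (tensLoc_S K) (Am D.R (s + 1) ⊗ C) w
        ((B.sphE T w).hom ≫ (x + y) ≫ F.L.map ((D.qAm U (s + 1)).hom ▷ C)) =
        sharpLAdd F (tensLoc_S K) (Am D.R (s + 1) ⊗ C) w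
        ((B.sphE T w).hom ≫ x ≫ F.L.map ((D.qAm U (s + 1)).hom ▷ C)) +
        sharpLAdd F (tensLoc_S K) (Am D.R (s + 1) ⊗ C) w
        ((B.sphE T w).hom ≫ y ≫ F.L.map ((D.qAm U (s + 1)).hom ▷ C))
      rw [← map_add, Preadditive.add_comp, Preadditive.comp_add]

theorem iG_hom (s : ℕ) (w : ℤ) (x : (𝟙_ T)⟦2 * w⟧ ⟶ F.L.obj (U.cobar.Q (s + 1) (𝟙_ T) ⊗ C)) :
    (iG D U C F s w x).hom = sharpL F (tensLoc_S K) w
      ((B.sphE T w).hom ≫ x ≫ F.L.map ((D.qAm U (s + 1)).hom ▷ C)) := rfl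

theorem iG_injective (s : ℕ) (w : ℤ) : Function.Injective (iG D U C F s w) := by
  rw [injective_iff_map_eq_zero]
  intro x hx
  have h1 : sharpLAdd F (tensLoc_S K) (Am D.R (s + 1) ⊗ C) w
      ((B.sphE T w).hom ≫ x ≫ F.L.map ((D.qAm U (s + 1)).hom ▷ C)) = 0 := congrArg HM.hom hx
  have h2 := (injective_iff_map_eq_zero _).1
    (sharpL_injective F (tensLoc_S K) (Am D.R (s + 1) ⊗ C) w) _ h1
  rw [← Category.assoc, ← cancel_mono (F.L.map ((D.qAm U (s + 1)).inv ▷ C)), Category.assoc,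
    ← F.L.map_comp, ← comp_whiskerRight, Iso.hom_inv_id, id_whiskerRight, F.L.map_id,
    zero_comp, Category.comp_id] at h2
  rw [← cancel_epi (B.sphE T w).hom, h2, comp_zero]

theorem iG_range (s : ℕ) (w : ℤ) (e : Es D C F s) :
    eps D C F s w e = e ↔ ∃ x, iG D U C F s w x = e := by
  have h0 : eps D C F s w e = e ↔
      e.hom ≫ F.L.map ((Am D.R (s + 1) ⊗ C) ◁ wq (stdEven T) w) = e.hom :=
    ⟨fun h => congrArg HM.hom h, fun h => HM.hom_ext h⟩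
  rw [h0, sharpL_range F (tensLoc_S K)]
  constructor
  · rintro ⟨a, ha⟩
    refine ⟨(B.sphE T w).inv ≫ a ≫ F.L.map ((D.qAm U (s + 1)).inv ▷ C), ?_⟩
    apply HM.hom_ext
    rw [iG_hom, ← ha, sharpLAdd_apply]
    congr 1
    simp only [Category.assoc, Iso.hom_inv_id_assoc]
    rw [← F.L.map_comp, ← comp_whiskerRight, Iso.inv_hom_id, id_whiskerRight, F.L.map_id]
    exact Category.comp_id _
  · rintro ⟨x, rfl⟩
    exact ⟨_, rfl⟩

omit [IsTriangulated T] [MonoidalClosed T] [HasCoproducts.{0} T] [HasProducts.{0} T]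
  [StableCat T] in
theorem sum_whiskerRight' {X Y : T} (C : T) {ι : Type*} (t : Finset ι) (c : ι → ℤ)
    (f : ι → (X ⟶ Y)) : (∑ j ∈ t, c j • f j) ▷ C = ∑ j ∈ t, c j • (f j ▷ C) := by
  let W : (X ⟶ Y) →+ (X ⊗ C ⟶ Y ⊗ C) := AddMonoidHom.mk' (fun g : X ⟶ Y => g ▷ C)
    fun g g' => MonoidalPreadditive.add_whiskerRight g g'
  exact (map_sum W (fun j => c j • f j) t).trans
    (Finset.sum_congr rfl fun j _ => map_zsmul W (c j) (f j))

/-- The differential in terms of the cosimplicial maps. -/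
theorem iG_d (s : ℕ) (w : ℤ) (x : (𝟙_ T)⟦2 * w⟧ ⟶ F.L.obj (U.cobar.Q (s + 1) (𝟙_ T) ⊗ C)) :
    iG D U C F (s + 1) w (x ≫ F.L.map (U.cobar.d (s + 1) (𝟙_ T) ▷ C)) =
      ∑ j : Fin (s + 2), (-1 : ℤ) ^ (j : ℕ) •
        mapE D C F (Fin.succAbove j : Fin (s + 1) → Fin (s + 2)) (iG D U C F s w x) := by
  have h1 : (B.sphE T w).hom ≫ (x ≫ F.L.map (U.cobar.d (s + 1) (𝟙_ T) ▷ C)) ≫
      F.L.map ((D.qAm U (s + 2)).hom ▷ C) =
      ((B.sphE T w).hom ≫ x ≫ F.L.map ((D.qAm U (s + 1)).hom ▷ C)) ≫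
        F.L.map (∑ j : Fin (s + 2), (-1 : ℤ) ^ (j : ℕ) •
          mapX D C (Fin.succAbove j : Fin (s + 1) → Fin (s + 2))) := by
    simp only [Category.assoc]
    congr 2
    rw [← F.L.map_comp, ← F.L.map_comp, ← comp_whiskerRight, D.d_qAm, comp_whiskerRight,
      sum_whiskerRight']
    rfl
  apply HM.hom_ext
  rw [iG_hom, h1, sharpL_comp, sum_whiskerRight', F.L.map_sum, Preadditive.comp_sum, HM.hom_sum]
  refine Finset.sum_congr rfl fun j _ => ?_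
  rw [F.L.map_zsmul, Preadditive.comp_zsmul]
  rfl

theorem iG_u_aux (i : 𝟙_ T ⟶ C) {X Y S : T} (e : X ≅ Y) (a : S ⟶ Y) :
    (a ≫ e.inv) ≫ (redC i).app X ≫ F.u (X ⊗ C) ≫ F.L.map (e.hom ▷ C) =
      (a ≫ (ρ_ Y).inv ≫ (Y ◁ i)) ≫ F.u (Y ⊗ C) := by
  change (a ≫ e.inv) ≫ ((ρ_ X).inv ≫ (X ◁ i)) ≫ (F.u (X ⊗ C) ≫ F.L.map (e.hom ▷ C)) = _
  rw [F.u_naturality]
  simp only [Category.assoc]
  rw [whisker_exchange_assoc, ← rightUnitor_inv_naturality_assoc, Iso.inv_hom_id_assoc]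

/-- `iG` and the localization map. -/
theorem iG_u (i : 𝟙_ T ⟶ C) (s : ℕ) (w : ℤ) (z : Cob.wt Laz s w) :
    iG D U C F s w ((B.sphE T w).inv ≫ D.phi U s w z ≫
      (redC i).app (U.cobar.Q (s + 1) (𝟙_ T)) ≫
      F.u (U.cobar.Q (s + 1) (𝟙_ T) ⊗ C)) = z.1 • uL D F i s := by
  have h1 : (B.sphE T w).hom ≫ ((B.sphE T w).inv ≫ D.phi U s w z ≫
      (redC i).app (U.cobar.Q (s + 1) (𝟙_ T)) ≫
      F.u (U.cobar.Q (s + 1) (𝟙_ T) ⊗ C)) ≫ F.L.map ((D.qAm U (s + 1)).hom ▷ C) =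
      (D.evw s w z ≫ (ρ_ (Am D.R (s + 1))).inv ≫ (Am D.R (s + 1) ◁ i)) ≫ F.u _ := by
    rw [← iG_u_aux C F i (D.qAm U (s + 1)) (D.evw s w z), ← I.MUData.phi_apply, Category.assoc,
      Iso.hom_inv_id_assoc, Category.assoc, Category.assoc]
  apply HM.hom_ext
  rw [iG_hom, h1, sharpL_u, ← uN_rN D i s (D.of_evw z).symm, Category.assoc, u_rL]
  exact (Category.assoc _ _ _).symm

section main

variable {C} {p : ℕ} [Fact p.Prime] {h : ℕ} (i : 𝟙_ T ⟶ C) (hp : p ≠ 2)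
  {δ : C ⟶ (𝟙_ T)⟦(1 : ℤ)⟧} (hC : Triangle.mk ((p : ℤ) • 𝟙 (𝟙_ T)) i δ ∈ distTriang T)
  (hE : ∀ s, E1C F (D.vs p) h (MP D C s))

include hp hC hE

theorem exists_phi (s : ℕ) (w : ℤ) :
    ∃ φ : ((𝟙_ T)⟦2 * w⟧ ⟶ F.L.obj (U.cobar.Q (s + 1) (𝟙_ T) ⊗ C)) ≃+ (I.towerN p h w).lim s,
      ∀ x j, ((φ x).1 j).1 =
        (cobCompl D F i hp hC s (hE s)).lam (j + 1) (iG D U C F s w x) :=
  (cobCompl D F i hp hC s (hE s)).exists_lim (wtProj D F s i) w (iG D U C F s w)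
    (iG_injective D U C F s w) (iG_range D U C F s w)

/-- **The cobar complex of `L_K (S/p)` is the limit of the tower `towerN p h w`.** -/
noncomputable def cobModel (w : ℤ) :
    U.CobModel (𝟙_ T) (tensorRight C ⋙ F.L) (𝟙_ T) w (I.towerN p h w) where
  φ s := (exists_phi D U F i hp hC hE s w).choose
  φ_d s x j := by
    apply Subtype.ext
    have h1 := (exists_phi D U F i hp hC hE (s + 1) w).choose_spec
      (x ≫ F.L.map (U.cobar.d (s + 1) (𝟙_ T) ▷ C)) j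
    refine h1.trans ?_
    have h2 := (exists_phi D U F i hp hC hE s w).choose_spec x j
    change _ = Cob.d s (((exists_phi D U F i hp hC hE s w).choose x).1 j).1
    rw [h2, iG_d, map_sum, Cob.d_apply]
    refine Finset.sum_congr rfl fun k _ => ?_
    rw [map_zsmul]
    congr 1
    exact CobCompl.lam_map _ _ (mapE_smul D C F _) (mapE_uL D F _ i) _ _

theorem cobModel_apply (w : ℤ) (s : ℕ)
    (x : (𝟙_ T)⟦2 * w⟧ ⟶ (tensorRight C ⋙ F.L).obj (U.cobar.Q (s + 1) (𝟙_ T))) (j : ℕ) :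
    (((cobModel D U F i hp hC hE w).φ s x).1 j).1 =
      (cobCompl D F i hp hC s (hE s)).lam (j + 1) (iG D U C F s w x) :=
  (exists_phi D U F i hp hC hE s w).choose_spec x j

/-- The classes coming from `Cob Laz s`. -/
theorem cobModel_phi (w : ℤ) (s : ℕ) (z : Cob.wt Laz s w) (j : ℕ) :
    (((cobModel D U F i hp hC hE w).φ s (((B.sphE T w).inv ≫ D.phi U s w z) ≫
      (redC i).app (U.cobar.Q (s + 1) (𝟙_ T)) ≫
        F.unit.app (U.cobar.Q (s + 1) (𝟙_ T) ⊗ C))).1 j).1 = toNN p h (j + 1) s z.1 := by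
  rw [cobModel_apply, Category.assoc]
  rw [← (cobCompl D F i hp hC s (hE s)).lam_smul_u (j + 1) z.1, ← iG_u D U C F i s w z]
  rfl

/-- A cochain which is not a coboundary modulo `I_h` is not a coboundary after localization. -/
theorem not_exists_cobdy (w : ℤ) (s : ℕ) (z : Cob.wt Laz (s + 1) w)
    (hz : ¬ ∃ y : Cob (NN p h 1) s, Cob.d s y =
      Cob.mapRing (LawRing.ofLaz (NN p h 1)) (s + 1) z.1) :
    ¬ ∃ c' : (𝟙_ T)⟦2 * w⟧ ⟶ (tensorRight C ⋙ F.L).obj (U.cobar.Q (s + 1) (𝟙_ T)),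
      c' ≫ (tensorRight C ⋙ F.L).map (U.cobar.d (s + 1) (𝟙_ T)) =
        ((B.sphE T w).inv ≫ D.phi U (s + 1) w z) ≫
          (redC i).app (U.cobar.Q (s + 2) (𝟙_ T)) ≫
            F.unit.app (U.cobar.Q (s + 2) (𝟙_ T) ⊗ C) := by
  rintro ⟨c', hc'⟩
  apply hz
  refine ⟨(((cobModel D U F i hp hC hE w).φ s c').1 0).1, ?_⟩
  have h1 := (cobModel D U F i hp hC hE w).φ_d s c' 0
  rw [hc'] at h1
  have h2 := congrArg Subtype.val h1
  rw [cobModel_phi] at h2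
  exact h2.symm

omit [Fact p.Prime] hp hC hE i in
/-- The odd groups vanish. -/
theorem odd_zero {s : ℕ} (hE : E1C F (D.vs p) h (MP D C s)) (t : ℤ) (ht : Odd t)
    (x : (𝟙_ T)⟦t⟧ ⟶ (tensorRight C ⋙ F.L).obj (U.cobar.Q (s + 1) (𝟙_ T))) : x = 0 := by
  have h1 : OddZero (F.L.obj (Am D.R (s + 1) ⊗ C)) := by
    let X := Am D.R (s + 1) ⊗ C
    let a : X ⟶ X ⊗ (stdEven T).PS :=
      (ρ_ X).inv ≫ (X ◁ ((stdEven T).zero.hom ≫ (stdEven T).inPS 0))
    let b : X ⊗ (stdEven T).PS ⟶ X :=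
      (X ◁ ((stdEven T).pr 0 ≫ (stdEven T).zero.inv)) ≫ (ρ_ X).hom
    refine hE.odd.retract (F.L.map a) (F.L.map b) ?_
    rw [← F.L.map_comp]
    have h2 : a ≫ b = 𝟙 X := by
      simp only [a, b, Category.assoc]
      rw [← MonoidalCategory.whiskerLeft_comp_assoc]
      have h3 : ((stdEven T).zero.hom ≫ (stdEven T).inPS 0) ≫ (stdEven T).pr 0 ≫
          (stdEven T).zero.inv = 𝟙 _ := by
        rw [Category.assoc, ← Category.assoc ((stdEven T).inPS 0), inPS_pr 0 0 rfl,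
          castIso_refl, Iso.refl_hom, Category.id_comp]
        exact Iso.hom_inv_id _
      rw [h3]
      simp
    rw [h2, F.L.map_id]
  have h3 := h1 t ht (x ≫ F.L.map ((D.qAm U (s + 1)).hom ▷ C))
  have h4 : F.L.map ((D.qAm U (s + 1)).hom ▷ C) ≫ F.L.map ((D.qAm U (s + 1)).inv ▷ C) = 𝟙 _ := by
    rw [← F.L.map_comp, ← comp_whiskerRight, Iso.hom_inv_id, id_whiskerRight, F.L.map_id]
  have h5 : x = (x ≫ F.L.map ((D.qAm U (s + 1)).hom ▷ C)) ≫
      F.L.map ((D.qAm U (s + 1)).inv ▷ C) := by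
    rw [Category.assoc, h4]
    exact (Category.comp_id _).symm
  rw [h5, h3, zero_comp]

end main

end GD

end Vale.Agent.P251.S
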