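import Vale.Agent.P251.S.Final3
import Vale.Agent.P251.S.GrE
import Vale.Agent.P251.S.E1MU

/-!
# P251, part S: the witness from `MUData` and `FS_statement`

`exists_witness_of_MUData`: for `D : MUData T`, the Moore object `C = S/5` and the Koszul objects of
heights `5` and `4` of `P = R ⊗ PS`, there is `f : 𝟙⟦m⟧ ⟶ 𝟙` whose image in `L_{K(5)} C` is zero and
whose image in `L_{K(4)} C` is not zero.
-/

open CategoryTheory MonoidalCategory Limits Pretriangulated MonObj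

set_option linter.unusedSectionVars false

universe v u

namespace Vale.Agent.P251.S

open Vale.Agent.P251.T Vale.Agent.P251.M Vale.Agent.P251.F Vale.Agent.P251.I

variable {T : Type u} [Category.{v} T] [Preadditive T] [HasZeroObject T]
    [HasShift T ℤ] [∀ n : ℤ, (shiftFunctor T n).Additive] [Pretriangulated T] [IsTriangulated T]
    [MonoidalCategory T] [SymmetricCategory T] [TensorTriangulated T] [MonoidalClosed T]
    [HasCoproducts.{0} T] [HasProducts.{0} T] [StableCat T]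

/-- The comparison of the cobar complex of `L_{K(h)} (- ⊗ S/p)` with the towers `towerN p h w`. -/
noncomputable def grOut (D : MUData T) (U : UnitCof D.R) {p h : ℕ} [Fact p.Prime] (hp : p ≠ 2)
    (hh : 1 ≤ h) {C : T} {i : 𝟙_ T ⟶ C} {δ : C ⟶ (𝟙_ T)⟦(1 : ℤ)⟧}
    (hC : Triangle.mk ((p : ℤ) • 𝟙 (𝟙_ T)) i δ ∈ distTriang T)
    (Dk : KosData D.P (p : ℤ) h (D.vs p)) (F : LocFunctor Dk.K) : GrOut D U p h i F where
  odd _ t ht x := GD.odd_zero D U F (GD.e1C_MP D hp hC hh Dk F _) t ht x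
  model w := GD.cobModel D U F i hp hC (GD.e1C_MP D hp hC hh Dk F) w
  compat w s z j := GD.cobModel_phi D U F i hp hC (GD.e1C_MP D hp hC hh Dk F) w s z j

/-- **The witness from `MUData`.** -/
theorem exists_witness_of_MUData [Fact (Nat.Prime 5)] (hFS : FS_statement) (D : MUData T)
    {C : T} {i : 𝟙_ T ⟶ C} {δ : C ⟶ (𝟙_ T)⟦(1 : ℤ)⟧}
    (hC : Triangle.mk (((5 : ℕ) : ℤ) • 𝟙 (𝟙_ T)) i δ ∈ distTriang T)
    (D₅ : KosData D.P ((5 : ℕ) : ℤ) 5 (D.vs 5)) (D₄ : KosData D.P ((5 : ℕ) : ℤ) 4 (D.vs 5))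
    (F₅ : LocFunctor D₅.K) (F₄ : LocFunctor D₄.K) :
    ∃ (m : ℤ) (f : (𝟙_ T)⟦m⟧ ⟶ 𝟙_ T), f ≫ i ≫ F₅.u C = 0 ∧ f ≫ i ≫ F₄.u C ≠ 0 := by
  obtain ⟨U⟩ := exists_unitCof D.R
  exact exists_witness_MU₃ hFS D U i D₅ F₅ F₄ (grOut D U (by norm_num) (by norm_num) hC D₅ F₅)
    (grOut D U (by norm_num) (by norm_num) hC D₄ F₄)

end Vale.Agent.P251.S
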