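import Vale.Agent.P251.T.Axioms
import Mathlib.CategoryTheory.Preadditive.Biproducts

/-!
# P251, part S5: spheres, ghosts, exactness of the tensor product

* `tsh Z W : (Z ⊗ W)⟦1⟧ ≅ Z ⊗ W⟦1⟧`, natural in both variables
* `exL`, `exR`: exactness in the middle of `A ⟶ Z ⊗ X ⟶ Z ⊗ Y ⟶ Z ⊗ C` and of the other side
* `IsSphere A`: `A ≅ 𝟙⟦n⟧` for some `n`
* `Ghost φ`: `φ` is zero on all homotopy groups.
-/

open CategoryTheory MonoidalCategory Limits Pretriangulated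

set_option linter.unusedSectionVars false

universe v u

namespace Vale.Agent.P251.S

open Vale.Agent.P251.T

variable {T : Type u} [Category.{v} T] [Preadditive T] [HasZeroObject T]
    [HasShift T ℤ] [∀ n : ℤ, (shiftFunctor T n).Additive] [Pretriangulated T]
    [MonoidalCategory T] [SymmetricCategory T] [TensorTriangulated T]

/-- The natural isomorphism `(Z ⊗ W)⟦1⟧ ≅ Z ⊗ W⟦1⟧`. -/
def tsh (Z W : T) : (Z ⊗ W)⟦(1 : ℤ)⟧ ≅ Z ⊗ (W⟦(1 : ℤ)⟧) :=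
  (TensorTriangulated.e (Z ⊗ W)).symm ≪≫ α_ _ _ _ ≪≫ whiskerLeftIso Z (TensorTriangulated.e W)

lemma e_inv_naturality {Y Z : T} (f : Y ⟶ Z) :
    f⟦(1 : ℤ)⟧' ≫ (TensorTriangulated.e Z).inv =
      (TensorTriangulated.e Y).inv ≫ f ▷ ((𝟙_ T)⟦(1 : ℤ)⟧) := by
  rw [Iso.eq_inv_comp, ← Category.assoc, ← TensorTriangulated.e_naturality, Category.assoc,
    Iso.hom_inv_id, Category.comp_id]

@[reassoc]
lemma tsh_right (Z : T) {W W' : T} (f : W ⟶ W') :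
    (Z ◁ f)⟦(1 : ℤ)⟧' ≫ (tsh Z W').hom = (tsh Z W).hom ≫ Z ◁ (f⟦(1 : ℤ)⟧') := by
  simp only [tsh, Iso.trans_hom, Iso.symm_hom, whiskerLeftIso_hom, Category.assoc]
  rw [← Category.assoc, e_inv_naturality, Category.assoc, ← whiskerLeft_comp,
    ← TensorTriangulated.e_naturality, whiskerLeft_comp]
  simp only [← Category.assoc]
  congr 1
  simp

@[reassoc]
lemma tsh_left {Z Z' : T} (g : Z ⟶ Z') (W : T) :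
    (g ▷ W)⟦(1 : ℤ)⟧' ≫ (tsh Z' W).hom = (tsh Z W).hom ≫ g ▷ (W⟦(1 : ℤ)⟧) := by
  simp only [tsh, Iso.trans_hom, Iso.symm_hom, whiskerLeftIso_hom, Category.assoc]
  rw [← Category.assoc, e_inv_naturality, Category.assoc]
  congr 1
  rw [← Category.assoc, associator_naturality_left, Category.assoc, whisker_exchange]

/-- Exactness of `Z ⊗ -` in the middle of a distinguished triangle. -/
lemma exL (Z : T) (Δ : Triangle T) (hΔ : Δ ∈ distTriang T) {A : T} (f : A ⟶ Z ⊗ Δ.obj₂)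
    (hf : f ≫ Z ◁ Δ.mor₂ = 0) : ∃ g : A ⟶ Z ⊗ Δ.obj₁, f = g ≫ Z ◁ Δ.mor₁ :=
  Triangle.coyoneda_exact₂ _ (TensorTriangulated.distinguished Z Δ hΔ) f hf

lemma braid_right {X Y : T} (Z : T) (f : X ⟶ Y) :
    (f ▷ Z) ≫ (β_ Y Z).hom = (β_ X Z).hom ≫ Z ◁ f := by
  simp

/-- Exactness of `- ⊗ Z` in the middle of a distinguished triangle. -/
lemma exR (Z : T) (Δ : Triangle T) (hΔ : Δ ∈ distTriang T) {A : T} (f : A ⟶ Δ.obj₂ ⊗ Z)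
    (hf : f ≫ Δ.mor₂ ▷ Z = 0) : ∃ g : A ⟶ Δ.obj₁ ⊗ Z, f = g ≫ Δ.mor₁ ▷ Z := by
  obtain ⟨g, hg⟩ := exL Z Δ hΔ (f ≫ (β_ _ _).hom) (by
    rw [Category.assoc, ← braid_right, ← Category.assoc, hf, zero_comp])
  refine ⟨g ≫ (β_ _ _).inv, ?_⟩
  have h2 : (β_ Δ.obj₁ Z).inv ≫ Δ.mor₁ ▷ Z = Z ◁ Δ.mor₁ ≫ (β_ Δ.obj₂ Z).inv := by
    rw [Iso.inv_comp_eq, ← Category.assoc, ← braid_right, Category.assoc, Iso.hom_inv_id,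
      Category.comp_id]
  rw [Category.assoc, h2, ← Category.assoc, ← hg, Category.assoc, Iso.hom_inv_id,
    Category.comp_id]

lemma wl_sub (Z : T) {X Y : T} (f g : X ⟶ Y) : Z ◁ (f - g) = Z ◁ f - Z ◁ g :=
  (tensorLeft Z).map_sub

lemma wl_neg (Z : T) {X Y : T} (f : X ⟶ Y) : Z ◁ (-f) = -(Z ◁ f) :=
  (tensorLeft Z).map_neg

lemma wr_sub (Z : T) {X Y : T} (f g : X ⟶ Y) : (f - g) ▷ Z = f ▷ Z - g ▷ Z :=
  (tensorRight Z).map_sub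

lemma wr_neg (Z : T) {X Y : T} (f : X ⟶ Y) : (-f) ▷ Z = -(f ▷ Z) :=
  (tensorRight Z).map_neg

section mk

variable {X Y C : T} {f : X ⟶ Y} {g : Y ⟶ C} {h : C ⟶ X⟦(1 : ℤ)⟧}
  (hΔ : Triangle.mk f g h ∈ distTriang T)

include hΔ

lemma exL₂ (Z : T) {A : T} (a : A ⟶ Z ⊗ Y) (ha : a ≫ Z ◁ g = 0) :
    ∃ b : A ⟶ Z ⊗ X, a = b ≫ Z ◁ f := exL Z _ hΔ a ha

lemma exL₃ (Z : T) {A : T} (a : A ⟶ Z ⊗ C) (ha : a ≫ Z ◁ h = 0) :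
    ∃ b : A ⟶ Z ⊗ Y, a = b ≫ Z ◁ g := exL Z _ (rot_of_distTriang _ hΔ) a ha

lemma exL₁ (Z : T) {A : T} (a : A ⟶ Z ⊗ X⟦(1 : ℤ)⟧) (ha : a ≫ Z ◁ (f⟦(1 : ℤ)⟧') = 0) :
    ∃ b : A ⟶ Z ⊗ C, a = b ≫ Z ◁ h := by
  refine exL Z _ (rot_of_distTriang _ (rot_of_distTriang _ hΔ)) a ?_
  change a ≫ Z ◁ (-(f⟦(1 : ℤ)⟧')) = 0
  rw [wl_neg, Preadditive.comp_neg, ha, neg_zero]

lemma exR₂ (Z : T) {A : T} (a : A ⟶ Y ⊗ Z) (ha : a ≫ g ▷ Z = 0) :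
    ∃ b : A ⟶ X ⊗ Z, a = b ≫ f ▷ Z := exR Z _ hΔ a ha

lemma exR₃ (Z : T) {A : T} (a : A ⟶ C ⊗ Z) (ha : a ≫ h ▷ Z = 0) :
    ∃ b : A ⟶ Y ⊗ Z, a = b ≫ g ▷ Z := exR Z _ (rot_of_distTriang _ hΔ) a ha

lemma exR₁ (Z : T) {A : T} (a : A ⟶ X⟦(1 : ℤ)⟧ ⊗ Z) (ha : a ≫ (f⟦(1 : ℤ)⟧') ▷ Z = 0) :
    ∃ b : A ⟶ C ⊗ Z, a = b ≫ h ▷ Z := by
  refine exR Z _ (rot_of_distTriang _ (rot_of_distTriang _ hΔ)) a ?_
  change a ≫ (-(f⟦(1 : ℤ)⟧')) ▷ Z = 0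
  rw [wr_neg, Preadditive.comp_neg, ha, neg_zero]

end mk

section mk'

variable {X Y C : T} {f : X ⟶ Y} {g : Y ⟶ C} {h : C ⟶ X⟦(1 : ℤ)⟧}
  (hΔ : Triangle.mk f g h ∈ distTriang T)

include hΔ

lemma ex₂ {A : T} (a : A ⟶ Y) (ha : a ≫ g = 0) : ∃ b : A ⟶ X, a = b ≫ f :=
  Triangle.coyoneda_exact₂ _ hΔ a ha

lemma ex₃ {A : T} (a : A ⟶ C) (ha : a ≫ h = 0) : ∃ b : A ⟶ Y, a = b ≫ g :=
  Triangle.coyoneda_exact₃ _ hΔ a ha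

lemma ex₁ {A : T} (a : A ⟶ X⟦(1 : ℤ)⟧) (ha : a ≫ f⟦(1 : ℤ)⟧' = 0) :
    ∃ b : A ⟶ C, a = b ≫ h :=
  Triangle.coyoneda_exact₁ _ hΔ a ha

lemma complete₃ {X' Y' C' : T} {f' : X' ⟶ Y'} {g' : Y' ⟶ C'} {h' : C' ⟶ X'⟦(1 : ℤ)⟧}
    (hΔ' : Triangle.mk f' g' h' ∈ distTriang T) (a : X ⟶ X') (b : Y ⟶ Y')
    (hab : f ≫ b = a ≫ f') : ∃ c : C ⟶ C', g ≫ c = b ≫ g' ∧ h ≫ a⟦(1 : ℤ)⟧' = c ≫ h' :=
  complete_distinguished_triangle_morphism _ _ hΔ hΔ' a b hab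

end mk'

/-- Every distinguished triangle, tensored on the left with `Z`, can be completed to a
distinguished triangle with the obvious first two maps. -/
lemma triL (Z : T) (Δ : Triangle T) (hΔ : Δ ∈ distTriang T) :
    ∃ h : Z ⊗ Δ.obj₃ ⟶ (Z ⊗ Δ.obj₁)⟦(1 : ℤ)⟧, h ≫ (tsh Z Δ.obj₁).hom = Z ◁ Δ.mor₃ ∧
      Triangle.mk (Z ◁ Δ.mor₁) (Z ◁ Δ.mor₂) h ∈ distTriang T :=
  ⟨Z ◁ Δ.mor₃ ≫ (tsh Z Δ.obj₁).inv, by simp, by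
    have := TensorTriangulated.distinguished Z Δ hΔ
    simpa [tsh] using this⟩

/-- `A` is a sphere: a shift of the unit. -/
def IsSphere (A : T) : Prop := ∃ n : ℤ, Nonempty (A ≅ (𝟙_ T)⟦n⟧)

lemma isSphere_one_shift (n : ℤ) : IsSphere ((𝟙_ T)⟦n⟧) := ⟨n, ⟨Iso.refl _⟩⟩

lemma isSphere_one : IsSphere (𝟙_ T) := ⟨0, ⟨(shiftFunctorZero T ℤ).symm.app _⟩⟩

lemma IsSphere.of_iso {A B : T} (e : A ≅ B) (h : IsSphere A) : IsSphere B := by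
  obtain ⟨n, ⟨i⟩⟩ := h
  exact ⟨n, ⟨e.symm ≪≫ i⟩⟩

lemma IsSphere.shift {A : T} (h : IsSphere A) (m : ℤ) : IsSphere (A⟦m⟧) := by
  obtain ⟨n, ⟨i⟩⟩ := h
  exact ⟨n + m, ⟨(shiftFunctor T m).mapIso i ≪≫ ((shiftFunctorAdd T n m).app _).symm⟩⟩

/-- Every map `A ⟶ W⟦m⟧` is the shift of a map `A' ⟶ W` up to an isomorphism `A ≅ A'⟦m⟧`. -/
lemma exists_unshift {A W : T} (m : ℤ) (f : A ⟶ W⟦m⟧) :
    ∃ (e : A ≅ A⟦-m⟧⟦m⟧) (f' : A⟦-m⟧ ⟶ W), f = e.hom ≫ f'⟦m⟧' := by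
  refine ⟨((shiftFunctorCompIsoId T (-m) m (by simp)).app A).symm, ?_⟩
  let g : A⟦-m⟧⟦m⟧ ⟶ W⟦m⟧ := (shiftFunctorCompIsoId T (-m) m (by simp)).hom.app A ≫ f
  refine ⟨(shiftFunctor T m).preimage g, ?_⟩
  simp [g]

/-- A map is a ghost if it induces zero on all homotopy groups. -/
def Ghost {X Y : T} (φ : X ⟶ Y) : Prop := ∀ (A : T), IsSphere A → ∀ f : A ⟶ X, f ≫ φ = 0

lemma Ghost.comp_left {X Y Z : T} {φ : X ⟶ Y} (h : Ghost φ) (ψ : Z ⟶ X) : Ghost (ψ ≫ φ) :=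
  fun A hA f => by rw [← Category.assoc]; exact h A hA _

lemma Ghost.comp_right {X Y Z : T} {φ : X ⟶ Y} (h : Ghost φ) (ψ : Y ⟶ Z) : Ghost (φ ≫ ψ) :=
  fun A hA f => by rw [← Category.assoc, h A hA f, zero_comp]

lemma ghost_zero {X Y : T} : Ghost (0 : X ⟶ Y) := fun _ _ _ => comp_zero

lemma Ghost.shift {X Y : T} {φ : X ⟶ Y} (h : Ghost φ) (m : ℤ) : Ghost (φ⟦m⟧') := by
  intro A hA f
  obtain ⟨e, f', rfl⟩ := exists_unshift m f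
  rw [Category.assoc, ← Functor.map_comp, h _ (hA.shift _), Functor.map_zero, comp_zero]

lemma Ghost.of_shift {X Y : T} {φ : X ⟶ Y} (m : ℤ) (h : Ghost (φ⟦m⟧')) : Ghost φ := by
  intro A hA f
  apply (shiftFunctor T m).map_injective
  rw [Functor.map_comp, h _ (hA.shift _), Functor.map_zero]

/-- conjugation by isomorphisms -/
lemma Ghost.of_square {X Y X' Y' : T} {φ : X ⟶ Y} (h : Ghost φ) {ψ : X' ⟶ Y'} (a : X' ⟶ X)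
    (b : Y' ⟶ Y) [Mono b] (w : ψ ≫ b = a ≫ φ) : Ghost ψ := by
  intro A hA f
  rw [← cancel_mono b, zero_comp, Category.assoc, w, ← Category.assoc]
  exact h A hA _

end Vale.Agent.P251.S
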