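import Vale.Agent.P251.S.KosData

/-!
# P251, part S2: odd vanishing of iterated cofibres
-/

open CategoryTheory MonoidalCategory Limits MonObj Pretriangulated

set_option linter.unusedSectionVars false

universe v u

namespace Vale.Agent.P251.S

open T

variable {T : Type u} [Category.{v} T] [Preadditive T] [HasZeroObject T] [HasShift T ℤ]
  [∀ n : ℤ, (shiftFunctor T n).Additive] [Pretriangulated T]
  [MonoidalCategory T]

section ParReg

/-- `w` is injective on the even homotopy and surjective on the odd homotopy. -/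
structure ParReg {E : T} (w : End E) : Prop where
  inj : ∀ n : ℤ, Even n → ∀ x : Sph T n ⟶ E, x ≫ w = 0 → x = 0
  surj : ∀ n : ℤ, Odd n → ∀ x : Sph T n ⟶ E, ∃ y : Sph T n ⟶ E, y ≫ w = x

theorem ParReg.pow {E : T} {w : End E} (h : ParReg w) (j : ℕ) : ParReg (w ^ j) where
  inj n hn := pow_injective (h.inj n hn) j
  surj n hn := by
    induction j with
    | zero => intro x; exact ⟨x, comp_pow_zero w x⟩
    | succ j ih =>
      intro x
      obtain ⟨y, hy⟩ := h.surj n hn x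
      obtain ⟨z, hz⟩ := ih y
      exact ⟨z, by rw [comp_pow_succ', hz, hy]⟩

theorem parReg_iff {E C : T} {w : End E} {q : E ⟶ C} {d : C ⟶ E⟦(1 : ℤ)⟧}
    (h : Triangle.mk w q d ∈ distTriang T) : ParReg w ↔ OddZero C := by
  constructor
  · intro hw n hn x
    have h0 : x ≫ d = 0 := by
      obtain ⟨g, hg, hg'⟩ := exists_desuspend_comp w n (x ≫ d)
        (by rw [Category.assoc, zero₃₁ h, comp_zero])
      rw [hg', hw.inj (n - 1) (Odd.sub_odd hn odd_one) g hg, Functor.map_zero, comp_zero]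
    obtain ⟨y, hy⟩ := exact₃ h x h0
    obtain ⟨z, hz⟩ := hw.surj n hn y
    rw [hy, ← hz, Category.assoc, zero₁₂ h, comp_zero]
  · intro hC
    exact ⟨fun n hn x hx => injective_of_oddZero h hC hn x hx,
      fun n hn x => surjective_of_oddZero h hC hn x⟩

end ParReg

variable [SymmetricCategory T] [TensorTriangulated T]

variable (P : T) [MonObj P] [IsCommMonObj P] (v : ℕ → (𝟙_ T ⟶ P))

/-- The cofibre of `v_i ^ j` on `P`. -/
noncomputable def Qc (i j : ℕ) : T := cof (((ModStr.self P).sm (v i)) ^ j : End P)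

/-- Vanishing of the odd homotopy of `N ⊗ Q_i ⊗ ⋯ ⊗ Q_{k-1} ⊗ P` for `i ≤ k ≤ i + m`. -/
def Good : ℕ → ℕ → T → Prop
  | _, 0, N => OddZero (N ⊗ P)
  | i, m + 1, N => OddZero (N ⊗ P) ∧ Good (i + 1) m (N ⊗ Qc P v i 1)

variable {P v}

theorem Good.oddZero {i m : ℕ} {N : T} (h : Good P v i m N) : OddZero (N ⊗ P) := by
  cases m with
  | zero => exact h
  | succ m => exact h.1

theorem oddZero_cofibre_pow {Y C C' : T} (X : T) {w : End Y} {j : ℕ} {q : Y ⟶ C}
    {d : C ⟶ Y⟦(1 : ℤ)⟧} {q' : Y ⟶ C'} {d' : C' ⟶ Y⟦(1 : ℤ)⟧}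
    (h : Triangle.mk w q d ∈ distTriang T)
    (h' : Triangle.mk (w ^ j : End Y) q' d' ∈ distTriang T) (hC : OddZero (C ⊗ X)) :
    OddZero (C' ⊗ X) := by
  have hδ := tensR_dist X h
  have hδ' := tensR_dist X h'
  have h1 : ParReg (endR Y X w) := (parReg_iff (w := endR Y X w) hδ).2 hC
  have h2 : ParReg (endR Y X (w ^ j)) := by
    rw [map_pow]; exact h1.pow j
  exact (parReg_iff (w := endR Y X (w ^ j)) hδ').1 h2

theorem Good.cofibre_pow (m : ℕ) : ∀ {i j : ℕ} {Y C C' : T} {w : End Y} {q : Y ⟶ C}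
    {d : C ⟶ Y⟦(1 : ℤ)⟧} {q' : Y ⟶ C'} {d' : C' ⟶ Y⟦(1 : ℤ)⟧}
    (_ : Triangle.mk w q d ∈ distTriang T)
    (_ : Triangle.mk (w ^ j : End Y) q' d' ∈ distTriang T) (_ : Good P v i m C),
    Good P v i m C' := by
  induction m with
  | zero =>
    intro i j Y C C' w q d q' d' h h' hg
    exact oddZero_cofibre_pow P h h' hg
  | succ m ih =>
    intro i j Y C C' w q d q' d' h h' hg
    refine ⟨oddZero_cofibre_pow P h h' hg.1, ?_⟩
    have hδ := tensR_dist (Qc P v i 1) h
    have hδ' := tensR_dist (Qc P v i 1) h'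
    have h3 : Triangle.mk ((endR Y (Qc P v i 1) w) ^ j : End (Y ⊗ Qc P v i 1))
        (q' ▷ (Qc P v i 1)) (tensRδ d' (Qc P v i 1)) ∈ distTriang T := by
      rw [← map_pow]
      exact hδ'
    exact ih (j := j) (w := endR Y (Qc P v i 1) w) hδ h3 hg.2

/-- The odd vanishing for `N ⊗ Q_i` implies the one for `N ⊗ Q_i[j]`. -/
theorem Good.qc {i i' m : ℕ} {N : T} (h : Good P v i' m (N ⊗ Qc P v i 1)) (j : ℕ) :
    Good P v i' m (N ⊗ Qc P v i j) := by
  have h1 := tens_dist N (cof_dist (((ModStr.self P).sm (v i)) ^ 1 : End P))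
  have h2 := tens_dist N (cof_dist (((ModStr.self P).sm (v i)) ^ j : End P))
  refine Good.cofibre_pow (j := j) m (w := endL N P ((ModStr.self P).sm (v i)))
    (d := tensδ N (cofδ (((ModStr.self P).sm (v i)) ^ 1 : End P)))
    (q := N ◁ (cofπ (((ModStr.self P).sm (v i)) ^ 1 : End P)))
    (d' := tensδ N (cofδ (((ModStr.self P).sm (v i)) ^ j : End P)))
    (q' := N ◁ (cofπ (((ModStr.self P).sm (v i)) ^ j : End P))) ?_ ?_ h
  · rw [pow_one] at h1 ⊢
    exact h1
  · rw [← map_pow]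
    exact h2

end Vale.Agent.P251.S
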