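import Vale.Agent.P251.M.EvenPer
import Vale.Agent.P251.S.LocMod

/-!
# P251, part S2G: the periodic module `N ⊗ PS` of an `A`-module `N`

* `PM M : ModStr (A ⊗ PS) (N ⊗ PS)`;
* `sharp_smul`: homogeneous scalars and homogeneous elements;
* `wq w : PS ⟶ PS` the projection to `S(-w)`, `smul_wq`, `sharp_wq`;
* `sharpL`: homogeneous elements of the localization `L (X ⊗ PS)`.
-/

open CategoryTheory MonoidalCategory MonObj Limits

set_option linter.unusedSectionVars false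

universe v u

namespace Vale.Agent.P251.S

open Vale.Agent.P251.M Vale.Agent.P251.M.EvenSpheres

section

variable {T : Type u} [Category.{v} T] [MonoidalCategory T] {A N : T} [MonObj A]

theorem comp_smul' (M : ModStr A N) (a : 𝟙_ T ⟶ A) (x : 𝟙_ T ⟶ N) :
    x ≫ M.smul a = (λ_ (𝟙_ T)).inv ≫ (a ⊗ₘ x) ≫ M.act := by
  unfold ModStr.smul
  rw [leftUnitor_inv_naturality_assoc, tensorHom_def', Category.assoc]

end

variable {T : Type u} [Category.{v} T] [MonoidalCategory T] [SymmetricCategory T]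
  [MonoidalClosed T] [HasCoproducts.{0} T] {E : EvenSpheres T}

/-- The periodic module. -/
noncomputable def PM (E : EvenSpheres T) {A N : T} [MonObj A] (M : ModStr A N) :
    ModStr (A ⊗ E.PS) (N ⊗ E.PS) := M.tens (ModStr.self E.PS)

/-- Homogeneous scalars acting on homogeneous elements. -/
theorem sharp_smul {A N : T} [MonObj A] (M : ModStr A N) {k l p : ℤ} (h : k + l = p)
    (a : E.S k ⟶ A) (b : E.S l ⟶ N) :
    sharp b ≫ (PM E M).smul (sharp a) = sharp (gsmul M h a b) := by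
  rw [comp_smul']
  unfold PM ModStr.tens ModStr.self
  rw [reassoc_of% (E.lam_tensor_eq_ext (sharp a) (sharp b)), sharp_eq (add_neg_cancel k),
    sharp_eq (add_neg_cancel l), sharp_eq (add_neg_cancel p), Iso.inv_hom_id_assoc,
    Iso.inv_hom_id_assoc,
    reassoc_of% (E.ext_tensorμ (add_neg_cancel k) (add_neg_cancel l) (zero_add 0) h
      (show -k + -l = -p by omega) (add_neg_cancel p) a (E.inPS (-k)) b (E.inPS (-l))),
    ← ext_comp]
  congr 2
  exact gmul_inPS _ _ _ _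

section Proj

variable [Preadditive T] [MonoidalPreadditive T]

/-- The projection of `PS` to the summand `S(-w)`. -/
noncomputable def wq (E : EvenSpheres T) (w : ℤ) : E.PS ⟶ E.PS := E.pr (-w) ≫ E.inPS (-w)

omit [MonoidalPreadditive T] in
theorem inPS_wq (t w : ℤ) (h : t = -w) : E.inPS t ≫ wq E w = E.inPS t := by
  rw [wq, ← Category.assoc, inPS_pr t (-w) h, E.castIso_inPS]

omit [MonoidalPreadditive T] in
theorem inPS_wq_ne (t w : ℤ) (h : t ≠ -w) : E.inPS t ≫ wq E w = 0 := by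
  rw [wq, ← Category.assoc, inPS_pr_ne t (-w) h, zero_comp]

/-- Multiplication by `S(-v)` shifts the projections. -/
theorem psMul_wq (v w : ℤ) :
    (E.inPS (-v) ▷ E.PS) ≫ μ[E.PS] ≫ wq E (v + w) =
      (E.S (-v) ◁ wq E w) ≫ (E.inPS (-v) ▷ E.PS) ≫ μ[E.PS] := by
  refine E.PS_extL _ fun t => ?_
  have e1 : E.S (-v) ◁ E.inPS t ≫ (E.inPS (-v) ▷ E.PS) ≫ μ[E.PS] =
      (E.mu (-v) t (-v + t) rfl).hom ≫ E.inPS (-v + t) := by
    rw [← Category.assoc, ← tensorHom_def']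
    exact E.in_mul _ _ _ rfl
  have e2 : E.S (-v) ◁ E.inPS t ≫ (E.inPS (-v) ▷ E.PS) ≫ μ[E.PS] ≫ wq E (v + w) =
      (E.mu (-v) t (-v + t) rfl).hom ≫ E.inPS (-v + t) ≫ wq E (v + w) := by
    rw [← Category.assoc (E.inPS (-v) ▷ E.PS), ← Category.assoc, e1, Category.assoc]
  rw [e2, ← Category.assoc (E.S (-v) ◁ E.inPS t), ← MonoidalCategory.whiskerLeft_comp]
  by_cases h : t = -w
  · rw [inPS_wq t w h, e1, inPS_wq _ _ (by omega)]
  · rw [inPS_wq_ne t w h, inPS_wq_ne _ _ (by omega), comp_zero, MonoidalPreadditive.whiskerLeft_zero,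
      zero_comp]

variable {A N : T} [MonObj A] (M : ModStr A N)

/-- Scalars of weight `v` shift the weights by `v`. -/
theorem smul_wq (v w : ℤ) (a : E.S v ⟶ A) :
    (PM E M).smul (sharp a) ≫ (N ◁ wq E (v + w)) =
      (N ◁ wq E w) ≫ (PM E M).smul (sharp a) := by
  have e : (PM E M).smul (sharp a) = (λ_ (N ⊗ E.PS)).inv ≫
      ((E.unitIso v).hom ▷ (N ⊗ E.PS)) ≫ tensorμ (E.S v) (E.S (-v)) N E.PS ≫
        ((a ▷ N ≫ M.act) ⊗ₘ (E.inPS (-v) ▷ E.PS ≫ μ[E.PS])) := by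
    unfold ModStr.smul PM ModStr.tens ModStr.self
    rw [sharp_eq_unitIso]
    simp only [comp_whiskerRight, Category.assoc]
    rw [tensorμ_natural_left_assoc, tensorHom_comp_tensorHom]
  rw [e]
  simp only [Category.assoc]
  have e1 : ((a ▷ N ≫ M.act) ⊗ₘ (E.inPS (-v) ▷ E.PS ≫ μ[E.PS])) ≫ (N ◁ wq E (v + w)) =
      (E.S v ◁ 𝟙 N ⊗ₘ E.S (-v) ◁ wq E w) ≫
        ((a ▷ N ≫ M.act) ⊗ₘ (E.inPS (-v) ▷ E.PS ≫ μ[E.PS])) := by
    rw [← id_tensorHom, tensorHom_comp_tensorHom, tensorHom_comp_tensorHom, Category.comp_id,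
      Category.assoc, psMul_wq]
    simp
  rw [e1, ← reassoc_of% (tensorμ_natural_right (Z₁ := E.S v) (Z₂ := E.S (-v)) (𝟙 N) (wq E w))]
  rw [id_tensorHom, ← whisker_exchange_assoc, leftUnitor_inv_naturality_assoc]

theorem sharp_wq {X : T} (n w : ℤ) (h : n = w) (x : E.S n ⟶ X) :
    sharp x ≫ (X ◁ wq E w) = sharp x := by
  rw [sharp_eq_unitIso, Category.assoc, ← id_tensorHom, tensorHom_comp_tensorHom, inPS_wq _ _ (by omega),
    Category.comp_id]

theorem sharp_wq_ne {X : T} (n w : ℤ) (h : n ≠ w) (x : E.S n ⟶ X) :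
    sharp x ≫ (X ◁ wq E w) = 0 := by
  rw [sharp_eq_unitIso, Category.assoc, ← id_tensorHom, tensorHom_comp_tensorHom, inPS_wq_ne _ _ (by omega),
    MonoidalPreadditive.tensor_zero, comp_zero]

end Proj

/-! ### localization -/

section Loc

open T Pretriangulated

variable {T : Type u} [Category.{v} T] [Preadditive T] [HasZeroObject T] [HasShift T ℤ]
  [∀ n : ℤ, (shiftFunctor T n).Additive] [Pretriangulated T]
  [MonoidalCategory T] [SymmetricCategory T] [TensorTriangulated T] [MonoidalClosed T]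
  [HasCoproducts.{0} T] {E : EvenSpheres T} {K : T} (F : LocFunctor K)
  (hS : ∀ n : ℤ, TensLoc K (E.S n))

/-- The homogeneous element of weight `w` of `L (X ⊗ PS)` given by an element of `L X`. -/
noncomputable def sharpL {X : T} (w : ℤ) (a : E.S w ⟶ F.L.obj X) : 𝟙_ T ⟶ F.L.obj (X ⊗ E.PS) :=
  (E.unitIso w).hom ≫ (a ▷ E.S (-w)) ≫ (F.tensIso (hS (-w)) X).inv ≫ F.L.map (X ◁ E.inPS (-w))

theorem sharpL_add {X : T} (w : ℤ) (a b : E.S w ⟶ F.L.obj X) :
    sharpL F hS w (a + b) = sharpL F hS w a + sharpL F hS w b := by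
  unfold sharpL
  rw [MonoidalPreadditive.add_whiskerRight, Preadditive.add_comp, Preadditive.comp_add]

/-- `sharpL` as an additive map. -/
noncomputable def sharpLAdd (X : T) (w : ℤ) :
    (E.S w ⟶ F.L.obj X) →+ (𝟙_ T ⟶ F.L.obj (X ⊗ E.PS)) :=
  AddMonoidHom.mk' (sharpL F hS w) (sharpL_add F hS w)

theorem sharpLAdd_apply (X : T) (w : ℤ) (a : E.S w ⟶ F.L.obj X) :
    sharpLAdd F hS X w a = sharpL F hS w a := rfl

theorem retractS (X : T) (w : ℤ) :
    F.L.map (X ◁ E.inPS (-w)) ≫ F.L.map (X ◁ E.pr (-w)) = 𝟙 _ := by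
  rw [← F.L.map_comp, ← MonoidalCategory.whiskerLeft_comp, inPS_pr _ _ rfl]
  simp

theorem sharpL_injective (X : T) (w : ℤ) : Function.Injective (sharpLAdd F hS X w) := by
  rw [injective_iff_map_eq_zero]
  intro a ha
  rw [sharpLAdd_apply] at ha
  have h1 : sharpL F hS w a ≫ F.L.map (X ◁ E.pr (-w)) ≫ (F.tensIso (hS (-w)) X).hom = 0 := by
    rw [ha, zero_comp]
  unfold sharpL at h1
  simp only [Category.assoc] at h1
  rw [reassoc_of% (retractS F X w), Iso.inv_hom_id, Category.comp_id] at h1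
  have h2 : a ▷ E.S (-w) = (0 : E.S w ⟶ F.L.obj X) ▷ E.S (-w) := by
    rw [MonoidalPreadditive.zero_whiskerRight, ← cancel_epi (E.unitIso w).hom, h1, comp_zero]
  exact whiskerRight_inj _ h2

/-- The image of `sharpL` is the part of weight `w`. -/
theorem sharpL_range {X : T} (w : ℤ) (e : 𝟙_ T ⟶ F.L.obj (X ⊗ E.PS)) :
    e ≫ F.L.map (X ◁ wq E w) = e ↔ ∃ a, sharpLAdd F hS X w a = e := by
  have hq : F.L.map (X ◁ wq E w) = F.L.map (X ◁ E.pr (-w)) ≫ F.L.map (X ◁ E.inPS (-w)) := by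
    rw [← F.L.map_comp, ← MonoidalCategory.whiskerLeft_comp, wq]
  constructor
  · intro he
    obtain ⟨a, ha⟩ := exists_per_part E w
      (e ≫ F.L.map (X ◁ E.pr (-w)) ≫ (F.tensIso (hS (-w)) X).hom)
    refine ⟨a, ?_⟩
    rw [sharpLAdd_apply, sharpL, ← Category.assoc, ha]
    simp only [Category.assoc, Iso.hom_inv_id_assoc]
    rw [← hq, he]
  · rintro ⟨a, rfl⟩
    rw [sharpLAdd_apply, sharpL, hq]
    simp only [Category.assoc]
    rw [reassoc_of% (retractS F X w)]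

/-- Naturality of `sharpL`. -/
theorem sharpL_comp {X X' : T} (f : X ⟶ X') (w : ℤ) (a : E.S w ⟶ F.L.obj X) :
    sharpL F hS w (a ≫ F.L.map f) = sharpL F hS w a ≫ F.L.map (f ▷ E.PS) := by
  unfold sharpL
  simp only [Category.assoc, comp_whiskerRight]
  congr 2
  have h1 : F.L.map f ▷ E.S (-w) ≫ (F.tensIso (hS (-w)) X').inv =
      (F.tensIso (hS (-w)) X).inv ≫ F.L.map (f ▷ E.S (-w)) := by
    rw [Iso.comp_inv_eq, Category.assoc, F.tensIso_naturality, Iso.inv_hom_id_assoc]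
  rw [reassoc_of% h1, ← F.L.map_comp, ← F.L.map_comp, whisker_exchange]

/-- `sharpL` and the localization map. -/
theorem sharpL_u {X : T} (w : ℤ) (a : E.S w ⟶ X) :
    sharpL F hS w (a ≫ F.u X) = sharp a ≫ F.u (X ⊗ E.PS) := by
  rw [sharp_eq_unitIso]
  unfold sharpL
  have h1 : F.u X ▷ E.S (-w) ≫ (F.tensIso (hS (-w)) X).inv = F.u (X ⊗ E.S (-w)) := by
    rw [Iso.comp_inv_eq, F.u_tensIso]
  simp only [Category.assoc, comp_whiskerRight]
  rw [reassoc_of% h1, F.u_naturality, tensorHom_def]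
  simp only [Category.assoc]

end Loc

end Vale.Agent.P251.S
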