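import Vale.Agent.P251.S.GrB
import Vale.Agent.P251.S.E1a

/-!
# P251, part S2G: the homotopy of `L N_s` as a completion

`N_s = (R^{⊗ (s+1)} ⊗ C) ⊗ PS`.  From `E1C` (theorem E1) for `N_s` over `P = R ⊗ PS` we get
`CobCompl` for the `Cob Laz s`-module `Hom(𝟙, L N_s)` (`GD.cobCompl`), with the projections
`GD.wtProj` and the semilinear maps `GD.cosimp_smul`.
-/

open CategoryTheory MonoidalCategory MonObj Limits

set_option linter.unusedSectionVars false

universe v u

namespace Vale.Agent.P251.S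

open Vale.Agent.P251.M Vale.Agent.P251.M.EvenSpheres Vale.Agent.P251.F Vale.Agent.P251.T
open Pretriangulated

/-! ### change of rings for `CompCond` -/

section Change

variable {A B : Type*} [CommRing A] [CommRing B] {E E' : Type*} [AddCommGroup E] [Module A E]
  [AddCommGroup E'] [Module B E']

theorem filtration_map (f : E →+ E') {S : Set A} {J : Ideal B}
    (hS : ∀ a ∈ S, ∃ b ∈ J, ∀ x : E, f (a • x) = b • f x) (j : ℕ) {x : E}
    (hx : x ∈ (Ideal.span S ^ j • ⊤ : Submodule A E)) : f x ∈ (J ^ j • ⊤ : Submodule B E') := by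
  induction j generalizing x with
  | zero => rw [pow_zero, Ideal.one_eq_top, Submodule.top_smul]; trivial
  | succ j ih =>
    rw [pow_succ', Submodule.mul_smul] at hx ⊢
    refine Submodule.smul_induction_on hx ?_ ?_
    · intro r hr e he
      refine Submodule.span_induction (p := fun r _ => ∀ e ∈ (Ideal.span S ^ j • ⊤ : Submodule A E),
        f (r • e) ∈ (J • (J ^ j • ⊤) : Submodule B E')) ?_ ?_ ?_ ?_ hr e he
      · intro a ha e he
        obtain ⟨b, hb, hab⟩ := hS a ha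
        rw [hab]
        exact Submodule.smul_mem_smul hb (ih he)
      · intro e _
        rw [zero_smul, map_zero]
        exact zero_mem _
      · intro a b _ _ ha hb e he
        rw [add_smul, map_add]
        exact add_mem (ha e he) (hb e he)
      · intro a b _ hb e he
        rw [smul_eq_mul, mul_comm, mul_smul]
        exact hb _ (Submodule.smul_mem _ _ he)
    · intro x y hx hy
      rw [map_add]
      exact add_mem hx hy

/-- Two ideals acting in the same way define the same filtration. -/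
theorem filtration_iff (f : E ≃+ E') {S : Set A} {S' : Set B}
    (hS : ∀ a ∈ S, ∃ b ∈ S', ∀ x : E, f (a • x) = b • f x)
    (hS' : ∀ b ∈ S', ∃ a ∈ S, ∀ x : E, f (a • x) = b • f x) (j : ℕ) (x : E) :
    x ∈ (Ideal.span S ^ j • ⊤ : Submodule A E) ↔
      f x ∈ (Ideal.span S' ^ j • ⊤ : Submodule B E') := by
  constructor
  · intro hx
    refine filtration_map (f : E →+ E') (fun a ha => ?_) j hx
    obtain ⟨b, hb, hab⟩ := hS a ha
    exact ⟨b, Ideal.subset_span hb, hab⟩
  · intro hx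
    have h1 := filtration_map (f.symm : E' →+ E) (J := Ideal.span S) (fun b hb => ?_) j hx
    · simpa using h1
    · obtain ⟨a, ha, hab⟩ := hS' b hb
      refine ⟨a, Ideal.subset_span ha, fun y => ?_⟩
      have h2 := hab (f.symm y)
      rw [AddEquiv.apply_symm_apply] at h2
      change f.symm (b • y) = a • f.symm y
      rw [← h2, AddEquiv.symm_apply_apply]

variable {F F' : Type*} [AddCommGroup F] [Module A F] [AddCommGroup F'] [Module B F']

/-- Change of rings for `CompCond`. -/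
theorem CompCond.change {S : Set A} {S' : Set B} {v : A} {v' : B} {φ : F →ₗ[A] E}
    (H : CompCond (Ideal.span S) v φ) (φ' : F' →ₗ[B] E') (eF : F ≃+ F') (eE : E ≃+ E')
    (hφ : ∀ x, φ' (eF x) = eE (φ x)) (hvE : ∀ x, eE (v • x) = v' • eE x)
    (hvF : ∀ x, eF (v • x) = v' • eF x)
    (hE : ∀ a ∈ S, ∃ b ∈ S', ∀ x, eE (a • x) = b • eE x)
    (hE' : ∀ b ∈ S', ∃ a ∈ S, ∀ x, eE (a • x) = b • eE x)
    (hF : ∀ a ∈ S, ∃ b ∈ S', ∀ x, eF (a • x) = b • eF x)
    (hF' : ∀ b ∈ S', ∃ a ∈ S, ∀ x, eF (a • x) = b • eF x) :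
    CompCond (Ideal.span S') v' φ' := by
  have iE := fun j x => filtration_iff eE hE hE' j x
  have iF := fun j x => filtration_iff eF hF hF' j x
  have pE : ∀ (k : ℕ) x, eE (v ^ k • x) = v' ^ k • eE x := by
    intro k
    induction k with
    | zero => intro x; rw [pow_zero, pow_zero, one_smul, one_smul]
    | succ k ih => intro x; rw [pow_succ, pow_succ, mul_smul, mul_smul, ih, hvE]
  have pF : ∀ (k : ℕ) x, eF (v ^ k • x) = v' ^ k • eF x := by
    intro k
    induction k with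
    | zero => intro x; rw [pow_zero, pow_zero, one_smul, one_smul]
    | succ k ih => intro x; rw [pow_succ, pow_succ, mul_smul, mul_smul, ih, hvF]
  refine ⟨?_, ?_, ?_, ?_, ?_, ?_⟩
  · intro e he
    obtain ⟨x, rfl⟩ := eE.surjective e
    rw [H.haus x fun k => (iE k x).2 (he k), map_zero]
  · intro e he
    choose x hx using fun k => eE.surjective (e k)
    obtain ⟨l, hl⟩ := H.complete x fun k => (iE k _).2 (by
      rw [map_sub, hx, hx]; exact he k)
    refine ⟨eE l, fun k => ?_⟩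
    rw [← hx k, ← map_sub]
    exact (iE k _).1 (hl k)
  · intro e he
    obtain ⟨x, rfl⟩ := eE.surjective e
    rw [← hvE] at he
    rw [H.inj x (by simpa using he), map_zero]
  · intro e
    obtain ⟨x, rfl⟩ := eE.surjective e
    obtain ⟨y, hy⟩ := H.surj x
    exact ⟨eE y, by rw [← hvE, hy]⟩
  · intro j e
    obtain ⟨x, rfl⟩ := eE.surjective e
    obtain ⟨k, y, hy⟩ := H.dense j x
    refine ⟨k, eF y, ?_⟩
    rw [hφ, ← pE, ← map_sub]
    exact (iE j _).1 hy
  · intro j y hy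
    obtain ⟨x, rfl⟩ := eF.surjective y
    rw [hφ] at hy
    obtain ⟨k, hk⟩ := H.closed j x ((iE j _).2 hy)
    refine ⟨k, ?_⟩
    rw [← pF]
    exact (iF j _).1 hk

/-- Cancellation of powers of `v`. -/
theorem CompCond.cancel {I : Ideal A} {v : A} {φ : F →ₗ[A] E} (H : CompCond I v φ) (j k : ℕ)
    {e : E} (he : v ^ k • e ∈ (I ^ j • ⊤ : Submodule A E)) :
    e ∈ (I ^ j • ⊤ : Submodule A E) := by
  have hs : ∀ (k : ℕ) (e : E), ∃ e', v ^ k • e' = e := by
    intro k
    induction k with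
    | zero => intro e; exact ⟨e, by simp⟩
    | succ k ih =>
      intro e
      obtain ⟨e', he'⟩ := ih e
      obtain ⟨e'', he''⟩ := H.surj e'
      exact ⟨e'', by rw [pow_succ, mul_smul, he'', he']⟩
  have hi : ∀ (k : ℕ) (e : E), v ^ k • e = 0 → e = 0 := by
    intro k
    induction k with
    | zero => intro e h; simpa using h
    | succ k ih =>
      intro e h
      rw [pow_succ', mul_smul] at h
      exact ih _ (H.inj _ h)
  have h1 : ∀ x ∈ (I ^ j • ⊤ : Submodule A E),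
      ∃ y ∈ (I ^ j • ⊤ : Submodule A E), v ^ k • y = x := by
    intro x hx
    refine Submodule.smul_induction_on hx ?_ ?_
    · rintro r hr e -
      obtain ⟨e', rfl⟩ := hs k e
      exact ⟨r • e', Submodule.smul_mem_smul hr trivial, smul_comm _ _ _⟩
    · rintro x y ⟨a, ha, rfl⟩ ⟨b, hb, rfl⟩
      exact ⟨a + b, add_mem ha hb, smul_add _ _ _⟩
  obtain ⟨y, hy, hye⟩ := h1 _ he
  have : y = e := by
    rw [← sub_eq_zero]
    apply hi k
    rw [smul_sub, hye, sub_self]
  rwa [← this]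

/-- A scalar killing a generator of the source kills the target. -/
theorem CompCond.smul_eq_zero {I : Ideal A} {v : A} {φ : F →ₗ[A] E} (H : CompCond I v φ)
    {uF : F} (hgen : ∀ f : F, ∃ c : A, c • uF = f) {a : A} (ha : a • uF = 0) (e : E) :
    a • e = 0 := by
  refine H.haus _ fun j => ?_
  obtain ⟨k, f, hf⟩ := H.dense j e
  obtain ⟨c, rfl⟩ := hgen f
  have h1 := Submodule.smul_mem _ a hf
  have h2 : a • (v ^ k • e - φ (c • uF)) = v ^ k • (a • e) := by
    rw [smul_sub, ← map_smul, smul_comm a c, ha, smul_zero, map_zero, sub_zero, smul_comm]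
  rw [h2] at h1
  exact H.cancel j k h1

end Change

section Pre

variable {T : Type u} [Category.{v} T] [Preadditive T] {A : Type*} [Ring A]

/-- Precomposition. -/
def HM.pre {Y : T} (ρ : A →+* End Y) {W W' : T} (e : W ⟶ W') : HM ρ W' →ₗ[A] HM ρ W where
  toFun x := HM.of (e ≫ x.hom)
  map_add' _ _ := Preadditive.comp_add _ _ _ _ _ _
  map_smul' a x := by
    apply HM.hom_ext
    change e ≫ x.hom ≫ (ρ a : Y ⟶ Y) = (e ≫ x.hom) ≫ (ρ a : Y ⟶ Y)
    rw [Category.assoc]

end Pre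

variable {T : Type u} [Category.{v} T] [Preadditive T] [HasZeroObject T]
    [HasShift T ℤ] [∀ n : ℤ, (shiftFunctor T n).Additive] [Pretriangulated T] [IsTriangulated T]
    [MonoidalCategory T] [SymmetricCategory T] [TensorTriangulated T] [MonoidalClosed T]
    [HasCoproducts.{0} T] [HasProducts.{0} T] [StableCat T]

/-- `E1C` at the unit object. -/
theorem E1C.unit {P : T} [MonObj P] [IsCommMonObj P] {K : T} {F : LocFunctor K}
    {v : ℕ → (𝟙_ T ⟶ P)} {h : ℕ} {N : T} {M : ModStr P N} (hE : E1C F v h M) :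
    CompCond (Iv P v h) (Sc.of (v h)) (F.homMap M (𝟙_ T)) := by
  let z : (𝟙_ T) ≅ Sph T 0 := ((shiftFunctorZero T ℤ).app (𝟙_ T)).symm
  refine (hE.even 0 ⟨0, rfl⟩).retract (HM.pre _ z.inv) (HM.pre _ z.hom) (HM.pre _ z.inv)
    (HM.pre _ z.hom) ?_ ?_ ?_ ?_
  · intro x
    apply HM.hom_ext
    change z.hom ≫ z.inv ≫ x.hom = x.hom
    rw [Iso.hom_inv_id_assoc]
  · intro x
    apply HM.hom_ext
    change z.hom ≫ z.inv ≫ x.hom = x.hom
    rw [Iso.hom_inv_id_assoc]
  · intro x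
    apply HM.hom_ext
    change (z.inv ≫ x.hom) ≫ F.u N = z.inv ≫ x.hom ≫ F.u N
    rw [Category.assoc]
  · intro x
    apply HM.hom_ext
    change (z.hom ≫ x.hom) ≫ F.u N = z.hom ≫ x.hom ≫ F.u N
    rw [Category.assoc]

namespace GD

variable (D : I.MUData T) (C : T) {K : T} (F : LocFunctor K)

/-- The module `N_s`. -/
noncomputable abbrev Ns (s : ℕ) : T := (Am D.R (s + 1) ⊗ C) ⊗ (stdEven T).PS

/-- The action of `Cob Laz s` on `L N_s`. -/
noncomputable def rL (s : ℕ) : Cob Laz s →+* End (F.L.obj (Ns D C s)) :=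
  (F.mod (MN D C s)).smr.comp (γ D s)

theorem rL_eq (s : ℕ) (z : Cob Laz s) : rL D C F s z = F.L.map (rN D C s z) :=
  F.mod_smul (MN D C s) _

theorem u_rL (s : ℕ) (z : Cob Laz s) :
    (rN D C s z : Ns D C s ⟶ _) ≫ F.u (Ns D C s) = F.u (Ns D C s) ≫ rL D C F s z := by
  rw [rL_eq, F.u_naturality]

/-- The `Cob Laz s`-module `Hom(𝟙, N_s)`. -/
abbrev Fs (s : ℕ) : Type v := HM (rN D C s) (𝟙_ T)

/-- The `Cob Laz s`-module `Hom(𝟙, L N_s)`. -/
abbrev Es (s : ℕ) : Type v := HM (rL D C F s) (𝟙_ T)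

/-- The localization map `Hom(𝟙, N_s) → Hom(𝟙, L N_s)`. -/
noncomputable def φs (s : ℕ) : Fs D C s →ₗ[Cob Laz s] Es D C F s :=
  HM.map (F.u (Ns D C s)) (u_rL D C F s) (𝟙_ T)

theorem rN_v (p s i : ℕ) : (rN D C s (MvPolynomial.C (Laz.v p i)) : Ns D C s ⟶ _) =
    (MP D C s).smul (D.vs p i) := by
  rw [MP_smul, vs_v0]
  rfl

theorem rL_v (p s i : ℕ) : (rL D C F s (MvPolynomial.C (Laz.v p i)) : F.L.obj (Ns D C s) ⟶ _) =
    (F.mod (MP D C s)).smul (D.vs p i) := by
  rw [F.mod_smul, ← rN_v, rL_eq]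

variable {C} {p : ℕ} [Fact p.Prime] {h : ℕ}

/-- The condition `C` over `Cob Laz s`. -/
theorem compCond (s : ℕ) (hE : E1C F (D.vs p) h (MP D C s)) :
    CompCond (IC p h s) (vC p h s) (φs D C F s) := by
  rw [CobCompl.IC_eq_span]
  have H := hE.unit
  rw [Iv] at H
  have e1 : ∀ (k : ℕ) (x : HM (F.mod (MP D C s)).smr (𝟙_ T)),
      (HM.of (Sc.of (D.vs p k) • x).hom : Es D C F s) =
        (MvPolynomial.C (Laz.v p k) : Cob Laz s) • (HM.of x.hom : Es D C F s) := by
    intro k x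
    apply HM.hom_ext
    change x.hom ≫ (F.mod (MP D C s)).smul (D.vs p k) =
      x.hom ≫ rL D C F s (MvPolynomial.C (Laz.v p k))
    rw [rL_v]
  have e2 : ∀ (k : ℕ) (x : HM (MP D C s).smr (𝟙_ T)),
      (HM.of (Sc.of (D.vs p k) • x).hom : Fs D C s) =
        (MvPolynomial.C (Laz.v p k) : Cob Laz s) • (HM.of x.hom : Fs D C s) := by
    intro k x
    apply HM.hom_ext
    change x.hom ≫ (MP D C s).smul (D.vs p k) =
      x.hom ≫ rN D C s (MvPolynomial.C (Laz.v p k))
    rw [rN_v]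
  refine H.change (φs D C F s) (AddEquiv.refl (𝟙_ T ⟶ Ns D C s))
    (AddEquiv.refl (𝟙_ T ⟶ F.L.obj (Ns D C s))) (fun x => rfl) (e1 h) (e2 h) ?_ ?_ ?_ ?_
  · rintro _ ⟨k, hk, rfl⟩
    exact ⟨_, ⟨k, hk, rfl⟩, e1 k⟩
  · rintro _ ⟨k, hk, rfl⟩
    exact ⟨_, ⟨k, hk, rfl⟩, e1 k⟩
  · rintro _ ⟨k, hk, rfl⟩
    exact ⟨_, ⟨k, hk, rfl⟩, e2 k⟩
  · rintro _ ⟨k, hk, rfl⟩
    exact ⟨_, ⟨k, hk, rfl⟩, e2 k⟩

variable (i : 𝟙_ T ⟶ C) (hp : p ≠ 2) {δ : C ⟶ (𝟙_ T)⟦(1 : ℤ)⟧}
  (hC : Triangle.mk ((p : ℤ) • 𝟙 (𝟙_ T)) i δ ∈ distTriang T)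

/-- The unit of `Hom(𝟙, L N_s)`. -/
noncomputable def uL (s : ℕ) : Es D C F s := φs D C F s (HM.of (uN D i s))

include hC in
omit [Fact p.Prime] in
theorem p_smul_uN (s : ℕ) : (p : Cob Laz s) • (HM.of (uN D i s) : Fs D C s) = 0 := by
  have h0 : (p : ℤ) • i = 0 := by
    have := comp_distTriang_mor_zero₁₂ _ hC
    change ((p : ℤ) • 𝟙 (𝟙_ T)) ≫ i = 0 at this
    rwa [Preadditive.zsmul_comp, Category.id_comp] at this
  have h1 : (p : ℤ) • uN D i s = 0 := by
    have h2 := map_zsmul ((stdEven T).sharpAdd (Am D.R (s + 1) ⊗ C) 0) (p : ℤ)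
      ((stdEven T).zero.inv ≫ uX D i s)
    have h3 : (p : ℤ) • ((stdEven T).zero.inv ≫ uX D i s) = 0 := by
      rw [← Preadditive.comp_zsmul, uX, ← Preadditive.zsmul_comp, h0, zero_comp, comp_zero]
    rw [h3, map_zero] at h2
    exact h2.symm
  rw [Nat.cast_smul_eq_nsmul]
  rw [← natCast_zsmul]
  exact h1

include hp hC

/-- **`Hom(𝟙, L N_s)` is the completion of `v_h⁻¹ (Cob Laz s / p)`.** -/
theorem cobCompl (s : ℕ) (hE : E1C F (D.vs p) h (MP D C s)) :
    CobCompl p h s (uL D F i s) := by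
  have hgen : ∀ f : Fs D C s, ∃ c : Cob Laz s, c • (HM.of (uN D i s) : Fs D C s) = f := by
    intro f
    obtain ⟨z, hz⟩ := exists_smul_uN D i hp hC s f.hom
    exact ⟨z, HM.hom_ext hz⟩
  refine CobCompl.of_compCond p h s (compCond D F s hE) (HM.of (uN D i s)) hgen ?_ ?_
  · intro c hc
    exact mem_span_of_smul_uN D i hp hC s c (congrArg HM.hom hc)
  · exact (compCond D F s hE).smul_eq_zero hgen (p_smul_uN D i hC s)

end GD

end Vale.Agent.P251.S
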