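import Vale.Agent.P251.S.GrC

/-!
# P251, part S2G: weights and cosimplicial maps on `Hom(𝟙, L N_s)`
-/

open CategoryTheory MonoidalCategory MonObj Limits

set_option linter.unusedSectionVars false

universe v u

namespace Vale.Agent.P251.S

open Vale.Agent.P251.M Vale.Agent.P251.M.EvenSpheres Vale.Agent.P251.F Vale.Agent.P251.T
open Pretriangulated

section Lin

variable {T : Type u} [Category.{v} T] [MonoidalCategory T] [SymmetricCategory T]
  [MonoidalClosed T] [HasCoproducts.{0} T] {E : EvenSpheres T}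

/-- Semilinear maps stay semilinear after `- ⊗ PS`. -/
theorem PM_linear {A A' N N' : T} [MonObj A] [MonObj A'] (M : ModStr A N) (M' : ModStr A' N')
    (f : A ⟶ A') [IsMonHom f] (g : N ⟶ N') (h : M.act ≫ g = (f ⊗ₘ g) ≫ M'.act) :
    (PM E M).act ≫ (g ▷ E.PS) = ((f ▷ E.PS) ⊗ₘ (g ▷ E.PS)) ≫ (PM E M').act := by
  unfold PM ModStr.tens ModStr.self
  simp only [Category.assoc]
  rw [← tensorHom_id g, tensorHom_comp_tensorHom, h, ← tensorHom_id f, tensorμ_natural_assoc,
    tensorHom_comp_tensorHom]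
  simp

theorem restr_isLinear {A A' N N' : T} [MonObj A] [MonObj A'] {M : ModStr A N}
    {M' : ModStr A' N'} {f : A ⟶ A'} [IsMonHom f] {g : N ⟶ N'}
    (h : M.act ≫ g = (f ⊗ₘ g) ≫ M'.act) : M.IsLinear (M'.restr f) g := by
  unfold ModStr.IsLinear ModStr.restr
  rw [h, tensorHom_def']
  simp only [Category.assoc]

theorem smul_semilinear {A A' N N' : T} [MonObj A] [MonObj A'] {M : ModStr A N}
    {M' : ModStr A' N'} {f : A ⟶ A'} [IsMonHom f] {g : N ⟶ N'}
    (h : M.act ≫ g = (f ⊗ₘ g) ≫ M'.act) (a : 𝟙_ T ⟶ A) :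
    M.smul a ≫ g = g ≫ M'.smul (a ≫ f) := by
  rw [(restr_isLinear h).smul a, ModStr.restr_smul]

end Lin

variable {T : Type u} [Category.{v} T] [Preadditive T] [HasZeroObject T]
    [HasShift T ℤ] [∀ n : ℤ, (shiftFunctor T n).Additive] [Pretriangulated T] [IsTriangulated T]
    [MonoidalCategory T] [SymmetricCategory T] [TensorTriangulated T] [MonoidalClosed T]
    [HasCoproducts.{0} T] [HasProducts.{0} T] [StableCat T]

namespace GD

variable (D : I.MUData T) (C : T) {K : T} (F : LocFunctor K)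

/-! ### cosimplicial maps -/

section Cosimp

variable {m n : ℕ} (α : Fin (m + 1) → Fin (n + 1))

/-- The cosimplicial maps of `R^{⊗ (s+1)} ⊗ C`. -/
def mapX : Am D.R (m + 1) ⊗ C ⟶ Am D.R (n + 1) ⊗ C := Am.map D.R α ▷ C

/-- The cosimplicial maps of `N_s`. -/
noncomputable def mapN : Ns D C m ⟶ Ns D C n := mapX D C α ▷ (stdEven T).PS

theorem act_mapX : (MX D C m).act ≫ mapX D C α = (Am.map D.R α ⊗ₘ mapX D C α) ≫ (MX D C n).act := by
  unfold MX ModStr.tensorRight ModStr.self mapX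
  simp only [Category.assoc]
  rw [← comp_whiskerRight, IsMonHom.mul_hom, ← tensorHom_id (Am.map D.R α) C,
    associator_inv_naturality_assoc, comp_whiskerRight, tensorHom_id]

theorem act_mapN : (MN D C m).act ≫ mapN D C α =
    ((Am.map D.R α ▷ (stdEven T).PS) ⊗ₘ mapN D C α) ≫ (MN D C n).act :=
  PM_linear (MX D C m) (MX D C n) (Am.map D.R α) (mapX D C α) (act_mapX D C α)

theorem rN_mapN (z : Cob Laz m) : (rN D C m z : Ns D C m ⟶ _) ≫ mapN D C α =
    mapN D C α ≫ rN D C n (Cob.map α z) := by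
  rw [rN_eq, rN_eq, ← γ_map]
  exact smul_semilinear (act_mapN D C α) _

theorem rL_mapN (z : Cob Laz m) : (rL D C F m z : F.L.obj (Ns D C m) ⟶ _) ≫
    F.L.map (mapN D C α) = F.L.map (mapN D C α) ≫ rL D C F n (Cob.map α z) := by
  rw [rL_eq, rL_eq, ← F.L.map_comp, rN_mapN, F.L.map_comp]

/-- The cosimplicial maps on `Hom(𝟙, L N_s)`. -/
noncomputable def mapE : Es D C F m →+ Es D C F n where
  toFun x := HM.of (x.hom ≫ F.L.map (mapN D C α))
  map_zero' := zero_comp
  map_add' _ _ := Preadditive.add_comp _ _ _ _ _ _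

theorem mapE_smul (c : Cob Laz m) (x : Es D C F m) :
    mapE D C F α (c • x) = Cob.map α c • mapE D C F α x := by
  apply HM.hom_ext
  change (x.hom ≫ (rL D C F m c : F.L.obj (Ns D C m) ⟶ _)) ≫ F.L.map (mapN D C α) =
    (x.hom ≫ F.L.map (mapN D C α)) ≫ rL D C F n (Cob.map α c)
  rw [Category.assoc, Category.assoc, rL_mapN]

variable {C} (i : 𝟙_ T ⟶ C)

theorem uX_mapX : uX D i m ≫ mapX D C α = uX D i n := by
  unfold uX mapX unitMap
  simp only [Category.assoc]
  rw [← comp_whiskerRight, IsMonHom.one_hom]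

theorem uN_mapN : uN D i m ≫ mapN D C α = uN D i n := by
  unfold uN mapN
  rw [← sharp_comp, Category.assoc, uX_mapX]

theorem mapE_uL : mapE D C F α (uL D F i m) = uL D F i n := by
  apply HM.hom_ext
  change (uN D i m ≫ F.u (Ns D C m)) ≫ F.L.map (mapN D C α) = uN D i n ≫ F.u (Ns D C n)
  rw [Category.assoc, F.u_naturality, ← Category.assoc, uN_mapN]

end Cosimp

/-! ### weights -/

section Wt

variable (s : ℕ)

/-- The projection to the part of weight `w`. -/
noncomputable def eps (w : ℤ) : Es D C F s →+ Es D C F s where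
  toFun x := HM.of (x.hom ≫ F.L.map ((Am D.R (s + 1) ⊗ C) ◁ wq (stdEven T) w))
  map_zero' := zero_comp
  map_add' _ _ := Preadditive.add_comp _ _ _ _ _ _

theorem eps_hom (w : ℤ) (x : Es D C F s) : (eps D C F s w x).hom =
    x.hom ≫ F.L.map ((Am D.R (s + 1) ⊗ C) ◁ wq (stdEven T) w) := rfl

variable {C} (i : 𝟙_ T ⟶ C)

theorem uL_eps (w : ℤ) : (eps D C F s w (uL D F i s)).hom =
    (uN D i s ≫ ((Am D.R (s + 1) ⊗ C) ◁ wq (stdEven T) w)) ≫ F.u (Ns D C s) := by
  change (uN D i s ≫ F.u (Ns D C s)) ≫ F.L.map ((Am D.R (s + 1) ⊗ C) ◁ wq (stdEven T) w) = _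
  rw [Category.assoc, F.u_naturality, ← Category.assoc]

/-- The projections to the homogeneous parts. -/
noncomputable def wtProj : CobCompl.WtProj s (uL D F i s) where
  ε := eps D C F s
  ε_smul v w c e hc := by
    obtain ⟨a, ha, -⟩ := γ_wt D hc
    apply HM.hom_ext
    change (e.hom ≫ (rL D C F s c : F.L.obj (Ns D C s) ⟶ _)) ≫
      F.L.map ((Am D.R (s + 1) ⊗ C) ◁ wq (stdEven T) (v + w)) =
        (e.hom ≫ F.L.map ((Am D.R (s + 1) ⊗ C) ◁ wq (stdEven T) w)) ≫ rL D C F s c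
    rw [rL_eq, rN_of D ha, Category.assoc, Category.assoc, ← F.L.map_comp, ← F.L.map_comp]
    congr 2
    exact smul_wq (MX D C s) v w a
  ε_u := by
    apply HM.hom_ext
    rw [uL_eps, uN, sharp_wq _ _ rfl]
    rfl
  ε_u' w hw := by
    apply HM.hom_ext
    rw [uL_eps, uN, sharp_wq_ne _ _ (Ne.symm hw), zero_comp]
    rfl

end Wt

end GD

end Vale.Agent.P251.S
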