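import Vale.Agent.P251.S.GrE
import Vale.Agent.P251.S.Final2
import Vale.Agent.P251.S.E1MU

/-!
# P251, part S2G: the output `GrOut` for `K = K_h` (Koszul object ⊗ telescope)
-/

open CategoryTheory MonoidalCategory MonObj Limits Pretriangulated

set_option linter.unusedSectionVars false

universe v u

namespace Vale.Agent.P251.S

open Vale.Agent.P251.M Vale.Agent.P251.F Vale.Agent.P251.T

variable {T : Type u} [Category.{v} T] [Preadditive T] [HasZeroObject T]
    [HasShift T ℤ] [∀ n : ℤ, (shiftFunctor T n).Additive] [Pretriangulated T] [IsTriangulated T]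
    [MonoidalCategory T] [SymmetricCategory T] [TensorTriangulated T] [MonoidalClosed T]
    [HasCoproducts.{0} T] [HasProducts.{0} T] [StableCat T]

namespace GD

variable {D : I.MUData T} (U : UnitCof D.R) {p : ℕ} [Fact p.Prime] (hp : p ≠ 2) {h : ℕ}
  {C : T} {i : 𝟙_ T ⟶ C} {δ : C ⟶ (𝟙_ T)⟦(1 : ℤ)⟧}
  (hC : Triangle.mk ((p : ℤ) • 𝟙 (𝟙_ T)) i δ ∈ distTriang T) {K : T} (F : LocFunctor K)
  (hE : ∀ s, E1C F (D.vs p) h (MP D C s))

/-- The output of the computation of the `E_1`-term. -/
noncomputable def grOut_of_e1C : GrOut D U p h i F where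
  odd s t ht x := odd_zero D U F (hE s) t ht x
  model w := cobModel D U F i hp hC hE w
  compat w s z j := cobModel_phi D U F i hp hC hE w s z j

/-- **The cobar complex of `L_{K_h} (S/p)` is the limit of the towers `towerN p h w`.** -/
noncomputable def grOut (hh : 1 ≤ h) (Dk : KosData D.P (p : ℤ) h (D.vs p))
    (F : LocFunctor Dk.K) : GrOut D U p h i F :=
  grOut_of_e1C U hp hC F fun s => e1C_MP D hp hC hh Dk F s

end GD

end Vale.Agent.P251.S
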