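import Mathlib.Algebra.BigOperators.Pi
import Mathlib.Algebra.Group.Subgroup.Basic
import Mathlib.Data.Nat.Init
import Mathlib.Tactic.Abel
import Mathlib.Tactic.Ring
import Mathlib.Algebra.BigOperators.Intervals
import Mathlib.Algebra.Order.BigOperators.Group.Finset
import Mathlib.Algebra.Group.Subgroup.Finite

/-!
# Inverse sequences of abelian groups: `lim` and the vanishing of `lim¹`

`oneSub f : (∀ n, A n) →+ (∀ n, A n)` is `1 - shift`; `lim = ker`, `lim¹ = coker`.
We never form `lim¹`; `Lim1 f` says that it is zero.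
-/

namespace Vale.Agent.P251.S

universe u v w

section Basic

variable {A : ℕ → Type u} [∀ n, AddCommGroup (A n)] (f : ∀ n, A (n + 1) →+ A n)

/-- `1 - shift` on the product of the groups of an inverse sequence. -/
def oneSub : (∀ n, A n) →+ (∀ n, A n) where
  toFun x n := x n - f n (x (n + 1))
  map_zero' := by ext n; simp
  map_add' x y := by ext n; simp only [Pi.add_apply, map_add]; abel

@[simp] lemma oneSub_apply (x : ∀ n, A n) (n : ℕ) : oneSub f x n = x n - f n (x (n + 1)) := rfl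

/-- a compatible family, i.e. an element of the inverse limit -/
def Compat (x : ∀ n, A n) : Prop := ∀ n, f n (x (n + 1)) = x n

/-- the inverse limit, as a subgroup of the product -/
def limSub : AddSubgroup (∀ n, A n) := (oneSub f).ker

lemma mem_limSub {x : ∀ n, A n} : x ∈ limSub f ↔ Compat f x := by
  rw [limSub, AddMonoidHom.mem_ker]
  constructor
  · intro h n
    have := congr_fun h n
    rw [oneSub_apply, Pi.zero_apply, sub_eq_zero] at this
    exact this.symm
  · intro h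
    ext n
    rw [oneSub_apply, h n, sub_self, Pi.zero_apply]

lemma compat_iff_oneSub {x : ∀ n, A n} : Compat f x ↔ oneSub f x = 0 :=
  (mem_limSub f).symm.trans AddMonoidHom.mem_ker

/-- `lim¹ = 0` -/
def Lim1 : Prop := Function.Surjective (oneSub f)

/-- the transition map `A m → A n` for `n ≤ m` (and zero otherwise) -/
def tr (n : ℕ) : ∀ m : ℕ, A m →+ A n
  | 0 => if h : n = 0 then h ▸ AddMonoidHom.id _ else 0
  | m + 1 => if h : n = m + 1 then h ▸ AddMonoidHom.id _ else (tr n m).comp (f m)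

lemma tr_self (n : ℕ) : tr f n n = AddMonoidHom.id _ := by
  cases n with
  | zero => simp [tr]
  | succ n => simp [tr]

@[simp] lemma tr_self_apply (n : ℕ) (x : A n) : tr f n n x = x := by rw [tr_self]; rfl

lemma tr_of_lt {n m : ℕ} (h : m < n) : tr f n m = 0 := by
  induction m with
  | zero => simp [tr, h.ne']
  | succ m ih =>
    rw [tr, dif_neg h.ne', ih (by omega)]
    rfl

lemma tr_succ {n m : ℕ} (h : n ≤ m) : tr f n (m + 1) = (tr f n m).comp (f m) := by
  rw [tr, dif_neg (by omega)]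

lemma tr_succ_apply {n m : ℕ} (h : n ≤ m) (x : A (m + 1)) :
    tr f n (m + 1) x = tr f n m (f m x) := by
  rw [tr_succ f h]; rfl

lemma tr_one (n : ℕ) : tr f n (n + 1) = f n := by
  rw [tr_succ f le_rfl, tr_self]; rfl

lemma comp_tr {n m : ℕ} (h : n + 1 ≤ m) : (f n).comp (tr f (n + 1) m) = tr f n m := by
  induction m, h using Nat.le_induction with
  | base => rw [tr_self, tr_one]; rfl
  | succ m h ih => rw [tr_succ f h, tr_succ f (by omega), ← ih]; rfl

lemma f_tr {n m : ℕ} (h : n + 1 ≤ m) (x : A m) : f n (tr f (n + 1) m x) = tr f n m x := by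
  rw [← comp_tr f h]; rfl

lemma tr_tr {n m k : ℕ} (h : n ≤ m) (h' : m ≤ k) (x : A k) :
    tr f n m (tr f m k x) = tr f n k x := by
  induction k, h' using Nat.le_induction with
  | base => simp
  | succ k h' ih => rw [tr_succ_apply f h', ih, tr_succ_apply f (h.trans h')]

lemma Compat.tr_eq {x : ∀ n, A n} (hx : Compat f x) {n m : ℕ} (h : n ≤ m) :
    tr f n m (x m) = x n := by
  induction m, h using Nat.le_induction with
  | base => simp
  | succ m h ih => rw [tr_succ_apply f h, hx, ih]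

/-- pro-zero inverse sequence -/
def ProZero : Prop := ∀ n, ∃ m, n ≤ m ∧ tr f n m = 0

variable {f}

lemma ProZero.compat_eq_zero (h : ProZero f) {x : ∀ n, A n} (hx : Compat f x) : x = 0 := by
  ext n
  obtain ⟨m, hm, h0⟩ := h n
  rw [← hx.tr_eq f hm, h0]; rfl

lemma lim1_of_surjective (h : ∀ n, Function.Surjective (f n)) : Lim1 f := by
  intro y
  choose g hg using h
  let x : ∀ n, A n := fun n => Nat.rec (motive := fun n => A n) 0
    (fun n xn => g n (xn - y n)) n
  refine ⟨x, ?_⟩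
  ext n
  rw [oneSub_apply]
  have : x (n + 1) = g n (x n - y n) := rfl
  rw [this, hg]
  abel

/-- The Mittag-Leffler condition. -/
def ML (f : ∀ n, A (n + 1) →+ A n) : Prop :=
  ∀ n, ∃ m, n ≤ m ∧ ∀ k, m ≤ k → ∀ x : A m, ∃ y : A k, tr f n k y = tr f n m x

lemma ProZero.ml (h : ProZero f) : ML f := by
  intro n
  obtain ⟨m, hm, h0⟩ := h n
  exact ⟨m, hm, fun k _ x => ⟨0, by rw [h0]; simp⟩⟩

lemma ML.of_surjective (h : ∀ n, Function.Surjective (f n)) : ML f := by
  intro n
  refine ⟨n, le_rfl, fun k hk x => ?_⟩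
  induction k, hk using Nat.le_induction with
  | base => exact ⟨x, rfl⟩
  | succ k hk ih =>
    obtain ⟨y, hy⟩ := ih
    obtain ⟨z, rfl⟩ := h k y
    exact ⟨z, by rw [tr_succ_apply f hk, hy]⟩

/-- The subgroup of stable elements. -/
def stab (f : ∀ n, A (n + 1) →+ A n) (n : ℕ) : AddSubgroup (A n) where
  carrier := {a | ∀ k, n ≤ k → ∃ y : A k, tr f n k y = a}
  zero_mem' := fun k _ => ⟨0, map_zero _⟩
  add_mem' := by
    intro a b ha hb k hk
    obtain ⟨y, hy⟩ := ha k hk
    obtain ⟨z, hz⟩ := hb k hk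
    exact ⟨y + z, by rw [map_add, hy, hz]⟩
  neg_mem' := by
    intro a ha k hk
    obtain ⟨y, hy⟩ := ha k hk
    exact ⟨-y, by rw [map_neg, hy]⟩

lemma mem_stab {n : ℕ} {a : A n} :
    a ∈ stab f n ↔ ∀ k, n ≤ k → ∃ y : A k, tr f n k y = a := Iff.rfl

lemma ML.exists_stab (h : ML f) (n : ℕ) : ∃ m, n ≤ m ∧ ∀ k, m ≤ k → ∀ x : A k,
    tr f n k x ∈ stab f n := by
  obtain ⟨m, hm, h⟩ := h n
  refine ⟨m, hm, fun k hk x l hl => ?_⟩
  rcases le_total m l with h' | h'
  · obtain ⟨y, hy⟩ := h l h' (tr f m k x)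
    exact ⟨y, by rw [hy, tr_tr f hm hk]⟩
  · exact ⟨tr f l k x, by rw [tr_tr f hl (h'.trans hk)]⟩

lemma ML.stab_surj (h : ML f) (n : ℕ) (a : A n) (ha : a ∈ stab f n) :
    ∃ b ∈ stab f (n + 1), f n b = a := by
  obtain ⟨m, hm, h⟩ := h.exists_stab (n + 1)
  obtain ⟨y, hy⟩ := ha m (by omega)
  exact ⟨tr f (n + 1) m y, h m le_rfl y, by rw [f_tr f hm, hy]⟩

/-- Mittag-Leffler implies `lim¹ = 0`. -/
theorem ML.lim1 (h : ML f) : Lim1 f := by
  intro y
  choose m hm hm' using fun n => h.exists_stab n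
  -- a monotone bound
  let N : ℕ → ℕ := fun n => ∑ i ∈ Finset.range (n + 1), m i
  have hN : ∀ n, m n ≤ N n := fun n =>
    Finset.single_le_sum (f := m) (fun i _ => Nat.zero_le _) (Finset.self_mem_range_succ n)
  have hN' : ∀ n, N n ≤ N (n + 1) := fun n => by
    simp only [N]; rw [Finset.sum_range_succ (n := n + 1)]; omega
  let x : ∀ n, A n := fun n => ∑ k ∈ Finset.range (N n), tr f n k (y k)
  have key : ∀ n, x n - f n (x (n + 1)) - y n ∈ stab f n := by
    intro n
    have h1 : f n (x (n + 1)) = ∑ k ∈ Finset.range (N (n + 1)), f n (tr f (n + 1) k (y k)) := by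
      simp only [x, map_sum]
    have h2 : ∀ k, tr f n k (y k) =
        f n (tr f (n + 1) k (y k)) + (if k = n then tr f n k (y k) else 0) := by
      intro k
      rcases lt_trichotomy k n with hk | hk | hk
      · rw [tr_of_lt f hk, tr_of_lt f (show k < n + 1 by omega)]
        simp
      · subst hk
        rw [if_pos rfl, tr_of_lt f (show k < k + 1 by omega)]
        simp
      · rw [if_neg hk.ne', add_zero, f_tr f hk]
    have h3 : ∑ k ∈ Finset.range (N (n + 1)), tr f n k (y k) =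
        f n (x (n + 1)) + (if n < N (n + 1) then y n else 0) := by
      rw [h1]
      conv_lhs => rw [Finset.sum_congr rfl (fun k _ => h2 k)]
      rw [Finset.sum_add_distrib]
      congr 1
      rw [Finset.sum_ite_eq' (Finset.range (N (n + 1))) n (fun k => tr f n k (y k))]
      simp
    have h4 : n < N (n + 1) := by
      have := hN (n + 1); have := hm (n + 1); omega
    rw [if_pos h4] at h3
    have h5 : ∑ k ∈ Finset.range (N (n + 1)), tr f n k (y k) =
        x n + ∑ k ∈ Finset.Ico (N n) (N (n + 1)), tr f n k (y k) := by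
      rw [Finset.sum_range_add_sum_Ico _ (hN' n)]
    have h6 : x n - f n (x (n + 1)) - y n =
        - ∑ k ∈ Finset.Ico (N n) (N (n + 1)), tr f n k (y k) := by
      have h7 := h5.symm.trans h3
      rw [sub_sub, sub_eq_iff_eq_add, ← h7]
      abel
    rw [h6]
    refine neg_mem (sum_mem fun k hk => ?_)
    rw [Finset.mem_Ico] at hk
    exact hm' n k ((hN n).trans hk.1) _
  -- solve in the stable subgroup
  choose g hg1 hg2 using fun n (a : stab f n) => h.stab_surj n a.1 a.2
  let z : ∀ n, stab f n := fun n => Nat.rec (motive := fun n => stab f n) 0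
    (fun n zn => ⟨g n (zn + ⟨_, key n⟩), hg1 n _⟩) n
  refine ⟨fun n => x n + (z n).1, ?_⟩
  ext n
  rw [oneSub_apply]
  have h8 : (z (n + 1)).1 = g n (z n + ⟨_, key n⟩) := rfl
  rw [h8, map_add, hg2]
  push_cast
  abel

lemma ProZero.lim1 (h : ProZero f) : Lim1 f := h.ml.lim1

/-- `1 - shift` is bijective for a pro-zero sequence. -/
lemma ProZero.bijective (h : ProZero f) : Function.Bijective (oneSub f) := by
  refine ⟨?_, h.lim1⟩
  rw [injective_iff_map_eq_zero]
  intro x hx
  exact h.compat_eq_zero ((compat_iff_oneSub f).2 hx)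

/-- `1 - shift`, summed up. -/
lemma oneSub_sum (x : ∀ n, A n) {n m : ℕ} (h : n ≤ m) :
    ∑ k ∈ Finset.Ico n m, tr f n k (oneSub f x k) = x n - tr f n m (x m) := by
  induction m, h using Nat.le_induction with
  | base => simp
  | succ m h ih =>
    rw [Finset.sum_Ico_succ_top h, ih, oneSub_apply, map_sub, tr_succ_apply f h]
    abel

/-- The transition maps of a subsequence. -/
def sub (f : ∀ n, A (n + 1) →+ A n) (φ : ℕ → ℕ) (n : ℕ) :
    (fun n => A (φ n)) (n + 1) →+ (fun n => A (φ n)) n :=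
  tr f (φ n) (φ (n + 1))

lemma Compat.sub {x : ∀ n, A n} (hx : Compat f x) {φ : ℕ → ℕ} (hφ : Monotone φ) :
    Compat (A := fun n => A (φ n)) (sub f φ) (fun n => x (φ n)) := fun n => hx.tr_eq f (hφ (Nat.le_succ n))

lemma tr_sub {φ : ℕ → ℕ} (hφ : Monotone φ) {n m : ℕ} (h : n ≤ m) (x : A (φ m)) :
    tr (A := fun n => A (φ n)) (sub f φ) n m x = tr f (φ n) (φ m) x := by
  induction m, h using Nat.le_induction with
  | base => simp
  | succ m h ih =>
    rw [tr_succ_apply _ h, ih]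
    exact tr_tr f (hφ h) (hφ (Nat.le_succ m)) x

lemma exists_compat_of_sub {φ : ℕ → ℕ} (hφ : StrictMono φ) {x : ∀ n, A (φ n)}
    (hx : Compat (A := fun n => A (φ n)) (sub f φ) x) : ∃ y : ∀ n, A n, Compat f y ∧ ∀ n, y (φ n) = x n := by
  have h1 : ∀ n, n ≤ φ n := fun n => hφ.le_apply
  refine ⟨fun n => tr f n (φ n) (x n), fun n => ?_, fun n => ?_⟩
  · change f n (tr f (n + 1) (φ (n + 1)) (x (n + 1))) = tr f n (φ n) (x n)
    rw [f_tr f (h1 _), ← hx n]
    exact (tr_tr f (h1 n) (hφ.monotone (Nat.le_succ n)) _).symm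
  · change tr f (φ n) (φ (φ n)) (x (φ n)) = x n
    rw [← tr_sub hφ.monotone (h1 n)]
    exact hx.tr_eq _ (h1 n)

lemma Lim1.of_sub {φ : ℕ → ℕ} (hφ : StrictMono φ) (h : Lim1 (A := fun n => A (φ n)) (sub f φ)) : Lim1 f := by
  intro y
  have h1 : ∀ n, n ≤ φ n := fun n => hφ.le_apply
  have h2 : ∀ n, φ n ≤ φ (n + 1) := fun n => hφ.monotone (Nat.le_succ n)
  obtain ⟨x, hx⟩ := h (fun n => ∑ k ∈ Finset.Ico (φ n) (φ (n + 1)), tr f (φ n) k (y k))
  refine ⟨fun n => ∑ k ∈ Finset.Ico n (φ n), tr f n k (y k) + tr f n (φ n) (x n), ?_⟩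
  ext n
  have h3 := congr_fun hx n
  rw [oneSub_apply] at h3
  rw [oneSub_apply, map_add, f_tr f (h1 _), map_sum]
  have h4 : ∑ k ∈ Finset.Ico (n + 1) (φ (n + 1)), f n (tr f (n + 1) k (y k)) =
      ∑ k ∈ Finset.Ico (n + 1) (φ (n + 1)), tr f n k (y k) := by
    refine Finset.sum_congr rfl fun k hk => ?_
    rw [Finset.mem_Ico] at hk
    exact f_tr f hk.1 _
  have h5 : y n + ∑ k ∈ Finset.Ico (n + 1) (φ (n + 1)), tr f n k (y k) =
      ∑ k ∈ Finset.Ico n (φ n), tr f n k (y k) +
        ∑ k ∈ Finset.Ico (φ n) (φ (n + 1)), tr f n k (y k) := by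
    rw [Finset.sum_Ico_consecutive _ (h1 n) (h2 n),
      Finset.sum_eq_sum_Ico_succ_bot (show n < φ (n + 1) by have := h1 (n + 1); omega)]
    simp
  have h6 : tr f n (φ n) (x n) - tr f n (φ (n + 1)) (x (n + 1)) =
      ∑ k ∈ Finset.Ico (φ n) (φ (n + 1)), tr f n k (y k) := by
    rw [← tr_tr f (h1 n) (h2 n), ← map_sub]
    erw [h3]
    rw [map_sum]
    refine Finset.sum_congr rfl fun k hk => ?_
    rw [Finset.mem_Ico] at hk
    exact tr_tr f (h1 n) hk.1 _
  rw [h4, ← sub_eq_zero]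
  have h7 : y n = ∑ k ∈ Finset.Ico n (φ n), tr f n k (y k) +
        (tr f n (φ n) (x n) - tr f n (φ (n + 1)) (x (n + 1))) -
        ∑ k ∈ Finset.Ico (n + 1) (φ (n + 1)), tr f n k (y k) := by
    rw [h6, ← h5]; abel
  rw [h7]
  abel

lemma Lim1.sub {φ : ℕ → ℕ} (hφ : StrictMono φ) (h : Lim1 f) : Lim1 (A := fun n => A (φ n)) (sub f φ) := by
  intro y
  classical
  -- extend `y` by zero
  have hinv : ∀ n, ∀ h : φ n ∈ Set.range φ, h.choose = n := fun n h => hφ.injective h.choose_spec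
  let y' : ∀ k, A k := fun k => if h : ∃ n, φ n = k then h.choose_spec ▸ y h.choose else 0
  have hy1 : ∀ n, y' (φ n) = y n := by
    intro n
    have hex : ∃ m, φ m = φ n := ⟨n, rfl⟩
    have : ∀ m (h : φ m = φ n), (h ▸ y m : A (φ n)) = y n := by
      intro m h
      obtain rfl := hφ.injective h
      rfl
    simp only [y', dif_pos hex]
    exact this _ _
  have hy2 : ∀ n k, φ n < k → k < φ (n + 1) → y' k = 0 := by
    intro n k h1 h2
    have : ¬ ∃ m, φ m = k := by
      rintro ⟨m, rfl⟩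
      rw [hφ.lt_iff_lt] at h1 h2
      omega
    simp only [y', dif_neg this]
  obtain ⟨x, hx⟩ := h y'
  refine ⟨fun n => x (φ n), ?_⟩
  ext n
  have h3 := oneSub_sum (f := f) x (hφ.monotone (Nat.le_succ n))
  rw [oneSub_apply]
  change x (φ n) - tr f (φ n) (φ (n + 1)) (x (φ (n + 1))) = y n
  rw [Nat.succ_eq_add_one] at h3
  rw [← h3, Finset.sum_eq_single_of_mem (φ n)
    (Finset.mem_Ico.2 ⟨le_rfl, hφ (Nat.lt_succ_self n)⟩)]
  · rw [hx, hy1, tr_self_apply]
  · intro k hk hne
    rw [Finset.mem_Ico] at hk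
    rw [hx, hy2 n k (lt_of_le_of_ne hk.1 hne.symm) hk.2, map_zero]

end Basic

section Exact

variable {A : ℕ → Type u} [∀ n, AddCommGroup (A n)] {f : ∀ n, A (n + 1) →+ A n}
  {B : ℕ → Type v} [∀ n, AddCommGroup (B n)] {g : ∀ n, B (n + 1) →+ B n}
  {C : ℕ → Type w} [∀ n, AddCommGroup (C n)] {h : ∀ n, C (n + 1) →+ C n}

lemma Compat.map (α : ∀ n, A n →+ B n) (hα : ∀ n x, g n (α (n + 1) x) = α n (f n x))
    {x : ∀ n, A n} (hx : Compat f x) : Compat g (fun n => α n (x n)) := fun n => by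
  change g n (α (n + 1) (x (n + 1))) = α n (x n)
  rw [hα, hx n]

lemma tr_map (α : ∀ n, A n →+ B n) (hα : ∀ n x, g n (α (n + 1) x) = α n (f n x))
    (n m : ℕ) (x : A m) : tr g n m (α m x) = α n (tr f n m x) := by
  rcases Nat.lt_or_ge m n with hm | hm
  · rw [tr_of_lt g hm, tr_of_lt f hm]; simp
  · induction m, hm using Nat.le_induction with
    | base => simp
    | succ m hm ih => rw [tr_succ_apply g hm, hα, ih, tr_succ_apply f hm]

/-- `lim¹` is right exact. -/
lemma Lim1.of_surjective (β : ∀ n, B n →+ C n) (hβ : ∀ n x, h n (β (n + 1) x) = β n (g n x))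
    (hs : ∀ n, Function.Surjective (β n)) (hB : Lim1 g) : Lim1 h := by
  intro z
  choose y hy using fun n => hs n (z n)
  obtain ⟨x, hx⟩ := hB y
  refine ⟨fun n => β n (x n), ?_⟩
  ext n
  rw [oneSub_apply, hβ, ← map_sub, ← hy n]
  congr 1
  have := congr_fun hx n
  rwa [oneSub_apply] at this

/-- If `lim¹ A = 0` then `lim B → lim C` is onto, for `A → B → C → 0` exact at `B` and `C`
. -/
lemma exists_compat_lift (α : ∀ n, A n →+ B n) (hα : ∀ n x, g n (α (n + 1) x) = α n (f n x))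
    (β : ∀ n, B n →+ C n) (hβ : ∀ n x, h n (β (n + 1) x) = β n (g n x))
    (hex : ∀ n y, β n y = 0 ↔ ∃ x, α n x = y)
    (hβs : ∀ n, Function.Surjective (β n))
    (hA : Lim1 f) {z : ∀ n, C n} (hz : Compat h z) :
    ∃ y : ∀ n, B n, Compat g y ∧ ∀ n, β n (y n) = z n := by
  choose y hy using fun n => hβs n (z n)
  have h1 : ∀ n, ∃ x, α n x = y n - g n (y (n + 1)) := fun n => by
    rw [← hex]
    rw [map_sub, ← hβ, hy, hy, hz n, sub_self]
  choose x hx using h1
  obtain ⟨x', hx'⟩ := hA x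
  refine ⟨fun n => y n - α n (x' n), ?_, ?_⟩
  · intro n
    have h2 := congr_fun hx' n
    rw [oneSub_apply] at h2
    have h3 : g n (y (n + 1)) = y n - α n (x n) := by rw [hx]; abel
    change g n (y (n + 1) - α (n + 1) (x' (n + 1))) = y n - α n (x' n)
    rw [map_sub, hα, h3, ← h2, map_sub]
    abel
  · intro n
    rw [map_sub, hy, (hex n _).2 ⟨_, rfl⟩, sub_zero]

/-- If `lim¹ A = 0` and `lim¹ C = 0` then `lim¹ B = 0`. -/
lemma Lim1.of_exact (α : ∀ n, A n →+ B n) (hα : ∀ n x, g n (α (n + 1) x) = α n (f n x))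
    (β : ∀ n, B n →+ C n) (hβ : ∀ n x, h n (β (n + 1) x) = β n (g n x))
    (hex : ∀ n y, β n y = 0 → ∃ x, α n x = y)
    (hβs : ∀ n, Function.Surjective (β n))
    (hA : Lim1 f) (hC : Lim1 h) : Lim1 g := by
  intro y
  obtain ⟨z, hz⟩ := hC (fun n => β n (y n))
  choose b hb using fun n => hβs n (z n)
  have h1 : ∀ n, ∃ x, α n x = y n - (b n - g n (b (n + 1))) := fun n => by
    apply hex
    have h2 := congr_fun hz n
    rw [oneSub_apply] at h2
    rw [map_sub, map_sub, ← hβ, hb, hb, h2, sub_self]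
  choose x hx using h1
  obtain ⟨x', hx'⟩ := hA x
  refine ⟨fun n => b n + α n (x' n), ?_⟩
  ext n
  have h2 := congr_fun hx' n
  rw [oneSub_apply] at h2
  rw [oneSub_apply, map_add, hα]
  have h3 : y n = α n (x n) + (b n - g n (b (n + 1))) := by rw [hx]; abel
  rw [h3, ← h2, map_sub]
  abel

/-- Isomorphic sequences: `lim¹` invariance. -/
lemma Lim1.congr (β : ∀ n, B n ≃+ C n) (hβ : ∀ n x, h n (β (n + 1) x) = β n (g n x)) :
    Lim1 g ↔ Lim1 h := by
  constructor
  · exact fun hg => hg.of_surjective (fun n => (β n).toAddMonoidHom) hβ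
      (fun n => (β n).surjective)
  · refine fun hh => hh.of_surjective (fun n => (β n).symm.toAddMonoidHom) ?_
      (fun n => (β n).symm.surjective)
    intro n x
    change g n ((β (n + 1)).symm x) = (β n).symm (h n x)
    rw [AddEquiv.eq_symm_apply, ← hβ, AddEquiv.apply_symm_apply]

end Exact

end Vale.Agent.P251.S
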