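import Vale.Agent.P251.S.ModExt
import Vale.Agent.P251.S.Amitsur

/-!
# P251, part S2: linear isomorphisms between tensor products of modules
-/

open CategoryTheory MonoidalCategory MonObj

set_option linter.unusedSectionVars false

universe v u

namespace Vale.Agent.P251.S

namespace ModStr

section

variable {T : Type u} [Category.{v} T] [MonoidalCategory T] {R : T} [MonObj R]
  {N N' N'' : T} {M : ModStr R N} {M' : ModStr R N'} {M'' : ModStr R N''}

theorem IsLinear.id (M : ModStr R N) : M.IsLinear M (𝟙 N) := by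
  unfold IsLinear
  rw [Category.comp_id, whiskerLeft_id, Category.id_comp]

theorem IsLinear.comp {f : N ⟶ N'} {g : N' ⟶ N''} (hf : M.IsLinear M' f)
    (hg : M'.IsLinear M'' g) : M.IsLinear M'' (f ≫ g) := by
  unfold IsLinear at *
  rw [← Category.assoc, hf, Category.assoc, hg, whiskerLeft_comp, Category.assoc]

theorem IsLinear.inv {e : N ≅ N'} (h : M.IsLinear M' e.hom) : M'.IsLinear M e.inv := by
  unfold IsLinear at *
  rw [Iso.comp_inv_eq, Category.assoc, h, ← Category.assoc, ← whiskerLeft_comp, Iso.inv_hom_id,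
    whiskerLeft_id, Category.id_comp]

theorem IsLinear.whiskerRight {f : N ⟶ N'} (hf : M.IsLinear M' f) (X : T) :
    (M.tensorRight X).IsLinear (M'.tensorRight X) (f ▷ X) := by
  unfold IsLinear tensorRight at *
  dsimp only
  rw [Category.assoc, ← comp_whiskerRight, hf, comp_whiskerRight,
    ← associator_inv_naturality_middle_assoc]

theorem isLinear_whiskerLeft (M : ModStr R N) {X Y : T} (g : X ⟶ Y) :
    (M.tensorRight X).IsLinear (M.tensorRight Y) (N ◁ g) := by
  unfold IsLinear tensorRight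
  dsimp only
  rw [Category.assoc, ← whisker_exchange, ← associator_inv_naturality_right_assoc]

theorem isLinear_assoc (M : ModStr R N) (X Y : T) :
    ((M.tensorRight X).tensorRight Y).IsLinear (M.tensorRight (X ⊗ Y)) (α_ N X Y).hom := by
  unfold IsLinear tensorRight
  dsimp only
  monoidal

end

section braided

variable {T : Type u} [Category.{v} T] [MonoidalCategory T] [BraidedCategory T]
  {R R' : T} [MonObj R] [MonObj R'] {N N' L L' : T}

/-- `(N ⊗ N') ⊗ (Y ⊗ Y') ≅ (N ⊗ Y) ⊗ (N' ⊗ Y')` is linear. -/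
theorem isLinear_tensorμ (M : ModStr R N) (M' : ModStr R' N') (Y Y' : T) :
    ((M.tens M').tensorRight (Y ⊗ Y')).IsLinear ((M.tensorRight Y).tens (M'.tensorRight Y'))
      (tensorμ N N' Y Y') := by
  unfold IsLinear tensorRight tens
  dsimp only
  have h := tensor_associativity R R' N N' Y Y'
  have h1 : (α_ (R ⊗ R') (N ⊗ N') (Y ⊗ Y')).inv ≫ tensorμ R R' N N' ▷ (Y ⊗ Y') ≫
      tensorμ (R ⊗ N) (R' ⊗ N') Y Y' =
      ((R ⊗ R') ◁ tensorμ N N' Y Y') ≫ tensorμ R R' (N ⊗ Y) (N' ⊗ Y') ≫
        ((α_ R N Y).inv ⊗ₘ (α_ R' N' Y').inv) := by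
    rw [Iso.inv_comp_eq]
    have h2 := congrArg (· ≫ ((α_ R N Y).inv ⊗ₘ (α_ R' N' Y').inv)) h
    simpa using h2
  rw [comp_whiskerRight, Category.assoc, Category.assoc, tensorμ_natural_left, ← tensorHom_comp_tensorHom,
    reassoc_of% h1]

theorem IsLinear.tens {M : ModStr R N} {M' : ModStr R' N'} {K : ModStr R L} {K' : ModStr R' L'}
    {f : N ⟶ L} {g : N' ⟶ L'} (hf : M.IsLinear K f) (hg : M'.IsLinear K' g) :
    (M.tens M').IsLinear (K.tens K') (f ⊗ₘ g) := by
  unfold IsLinear ModStr.tens at *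
  dsimp only
  rw [Category.assoc, tensorHom_comp_tensorHom, hf, hg, ← tensorHom_comp_tensorHom,
    ← tensorμ_natural_right_assoc]

/-- `N ⊗ (N' ⊗ Y) ≅ (N ⊗ N') ⊗ Y` is linear. -/
theorem isLinear_tens_assoc (M : ModStr R N) (M' : ModStr R' N') (Y : T) :
    (M.tens (M'.tensorRight Y)).IsLinear ((M.tens M').tensorRight Y) (α_ N N' Y).inv := by
  unfold IsLinear tensorRight tens tensorμ
  dsimp only
  rw [tensorHom_def, tensorHom_def]
  monoidal

end braided

end ModStr

end Vale.Agent.P251.S
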