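import Vale.Agent.P251.S.TowerCouple

/-!
# P251, part S: powers of an element of filtration `2` and their naturality

Morphisms of couples, naturality of `proj` and of `Mul2.pow`; for a tower `X` and a functor `F`
with `τ : 𝟭 ⟶ F` the powers computed in `X` map to the powers computed in `F X`.
-/

open CategoryTheory Limits Pretriangulated

universe v u u₁ v₁ u₂ v₂

namespace Vale.Agent.P251.S

namespace Couple

/-- A morphism of couples (only the `D`-part is needed here). -/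
structure DMor (C : Couple.{u₁, v₁}) (C' : Couple.{u₂, v₂}) where
  /-- the map on `D` -/
  f : ∀ s n, C.D s n →+ C'.D s n
  i_comm : ∀ s n y, C'.i s n (f (s + 1) n y) = f s n (C.i s n y)

variable {C : Couple.{u₁, v₁}} {C' : Couple.{u₂, v₂}}

lemma DMor.proj_comm (φ : DMor C C') (n : ℤ) {b a : ℕ} (h : b ≤ a) (y : C.D a n) :
    C'.proj n h (φ.f a n y) = φ.f b n (C.proj n h y) := by
  induction a, h using Nat.le_induction with
  | base => rw [proj_self, proj_self]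
  | succ a h ih => rw [C'.proj_succ n h, φ.i_comm, ih, ← C.proj_succ n h]

lemma DMor.pow_comm (φ : DMor C C') {a : ℤ} (M : C.Mul2 a) (M' : C'.Mul2 a)
    (hM : ∀ s n y, M'.μ s n (φ.f s n y) = φ.f (s + 2) (n + a) (M.μ s n y))
    {n₀ : ℤ} (u : C.D 0 n₀) (K : ℕ) :
    M'.pow (φ.f 0 n₀ u) K = φ.f (2 * K) (Mul2.deg a n₀ K) (M.pow u K) := by
  induction K with
  | zero => rfl
  | succ K ih =>
    change M'.μ (2 * K) (Mul2.deg a n₀ K) (M'.pow (φ.f 0 n₀ u) K) = _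
    rw [ih]
    exact hM _ _ _

end Couple

namespace Tow

variable {T : Type u} [Category.{v} T] [Preadditive T] [HasZeroObject T] [HasShift T ℤ]
  [∀ n : ℤ, (shiftFunctor T n).Additive] [Pretriangulated T]

/-- A natural transformation `𝟭 ⟶ F` commuting with the shifts induces a morphism of towers. -/
def unitMor (X : Tow T) {F : T ⥤ T} [F.CommShift ℤ] [F.IsTriangulated] (τ : 𝟭 T ⟶ F)
    [NatTrans.CommShift τ ℤ] : Tow.Mor X (X.map F) where
  f s := τ.app (X.J s)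
  g s := τ.app (X.W s)
  comm_a s := τ.naturality _
  comm_b s := τ.naturality _
  comm_c s := by
    change X.c s ≫ (τ.app (X.J s))⟦(1 : ℤ)⟧' =
      τ.app (X.J (s + 1)) ≫ F.map (X.c s) ≫ (F.commShiftIso (1 : ℤ)).hom.app (X.J s)
    rw [← τ.naturality_assoc]
    have h := NatTrans.shift_app_comm τ (1 : ℤ) (X.J s)
    rw [Functor.commShiftIso_id_hom_app] at h
    exact congrArg (fun z => X.c s ≫ z) ((Category.id_comp _).symm.trans h)

variable (X : Tow T) (P : T)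

lemma muMap_unitMor {F : T ⥤ T} [F.CommShift ℤ] [F.IsTriangulated] (τ : 𝟭 T ⟶ F)
    [NatTrans.CommShift τ ℤ] (k a : ℤ) (hk : k = a + 2)
    (ξ : ∀ s, (X.J s)⟦k⟧ ⟶ X.J (s + 2)) (s : ℕ) (n : ℤ) (y : P⟦n + (s : ℤ)⟧ ⟶ X.J s) :
    (X.map F).muMap P k a hk (X.mapXi F ξ) s n (y ≫ τ.app (X.J s)) =
      X.muMap P k a hk ξ s n y ≫ τ.app (X.J (s + 2)) := by
  have e : n + (s : ℤ) + k = n + a + ((s + 2 : ℕ) : ℤ) := by rw [hk]; push_cast; ring
  change sh (P := P) (n + (s : ℤ)) k (n + a + ((s + 2 : ℕ) : ℤ)) e (y ≫ τ.app (X.J s)) ≫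
    (F.commShiftIso k).inv.app (X.J s) ≫ F.map (ξ s) =
    (sh (P := P) (n + (s : ℤ)) k (n + a + ((s + 2 : ℕ) : ℤ)) e y ≫ ξ s) ≫ τ.app (X.J (s + 2))
  rw [sh_comp, Category.assoc, Category.assoc]
  have h := NatTrans.shift_app_comm τ k (X.J s)
  rw [Functor.commShiftIso_id_hom_app] at h
  have h' : (τ.app (X.J s))⟦k⟧' ≫ (F.commShiftIso k).inv.app (X.J s) =
      τ.app ((X.J s)⟦k⟧) := by
    rw [← cancel_mono ((F.commShiftIso k).hom.app (X.J s)), Category.assoc,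
      Iso.inv_hom_id_app]
    exact (Category.comp_id _).trans ((Category.id_comp _).symm.trans h)
  rw [reassoc_of% h']
  congr 1
  exact (τ.naturality (ξ s)).symm

/-- The `D`-part of the morphism of couples induced by `τ`. -/
noncomputable def unitDMor {F : T ⥤ T} [F.CommShift ℤ] [F.IsTriangulated] (τ : 𝟭 T ⟶ F)
    [NatTrans.CommShift τ ℤ] : Couple.DMor (X.couple P) ((X.map F).couple P) where
  f := (X.unitMor τ).fD P
  i_comm := (X.unitMor τ).i_fD P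

/-- The multiplication on the couple of `F X`. -/
noncomputable def mapMul2 (F : T ⥤ T) [F.CommShift ℤ] [F.IsTriangulated] (k a : ℤ)
    (hk : k = a + 2) (ξ : ∀ s, (X.J s)⟦k⟧ ⟶ X.J (s + 2))
    (hξ : ∀ s, ξ (s + 1) ≫ X.c (s + 2) =
      (X.c s)⟦k⟧' ≫ (shiftFunctorComm T (1 : ℤ) k).hom.app (X.J s) ≫ (ξ s)⟦(1 : ℤ)⟧') :
    ((X.map F).couple P).Mul2 a :=
  (X.map F).mul2 P k a hk (X.mapXi F ξ) (X.mapXi_comm F ξ hξ)

/-- The element `x^K · u` of filtration `0`, as a map `P⟦d⟧ ⟶ J 0`. -/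
noncomputable def powMap (k a : ℤ) (hk : k = a + 2) (ξ : ∀ s, (X.J s)⟦k⟧ ⟶ X.J (s + 2))
    (hξ : ∀ s, ξ (s + 1) ≫ X.c (s + 2) =
      (X.c s)⟦k⟧' ≫ (shiftFunctorComm T (1 : ℤ) k).hom.app (X.J s) ≫ (ξ s)⟦(1 : ℤ)⟧')
    (u : (X.couple P).D 0 0) (K : ℕ) : (X.couple P).D 0 (Couple.Mul2.deg a 0 K) :=
  (X.couple P).proj (Couple.Mul2.deg a 0 K) (Nat.zero_le _) ((X.mul2 P k a hk ξ hξ).pow u K)

/-- Naturality of the powers. -/
theorem unitDMor_powMap {F : T ⥤ T} [F.CommShift ℤ] [F.IsTriangulated] (τ : 𝟭 T ⟶ F)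
    [NatTrans.CommShift τ ℤ] (k a : ℤ) (hk : k = a + 2)
    (ξ : ∀ s, (X.J s)⟦k⟧ ⟶ X.J (s + 2))
    (hξ : ∀ s, ξ (s + 1) ≫ X.c (s + 2) =
      (X.c s)⟦k⟧' ≫ (shiftFunctorComm T (1 : ℤ) k).hom.app (X.J s) ≫ (ξ s)⟦(1 : ℤ)⟧')
    (u : (X.couple P).D 0 0) (K : ℕ) :
    (X.unitDMor P τ).f 0 _ (X.powMap P k a hk ξ hξ u K) =
      ((X.map F).couple P).proj (Couple.Mul2.deg a 0 K) (Nat.zero_le _)
        ((X.mapMul2 P F k a hk ξ hξ).pow ((X.unitDMor P τ).f 0 0 u) K) := by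
  rw [powMap, ← Couple.DMor.proj_comm,
    Couple.DMor.pow_comm (X.unitDMor P τ) (X.mul2 P k a hk ξ hξ) (X.mapMul2 P F k a hk ξ hξ)
      (fun s n y => X.muMap_unitMor P τ k a hk ξ s n y)]

end Tow

end Vale.Agent.P251.S
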