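import Vale.Agent.P251.S.Reg
import Vale.Agent.P251.S.Coprod
import Vale.Agent.P251.M.EvenPer

/-!
# P251, part S2: regularity on `Hom(W, Z)` in terms of endomorphisms

`RegW i h V W`: on `Hom(W, Z)` the endomorphisms `V k`, `k < i`, act by zero and `V i, …, V (h-1)`
is a regular sequence. It is invariant under isomorphisms, under tensoring with invertible objects
and passes to coproducts of copies of `Z ⊗ X_i` if `W` is a sphere.
-/

open CategoryTheory MonoidalCategory Limits MonObj Pretriangulated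

set_option linter.unusedSectionVars false

universe v u

namespace Vale.Agent.P251.S

open T

section RegW

variable {T : Type u} [Category.{v} T] [Preadditive T]

/-- Regularity of the endomorphisms `V k` on `Hom(W, Z)`. -/
def RegW (i h : ℕ) {Z : T} (V : ℕ → (Z ⟶ Z)) (W : T) : Prop :=
  (∀ k < i, ∀ x : W ⟶ Z, x ≫ V k = 0) ∧
  ∀ j, i ≤ j → j < h → ∀ (x : W ⟶ Z) (y : ℕ → (W ⟶ Z)),
    x ≫ V j = ∑ k ∈ Finset.range j, y k ≫ V k →
      ∃ z : ℕ → (W ⟶ Z), x = ∑ k ∈ Finset.range j, z k ≫ V k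

variable {i h : ℕ} {Z Z' : T} {V : ℕ → (Z ⟶ Z)} {V' : ℕ → (Z' ⟶ Z')} {W W' : T}

theorem RegW.conj (e : Z ≅ Z') (he : ∀ k, V k ≫ e.hom = e.hom ≫ V' k) (hV : RegW i h V W) :
    RegW i h V' W := by
  have he' : ∀ k, V' k ≫ e.inv = e.inv ≫ V k := fun k => by
    rw [Iso.eq_inv_comp, ← Category.assoc, ← he, Category.assoc, Iso.hom_inv_id,
      Category.comp_id]
  refine ⟨fun k hk x => ?_, fun j hj hjh x y hx => ?_⟩
  · rw [← cancel_mono e.inv, Category.assoc, he', ← Category.assoc, hV.1 k hk, zero_comp]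
  · obtain ⟨z, hz⟩ := hV.2 j hj hjh (x ≫ e.inv) (fun k => y k ≫ e.inv) (by
      have h1 := congrArg (· ≫ e.inv) hx
      simp only [Category.assoc, Preadditive.sum_comp, he'] at h1 ⊢
      exact h1)
    refine ⟨fun k => z k ≫ e.hom, ?_⟩
    rw [← cancel_mono e.inv, hz, Preadditive.sum_comp]
    refine Finset.sum_congr rfl fun k _ => ?_
    rw [Category.assoc, Category.assoc, he', Iso.hom_inv_id_assoc]

theorem RegW.iso_src (e : W ≅ W') (hV : RegW i h V W) : RegW i h V W' := by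
  refine ⟨fun k hk x => ?_, fun j hj hjh x y hx => ?_⟩
  · rw [← cancel_epi e.hom, ← Category.assoc, hV.1 k hk, comp_zero]
  · obtain ⟨z, hz⟩ := hV.2 j hj hjh (e.hom ≫ x) (fun k => e.hom ≫ y k) (by
      rw [Category.assoc, hx, Preadditive.comp_sum]
      exact Finset.sum_congr rfl fun k _ => (Category.assoc _ _ _).symm)
    refine ⟨fun k => e.inv ≫ z k, ?_⟩
    rw [← cancel_epi e.hom, hz, Preadditive.comp_sum]
    exact Finset.sum_congr rfl fun k _ => by rw [Category.assoc, Iso.hom_inv_id_assoc]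

end RegW

section tensor

variable {T : Type u} [Category.{v} T] [Preadditive T] [MonoidalCategory T] [SymmetricCategory T]
  [MonoidalPreadditive T] {i h : ℕ} {Z : T} {V : ℕ → (Z ⟶ Z)} {W : T}

theorem sum_whiskerRight' {Y : T} (X : T) (s : Finset ℕ) (f : ℕ → (W ⟶ Y)) :
    (∑ k ∈ s, f k) ▷ X = ∑ k ∈ s, f k ▷ X :=
  map_sum (⟨⟨fun g : W ⟶ Y => g ▷ X, MonoidalPreadditive.zero_whiskerRight⟩,
    fun _ _ => MonoidalPreadditive.add_whiskerRight _ _⟩ : (W ⟶ Y) →+ (W ⊗ X ⟶ Y ⊗ X)) f s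

theorem RegW.whiskerRight (X : T) [M.IsInv X] (hV : RegW i h V W) :
    RegW i h (fun k => V k ▷ X) (W ⊗ X) := by
  refine ⟨fun k hk x => ?_, fun j hj hjh x y hx => ?_⟩
  · obtain ⟨x, rfl⟩ := M.whiskerRight_surj X x
    dsimp only
    rw [← comp_whiskerRight, hV.1 k hk, MonoidalPreadditive.zero_whiskerRight]
  · obtain ⟨x, rfl⟩ := M.whiskerRight_surj X x
    choose y' hy' using fun k => M.whiskerRight_surj X (y k)
    obtain ⟨z, hz⟩ := hV.2 j hj hjh x y' (by
      refine M.whiskerRight_inj X ?_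
      rw [comp_whiskerRight, sum_whiskerRight']
      refine hx.trans (Finset.sum_congr rfl fun k _ => ?_)
      rw [comp_whiskerRight, hy'])
    refine ⟨fun k => z k ▷ X, ?_⟩
    rw [hz, sum_whiskerRight']
    exact Finset.sum_congr rfl fun k _ => by rw [comp_whiskerRight]

theorem RegW.of_whiskerRight (X : T) [M.IsInv X] (hV : RegW i h (fun k => V k ▷ X) (W ⊗ X)) :
    RegW i h V W := by
  refine ⟨fun k hk x => ?_, fun j hj hjh x y hx => ?_⟩
  · refine M.whiskerRight_inj X ?_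
    rw [comp_whiskerRight, hV.1 k hk, MonoidalPreadditive.zero_whiskerRight]
  · obtain ⟨z, hz⟩ := hV.2 j hj hjh (x ▷ X) (fun k => y k ▷ X) (by
      rw [← comp_whiskerRight, hx, sum_whiskerRight']
      exact Finset.sum_congr rfl fun k _ => by rw [comp_whiskerRight])
    choose z' hz' using fun k => M.whiskerRight_surj X (z k)
    refine ⟨z', M.whiskerRight_inj X ?_⟩
    rw [hz, sum_whiskerRight']
    exact Finset.sum_congr rfl fun k _ => by rw [comp_whiskerRight, hz']

end tensor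

section stable

variable {T : Type u} [Category.{v} T] [Preadditive T] [HasZeroObject T]
    [HasShift T ℤ] [∀ n : ℤ, (shiftFunctor T n).Additive] [Pretriangulated T] [IsTriangulated T]
    [MonoidalCategory T] [SymmetricCategory T] [TensorTriangulated T] [MonoidalClosed T]
    [HasCoproducts.{0} T] [HasProducts.{0} T] [StableCat T]

theorem isSphere_sph (n : ℤ) : IsSphere (Sph T n) := ⟨n, ⟨Iso.refl _⟩⟩

/-- Maps from a sphere to `Z ⊗ ∐ F` are the finite sums of their components. -/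
theorem exists_sum_pr (Z : T) {I : Type} (F : I → T) {A : T} (hA : IsSphere A)
    (x : A ⟶ Z ⊗ ∐ F) :
    ∃ (p : ∀ i, ∐ F ⟶ F i) (s : Finset I),
      x = ∑ i ∈ s, (x ≫ Z ◁ p i) ≫ Z ◁ Sigma.ι F i := by
  classical
  obtain ⟨s, g, hg⟩ := compact_sumL Z F hA x
  let p : ∀ i, (∐ F ⟶ F i) := fun i => Sigma.desc (fun j => if h : j = i then
    eqToHom (by rw [h]) else 0)
  have hp1 : ∀ i, Sigma.ι F i ≫ p i = 𝟙 _ := fun i => by simp [p]
  have hp2 : ∀ i j, j ≠ i → Sigma.ι F j ≫ p i = 0 := fun i j h => by simp [p, h]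
  refine ⟨p, s, ?_⟩
  have h1 : ∀ i ∈ s, x ≫ Z ◁ p i = g i := by
    intro i hi
    rw [hg, Preadditive.sum_comp, Finset.sum_eq_single i]
    · rw [Category.assoc, ← whiskerLeft_comp, hp1, whiskerLeft_id, Category.comp_id]
    · intro j _ hj
      rw [Category.assoc, ← whiskerLeft_comp, hp2 i j hj, MonoidalPreadditive.whiskerLeft_zero,
        comp_zero]
    · intro h
      exact absurd hi h
  rw [hg]
  refine Finset.sum_congr rfl fun i hi => ?_
  rw [← hg, h1 i hi]

theorem OddZero.coprod {Z : T} {I : Type} {F : I → T} (hF : ∀ i, OddZero (Z ⊗ F i)) :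
    OddZero (Z ⊗ ∐ F) := by
  intro n hn x
  obtain ⟨p, s, hx⟩ := exists_sum_pr Z F (isSphere_sph n) x
  rw [hx]
  refine Finset.sum_eq_zero fun i _ => ?_
  rw [hF i n hn (x ≫ Z ◁ p i), zero_comp]

theorem RegW.coprod {i h : ℕ} {Z : T} {V : ℕ → (Z ⟶ Z)} {I : Type} {F : I → T} {W : T}
    (hW : IsSphere W) (hF : ∀ t, RegW i h (fun k => V k ▷ F t) W) :
    RegW i h (fun k => V k ▷ (∐ F)) W := by
  refine ⟨fun k hk x => ?_, fun j hj hjh x y hx => ?_⟩
  · obtain ⟨p, s, hx⟩ := exists_sum_pr Z F hW x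
    rw [hx, Preadditive.sum_comp]
    refine Finset.sum_eq_zero fun t _ => ?_
    dsimp only
    rw [Category.assoc, whisker_exchange, ← Category.assoc, (hF t).1 k hk, zero_comp]
  · obtain ⟨p, s, hs⟩ := exists_sum_pr Z F hW x
    have key : ∀ t, ∃ z : ℕ → (W ⟶ Z ⊗ F t), x ≫ Z ◁ p t =
        ∑ k ∈ Finset.range j, z k ≫ V k ▷ F t := by
      intro t
      refine (hF t).2 j hj hjh _ (fun k => y k ≫ Z ◁ p t) ?_
      dsimp only
      rw [Category.assoc, whisker_exchange, ← Category.assoc, hx, Preadditive.sum_comp]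
      refine Finset.sum_congr rfl fun k _ => ?_
      rw [Category.assoc, Category.assoc, whisker_exchange]
    choose z hz using key
    refine ⟨fun k => ∑ t ∈ s, z t k ≫ Z ◁ Sigma.ι F t, ?_⟩
    rw [hs]
    simp only [hz, Preadditive.sum_comp]
    rw [Finset.sum_comm]
    refine Finset.sum_congr rfl fun k _ => Finset.sum_congr rfl fun t _ => ?_
    rw [Category.assoc, Category.assoc, whisker_exchange]

end stable

end Vale.Agent.P251.S
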