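import Vale.Agent.P251.S.RegE
import Vale.Agent.P251.S.ModTens
import Vale.Agent.P251.M.EvenShift

/-!
# P251, part S2: `RegC` from regularity of endomorphisms, closure under `⊗ PS` and `⊗ P`
-/

open CategoryTheory MonoidalCategory Limits MonObj Pretriangulated

set_option linter.unusedSectionVars false

universe v u

namespace Vale.Agent.P251.S

open T M

section alg

variable {A : Type*} [CommRing A] {G : Type*} [AddCommGroup G] [Module A G]

theorem mem_span_smul_top_iff (a : ℕ → A) (j : ℕ) (y : G) :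
    y ∈ (Ideal.span {b | ∃ k < j, a k = b} • ⊤ : Submodule A G) ↔
      ∃ z : ℕ → G, y = ∑ k ∈ Finset.range j, a k • z k := by
  constructor
  · intro hy
    let f : (ℕ → G) →ₗ[A] G := ∑ k ∈ Finset.range j, a k • (LinearMap.proj k : (ℕ → G) →ₗ[A] G)
    have hf : ∀ z, f z = ∑ k ∈ Finset.range j, a k • z k := fun z => by
      simp [f, LinearMap.sum_apply]
    have h : (Ideal.span {b | ∃ k < j, a k = b} • ⊤ : Submodule A G) ≤ LinearMap.range f := by
      rw [Submodule.smul_le]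
      intro r hr n _
      induction hr using Submodule.span_induction with
      | mem x hx =>
        obtain ⟨k, hk, rfl⟩ := hx
        refine ⟨Pi.single k n, ?_⟩
        rw [hf, Finset.sum_eq_single k]
        · rw [Pi.single_eq_same]
        · intro l _ hl
          rw [Pi.single_eq_of_ne hl, smul_zero]
        · intro h
          exact absurd (Finset.mem_range.2 hk) h
      | zero => rw [zero_smul]; exact Submodule.zero_mem _
      | add x y _ _ hx hy => rw [add_smul]; exact add_mem hx hy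
      | smul a x _ hx => rw [smul_eq_mul, mul_smul]; exact Submodule.smul_mem _ _ hx
    obtain ⟨z, hz⟩ := h hy
    exact ⟨z, by rw [← hz, hf]⟩
  · rintro ⟨z, rfl⟩
    refine Submodule.sum_mem _ fun k hk => ?_
    exact Submodule.smul_mem_smul (Ideal.subset_span ⟨k, Finset.mem_range.1 hk, rfl⟩) trivial

end alg

variable {T : Type u} [Category.{v} T] [Preadditive T] [HasZeroObject T] [HasShift T ℤ]
  [∀ n : ℤ, (shiftFunctor T n).Additive] [Pretriangulated T]
  [MonoidalCategory T] [SymmetricCategory T] [TensorTriangulated T]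

section regC

variable {P : T} [MonObj P] [IsCommMonObj P] {v : ℕ → (𝟙_ T ⟶ P)} {i h : ℕ} {N : T}

theorem mem_Iv_smul_iff {Z : T} (M : ModStr P Z) (j : ℕ) {W : T} (x : HM M.smr W) :
    x ∈ (Iv P v j • ⊤ : Submodule (Sc P) (HM M.smr W)) ↔
      ∃ z : ℕ → (W ⟶ Z), x.hom = ∑ k ∈ Finset.range j, z k ≫ M.smul (v k) := by
  have h1 : Iv P v j = Ideal.span {b | ∃ k < j, (fun k => Sc.of (v k)) k = b} := rfl
  rw [h1, mem_span_smul_top_iff]
  constructor
  · rintro ⟨z, rfl⟩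
    exact ⟨fun k => (z k).hom, by rw [HM.hom_sum]; rfl⟩
  · rintro ⟨z, hz⟩
    refine ⟨fun k => HM.of (z k), HM.hom_ext ?_⟩
    rw [hz, HM.hom_sum]
    rfl

/-- `RegC` in terms of endomorphisms. -/
theorem regC_of {M : ModStr P N} (hodd : ∀ m : ℕ, OddZero (rp P (m + 1) N))
    (hreg : ∀ (m : ℕ) (n : ℤ), Even n →
      RegW i h (fun k => rmap P (m + 1) (M.smul (v k))) (Sph T n)) : RegC v h i M := by
  refine ⟨hodd, fun m n hn k hk x => ?_, fun m n hn j hj hjh x hx => ?_⟩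
  · apply HM.hom_ext
    have h1 := (hreg m n hn).1 k hk x.hom
    dsimp only at h1
    rw [← ModStr.rp_smul] at h1
    exact h1
  · rw [mem_Iv_smul_iff] at hx ⊢
    obtain ⟨y, hy⟩ := hx
    simp only [ModStr.rp_smul] at hy ⊢
    refine (hreg m n hn).2 j hj hjh x.hom y ?_
    dsimp only
    rw [← hy, ← ModStr.rp_smul]
    rfl

/-- `rp` on isomorphisms. -/
def rpIso {T : Type u} [Category.{v} T] [MonoidalCategory T] (P : T) (m : ℕ) {N N' : T}
    (e : N ≅ N') : rp P m N ≅ rp P m N' where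
  hom := rmap P m e.hom
  inv := rmap P m e.inv
  hom_inv_id := by rw [← rmap_comp, Iso.hom_inv_id, rmap_id]
  inv_hom_id := by rw [← rmap_comp, Iso.inv_hom_id, rmap_id]

end regC

/-- Evenness and regularity of the homotopy of `Z`. -/
structure EvReg (i h : ℕ) {Z : T} (V : ℕ → (Z ⟶ Z)) : Prop where
  odd : OddZero Z
  reg : ∀ n : ℤ, Even n → RegW i h V (Sph T n)

theorem OddZero.of_iso {Z Z' : T} (e : Z ≅ Z') (hZ : OddZero Z) : OddZero Z' := by
  intro n hn x
  rw [← cancel_mono e.inv, hZ n hn (x ≫ e.inv), zero_comp]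

theorem EvReg.conj {i h : ℕ} {Z Z' : T} {V : ℕ → (Z ⟶ Z)} {V' : ℕ → (Z' ⟶ Z')} (e : Z ≅ Z')
    (he : ∀ k, V k ≫ e.hom = e.hom ≫ V' k) (hV : EvReg i h V) : EvReg i h V' :=
  ⟨hV.odd.of_iso e, fun n hn => (hV.reg n hn).conj e he⟩

/-- `S^k ⊗ S^{2m} ≅ S^{k + 2m}` -/
noncomputable def sphTens (k m n : ℤ) (hn : k + 2 * m = n) :
    Sph T k ⊗ (stdEven T).S m ≅ Sph T n :=
  ((stdEven T).shiftNat (Iso.refl _) m).app (Sph T k) ≪≫
    ((shiftFunctorAdd' T k (2 * m) n hn).symm.app (𝟙_ T))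

theorem OddZero.tensS {Z : T} (hZ : OddZero Z) (m : ℤ) : OddZero (Z ⊗ (stdEven T).S m) := by
  intro n hn x
  obtain ⟨g, hg⟩ := whiskerRight_surj ((stdEven T).S m)
    ((sphTens (T := T) (n - 2 * m) m n (by ring)).hom ≫ x)
  have h1 : g = 0 := hZ (n - 2 * m) (by
    obtain ⟨a, rfl⟩ := hn
    exact ⟨a - m, by ring⟩) g
  rw [h1, MonoidalPreadditive.zero_whiskerRight] at hg
  rw [← cancel_epi (sphTens (T := T) (n - 2 * m) m n (by ring)).hom, ← hg, comp_zero]

theorem EvReg.tensS {i h : ℕ} {Z : T} {V : ℕ → (Z ⟶ Z)} (hV : EvReg i h V) (m : ℤ) :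
    EvReg i h (fun k => V k ▷ (stdEven T).S m) := by
  refine ⟨hV.odd.tensS m, fun n hn => ?_⟩
  have h1 := hV.reg (n - 2 * m) (by
    obtain ⟨a, rfl⟩ := hn
    exact ⟨a - m, by ring⟩)
  exact (h1.whiskerRight ((stdEven T).S m)).iso_src (sphTens (n - 2 * m) m n (by ring))

section ps

variable [IsTriangulated T] [MonoidalClosed T] [HasCoproducts.{0} T] [HasProducts.{0} T]
  [StableCat T]

theorem EvReg.tensPS {i h : ℕ} {Z : T} {V : ℕ → (Z ⟶ Z)} (hV : EvReg i h V) :
    EvReg i h (fun k => V k ▷ (stdEven T).PS) :=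
  ⟨OddZero.coprod fun m => (hV.tensS m).odd,
    fun n hn => RegW.coprod (isSphere_sph n) fun m => (hV.tensS m).reg n hn⟩

variable (T) in
/-- The powers of `PS`. -/
noncomputable def psPow : ℕ → T
  | 0 => 𝟙_ T
  | k + 1 => (stdEven T).PS ⊗ psPow k

theorem EvReg.psPow {i h : ℕ} (r : ℕ) : ∀ {Z : T} {V : ℕ → (Z ⟶ Z)} (_ : EvReg i h V),
    EvReg i h (fun k => V k ▷ S.psPow T r) := by
  induction r with
  | zero =>
    intro Z V hV
    exact hV.conj (ρ_ Z).symm fun k => (rightUnitor_inv_naturality (V k)).symm ▸ rfl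
  | succ r ih =>
    intro Z V hV
    refine (ih hV.tensPS).conj (α_ Z _ _) fun k => ?_
    exact associator_naturality_left _ _ _

/-- A family of modules `N s` with `N s ⊗ P ≅ N (s+1) ⊗ PS`. -/
theorem evReg_rp {i h : ℕ} (P : T) {N : ℕ → T} {V : ∀ s, ℕ → (N s ⟶ N s)}
    (e : ∀ s, N s ⊗ P ≅ N (s + 1) ⊗ (stdEven T).PS)
    (he : ∀ s k, (V s k ▷ P) ≫ (e s).hom = (e s).hom ≫ (V (s + 1) k ▷ (stdEven T).PS))
    (hV : ∀ s, EvReg i h (V s)) (m : ℕ) : ∀ s r : ℕ,
    EvReg i h (fun k => rmap P m (V s k ▷ S.psPow T r)) := by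
  induction m with
  | zero => intro s r; exact (hV s).psPow r
  | succ m ih =>
    intro s r
    let f : (N s ⊗ S.psPow T r) ⊗ P ≅ N (s + 1) ⊗ S.psPow T (r + 1) :=
      α_ _ _ _ ≪≫ whiskerLeftIso _ (β_ _ _) ≪≫ (α_ _ _ _).symm ≪≫ whiskerRightIso (e s) _ ≪≫
        α_ _ _ _
    have hf : ∀ k, ((V s k ▷ S.psPow T r) ▷ P) ≫ f.hom =
        f.hom ≫ (V (s + 1) k ▷ S.psPow T (r + 1)) := by
      intro k
      change _ ≫ (α_ _ _ _).hom ≫ (_ ◁ (β_ _ _).hom) ≫ (α_ _ _ _).inv ≫ ((e s).hom ▷ _) ≫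
        (α_ _ _ _).hom = ((α_ _ _ _).hom ≫ (_ ◁ (β_ _ _).hom) ≫ (α_ _ _ _).inv ≫
          ((e s).hom ▷ _) ≫ (α_ _ _ _).hom) ≫ (V (s + 1) k ▷ ((stdEven T).PS ⊗ S.psPow T r))
      simp only [Category.assoc]
      rw [← associator_naturality_left (V (s + 1) k), ← comp_whiskerRight_assoc, ← he,
        comp_whiskerRight_assoc, ← associator_inv_naturality_left_assoc,
        whisker_exchange_assoc, ← associator_naturality_left_assoc]
    refine (ih (s + 1) (r + 1)).conj (rpIso P m f.symm) fun k => ?_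
    change rmap P m _ ≫ rmap P m f.inv = rmap P m f.inv ≫ rmap P m _
    rw [← rmap_comp, ← rmap_comp]
    congr 1
    rw [Iso.eq_inv_comp, ← Category.assoc, ← hf, Category.assoc, Iso.hom_inv_id,
      Category.comp_id]

/-- `RegC` for a family of modules with `N s ⊗ P ≅ N (s+1) ⊗ PS`. -/
theorem regC_of_family {i h : ℕ} {P : T} [MonObj P] [IsCommMonObj P] {v : ℕ → (𝟙_ T ⟶ P)}
    {N : ℕ → T} (M : ∀ s, ModStr P (N s))
    (e : ∀ s, N s ⊗ P ≅ N (s + 1) ⊗ (stdEven T).PS)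
    (he : ∀ s, ((M s).tensorRight P).IsLinear ((M (s + 1)).tensorRight (stdEven T).PS) (e s).hom)
    (hV : ∀ s, EvReg i h (fun k => (M s).smul (v k))) (s : ℕ) : RegC v h i (M s) := by
  have key : ∀ m, EvReg i h (fun k => rmap P (m + 1) ((M s).smul (v k))) := by
    intro m
    refine (evReg_rp P (V := fun s k => (M s).smul (v k)) e (fun s k => ?_) hV (m + 1) s 0).conj
      (rpIso P (m + 1) (ρ_ (N s))) fun k => ?_
    · have h1 := ModStr.IsLinear.smul (he s) (v k)
      rw [ModStr.tensorRight_smul, ModStr.tensorRight_smul] at h1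
      exact h1
    · change rmap P (m + 1) ((M s).smul (v k) ▷ 𝟙_ T) ≫ rmap P (m + 1) (ρ_ (N s)).hom =
        rmap P (m + 1) (ρ_ (N s)).hom ≫ rmap P (m + 1) ((M s).smul (v k))
      rw [← rmap_comp, ← rmap_comp]
      congr 1
      exact rightUnitor_naturality _
  exact regC_of (fun m => (key m).odd) (fun m n hn => (key m).reg n hn)

end ps

end Vale.Agent.P251.S
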