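import Vale.Agent.P251.S.RegF
import Vale.Agent.P251.S.GrB
import Vale.Agent.P251.M.PSBasis
import Vale.Agent.P251.F.LazReg

/-!
# P251, part S2: the instance `RegC (D.vs p) h 1 (GD.MP D C s)`
-/

open CategoryTheory MonoidalCategory MonObj Limits Pretriangulated

set_option linter.unusedSectionVars false

universe v u

namespace Vale.Agent.P251.S

open Vale.Agent.P251.M Vale.Agent.P251.M.EvenSpheres Vale.Agent.P251.F Vale.Agent.P251.T

section restr

variable {T : Type u} [Category.{v} T] [MonoidalCategory T] {A B N N' : T} [MonObj A] [MonObj B]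

theorem ModStr.ext_act {M M' : ModStr A N} (h : M.act = M'.act) : M = M' := by
  cases M
  cases M'
  congr

theorem ModStr.IsLinear.restr (g : A ⟶ B) [IsMonHom g] {M : ModStr B N} {M' : ModStr B N'}
    {f : N ⟶ N'} (hf : M.IsLinear M' f) : (M.restr g).IsLinear (M'.restr g) f := by
  unfold IsLinear ModStr.restr at *
  dsimp only
  rw [Category.assoc, hf, whisker_exchange_assoc]

theorem ModStr.restr_tensorRight (g : A ⟶ B) [IsMonHom g] (M : ModStr B N) (X : T) :
    (M.restr g).tensorRight X = (M.tensorRight X).restr g := by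
  apply ModStr.ext_act
  unfold ModStr.restr ModStr.tensorRight
  dsimp only
  rw [comp_whiskerRight, ← associator_inv_naturality_left_assoc]

theorem ModStr.restr_restr {A' : T} [MonObj A'] (g : A ⟶ B) [IsMonHom g] (g' : A' ⟶ A)
    [IsMonHom g'] (M : ModStr B N) : (M.restr g).restr g' = M.restr (g' ≫ g) := by
  apply ModStr.ext_act
  unfold ModStr.restr
  dsimp only
  rw [comp_whiskerRight_assoc]

theorem ModStr.restr_congr {g g' : A ⟶ B} [IsMonHom g] [IsMonHom g'] (h : g = g')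
    (M : ModStr B N) : M.restr g = M.restr g' := by
  subst h
  rfl

end restr

section braided

variable {T : Type u} [Category.{v} T] [MonoidalCategory T] [SymmetricCategory T]

theorem ModStr.restr_tens {A B N : T} [MonObj A] [MonObj B] (g : A ⟶ B) [IsMonHom g]
    (M : ModStr B N) {Q L : T} [MonObj Q] (M' : ModStr Q L) :
    (M.restr g).tens M' = (M.tens M').restr (g ▷ Q) := by
  apply ModStr.ext_act
  unfold ModStr.restr ModStr.tens
  dsimp only
  rw [← tensorHom_id g Q, tensorμ_natural_left_assoc, tensorHom_comp_tensorHom, id_whiskerRight,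
    Category.id_comp]

theorem inlM_mul_act (A R : T) [MonObj A] [MonObj R] :
    (inlM A R ▷ (A ⊗ R)) ≫ μ[A ⊗ R] = (α_ A A R).inv ≫ (μ[A] ▷ R) := by
  change (inlM A R ▷ (A ⊗ R)) ≫ tensorμ A R A R ≫ (μ[A] ⊗ₘ μ[R]) = _
  have h2 : inlM A R = (ρ_ A).inv ≫ (𝟙 A ⊗ₘ η[R]) := by rw [inlM, id_tensorHom]
  rw [h2, comp_whiskerRight, Category.assoc, tensorμ_natural_left_assoc,
    tensorHom_comp_tensorHom, MonObj.one_mul, id_whiskerRight, Category.id_comp, tensorμ,
    braiding_tensorUnit_left, tensorHom_def]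
  monoidal

theorem self_tensorRight (A R : T) [MonObj A] [MonObj R] :
    (ModStr.self A).tensorRight R = (ModStr.self (A ⊗ R)).restr (inlM A R) := by
  apply ModStr.ext_act
  unfold ModStr.restr ModStr.tensorRight ModStr.self
  dsimp only
  rw [inlM_mul_act]

end braided

section swap

variable {T : Type u} [Category.{v} T] [MonoidalCategory T] [SymmetricCategory T] {A N : T}
  [MonObj A]

/-- `(N ⊗ X) ⊗ Y ≅ (N ⊗ Y) ⊗ X` -/
def swapR (N X Y : T) : (N ⊗ X) ⊗ Y ≅ (N ⊗ Y) ⊗ X :=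
  α_ N X Y ≪≫ whiskerLeftIso N (β_ X Y) ≪≫ (α_ N Y X).symm

theorem isLinear_swapR (M : ModStr A N) (X Y : T) :
    ((M.tensorRight X).tensorRight Y).IsLinear ((M.tensorRight Y).tensorRight X)
      (swapR N X Y).hom :=
  (M.isLinear_assoc X Y).comp ((M.isLinear_whiskerLeft (β_ X Y).hom).comp
    (M.isLinear_assoc Y X).inv)

end swap

variable {T : Type u} [Category.{v} T] [Preadditive T] [HasZeroObject T]
    [HasShift T ℤ] [∀ n : ℤ, (shiftFunctor T n).Additive] [Pretriangulated T] [IsTriangulated T]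
    [MonoidalCategory T] [SymmetricCategory T] [TensorTriangulated T] [MonoidalClosed T]
    [HasCoproducts.{0} T] [HasProducts.{0} T] [StableCat T]

theorem mem_map_C_I {p s j : ℕ} {a : Cob Laz s}
    (ha : a ∈ (Laz.I p j).map (MvPolynomial.C : Laz →+* Cob Laz s)) :
    ∃ c : ℕ → Cob Laz s, a = ∑ k ∈ Finset.range j, MvPolynomial.C (Laz.v p k) * c k := by
  have h1 : (Laz.I p j).map (MvPolynomial.C : Laz →+* Cob Laz s) =
      Ideal.span {b : Cob Laz s | ∃ k < j, MvPolynomial.C (Laz.v p k) = b} := by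
    rw [Laz.I, Ih, Ideal.map_span]
    congr 1
    ext x
    constructor
    · rintro ⟨_, ⟨k, hk, rfl⟩, rfl⟩
      exact ⟨k, hk, rfl⟩
    · rintro ⟨k, hk, rfl⟩
      exact ⟨_, ⟨k, hk, rfl⟩, rfl⟩
  have h2 : a ∈ (Ideal.span {b : Cob Laz s | ∃ k < j, MvPolynomial.C (Laz.v p k) = b} • ⊤ :
      Submodule (Cob Laz s) (Cob Laz s)) := by
    rw [smul_eq_mul, Ideal.mul_top, ← h1]
    exact ha
  obtain ⟨z, hz⟩ := (mem_span_smul_top_iff (fun k => (MvPolynomial.C (Laz.v p k) : Cob Laz s))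
    j a).1 h2
  exact ⟨z, hz⟩

namespace GD

variable (D : I.MUData T) (C : T)

/-- `R^{⊗ (s+1)} ⊗ C` as an `R`-module (vertex `0`). -/
def XR (s : ℕ) : ModStr D.R (Am D.R (s + 1) ⊗ C) :=
  ((ModStr.self (Am D.R (s + 1))).restr (Am.v D.R (0 : Fin (s + 1)))).tensorRight C

theorem MP_eq (s : ℕ) : MP D C s = (XR D C s).tens (ModStr.self (stdEven T).PS) := by
  unfold MP MN PM XR MX
  rw [ModStr.restr_tensorRight, ModStr.restr_tens]

theorem XR_succ (s : ℕ) : XR D C (s + 1) =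
    (((ModStr.self (Am D.R (s + 1))).restr (Am.v D.R (0 : Fin (s + 1)))).tensorRight
      D.R).tensorRight C := by
  unfold XR
  rw [ModStr.restr_tensorRight _ _ D.R, self_tensorRight, ModStr.restr_restr]
  congr 1
  refine ModStr.restr_congr ?_ _
  exact Am.v_castSucc D.R (0 : Fin (s + 1))

/-- `N_s ⊗ P ≅ N_{s+1} ⊗ PS` -/
noncomputable def eN (s : ℕ) :
    ((Am D.R (s + 1) ⊗ C) ⊗ (stdEven T).PS) ⊗ (D.R ⊗ (stdEven T).PS) ≅
      ((Am D.R (s + 2) ⊗ C) ⊗ (stdEven T).PS) ⊗ (stdEven T).PS where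
  hom := tensorμ (Am D.R (s + 1) ⊗ C) (stdEven T).PS D.R (stdEven T).PS ≫
    ((swapR (Am D.R (s + 1)) C D.R).hom ⊗ₘ 𝟙 _) ≫ (α_ _ _ _).inv
  inv := (α_ _ _ _).hom ≫ ((swapR (Am D.R (s + 1)) C D.R).inv ⊗ₘ 𝟙 _) ≫
    tensorδ (Am D.R (s + 1) ⊗ C) (stdEven T).PS D.R (stdEven T).PS
  hom_inv_id := by simp
  inv_hom_id := by simp

theorem eN_linear (s : ℕ) : ((MP D C s).tensorRight (D.R ⊗ (stdEven T).PS)).IsLinear
    ((MP D C (s + 1)).tensorRight (stdEven T).PS) (eN D C s).hom := by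
  rw [MP_eq, MP_eq]
  refine (ModStr.isLinear_tensorμ _ _ D.R (stdEven T).PS).comp
    (ModStr.IsLinear.comp (ModStr.IsLinear.tens ?_ (ModStr.IsLinear.id _))
      (ModStr.isLinear_tens_assoc _ _ _))
  rw [XR_succ]
  exact isLinear_swapR _ C D.R

/-! ### periodicity -/

/-- `N ⊗ PS ≅ (N ⊗ PS) ⊗ S^{2k}` -/
noncomputable def perN (X : T) (k : ℤ) :
    X ⊗ (stdEven T).PS ≅ (X ⊗ (stdEven T).PS) ⊗ (stdEven T).S k :=
  (α_ _ _ _ ≪≫ whiskerLeftIso X (β_ _ _ ≪≫ asIso ((stdEven T).tw k))).symm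

theorem perN_inv (X : T) (k : ℤ) : (perN X k).inv =
    (α_ _ _ _).hom ≫ X ◁ (((stdEven T).PS ◁ (stdEven T).inPS k) ≫ μ[(stdEven T).PS]) := by
  change (α_ _ _ _).hom ≫ X ◁ ((β_ _ _).hom ≫ (stdEven T).tw k) = _
  congr 2
  unfold tw
  rw [← BraidedCategory.braiding_naturality_right_assoc, IsCommMonObj.mul_comm]

theorem perN_linear {A X : T} [MonObj A] (M : ModStr A X) (k : ℤ) :
    ((M.tens (ModStr.self (stdEven T).PS)).tensorRight ((stdEven T).S k)).IsLinear
      (M.tens (ModStr.self (stdEven T).PS)) (perN X k).inv := by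
  rw [perN_inv]
  refine ModStr.IsLinear.comp (ModStr.IsLinear.inv (e := (α_ X _ _).symm)
    (ModStr.isLinear_tens_assoc M (ModStr.self (stdEven T).PS) ((stdEven T).S k))) ?_
  rw [← id_tensorHom]
  refine ModStr.IsLinear.tens (ModStr.IsLinear.id _) ?_
  refine ModStr.IsLinear.comp (ModStr.isLinear_whiskerLeft _ _) ?_
  unfold ModStr.IsLinear ModStr.self ModStr.tensorRight
  dsimp only
  rw [Category.assoc, Iso.inv_comp_eq]
  exact MonObj.mul_assoc _

/-! ### the base case -/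

variable {C} {i : 𝟙_ T ⟶ C} {p : ℕ} [Fact p.Prime] (hp : p ≠ 2) {δ : C ⟶ (𝟙_ T)⟦(1 : ℤ)⟧}
  (hC : Triangle.mk ((p : ℤ) • 𝟙 (𝟙_ T)) i δ ∈ distTriang T)

include hp hC

theorem oddZero_X (s : ℕ) : OddZero (Am D.R (s + 1) ⊗ C) := by
  intro n hn f
  obtain ⟨k, rfl⟩ := hn
  exact D.odd p hp s C i δ hC k f

theorem oddZero_N (s : ℕ) : OddZero ((Am D.R (s + 1) ⊗ C) ⊗ (stdEven T).PS) :=
  OddZero.coprod fun m => (oddZero_X D hp hC s).tensS m

omit [Fact p.Prime] hp hC in
variable (i) in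
/-- The map `Cob Laz s → π_0 N_s`. -/
noncomputable def lamN (s : ℕ) :
    Cob Laz s →+ (𝟙_ T ⟶ (Am D.R (s + 1) ⊗ C) ⊗ (stdEven T).PS) :=
  AddMonoidHom.mk' (fun z => uN D i s ≫ (rN D C s z : _ ⟶ _)) fun z z' => by
    rw [map_add]
    exact Preadditive.comp_add _ _ _ _ _ _

omit [Fact p.Prime] hp hC in
theorem lamN_mul (s j : ℕ) (z : Cob Laz s) :
    lamN D i s (MvPolynomial.C (Laz.v p j) * z) = lamN D i s z ≫ (MP D C s).smul (D.vs p j) := by
  change uN D i s ≫ (rN D C s _ : _ ⟶ _) = (uN D i s ≫ (rN D C s z : _ ⟶ _)) ≫ _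
  have h : rN D C s (MvPolynomial.C (Laz.v p j) * z) =
      (rN D C s z : _ ⟶ _) ≫ (MP D C s).smul (D.vs p j) := by
    rw [map_mul, MP_smul, vs_v0]
    rfl
  rw [h, Category.assoc]

omit [Fact p.Prime] hp in
theorem p_uN (s : ℕ) : (p : ℤ) • uN D i s = 0 := by
  have h1 : (p : ℤ) • i = 0 := by
    have := comp_distTriang_mor_zero₁₂ _ hC
    change ((p : ℤ) • 𝟙 (𝟙_ T)) ≫ i = 0 at this
    rw [Preadditive.zsmul_comp, Category.id_comp] at this
    exact this
  have h2 := map_zsmul (sharpAdd (stdEven T) (Am D.R (s + 1) ⊗ C) 0) (p : ℤ)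
    ((stdEven T).zero.inv ≫ uX D i s)
  have h3 : (p : ℤ) • ((stdEven T).zero.inv ≫ uX D i s) = 0 := by
    rw [uX, ← Preadditive.comp_zsmul, ← Preadditive.zsmul_comp, h1, zero_comp, comp_zero]
  refine h2.symm.trans ?_
  exact (congrArg _ h3).trans (map_zero _)

omit [Fact p.Prime] hp in
theorem lamN_p (s : ℕ) (z : Cob Laz s) : lamN D i s ((p : Cob Laz s) * z) = 0 := by
  rw [← nsmul_eq_mul, map_nsmul]
  change p • (uN D i s ≫ (rN D C s z : _ ⟶ _)) = 0
  rw [← natCast_zsmul, ← Preadditive.zsmul_comp, p_uN D hC, zero_comp]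

theorem lamN_surj (s : ℕ) (x : 𝟙_ T ⟶ (Am D.R (s + 1) ⊗ C) ⊗ (stdEven T).PS) :
    ∃ z, lamN D i s z = x := exists_smul_uN D i hp hC s x

/-- Regularity on `π_0 N_s = Cob Laz s / p`. -/
theorem regW_one (h s : ℕ) : RegW 1 h (fun k => (MP D C s).smul (D.vs p k)) (𝟙_ T) := by
  refine ⟨fun k hk x => ?_, fun j hj hjh x y hx => ?_⟩
  · obtain rfl : k = 0 := by omega
    obtain ⟨z, rfl⟩ := lamN_surj D hp hC s x
    dsimp only
    have h0 : Laz.v p 0 = (p : Laz) := vv_zero p _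
    rw [← lamN_mul, h0, map_natCast, lamN_p D hC]
  · obtain ⟨a, rfl⟩ := lamN_surj D hp hC s x
    choose b hb using fun k => lamN_surj D hp hC s (y k)
    have h1 : lamN D i s (MvPolynomial.C (Laz.v p j) * a -
        ∑ k ∈ Finset.range j, MvPolynomial.C (Laz.v p k) * b k) = 0 := by
      rw [map_sub, map_sum, sub_eq_zero, lamN_mul]
      refine hx.trans (Finset.sum_congr rfl fun k _ => ?_)
      rw [lamN_mul, hb]
    have h3 := mem_span_of_smul_uN D i hp hC s _ h1
    have h4 : MvPolynomial.C (Laz.v p j) * a ∈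
        (Laz.I p j).map (MvPolynomial.C : Laz →+* Cob Laz s) := by
      have h5 : ∀ k < j, (MvPolynomial.C (Laz.v p k) : Cob Laz s) ∈
          (Laz.I p j).map (MvPolynomial.C : Laz →+* Cob Laz s) := fun k hk =>
        Ideal.mem_map_of_mem _ (vv_mem_Ih hk _)
      have h6 : Ideal.span {(p : Cob Laz s)} ≤
          (Laz.I p j).map (MvPolynomial.C : Laz →+* Cob Laz s) := by
        rw [Ideal.span_singleton_le_iff_mem]
        have h0 : Laz.v p 0 = (p : Laz) := vv_zero p _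
        have := h5 0 (by omega)
        rwa [h0, map_natCast] at this
      have h7 : ∑ k ∈ Finset.range j, MvPolynomial.C (Laz.v p k) * b k ∈
          (Laz.I p j).map (MvPolynomial.C : Laz →+* Cob Laz s) :=
        sum_mem fun k hk => Ideal.mul_mem_right _ _ (h5 k (Finset.mem_range.1 hk))
      have h8 := add_mem (h6 h3) h7
      rwa [sub_add_cancel] at h8
    obtain ⟨c, hc⟩ := mem_map_C_I (mem_map_C_I_of_v_mul p le_rfl h4)
    refine ⟨fun k => lamN D i s (c k), ?_⟩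
    rw [hc, map_sum]
    exact Finset.sum_congr rfl fun k _ => lamN_mul D s k (c k)

/-- The homotopy of `N_s` is even and `v_1, v_2, …` is regular on it. -/
theorem evReg_N (h s : ℕ) : EvReg 1 h (fun k => (MP D C s).smul (D.vs p k)) := by
  refine ⟨oddZero_N D hp hC s, fun n hn => ?_⟩
  obtain ⟨w, rfl⟩ := hn
  let eS : (stdEven T).S w ≅ Sph T (w + w) :=
    (stdEven T).sphIso (Iso.refl _) w ≪≫ eqToIso (by rw [two_mul])
  refine RegW.iso_src eS ?_
  refine RegW.of_whiskerRight ((stdEven T).S (-w)) ?_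
  refine RegW.iso_src ((stdEven T).unitIso w) ?_
  refine (regW_one D hp hC h s).conj (perN _ (-w)) fun k => ?_
  have h1 := ModStr.IsLinear.smul (perN_linear (XR D C s) (-w)) (D.vs p k)
  rw [← MP_eq, ModStr.tensorRight_smul] at h1
  rw [← cancel_mono (perN _ (-w)).inv, Category.assoc, Category.assoc, Iso.hom_inv_id,
    Category.comp_id, h1, Iso.hom_inv_id_assoc]

/-- **The instance of `RegC`** for the modules `N_s`. -/
theorem regC_MP (h s : ℕ) : RegC (D.vs p) h 1 (MP D C s) :=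
  regC_of_family (MP D C) (eN D C) (eN_linear D C) (fun s => evReg_N D hp hC h s) s

end GD

end Vale.Agent.P251.S
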