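import Vale.Agent.P251.S.Lim
import Mathlib.CategoryTheory.Triangulated.Pretriangulated
import Mathlib.CategoryTheory.Triangulated.Functor
import Mathlib.CategoryTheory.Preadditive.Biproducts
import Mathlib.CategoryTheory.Limits.Shapes.Products
import Mathlib.CategoryTheory.Limits.Shapes.ZeroMorphisms
import Mathlib.CategoryTheory.Limits.Preserves.Shapes.Products

/-!
# Homotopy limits of towers in a pretriangulated category

`Hol f`  : homotopy limit of a tower `f n : X (n+1) ⟶ X n`, i.e. a distinguished triangle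
`obj ⟶ ∏ᶜ X ⟶ ∏ᶜ X ⟶ obj⟦1⟧` on `1 - shift`; Milnor sequences.
-/

set_option linter.unusedSectionVars false

open CategoryTheory Limits Pretriangulated Preadditive

universe v u v' u'

namespace Vale.Agent.P251.S

variable {C : Type u} [Category.{v} C] [Preadditive C]

section Hom

variable {X : ℕ → C}

/-- the tower of abelian groups `Hom(W, X n)` of a tower of objects -/
def homTower (W : C) (f : ∀ n, X (n + 1) ⟶ X n) (n : ℕ) : (W ⟶ X (n + 1)) →+ (W ⟶ X n) :=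
  rightComp W (f n)

@[simp] lemma homTower_apply (W : C) (f : ∀ n, X (n + 1) ⟶ X n) (n : ℕ) (x : W ⟶ X (n + 1)) :
    homTower W f n x = x ≫ f n := rfl

/-- the tower of abelian groups `Hom(X n, Z)` of a sequence of objects -/
def coTower (f : ∀ n, X n ⟶ X (n + 1)) (Z : C) (n : ℕ) : (X (n + 1) ⟶ Z) →+ (X n ⟶ Z) :=
  leftComp Z (f n)

@[simp] lemma coTower_apply (f : ∀ n, X n ⟶ X (n + 1)) (Z : C) (n : ℕ) (x : X (n + 1) ⟶ Z) :
    coTower f Z n x = f n ≫ x := rfl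

/-- `lim¹ Hom(W, X n) = 0` -/
def HLim1 (W : C) (f : ∀ n, X (n + 1) ⟶ X n) : Prop :=
  Lim1 (A := fun n => (W ⟶ X n)) (homTower W f)

/-- compatible families in `Hom(W, X n)` -/
def HCompat {W : C} (f : ∀ n, X (n + 1) ⟶ X n) (x : ∀ n, W ⟶ X n) : Prop :=
  ∀ n, x (n + 1) ≫ f n = x n

/-- `lim Hom(W, X n)` -/
def hlim (W : C) (f : ∀ n, X (n + 1) ⟶ X n) : AddSubgroup (∀ n, W ⟶ X n) :=
  limSub (A := fun n => (W ⟶ X n)) (homTower W f)

lemma mem_hlim {W : C} {f : ∀ n, X (n + 1) ⟶ X n} {x : ∀ n, W ⟶ X n} :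
    x ∈ hlim W f ↔ HCompat f x := mem_limSub (A := fun n => (W ⟶ X n)) (homTower W f)

/-- the transition morphisms of a tower -/
def trC (f : ∀ n, X (n + 1) ⟶ X n) (n : ℕ) : ∀ k : ℕ, X (n + k) ⟶ X n
  | 0 => 𝟙 _
  | k + 1 => f (n + k) ≫ trC f n k

@[simp] lemma trC_zero (f : ∀ n, X (n + 1) ⟶ X n) (n : ℕ) : trC f n 0 = 𝟙 _ := rfl

lemma trC_succ (f : ∀ n, X (n + 1) ⟶ X n) (n k : ℕ) :
    trC f n (k + 1) = f (n + k) ≫ trC f n k := rfl

lemma tr_homTower (W : C) (f : ∀ n, X (n + 1) ⟶ X n) (n k : ℕ) (x : W ⟶ X (n + k)) :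
    tr (A := fun n => (W ⟶ X n)) (homTower W f) n (n + k) x = x ≫ trC f n k := by
  induction k with
  | zero =>
    rw [trC_zero, Category.comp_id]
    exact tr_self_apply (A := fun n => (W ⟶ X n)) _ _ _
  | succ k ih =>
    have h := tr_succ_apply (A := fun n => (W ⟶ X n)) (homTower W f) (Nat.le_add_right n k) x
    rw [trC_succ]
    refine h.trans ?_
    rw [ih, homTower_apply, Category.assoc]

/-- pro-zero tower -/
def ProZeroC (f : ∀ n, X (n + 1) ⟶ X n) : Prop := ∀ n, ∃ k, trC f n k = 0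

lemma ProZeroC.hom {f : ∀ n, X (n + 1) ⟶ X n} (h : ProZeroC f) (W : C) :
    ProZero (A := fun n => (W ⟶ X n)) (homTower W f) := by
  intro n
  obtain ⟨k, hk⟩ := h n
  refine ⟨n + k, Nat.le_add_right _ _, ?_⟩
  ext x
  rw [tr_homTower, hk, comp_zero]
  rfl

end Hom

variable [HasZeroObject C]
    [HasShift C ℤ] [∀ n : ℤ, (shiftFunctor C n).Additive] [Pretriangulated C]

section Hol

variable {X : ℕ → C} (f : ∀ n, X (n + 1) ⟶ X n) [HasProduct X]

/-- `1 - shift : ∏ X ⟶ ∏ X` -/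
noncomputable def piSub : ∏ᶜ X ⟶ ∏ᶜ X := Pi.lift fun n => Pi.π X n - Pi.π X (n + 1) ≫ f n

@[reassoc (attr := simp)]
lemma piSub_π (n : ℕ) : piSub f ≫ Pi.π X n = Pi.π X n - Pi.π X (n + 1) ≫ f n := by
  simp [piSub]

lemma lift_piSub {W : C} (x : ∀ n, W ⟶ X n) :
    Pi.lift x ≫ piSub f = Pi.lift (fun n => x n - x (n + 1) ≫ f n) := by
  apply Pi.hom_ext
  intro n
  simp [comp_sub]

/-- A homotopy limit of a tower. -/
structure Hol where
  /-- the homotopy limit -/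
  obj : C
  /-- the projections -/
  π (n : ℕ) : obj ⟶ X n
  /-- the connecting morphism -/
  δ : ∏ᶜ X ⟶ obj⟦(1 : ℤ)⟧
  dist : Triangle.mk (Pi.lift π) (piSub f) δ ∈ distTriang C

variable {f}

theorem exists_hol (f : ∀ n, X (n + 1) ⟶ X n) : Nonempty (Hol f) := by
  obtain ⟨H, a, δ, h⟩ := distinguished_cocone_triangle₁ (piSub f)
  refine ⟨⟨H, fun n => a ≫ Pi.π X n, δ, ?_⟩⟩
  have : Pi.lift (fun n => a ≫ Pi.π X n) = a := by
    apply Pi.hom_ext; intro n; simp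
  rw [this]
  exact h

/-- a chosen homotopy limit -/
noncomputable def hol (f : ∀ n, X (n + 1) ⟶ X n) : Hol f := (exists_hol f).some

namespace Hol

variable (H : Hol f)

lemma lift_π_piSub : Pi.lift H.π ≫ piSub f = 0 := comp_distTriang_mor_zero₁₂ _ H.dist

lemma piSub_δ : piSub f ≫ H.δ = 0 := comp_distTriang_mor_zero₂₃ _ H.dist

lemma δ_lift_π : H.δ ≫ (Pi.lift H.π)⟦(1 : ℤ)⟧' = 0 := comp_distTriang_mor_zero₃₁ _ H.dist

@[reassoc (attr := simp)]
lemma w (n : ℕ) : H.π (n + 1) ≫ f n = H.π n := by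
  have h := congrArg (· ≫ Pi.π X n) H.lift_π_piSub
  simp only [Category.assoc, piSub_π, comp_sub, zero_comp, sub_eq_zero, Limits.Pi.lift_π,
    Limits.Pi.lift_π_assoc] at h
  exact h.symm

lemma compat {W : C} (l : W ⟶ H.obj) : HCompat f (fun n => l ≫ H.π n) := fun n => by
  simp

@[reassoc (attr := simp)]
lemma π_trC (n k : ℕ) : H.π (n + k) ≫ trC f n k = H.π n := by
  induction k with
  | zero => simp
  | succ k ih =>
    change H.π (n + k + 1) ≫ f (n + k) ≫ trC f n k = _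
    rw [H.w_assoc, ih]

lemma lift_piSub_δ {W : C} (x : ∀ n, W ⟶ X n) :
    Pi.lift (fun n => x n - x (n + 1) ≫ f n) ≫ H.δ = 0 := by
  rw [← lift_piSub, Category.assoc, piSub_δ, comp_zero]

/-- Milnor sequence, surjectivity part: a compatible family lifts to the homotopy limit. -/
theorem exists_lift {W : C} (x : ∀ n, W ⟶ X n) (hx : HCompat f x) :
    ∃ l : W ⟶ H.obj, ∀ n, l ≫ H.π n = x n := by
  have h1 : Pi.lift x ≫ piSub f = 0 := by
    apply Pi.hom_ext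
    intro n
    have := hx n
    simp [comp_sub, this]
  obtain ⟨l, hl⟩ := Triangle.coyoneda_exact₂ _ H.dist (Pi.lift x) h1
  change W ⟶ H.obj at l
  replace hl : Pi.lift x = l ≫ Pi.lift H.π := hl
  refine ⟨l, fun n => ?_⟩
  have := congrArg (· ≫ Pi.π X n) hl
  simpa using this.symm

/-- Milnor sequence: a morphism to the homotopy limit with zero components comes from `lim¹`. -/
theorem exists_of_comp_π_eq_zero {W : C} (l : W ⟶ H.obj) (hl : ∀ n, l ≫ H.π n = 0) :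
    ∃ y : ∀ n, W⟦(1 : ℤ)⟧ ⟶ X n, l⟦(1 : ℤ)⟧' = Pi.lift y ≫ H.δ := by
  have h1 : l ≫ Pi.lift H.π = 0 := by
    apply Pi.hom_ext
    intro n
    simp [hl]
  have h2 : l⟦(1 : ℤ)⟧' ≫ (Pi.lift H.π)⟦(1 : ℤ)⟧' = 0 := by
    rw [← Functor.map_comp, h1, Functor.map_zero]
  obtain ⟨g, hg⟩ := Triangle.coyoneda_exact₁ _ H.dist _ h2
  change W⟦(1 : ℤ)⟧ ⟶ ∏ᶜ X at g
  replace hg : l⟦(1 : ℤ)⟧' = g ≫ H.δ := hg
  refine ⟨fun n => g ≫ Pi.π X n, ?_⟩
  have : Pi.lift (fun n => g ≫ Pi.π X n) = g := by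
    apply Pi.hom_ext; intro n; simp
  rw [this]
  exact hg

/-- Milnor sequence, injectivity part. -/
theorem eq_zero {W : C} (h1 : HLim1 (W⟦(1 : ℤ)⟧) f)
    (l : W ⟶ H.obj) (hl : ∀ n, l ≫ H.π n = 0) : l = 0 := by
  obtain ⟨y, hy⟩ := H.exists_of_comp_π_eq_zero l hl
  obtain ⟨x, hx⟩ := h1 y
  have hx' : (fun n => x n - x (n + 1) ≫ f n) = y := hx
  rw [← hx', lift_piSub_δ] at hy
  exact (shiftFunctor C (1 : ℤ)).map_injective (by rw [hy, Functor.map_zero])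

theorem hom_ext {W : C} (h1 : HLim1 (W⟦(1 : ℤ)⟧) f)
    (l l' : W ⟶ H.obj) (hl : ∀ n, l ≫ H.π n = l' ≫ H.π n) : l = l' := by
  rw [← sub_eq_zero]
  exact H.eq_zero h1 _ fun n => by rw [sub_comp, hl, sub_self]

/-- converse of `eq_zero`: if every morphism with zero components vanishes then `lim¹ = 0`. -/
theorem lim1_of_eq_zero {W : C} (h : ∀ (l : W ⟶ H.obj), (∀ n, l ≫ H.π n = 0) → l = 0) :
    HLim1 (W⟦(1 : ℤ)⟧) f := by
  intro y
  have h1 : Pi.lift y ≫ H.δ = 0 := by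
    have h2 : (shiftFunctor C (1 : ℤ)).preimage (Pi.lift y ≫ H.δ) = 0 := by
      apply h
      intro n
      apply (shiftFunctor C (1 : ℤ)).map_injective
      rw [Functor.map_comp, Functor.map_preimage, Functor.map_zero, Category.assoc]
      have h4 : H.π n = Pi.lift H.π ≫ Pi.π X n := by simp
      rw [h4, Functor.map_comp, reassoc_of% H.δ_lift_π, zero_comp, comp_zero]
    rw [← (shiftFunctor C (1 : ℤ)).map_preimage (Pi.lift y ≫ H.δ), h2, Functor.map_zero]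
  obtain ⟨g, hg⟩ := Triangle.coyoneda_exact₃ _ H.dist (Pi.lift y) h1
  change W⟦(1 : ℤ)⟧ ⟶ ∏ᶜ X at g
  replace hg : Pi.lift y = g ≫ piSub f := hg
  refine ⟨fun n => g ≫ Pi.π X n, ?_⟩
  ext n
  have h4 := congrArg (· ≫ Pi.π X n) hg
  rw [Limits.Pi.lift_π, Category.assoc, piSub_π, comp_sub] at h4
  rw [h4, oneSub_apply, homTower_apply, Category.assoc]

/-- The Milnor isomorphism when `lim¹` vanishes. -/
noncomputable def homEquiv {W : C} (h1 : HLim1 (W⟦(1 : ℤ)⟧) f) :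
    (W ⟶ H.obj) ≃+ hlim W f where
  toFun l := ⟨fun n => l ≫ H.π n, mem_hlim.2 (H.compat l)⟩
  invFun x := (H.exists_lift x.1 (mem_hlim.1 x.2)).choose
  left_inv l := by
    apply H.hom_ext h1
    intro n
    exact (H.exists_lift (fun n => l ≫ H.π n)
      (mem_hlim.1 (mem_hlim.2 (H.compat l)))).choose_spec n
  right_inv x := by
    ext n
    exact (H.exists_lift x.1 (mem_hlim.1 x.2)).choose_spec n
  map_add' l l' := by
    ext n
    simp

@[simp] lemma homEquiv_apply {W : C} (h1 : HLim1 (W⟦(1 : ℤ)⟧) f)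
    (l : W ⟶ H.obj) (n : ℕ) : (H.homEquiv h1 l).1 n = l ≫ H.π n := rfl

lemma homEquiv_symm_π {W : C} (h1 : HLim1 (W⟦(1 : ℤ)⟧) f)
    (x : hlim W f) (n : ℕ) : (H.homEquiv h1).symm x ≫ H.π n = x.1 n := by
  rw [← homEquiv_apply H h1, AddEquiv.apply_symm_apply]

/-- `Hom(W, holim) = 0` if `lim Hom(W, X n) = 0` and `lim¹ Hom(W⟦1⟧, X n) = 0`. -/
theorem hom_eq_zero {W : C} (h1 : HLim1 (W⟦(1 : ℤ)⟧) f)
    (h0 : ∀ x : ∀ n, W ⟶ X n, HCompat f x → x = 0)
    (l : W ⟶ H.obj) : l = 0 :=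
  H.eq_zero h1 l fun n => congr_fun (h0 _ (H.compat l)) n

/-- The homotopy limit of a pro-zero tower is zero. -/
theorem isZero_of_proZero (h : ProZeroC f) : IsZero H.obj := by
  rw [IsZero.iff_id_eq_zero]
  exact H.hom_eq_zero (h.hom _).lim1 (fun x hx => (h.hom _).compat_eq_zero hx) _

variable {Y : ℕ → C} {g : ∀ n, Y (n + 1) ⟶ Y n} [HasProduct Y]

lemma piSub_map (φ : ∀ n, X n ⟶ Y n) (hφ : ∀ n, φ (n + 1) ≫ g n = f n ≫ φ n) :
    piSub f ≫ Limits.Pi.map φ = Limits.Pi.map φ ≫ piSub g := by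
  apply Pi.hom_ext
  intro n
  simp [sub_comp, comp_sub, hφ]

/-- A morphism of towers induces a (non unique) morphism of homotopy limits, part of a
morphism of triangles. -/
theorem exists_map (H : Hol f) (K : Hol g) (φ : ∀ n, X n ⟶ Y n)
    (hφ : ∀ n, φ (n + 1) ≫ g n = f n ≫ φ n) :
    ∃ l : H.obj ⟶ K.obj, (∀ n, l ≫ K.π n = H.π n ≫ φ n) ∧
      H.δ ≫ l⟦(1 : ℤ)⟧' = Limits.Pi.map φ ≫ K.δ := by
  obtain ⟨l, h1, h2⟩ := complete_distinguished_triangle_morphism₁ _ _ H.dist K.dist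
    (Limits.Pi.map φ) (Limits.Pi.map φ) (piSub_map φ hφ)
  change H.obj ⟶ K.obj at l
  replace h1 : Pi.lift H.π ≫ Limits.Pi.map φ = l ≫ Pi.lift K.π := h1
  refine ⟨l, fun n => ?_, h2⟩
  have h3 := congrArg (· ≫ Pi.π Y n) h1
  simpa using h3.symm

lemma isIso_piMap (φ : ∀ n, X n ≅ Y n) : IsIso (Limits.Pi.map (fun n => (φ n).hom)) :=
  ⟨Limits.Pi.map (fun n => (φ n).inv), by apply Pi.hom_ext; intro n; simp,
      by apply Pi.hom_ext; intro n; simp⟩

/-- A levelwise isomorphism of towers induces an isomorphism of homotopy limits. -/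
theorem exists_iso (H : Hol f) (K : Hol g) (φ : ∀ n, X n ≅ Y n)
    (hφ : ∀ n, (φ (n + 1)).hom ≫ g n = f n ≫ (φ n).hom) :
    ∃ l : H.obj ≅ K.obj, ∀ n, l.hom ≫ K.π n = H.π n ≫ (φ n).hom := by
  have comm := piSub_map (fun n => (φ n).hom) hφ
  obtain ⟨l, h1, h2⟩ := complete_distinguished_triangle_morphism₁ _ _ H.dist K.dist
    (Limits.Pi.map (fun n => (φ n).hom)) (Limits.Pi.map (fun n => (φ n).hom)) comm
  change H.obj ⟶ K.obj at l
  replace h1 : Pi.lift H.π ≫ Limits.Pi.map (fun n => (φ n).hom) = l ≫ Pi.lift K.π := h1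
  have h0 := isIso_piMap φ
  let Φ : Triangle.mk (Pi.lift H.π) (piSub f) H.δ ⟶ Triangle.mk (Pi.lift K.π) (piSub g) K.δ :=
    { hom₁ := l
      hom₂ := Limits.Pi.map (fun n => (φ n).hom)
      hom₃ := Limits.Pi.map (fun n => (φ n).hom)
      comm₁ := h1
      comm₂ := comm
      comm₃ := h2 }
  have h4 : IsIso Φ.hom₁ := isIso₁_of_isIso₂₃ Φ H.dist K.dist h0 h0
  have h5 : IsIso l := h4
  refine ⟨asIso l, fun n => ?_⟩
  have h3 := congrArg (· ≫ Pi.π Y n) h1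
  simpa using h3.symm

/-- uniqueness of homotopy limits -/
theorem exists_iso_self (H K : Hol f) : ∃ l : H.obj ≅ K.obj, ∀ n, l.hom ≫ K.π n = H.π n := by
  obtain ⟨l, hl⟩ := exists_iso H K (fun n => Iso.refl _) (fun n => by simp)
  exact ⟨l, fun n => by simpa using hl n⟩

/-- The homotopy limit of isomorphic towers, same object. -/
noncomputable def congr (H : Hol f) (φ : ∀ n, X n ≅ Y n)
    (hφ : ∀ n, (φ (n + 1)).hom ≫ g n = f n ≫ (φ n).hom) : Hol g where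
  obj := H.obj
  π n := H.π n ≫ (φ n).hom
  δ := Limits.Pi.map (fun n => (φ n).inv) ≫ H.δ
  dist := by
    refine isomorphic_distinguished _ H.dist _ ?_
    have h0 : IsIso (Limits.Pi.map (fun n => (φ n).inv)) := isIso_piMap (fun n => (φ n).symm)
    have hφ' : ∀ n, (φ (n + 1)).inv ≫ f n = g n ≫ (φ n).inv := fun n => by
      rw [Iso.inv_comp_eq, ← Category.assoc, hφ, Category.assoc, Iso.hom_inv_id,
        Category.comp_id]
    refine Triangle.isoMk _ _ (Iso.refl _) (@asIso _ _ _ _ _ h0) (@asIso _ _ _ _ _ h0) ?_ ?_ ?_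
    · change Pi.lift (fun n => H.π n ≫ (φ n).hom) ≫ Limits.Pi.map (fun n => (φ n).inv) =
        𝟙 _ ≫ Pi.lift H.π
      apply Pi.hom_ext; intro n; simp
    · exact piSub_map (fun n => (φ n).inv) hφ'
    · change (Limits.Pi.map (fun n => (φ n).inv) ≫ H.δ) ≫ (𝟙 H.obj)⟦(1 : ℤ)⟧' =
        Limits.Pi.map (fun n => (φ n).inv) ≫ H.δ
      simp

/-- replace the object of a homotopy limit by an isomorphic one -/
noncomputable def ofIso (H : Hol f) {K : C} (e : K ≅ H.obj) : Hol f where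
  obj := K
  π n := e.hom ≫ H.π n
  δ := H.δ ≫ e.inv⟦(1 : ℤ)⟧'
  dist := by
    refine isomorphic_distinguished _ H.dist _ ?_
    refine Triangle.isoMk _ _ e (Iso.refl _) (Iso.refl _) ?_ ?_ ?_
    · change Pi.lift (fun n => e.hom ≫ H.π n) ≫ 𝟙 _ = e.hom ≫ Pi.lift H.π
      apply Pi.hom_ext; intro n; simp
    · change piSub f ≫ 𝟙 _ = 𝟙 _ ≫ piSub f
      simp
    · change (H.δ ≫ e.inv⟦(1 : ℤ)⟧') ≫ e.hom⟦(1 : ℤ)⟧' = 𝟙 _ ≫ H.δ
      rw [Category.assoc, ← Functor.map_comp, Iso.inv_hom_id, CategoryTheory.Functor.map_id,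
        Category.comp_id, Category.id_comp]

end Hol

end Hol

end Vale.Agent.P251.S
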