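import Vale.Agent.P251.S.TensorShift
import Vale.Agent.P251.S.Defs

/-!
# P251, part S: telescopes and homotopy limits under triangulated functors; bridges to
`IsTel`, `IsHol`
-/

set_option linter.unusedSectionVars false

open CategoryTheory MonoidalCategory Limits Pretriangulated Preadditive

universe v u v' u'

namespace Vale.Agent.P251.S

section bridge

variable {C : Type u} [Category.{v} C] [Preadditive C] [HasZeroObject C]
    [HasShift C ℤ] [∀ n : ℤ, (shiftFunctor C n).Additive] [Pretriangulated C]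

lemma sigmaSub_eq [HasCoproducts.{0} C] {X : ℕ → C} (f : ∀ n, X n ⟶ X (n + 1)) :
    sigmaSub f = 𝟙 (∐ X) - telShift f := by
  apply Sigma.hom_ext
  intro n
  simp [telShift, comp_sub]

lemma piSub_eq [HasProducts.{0} C] {X : ℕ → C} (f : ∀ n, X (n + 1) ⟶ X n) :
    piSub f = 𝟙 (∏ᶜ X) - holShift f := by
  apply Pi.hom_ext
  intro n
  simp [holShift, sub_comp]

/-- `Tel` from `IsTel` -/
noncomputable def IsTel.tel [HasCoproducts.{0} C] {X : ℕ → C} {f : ∀ n, X n ⟶ X (n + 1)} {Z : C}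
    {ι : ∀ n, X n ⟶ Z} (h : IsTel f ι) : Tel f where
  obj := Z
  ι := ι
  δ := h.choose
  dist := by rw [sigmaSub_eq]; exact h.choose_spec

@[simp] lemma IsTel.tel_obj [HasCoproducts.{0} C] {X : ℕ → C} {f : ∀ n, X n ⟶ X (n + 1)} {Z : C}
    {ι : ∀ n, X n ⟶ Z} (h : IsTel f ι) : h.tel.obj = Z := rfl

@[simp] lemma IsTel.tel_ι [HasCoproducts.{0} C] {X : ℕ → C} {f : ∀ n, X n ⟶ X (n + 1)} {Z : C}
    {ι : ∀ n, X n ⟶ Z} (h : IsTel f ι) : h.tel.ι = ι := rfl

lemma Tel.isTel [HasCoproducts.{0} C] {X : ℕ → C} {f : ∀ n, X n ⟶ X (n + 1)} (T : Tel f) :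
    IsTel f T.ι := ⟨T.δ, by rw [← sigmaSub_eq]; exact T.dist⟩

/-- `Hol` from `IsHol` -/
noncomputable def IsHol.hol [HasProducts.{0} C] {X : ℕ → C} {f : ∀ n, X (n + 1) ⟶ X n} {Z : C}
    {π : ∀ n, Z ⟶ X n} (h : IsHol f π) : Hol f where
  obj := Z
  π := π
  δ := h.choose
  dist := by rw [piSub_eq]; exact h.choose_spec

@[simp] lemma IsHol.hol_obj [HasProducts.{0} C] {X : ℕ → C} {f : ∀ n, X (n + 1) ⟶ X n} {Z : C}
    {π : ∀ n, Z ⟶ X n} (h : IsHol f π) : h.hol.obj = Z := rfl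

@[simp] lemma IsHol.hol_π [HasProducts.{0} C] {X : ℕ → C} {f : ∀ n, X (n + 1) ⟶ X n} {Z : C}
    {π : ∀ n, Z ⟶ X n} (h : IsHol f π) : h.hol.π = π := rfl

lemma Hol.isHol [HasProducts.{0} C] {X : ℕ → C} {f : ∀ n, X (n + 1) ⟶ X n} (H : Hol f) :
    IsHol f H.π := ⟨H.δ, by rw [← piSub_eq]; exact H.dist⟩

end bridge

section map

variable {C : Type u} [Category.{v} C] [Preadditive C] [HasZeroObject C]
    [HasShift C ℤ] [∀ n : ℤ, (shiftFunctor C n).Additive] [Pretriangulated C]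
  {D : Type u'} [Category.{v'} D] [Preadditive D] [HasZeroObject D]
    [HasShift D ℤ] [∀ n : ℤ, (shiftFunctor D n).Additive] [Pretriangulated D]
  (F : C ⥤ D) [F.CommShift ℤ] [F.IsTriangulated]

section tel

variable {X : ℕ → C} {f : ∀ n, X n ⟶ X (n + 1)} [HasCoproduct X]
  [HasCoproduct (fun n => F.obj (X n))] [PreservesColimit (Discrete.functor X) F]

/-- A triangulated functor preserving the coproduct preserves the telescope. -/
noncomputable def Tel.map (T : Tel f) : Tel (X := fun n => F.obj (X n)) (fun n => F.map (f n)) where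
  obj := F.obj T.obj
  ι n := F.map (T.ι n)
  δ := F.map T.δ ≫ (F.commShiftIso (1 : ℤ)).hom.app (∐ X) ≫
    (PreservesCoproduct.iso F X).hom⟦(1 : ℤ)⟧'
  dist := by
    have h := F.map_distinguished _ T.dist
    refine isomorphic_distinguished _ h _ ?_
    let e := PreservesCoproduct.iso F X
    have he : ∀ n, Sigma.ι (fun n => F.obj (X n)) n ≫ e.inv = F.map (Sigma.ι X n) := fun n => by
      simp [e]
    refine Triangle.isoMk _ _ e.symm e.symm (Iso.refl _) ?_ ?_ ?_
    · change sigmaSub (X := fun n => F.obj (X n)) (fun n => F.map (f n)) ≫ e.inv =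
        e.inv ≫ F.map (sigmaSub f)
      apply Sigma.hom_ext
      intro n
      rw [ι_sigmaSub_assoc, sub_comp, Category.assoc, he, he, reassoc_of% (he n),
        ← F.map_comp, ← F.map_comp, ι_sigmaSub, F.map_sub]
    · change Sigma.desc (fun n => F.map (T.ι n)) ≫ 𝟙 _ = e.inv ≫ F.map (Sigma.desc T.ι)
      apply Sigma.hom_ext
      intro n
      rw [Category.comp_id, reassoc_of% (he n), ← F.map_comp]
      simp
    · change (F.map T.δ ≫ (F.commShiftIso (1 : ℤ)).hom.app (∐ X) ≫ e.hom⟦(1 : ℤ)⟧') ≫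
          e.inv⟦(1 : ℤ)⟧' = 𝟙 _ ≫ F.map T.δ ≫ (F.commShiftIso (1 : ℤ)).hom.app (∐ X)
      rw [Category.id_comp, Category.assoc, Category.assoc, ← Functor.map_comp, e.hom_inv_id,
        CategoryTheory.Functor.map_id]
      erw [Category.comp_id]

@[simp] lemma Tel.map_obj (T : Tel f) : (T.map F).obj = F.obj T.obj := rfl
@[simp] lemma Tel.map_ι (T : Tel f) (n : ℕ) : (T.map F).ι n = F.map (T.ι n) := rfl

end tel

section hol

variable {X : ℕ → C} {f : ∀ n, X (n + 1) ⟶ X n} [HasProduct X]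
  [HasProduct (fun n => F.obj (X n))] [PreservesLimit (Discrete.functor X) F]

/-- A triangulated functor preserving the product preserves the homotopy limit. -/
noncomputable def Hol.map (H : Hol f) : Hol (X := fun n => F.obj (X n)) (fun n => F.map (f n)) where
  obj := F.obj H.obj
  π n := F.map (H.π n)
  δ := (PreservesProduct.iso F X).inv ≫ F.map H.δ ≫ (F.commShiftIso (1 : ℤ)).hom.app H.obj
  dist := by
    have h := F.map_distinguished _ H.dist
    refine isomorphic_distinguished _ h _ ?_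
    let e := PreservesProduct.iso F X
    have he : ∀ n, e.hom ≫ Pi.π (fun n => F.obj (X n)) n = F.map (Pi.π X n) := fun n => by
      simp [e]
    have he' : ∀ n, e.inv ≫ F.map (Pi.π X n) = Pi.π (fun n => F.obj (X n)) n := fun n => by
      rw [← he, e.inv_hom_id_assoc]
    refine Triangle.isoMk _ _ (Iso.refl _) e.symm e.symm ?_ ?_ ?_
    · change Pi.lift (fun n => F.map (H.π n)) ≫ e.inv = 𝟙 _ ≫ F.map (Pi.lift H.π)
      rw [Iso.comp_inv_eq]
      apply Pi.hom_ext
      intro n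
      rw [Category.id_comp, Category.assoc, he, ← F.map_comp]
      simp
    · change piSub (X := fun n => F.obj (X n)) (fun n => F.map (f n)) ≫ e.inv =
        e.inv ≫ F.map (piSub f)
      rw [Iso.comp_inv_eq]
      apply Pi.hom_ext
      intro n
      rw [piSub_π, Category.assoc, Category.assoc, he, ← F.map_comp, piSub_π, F.map_sub,
        comp_sub, he', F.map_comp, reassoc_of% (he' (n + 1))]
    · change (e.inv ≫ F.map H.δ ≫ (F.commShiftIso (1 : ℤ)).hom.app H.obj) ≫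
        (𝟙 (F.obj H.obj))⟦(1 : ℤ)⟧' = e.inv ≫ F.map H.δ ≫ (F.commShiftIso (1 : ℤ)).hom.app H.obj
      rw [CategoryTheory.Functor.map_id]
      erw [Category.comp_id]

@[simp] lemma Hol.map_obj (H : Hol f) : (H.map F).obj = F.obj H.obj := rfl
@[simp] lemma Hol.map_π (H : Hol f) (n : ℕ) : (H.map F).π n = F.map (H.π n) := rfl

end hol

end map

section shift

variable {C : Type u} [Category.{v} C] [Preadditive C] [HasZeroObject C]
    [HasShift C ℤ] [∀ n : ℤ, (shiftFunctor C n).Additive] [Pretriangulated C]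

/-- Shifting the first two maps of a distinguished triangle (no signs), with some third map. -/
theorem exists_dist_shift {X Y Z : C} {f : X ⟶ Y} {g : Y ⟶ Z} {h : Z ⟶ X⟦(1 : ℤ)⟧}
    (H : Triangle.mk f g h ∈ distTriang C) (k : ℤ) :
    ∃ w : Z⟦k⟧ ⟶ (X⟦k⟧)⟦(1 : ℤ)⟧, Triangle.mk (f⟦k⟧') (g⟦k⟧') w ∈ distTriang C := by
  have H2 : Triangle.mk (k.negOnePow • f⟦k⟧') (k.negOnePow • g⟦k⟧')
      (k.negOnePow • h⟦k⟧' ≫ (shiftFunctorComm C 1 k).hom.app X) ∈ distTriang C :=
    Triangle.shift_distinguished _ H k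
  rcases Int.even_or_odd k with hk | hk
  · rw [Int.negOnePow_even k hk, one_smul, one_smul, one_smul] at H2
    exact ⟨_, H2⟩
  · rw [Int.negOnePow_odd k hk, Units.neg_smul, Units.neg_smul, Units.neg_smul, one_smul,
      one_smul, one_smul] at H2
    refine ⟨-(h⟦k⟧' ≫ (shiftFunctorComm C 1 k).hom.app X), isomorphic_distinguished _ H2 _ ?_⟩
    refine Triangle.isoMk _ _ (Iso.refl _) (-(Iso.refl _)) (Iso.refl _) ?_ ?_ ?_
    · change f⟦k⟧' ≫ (-𝟙 _) = 𝟙 _ ≫ (-f⟦k⟧')
      rw [comp_neg, Category.comp_id, Category.id_comp]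
    · change g⟦k⟧' ≫ 𝟙 _ = (-𝟙 _) ≫ (-g⟦k⟧')
      rw [neg_comp, comp_neg, neg_neg, Category.comp_id, Category.id_comp]
    · change (-(h⟦k⟧' ≫ (shiftFunctorComm C 1 k).hom.app X)) ≫ (𝟙 (X⟦k⟧))⟦(1 : ℤ)⟧' =
        𝟙 _ ≫ (-h⟦k⟧' ≫ (shiftFunctorComm C 1 k).hom.app X)
      rw [CategoryTheory.Functor.map_id, Category.id_comp]
      erw [Category.comp_id]

/-- the shifted telescope -/
noncomputable def Tel.shift [HasCoproducts.{0} C] {X : ℕ → C} {f : ∀ n, X n ⟶ X (n + 1)}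
    (T : Tel f) (k : ℤ) : Tel (X := fun n => (X n)⟦k⟧) (fun n => (f n)⟦k⟧') where
  obj := T.obj⟦k⟧
  ι n := (T.ι n)⟦k⟧'
  δ := (exists_dist_shift T.dist k).choose ≫
    (PreservesCoproduct.iso (shiftFunctor C k) X).hom⟦(1 : ℤ)⟧'
  dist := by
    have h := (exists_dist_shift T.dist k).choose_spec
    set w := (exists_dist_shift T.dist k).choose with hw
    refine isomorphic_distinguished _ h _ ?_
    let e := PreservesCoproduct.iso (shiftFunctor C k) X
    have he : ∀ n, Sigma.ι (fun n => (X n)⟦k⟧) n ≫ e.inv = (Sigma.ι X n)⟦k⟧' := fun n => by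
      simp [e]
    refine Triangle.isoMk _ _ e.symm e.symm (Iso.refl _) ?_ ?_ ?_
    · change sigmaSub (X := fun n => (X n)⟦k⟧) (fun n => (f n)⟦k⟧') ≫ e.inv =
        e.inv ≫ (sigmaSub f)⟦k⟧'
      apply Sigma.hom_ext
      intro n
      rw [ι_sigmaSub_assoc, sub_comp, Category.assoc, he, he, reassoc_of% (he n),
        ← Functor.map_comp, ← Functor.map_comp, ι_sigmaSub, Functor.map_sub]
    · change Sigma.desc (fun n => (T.ι n)⟦k⟧') ≫ 𝟙 _ = e.inv ≫ (Sigma.desc T.ι)⟦k⟧'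
      apply Sigma.hom_ext
      intro n
      rw [Category.comp_id, reassoc_of% (he n), ← Functor.map_comp]
      simp
    · change (w ≫ e.hom⟦(1 : ℤ)⟧') ≫ e.inv⟦(1 : ℤ)⟧' = 𝟙 _ ≫ w
      rw [Category.id_comp, Category.assoc, ← Functor.map_comp, e.hom_inv_id,
        CategoryTheory.Functor.map_id]
      erw [Category.comp_id]

/-- the shifted homotopy limit -/
noncomputable def Hol.shift [HasProducts.{0} C] {X : ℕ → C} {f : ∀ n, X (n + 1) ⟶ X n}
    (H : Hol f) (k : ℤ) : Hol (X := fun n => (X n)⟦k⟧) (fun n => (f n)⟦k⟧') where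
  obj := H.obj⟦k⟧
  π n := (H.π n)⟦k⟧'
  δ := (PreservesProduct.iso (shiftFunctor C k) X).inv ≫ (exists_dist_shift H.dist k).choose
  dist := by
    have h := (exists_dist_shift H.dist k).choose_spec
    set w := (exists_dist_shift H.dist k).choose with hw
    refine isomorphic_distinguished _ h _ ?_
    let e := PreservesProduct.iso (shiftFunctor C k) X
    have he : ∀ n, e.hom ≫ Pi.π (fun n => (X n)⟦k⟧) n = (Pi.π X n)⟦k⟧' := fun n => by
      simp [e]
    have he' : ∀ n, e.inv ≫ (Pi.π X n)⟦k⟧' = Pi.π (fun n => (X n)⟦k⟧) n := fun n => by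
      rw [← he, e.inv_hom_id_assoc]
    refine Triangle.isoMk _ _ (Iso.refl _) e.symm e.symm ?_ ?_ ?_
    · change Pi.lift (fun n => (H.π n)⟦k⟧') ≫ e.inv = 𝟙 _ ≫ (Pi.lift H.π)⟦k⟧'
      rw [Iso.comp_inv_eq]
      apply Pi.hom_ext
      intro n
      rw [Category.id_comp, Category.assoc, he, ← Functor.map_comp]
      simp
    · change piSub (X := fun n => (X n)⟦k⟧) (fun n => (f n)⟦k⟧') ≫ e.inv =
        e.inv ≫ (piSub f)⟦k⟧'
      rw [Iso.comp_inv_eq]
      apply Pi.hom_ext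
      intro n
      rw [piSub_π, Category.assoc, Category.assoc, he, ← Functor.map_comp, piSub_π,
        Functor.map_sub, comp_sub, he', Functor.map_comp, reassoc_of% (he' (n + 1))]
    · change (e.inv ≫ w) ≫ (𝟙 (H.obj⟦k⟧))⟦(1 : ℤ)⟧' = e.inv ≫ w
      rw [CategoryTheory.Functor.map_id]
      erw [Category.comp_id]

end shift

section tensor

open T

variable {T : Type u} [Category.{v} T] [Preadditive T] [HasZeroObject T] [HasShift T ℤ]
  [∀ n : ℤ, (shiftFunctor T n).Additive] [Pretriangulated T]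
  [MonoidalCategory T] [SymmetricCategory T] [TensorTriangulated T] [MonoidalClosed T]
  [HasCoproducts.{0} T]

/-- `Y ⊗ tel X = tel (Y ⊗ X)` -/
theorem IsTel.whiskerLeft {X : ℕ → T} {f : ∀ n, X n ⟶ X (n + 1)} {Z : T}
    {ι : ∀ n, X n ⟶ Z} (h : IsTel f ι) (Y : T) :
    IsTel (X := fun n => Y ⊗ X n) (fun n => Y ◁ f n) (fun n => Y ◁ ι n) :=
  (h.tel.map (tensorLeft Y)).isTel

/-- `tel X ⊗ Y = tel (X ⊗ Y)` -/
theorem IsTel.whiskerRight {X : ℕ → T} {f : ∀ n, X n ⟶ X (n + 1)} {Z : T}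
    {ι : ∀ n, X n ⟶ Z} (h : IsTel f ι) (Y : T) :
    IsTel (X := fun n => X n ⊗ Y) (fun n => f n ▷ Y) (fun n => ι n ▷ Y) :=
  (h.tel.map (tensorRight Y)).isTel

/-- `F(A, holim X) = holim F(A, X)` -/
theorem IsHol.ihom [HasProducts.{0} T] {X : ℕ → T} {f : ∀ n, X (n + 1) ⟶ X n} {Z : T}
    {π : ∀ n, Z ⟶ X n} (h : IsHol f π) (A : T) :
    IsHol (X := fun n => (ihom A).obj (X n)) (fun n => (CategoryTheory.ihom A).map (f n))
      (fun n => (CategoryTheory.ihom A).map (π n)) :=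
  (h.hol.map (CategoryTheory.ihom A)).isHol

end tensor

end Vale.Agent.P251.S
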